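import Crest.Agent.R202.EllFinal
import Crest.Agent.R106.Src

/-!
# Row 269 (S0411), Part 7 (helper19): elliptic regularity with lower order terms

* `gen_ell` : very weak `L¹_loc` solutions of `div (a ∇u) + b·∇u + c u = f` on an open set of
  `ℝ^m` (all data smooth, `a` positive definite) are smooth.

Proof: `e^t u(x)` is a very weak solution of `div (A ∇·) = e^t f` in `m + 1` variables with
`A = [[C(x) e^{-t} + c - div b / 2, b/2], [bᵀ/2, a]]`, positive definite for `t < 1` and a suitable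
smooth `C(x)`; then `R202.Ell.ell_regularity`.
-/

set_option autoImplicit false

open MeasureTheory Filter Topology Set
open scoped ContDiff

namespace Crest.Agent.R269.GEll_19

open Crest.GeometryTopology.CoordMetric (pderiv)
open Crest.Agent.R202.Ell

noncomputable section

theorem one_le_inf : (1 : WithTop ℕ∞) ≤ ∞ := WithTop.coe_le_coe.2 (le_top : (1 : ℕ∞) ≤ ⊤)

abbrev E (m : ℕ) := EuclideanSpace ℝ (Fin m)

variable {m : ℕ}

/-- the point with first coordinate `t` and other coordinates `x` -/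
def J (t : ℝ) (x : E m) : E (m + 1) := WithLp.toLp 2 (Fin.cons t fun i => x i)

/-- the last coordinates -/
def X (y : E (m + 1)) : E m := WithLp.toLp 2 fun i => y i.succ

@[simp] theorem J_zero (t : ℝ) (x : E m) : J t x 0 = t := by simp [J]
@[simp] theorem J_succ (t : ℝ) (x : E m) (i : Fin m) : J t x i.succ = x i := by simp [J]
@[simp] theorem X_apply (y : E (m + 1)) (i : Fin m) : X y i = y i.succ := rfl
@[simp] theorem X_J (t : ℝ) (x : E m) : X (J t x) = x := by ext i; simp
@[simp] theorem J_X (y : E (m + 1)) : J (y 0) (X y) = y := by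
  ext i
  refine Fin.cases ?_ (fun i => ?_) i <;> simp

def Jl : (ℝ × E m) →L[ℝ] E (m + 1) := LinearMap.toContinuousLinearMap
  { toFun := fun p => J p.1 p.2
    map_add' := fun p q => by
      ext i
      refine Fin.cases ?_ (fun i => ?_) i <;> simp
    map_smul' := fun c p => by
      ext i
      refine Fin.cases ?_ (fun i => ?_) i <;> simp }

theorem Jl_apply (p : ℝ × E m) : Jl p = J p.1 p.2 := rfl

def Xl : E (m + 1) →L[ℝ] E m := LinearMap.toContinuousLinearMap
  { toFun := X
    map_add' := fun p q => by ext i; simp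
    map_smul' := fun c p => by ext i; simp }


theorem contDiff_J : ContDiff ℝ ∞ fun p : ℝ × E m => J p.1 p.2 := (Jl (m := m)).contDiff
theorem contDiff_X : ContDiff ℝ ∞ (X : E (m + 1) → E m) := (Xl (m := m)).contDiff
theorem contDiff_zero : ContDiff ℝ ∞ (fun y : E (m + 1) => y 0) :=
  (EuclideanSpace.proj (𝕜 := ℝ) (ι := Fin (m + 1)) 0).contDiff

theorem Jl_one : Jl ((1 : ℝ), (0 : E m)) = EuclideanSpace.single 0 1 := by
  rw [Jl_apply]
  ext i
  refine Fin.cases ?_ (fun i => ?_) i <;> simp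

theorem Jl_single (j : Fin m) : Jl ((0 : ℝ), EuclideanSpace.single j (1 : ℝ)) =
    EuclideanSpace.single j.succ 1 := by
  rw [Jl_apply]
  ext i
  refine Fin.cases ?_ (fun i => ?_) i
  · simp
  · simp

def Je (m : ℕ) : ℝ × E m ≃ᵐ E (m + 1) :=
  (((MeasurableEquiv.refl ℝ).prodCongr (MeasurableEquiv.toLp 2 (Fin m → ℝ)).symm).trans
    (MeasurableEquiv.piFinSuccAbove (fun _ => ℝ) 0).symm).trans
    (MeasurableEquiv.toLp 2 (Fin (m + 1) → ℝ))

theorem Je_apply (p : ℝ × E m) : Je m p = J p.1 p.2 := by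
  ext i
  refine Fin.cases ?_ (fun i => ?_) i
  · simp [Je]
    rfl
  · simp [Je]
    rfl

theorem mp_Je : MeasurePreserving (Je m) := by
  have h1 : MeasurePreserving ((MeasurableEquiv.refl ℝ).prodCongr
      (MeasurableEquiv.toLp 2 (Fin m → ℝ)).symm) :=
    (MeasurePreserving.id volume).prod
      (EuclideanSpace.volume_preserving_symm_measurableEquiv_toLp (Fin m))
  have h2 := (volume_preserving_piFinSuccAbove (fun _ : Fin (m + 1) => ℝ) 0).symm
  have h3 := (EuclideanSpace.volume_preserving_symm_measurableEquiv_toLp (Fin (m + 1))).symm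
  exact h3.comp (h2.comp h1)

theorem fub {F : E (m + 1) → ℝ} (hF : Integrable F) :
    ∫ y, F y = ∫ x : E m, ∫ t : ℝ, F (J t x) := by
  have h1 : ∫ y, F y = ∫ p : ℝ × E m, F (Je m p) := (mp_Je.integral_comp' _).symm
  have h2 : Integrable (fun p : ℝ × E m => F (Je m p)) (volume.prod volume) :=
    (mp_Je.integrable_comp_emb (Je m).measurableEmbedding).2 hF
  rw [h1, show (volume : Measure (ℝ × E m)) = volume.prod volume from rfl,
    integral_prod_symm _ h2]
  simp only [Je_apply]

/-! ### chain rules -/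

theorem hasDeriv_t {Φ : E (m + 1) → ℝ} {t : ℝ} {x : E m} (h : DifferentiableAt ℝ Φ (J t x)) :
    HasDerivAt (fun s => Φ (J s x)) (pderiv 0 Φ (J t x)) t := by
  have h1 : HasFDerivAt (fun p : ℝ × E m => Φ (Jl p)) ((fderiv ℝ Φ (J t x)).comp Jl) (t, x) :=
    HasFDerivAt.comp (t, x) (f := fun p : ℝ × E m => Jl p) h.hasFDerivAt (Jl.hasFDerivAt)
  have h2 : HasDerivAt (fun s : ℝ => ((s, x) : ℝ × E m)) (1, 0) t :=
    (hasDerivAt_id t).prodMk (hasDerivAt_const t x)
  have h3 := h1.comp_hasDerivAt t h2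
  refine h3.congr_deriv ?_
  rw [ContinuousLinearMap.comp_apply, Jl_one]
  rfl

theorem fderiv_x {Φ : E (m + 1) → ℝ} {t : ℝ} {x : E m} (h : DifferentiableAt ℝ Φ (J t x))
    (j : Fin m) : pderiv j (fun z => Φ (J t z)) x = pderiv j.succ Φ (J t x) := by
  have h1 : HasFDerivAt (fun p : ℝ × E m => Φ (Jl p)) ((fderiv ℝ Φ (J t x)).comp Jl) (t, x) :=
    HasFDerivAt.comp (t, x) (f := fun p : ℝ × E m => Jl p) h.hasFDerivAt (Jl.hasFDerivAt)
  have h2 : HasFDerivAt (fun z : E m => ((t, z) : ℝ × E m)) (ContinuousLinearMap.inr ℝ ℝ (E m)) x :=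
    hasFDerivAt_prodMk_right t x
  have h3 := h1.comp x h2
  have h4 : fderiv ℝ (fun z => Φ (J t z)) x =
      ((fderiv ℝ Φ (J t x)).comp Jl).comp (ContinuousLinearMap.inr ℝ ℝ (E m)) := h3.fderiv
  simp only [pderiv]
  rw [h4]
  simp only [ContinuousLinearMap.comp_apply, ContinuousLinearMap.inr_apply]
  rw [Jl_single]

/-! ### fibre integrals of test functions -/

/-- test functions -/
def TF (φ : E m → ℝ) : Prop := ContDiff ℝ ∞ φ ∧ HasCompactSupport φ

/-- `∫ e^t Ψ(t, x) dt` -/
def fI (Ψ : E (m + 1) → ℝ) (x : E m) : ℝ := ∫ t, Real.exp t * Ψ (J t x)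

theorem locSupp {Ψ : E (m + 1) → ℝ} (h : HasCompactSupport Ψ) (g : ℝ → ℝ) :
    Crest.Agent.R106.Src.LocSupp (fun (x : E m) (t : ℝ) => g t * Ψ (J t x)) univ := by
  intro x _
  obtain ⟨R, hR⟩ := h.isBounded.subset_closedBall (0 : E (m + 1))
  refine ⟨univ, univ_mem, R, fun x' _ t ht => ?_⟩
  have h1 : J t x' ∉ tsupport Ψ := by
    intro hx
    have h2 := hR hx
    rw [mem_closedBall_zero_iff] at h2
    have h3 : ‖J t x' 0‖ ≤ ‖J t x'‖ := PiLp.norm_apply_le _ _
    rw [J_zero] at h3
    linarith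
  simp only [image_eq_zero_of_notMem_tsupport h1, mul_zero]

theorem contDiff_fI {Ψ : E (m + 1) → ℝ} (h : TF Ψ) : ContDiff ℝ ∞ (fI Ψ) := by
  rw [← contDiffOn_univ]
  refine Crest.Agent.R106.Src.contDiffOn_integral (n := ⊤) isOpen_univ ?_ (locSupp h.2 Real.exp)
  refine ContDiff.contDiffOn ?_
  have h1 : ContDiff ℝ ∞ fun p : E m × ℝ => J p.2 p.1 :=
    contDiff_J.comp (contDiff_snd.prodMk contDiff_fst)
  exact (Real.contDiff_exp.comp contDiff_snd).mul (h.1.comp h1)

theorem pderiv_fI {Ψ : E (m + 1) → ℝ} (h : TF Ψ) (j : Fin m) :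
    pderiv j (fI Ψ) = fI (pderiv j.succ Ψ) := by
  funext x
  have h1 : ContDiff ℝ ∞ fun p : E m × ℝ => J p.2 p.1 :=
    contDiff_J.comp (contDiff_snd.prodMk contDiff_fst)
  have h2 : ContDiff ℝ 1 fun p : E m × ℝ => Real.exp p.2 * Ψ (J p.2 p.1) :=
    ((Real.contDiff_exp.comp contDiff_snd).mul (h.1.comp h1)).of_le one_le_inf
  have h3 := Crest.Agent.R106.Src.fderiv_integral_apply (μ := (volume : Measure ℝ)) isOpen_univ
    h2.contDiffOn (locSupp h.2 Real.exp) (mem_univ x) (EuclideanSpace.single j 1)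
  refine h3.trans ?_
  unfold fI
  refine integral_congr_ae (Eventually.of_forall fun t => ?_)
  have hd : DifferentiableAt ℝ Ψ (J t x) := h.1.differentiable (by simp) _
  have h4 := fderiv_x (t := t) (x := x) hd j
  simp only [pderiv] at h4 ⊢
  have h6 : DifferentiableAt ℝ (fun z : E m => Ψ (J t z)) x := by
    have : Differentiable ℝ (fun z : E m => Ψ (J t z)) :=
      (h.1.comp (contDiff_J.comp (contDiff_const.prodMk contDiff_id))).differentiable (by simp)
    exact this x
  rw [fderiv_const_mul h6]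
  simp only [_root_.smul_apply, smul_eq_mul]
  rw [h4]

theorem TF.pd {φ : E m → ℝ} (h : TF φ) (j : Fin m) : TF (pderiv j φ) :=
  ⟨contDiff_pderiv h.1 j, hasCompactSupport_pderiv h.2 j⟩

theorem integrable_slice {Ψ : E (m + 1) → ℝ} (h : TF Ψ) {g : ℝ → ℝ} (hg : Continuous g) (x : E m) :
    Integrable fun t => g t * Ψ (J t x) := by
  have h1 : Continuous fun t : ℝ => g t * Ψ (J t x) :=
    hg.mul (h.1.continuous.comp (contDiff_J.continuous.comp (continuous_id.prodMk continuous_const)))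
  refine h1.integrable_of_hasCompactSupport ?_
  exact Crest.Agent.R106.Src.hasCompactSupport_slice (locSupp h.2 g) (mem_univ x)

theorem fI_pderiv_zero {Ψ : E (m + 1) → ℝ} (h : TF Ψ) : fI (pderiv 0 Ψ) = fun x => - fI Ψ x := by
  funext x
  have hd : ∀ t : ℝ, HasDerivAt (fun s => Real.exp s * Ψ (J s x))
      (Real.exp t * Ψ (J t x) + Real.exp t * pderiv 0 Ψ (J t x)) t := fun t =>
    (Real.hasDerivAt_exp t).mul (hasDeriv_t (h.1.differentiable (by simp) _))
  have h1 := integrable_slice h Real.continuous_exp x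
  have h2 := integrable_slice (h.pd 0) Real.continuous_exp x
  have h3 := integral_eq_zero_of_hasDerivAt_of_integrable hd (h1.add h2) h1
  rw [integral_add h1 h2] at h3
  unfold fI
  linarith

theorem integral_pderiv_zero {Ψ : E (m + 1) → ℝ} (h : TF Ψ) (x : E m) :
    ∫ t, pderiv 0 Ψ (J t x) = 0 := by
  have hd : ∀ t : ℝ, HasDerivAt (fun s => Ψ (J s x)) (pderiv 0 Ψ (J t x)) t := fun t =>
    hasDeriv_t (h.1.differentiable (by simp) _)
  have h1 := integrable_slice h continuous_const (g := fun _ => (1 : ℝ)) x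
  have h2 := integrable_slice (h.pd 0) continuous_const (g := fun _ => (1 : ℝ)) x
  simp only [one_mul] at h1 h2
  exact integral_eq_zero_of_hasDerivAt_of_integrable hd h2 h1

theorem fI_ne {Ψ : E (m + 1) → ℝ} {x : E m} (h : fI Ψ x ≠ 0) : ∃ t, Ψ (J t x) ≠ 0 := by
  by_contra hc
  push Not at hc
  apply h
  unfold fI
  simp [hc]

theorem tsupport_fI {Ψ : E (m + 1) → ℝ} (h : HasCompactSupport Ψ) :
    tsupport (fI Ψ) ⊆ X '' tsupport Ψ := by
  have hc : IsCompact (X '' tsupport Ψ) := h.isCompact.image contDiff_X.continuous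
  refine closure_minimal ?_ hc.isClosed
  intro x hx
  obtain ⟨t, ht⟩ := fI_ne hx
  exact ⟨J t x, subset_tsupport _ ht, X_J t x⟩

theorem TF.fI {Ψ : E (m + 1) → ℝ} (h : TF Ψ) : TF (fI Ψ) := by
  refine ⟨contDiff_fI h, ?_⟩
  have hc : IsCompact (X '' tsupport Ψ) := h.2.isCompact.image contDiff_X.continuous
  exact hc.of_isClosed_subset (isClosed_tsupport _) (tsupport_fI h.2)

theorem fI_mul (g : E m → ℝ) (Ψ : E (m + 1) → ℝ) (x : E m) :
    fI (fun y => g (X y) * Ψ y) x = g x * fI Ψ x := by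
  unfold fI
  rw [← integral_const_mul]
  refine integral_congr_ae (Eventually.of_forall fun t => ?_)
  simp only [X_J]
  ring

theorem fI_add {Ψ Ψ' : E (m + 1) → ℝ} (h : TF Ψ) (h' : TF Ψ') :
    fI (fun y => Ψ y + Ψ' y) = fun x => fI Ψ x + fI Ψ' x := by
  funext x
  unfold fI
  rw [← integral_add (integrable_slice h Real.continuous_exp x)
    (integrable_slice h' Real.continuous_exp x)]
  refine integral_congr_ae (Eventually.of_forall fun t => ?_)
  ring

theorem TF.add {φ ψ : E m → ℝ} (h : TF φ) (h' : TF ψ) : TF fun x => φ x + ψ x :=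
  ⟨h.1.add h'.1, h.2.add h'.2⟩

theorem TF.sum {ι : Type*} (s : Finset ι) {φ : ι → E m → ℝ} (h : ∀ i ∈ s, TF (φ i)) :
    TF fun x => ∑ i ∈ s, φ i x := by
  classical
  induction s using Finset.induction_on with
  | empty =>
    simp only [Finset.sum_empty]
    exact ⟨contDiff_const, HasCompactSupport.zero⟩
  | insert i s hi ih =>
    simp only [Finset.sum_insert hi]
    exact (h i (Finset.mem_insert_self _ _)).add
      (ih fun j hj => h j (Finset.mem_insert_of_mem hj))

theorem fI_sum {ι : Type*} (s : Finset ι) {Ψ : ι → E (m + 1) → ℝ} (h : ∀ i ∈ s, TF (Ψ i)) :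
    fI (fun y => ∑ i ∈ s, Ψ i y) = fun x => ∑ i ∈ s, fI (Ψ i) x := by
  classical
  induction s using Finset.induction_on with
  | empty =>
    funext x
    simp [fI]
  | insert i s hi ih =>
    simp only [Finset.sum_insert hi]
    rw [fI_add (h i (Finset.mem_insert_self _ _))
      (TF.sum s fun j hj => h j (Finset.mem_insert_of_mem hj)),
      ih fun j hj => h j (Finset.mem_insert_of_mem hj)]

theorem TF.smul {U : Set (E m)} (hU : IsOpen U) {φ g : E m → ℝ} (h : TF φ) (hs : tsupport φ ⊆ U)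
    (hg : ContDiffOn ℝ ∞ g U) : TF fun x => g x * φ x := by
  refine ⟨?_, h.2.mul_left⟩
  have := contDiff_mul_of_tsupport hU h.1 hs hg
  simpa only [mul_comm] using this

/-! ### matrices -/

section mat

variable {n : ℕ} {Y : Type*} [NormedAddCommGroup Y] [NormedSpace ℝ Y]
  {K : Y → Matrix (Fin n) (Fin n) ℝ} {U : Set Y} {k : WithTop ℕ∞}

theorem contDiffOn_det (hK : ∀ a b, ContDiffOn ℝ k (fun w => K w a b) U) :
    ContDiffOn ℝ k (fun w => (K w).det) U := by
  have h : (fun w => (K w).det) = fun w => ∑ σ : Equiv.Perm (Fin n),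
      ((Equiv.Perm.sign σ : ℤ) : ℝ) * ∏ i, K w (σ i) i := by
    funext w
    rw [Matrix.det_apply']
  rw [h]
  refine ContDiffOn.sum fun σ _ => ?_
  exact contDiffOn_const.mul (contDiffOn_prod fun i _ => hK _ _)

theorem contDiffOn_adjugate (hK : ∀ a b, ContDiffOn ℝ k (fun w => K w a b) U) (a b : Fin n) :
    ContDiffOn ℝ k (fun w => (K w).adjugate a b) U := by
  have h : (fun w => (K w).adjugate a b) =
      fun w => ((K w).updateRow b (Pi.single a 1)).det := by
    funext w
    rw [Matrix.adjugate_apply]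
  rw [h]
  refine contDiffOn_det fun c d => ?_
  by_cases hc : c = b
  · subst hc
    simp only [Matrix.updateRow_self]
    exact contDiffOn_const
  · simp only [Matrix.updateRow_ne hc]
    exact hK c d

theorem contDiffOn_inv (hK : ∀ a b, ContDiffOn ℝ k (fun w => K w a b) U)
    (hd : ∀ z ∈ U, (K z).det ≠ 0) (a b : Fin n) :
    ContDiffOn ℝ k (fun w => (K w)⁻¹ a b) U := by
  have h : (fun w => (K w)⁻¹ a b) = fun w => ((K w).det)⁻¹ * (K w).adjugate a b := by
    funext w
    rw [Matrix.inv_def, Ring.inverse_eq_inv', Matrix.smul_apply, smul_eq_mul]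
  rw [h]
  exact ((contDiffOn_det hK).inv hd).mul (contDiffOn_adjugate hK a b)

end mat

/-- the matrix `[[κ, b/2], [bᵀ/2, a]]` -/
def ext (κ : ℝ) (b : Fin m → ℝ) (a : Matrix (Fin m) (Fin m) ℝ) :
    Matrix (Fin (m + 1)) (Fin (m + 1)) ℝ :=
  Matrix.of (Fin.cons (Fin.cons κ fun j => b j / 2) fun i => Fin.cons (b i / 2) fun j => a i j)

@[simp] theorem ext_00 (κ : ℝ) (b : Fin m → ℝ) (a : Matrix (Fin m) (Fin m) ℝ) :
    ext κ b a 0 0 = κ := rfl
@[simp] theorem ext_0s (κ : ℝ) (b : Fin m → ℝ) (a : Matrix (Fin m) (Fin m) ℝ) (j : Fin m) :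
    ext κ b a 0 j.succ = b j / 2 := rfl
@[simp] theorem ext_s0 (κ : ℝ) (b : Fin m → ℝ) (a : Matrix (Fin m) (Fin m) ℝ) (i : Fin m) :
    ext κ b a i.succ 0 = b i / 2 := rfl
@[simp] theorem ext_ss (κ : ℝ) (b : Fin m → ℝ) (a : Matrix (Fin m) (Fin m) ℝ) (i j : Fin m) :
    ext κ b a i.succ j.succ = a i j := rfl

open Matrix in
theorem posDef_ext {a : Matrix (Fin m) (Fin m) ℝ} (ha : a.PosDef) (b : Fin m → ℝ) {κ : ℝ}
    (hκ : (1 / 4) * (b ⬝ᵥ (a⁻¹ *ᵥ b)) < κ) : (ext κ b a).PosDef := by
  have hsym : aᵀ = a := by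
    have := ha.isHermitian
    rwa [Matrix.IsHermitian, Matrix.conjTranspose_eq_transpose_of_trivial] at this
  refine Matrix.PosDef.of_dotProduct_mulVec_pos ?_ fun x hx => ?_
  · ext i j
    rw [Matrix.conjTranspose_apply, star_trivial]
    refine Fin.cases ?_ (fun i => ?_) i <;> refine Fin.cases ?_ (fun j => ?_) j
    · rfl
    · simp
    · simp
    · simp only [ext_ss]
      rw [← Matrix.transpose_apply a, hsym]
  · rw [star_trivial]
    set τ := x 0 with hτ
    set ξ : Fin m → ℝ := fun i => x i.succ with hξ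
    have hdet : IsUnit a.det := ha.det_pos.ne'.isUnit
    set c : Fin m → ℝ := a⁻¹ *ᵥ b with hc
    have hac : a *ᵥ c = b := by
      rw [hc, Matrix.mulVec_mulVec, Matrix.mul_nonsing_inv _ hdet, Matrix.one_mulVec]
    have hq : x ⬝ᵥ (ext κ b a *ᵥ x) = κ * τ ^ 2 + τ * (b ⬝ᵥ ξ) + ξ ⬝ᵥ (a *ᵥ ξ) := by
      simp only [dotProduct, Matrix.mulVec, Fin.sum_univ_succ, ext_00, ext_0s, ext_s0, ext_ss]
      simp only [← hτ, mul_add, Finset.sum_add_distrib, Finset.mul_sum]
      have e1 : ∑ i, τ * (b i / 2 * x i.succ) + ∑ i, x i.succ * (b i / 2 * τ) =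
          ∑ i, τ * (b i * ξ i) := by
        rw [← Finset.sum_add_distrib]
        refine Finset.sum_congr rfl fun i _ => ?_
        simp only [hξ]
        ring
      linarith
    have hw : (ξ + (τ / 2) • c) ⬝ᵥ (a *ᵥ (ξ + (τ / 2) • c)) =
        ξ ⬝ᵥ (a *ᵥ ξ) + τ * (b ⬝ᵥ ξ) + τ ^ 2 / 4 * (b ⬝ᵥ c) := by
      rw [Matrix.mulVec_add, Matrix.mulVec_smul, hac, add_dotProduct, dotProduct_add,
        dotProduct_add, smul_dotProduct, smul_dotProduct, dotProduct_smul, dotProduct_smul]
      have e1 : c ⬝ᵥ (a *ᵥ ξ) = b ⬝ᵥ ξ := by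
        rw [Matrix.dotProduct_mulVec, ← Matrix.mulVec_transpose, hsym, hac]
      rw [e1, dotProduct_comm ξ b, dotProduct_comm c b]
      simp only [smul_eq_mul]
      ring
    have hps := ha.posSemidef.dotProduct_mulVec_nonneg (ξ + (τ / 2) • c)
    rw [star_trivial] at hps
    by_cases ht : τ = 0
    · have hξ0 : ξ ≠ 0 := by
        intro h0
        apply hx
        funext i
        refine Fin.cases ?_ (fun i => ?_) i
        · exact ht
        · exact congrFun h0 i
      have h1 := ha.dotProduct_mulVec_pos hξ0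
      rw [star_trivial] at h1
      rw [hq, ht]
      linarith
    · have h1 : 0 < τ ^ 2 := by positivity
      have h2 : 0 < τ ^ 2 * (κ - (1 / 4) * (b ⬝ᵥ c)) := mul_pos h1 (by linarith)
      rw [hq]
      nlinarith

/-! ### the equation in one more variable -/

/-- divergence -/
def dv (b : Fin m → E m → ℝ) (x : E m) : ℝ := ∑ i, pderiv i (b i) x

/-- a large smooth function -/
def Cc (a : E m → Matrix (Fin m) (Fin m) ℝ) (b : Fin m → E m → ℝ) (c : E m → ℝ) (x : E m) : ℝ :=
  3 * (1 + (1 / 4) * ((fun i => b i x) ⬝ᵥ ((a x)⁻¹.mulVec fun i => b i x)) +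
    (dv b x / 2 - c x) ^ 2)

def kap (a : E m → Matrix (Fin m) (Fin m) ℝ) (b : Fin m → E m → ℝ) (c : E m → ℝ)
    (y : E (m + 1)) : ℝ :=
  Cc a b c (X y) * Real.exp (-(y 0)) + (c (X y) - dv b (X y) / 2)

def AA (a : E m → Matrix (Fin m) (Fin m) ℝ) (b : Fin m → E m → ℝ) (c : E m → ℝ)
    (y : E (m + 1)) : Matrix (Fin (m + 1)) (Fin (m + 1)) ℝ :=
  ext (kap a b c y) (fun j => b j (X y)) (a (X y))

def UU (U : Set (E m)) : Set (E (m + 1)) := {y | X y ∈ U ∧ y 0 < 1}

/-- the formal adjoint -/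
def Wk (a : E m → Matrix (Fin m) (Fin m) ℝ) (b : Fin m → E m → ℝ) (c : E m → ℝ) (φ : E m → ℝ)
    (x : E m) : ℝ :=
  divA a φ x - ∑ i, pderiv i (fun y => b i y * φ y) x + c x * φ x

structure Dat (U : Set (E m)) (a : E m → Matrix (Fin m) (Fin m) ℝ) (b : Fin m → E m → ℝ)
    (c : E m → ℝ) : Prop where
  op : IsOpen U
  sa : ∀ i j, ContDiffOn ℝ ∞ (fun x => a x i j) U
  pos : ∀ x ∈ U, (a x).PosDef
  sb : ∀ i, ContDiffOn ℝ ∞ (b i) U
  sc : ContDiffOn ℝ ∞ c U

theorem isOpen_UU {U : Set (E m)} (hU : IsOpen U) : IsOpen (UU U) :=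
  (hU.preimage contDiff_X.continuous).inter
    (isOpen_Iio.preimage contDiff_zero.continuous : IsOpen {y : E (m + 1) | y 0 < 1})

theorem mapsTo_X (U : Set (E m)) : MapsTo X (UU U) U := fun _ hy => hy.1

namespace Dat

variable {U : Set (E m)} {a : E m → Matrix (Fin m) (Fin m) ℝ} {b : Fin m → E m → ℝ} {c : E m → ℝ}

theorem sdv (h : Dat U a b c) : ContDiffOn ℝ ∞ (dv b) U :=
  ContDiffOn.sum fun i _ => contDiffOn_pd h.op (h.sb i) i

theorem sCc (h : Dat U a b c) : ContDiffOn ℝ ∞ (Cc a b c) U := by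
  unfold Cc
  refine contDiffOn_const.mul ((contDiffOn_const.add (contDiffOn_const.mul ?_)).add
    (((h.sdv.div_const 2).sub h.sc).pow 2))
  simp only [dotProduct, Matrix.mulVec]
  refine ContDiffOn.sum fun i _ => (h.sb i).mul (ContDiffOn.sum fun j _ => ?_)
  exact (contDiffOn_inv h.sa (fun z hz => (h.pos z hz).det_pos.ne') i j).mul (h.sb j)

theorem comp_X {g : E m → ℝ} (hg : ContDiffOn ℝ ∞ g U) :
    ContDiffOn ℝ ∞ (fun y => g (X y)) (UU U) :=
  hg.comp contDiff_X.contDiffOn (mapsTo_X U)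

theorem skap (h : Dat U a b c) : ContDiffOn ℝ ∞ (kap a b c) (UU U) := by
  unfold kap
  refine ContDiffOn.add ((comp_X h.sCc).mul ?_) ((comp_X h.sc).sub ((comp_X h.sdv).div_const 2))
  exact (Real.contDiff_exp.comp contDiff_zero.neg).contDiffOn

theorem sAA (h : Dat U a b c) (i j : Fin (m + 1)) :
    ContDiffOn ℝ ∞ (fun y => AA a b c y i j) (UU U) := by
  unfold AA
  refine Fin.cases ?_ (fun i => ?_) i <;> refine Fin.cases ?_ (fun j => ?_) j
  · exact h.skap
  · exact (comp_X (h.sb j)).div_const 2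
  · exact (comp_X (h.sb i)).div_const 2
  · exact comp_X (h.sa i j)

theorem posAA (h : Dat U a b c) {y : E (m + 1)} (hy : y ∈ UU U) : (AA a b c y).PosDef := by
  refine posDef_ext (h.pos _ hy.1) _ ?_
  have hq : 0 ≤ ((fun i => b i (X y)) ⬝ᵥ ((a (X y))⁻¹.mulVec fun i => b i (X y))) := by
    have := (h.pos _ hy.1).posSemidef.inv.dotProduct_mulVec_nonneg (fun i => b i (X y))
    rwa [star_trivial] at this
  have he : (1 : ℝ) / 3 ≤ Real.exp (-(y 0)) := by
    have h1 : Real.exp (y 0) ≤ 3 := by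
      have h2 : Real.exp (y 0) ≤ Real.exp 1 := Real.exp_le_exp.2 hy.2.le
      have h3 := Real.exp_one_lt_d9
      linarith
    rw [Real.exp_neg, one_div]
    exact inv_anti₀ (Real.exp_pos _) h1
  unfold kap Cc
  set q := ((fun i => b i (X y)) ⬝ᵥ ((a (X y))⁻¹.mulVec fun i => b i (X y)))
  set s := dv b (X y) / 2 - c (X y) with hs
  have h4 : c (X y) - dv b (X y) / 2 = -s := by rw [hs]; ring
  rw [h4]
  have h5 : (0 : ℝ) ≤ 1 + 1 / 4 * q + s ^ 2 := by positivity
  have h6 : 1 + 1 / 4 * q + s ^ 2 ≤ 3 * (1 + 1 / 4 * q + s ^ 2) * Real.exp (-(y 0)) := by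
    nlinarith
  nlinarith [sq_nonneg (s - 1)]

end Dat

theorem pderiv_add {k : ℕ} {φ ψ : E k → ℝ} {x : E k} (j : Fin k) (h : DifferentiableAt ℝ φ x)
    (h' : DifferentiableAt ℝ ψ x) :
    pderiv j (fun y => φ y + ψ y) x = pderiv j φ x + pderiv j ψ x := by
  unfold pderiv
  rw [fderiv_fun_add h h']
  rfl

theorem pderiv_const_mul {k : ℕ} {φ : E k → ℝ} {x : E k} (j : Fin k)
    (h : DifferentiableAt ℝ φ x) (r : ℝ) :
    pderiv j (fun y => r * φ y) x = r * pderiv j φ x := by
  unfold pderiv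
  rw [fderiv_const_mul h]
  rfl

theorem pderiv_mul {k : ℕ} {φ ψ : E k → ℝ} {x : E k} (j : Fin k) (h : DifferentiableAt ℝ φ x)
    (h' : DifferentiableAt ℝ ψ x) :
    pderiv j (fun y => φ y * ψ y) x = pderiv j φ x * ψ x + φ x * pderiv j ψ x := by
  unfold pderiv
  rw [fderiv_fun_mul h h']
  simp
  ring

theorem TF.diff {k : ℕ} {φ : E k → ℝ} (h : TF φ) : Differentiable ℝ φ :=
  h.1.differentiable (by simp)

section weak

variable {U : Set (E m)} {a : E m → Matrix (Fin m) (Fin m) ℝ} {b : Fin m → E m → ℝ} {c : E m → ℝ}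

theorem divA_AA (Φ : E (m + 1) → ℝ) (y : E (m + 1)) :
    divA (AA a b c) Φ y =
      pderiv 0 (fun y => kap a b c y * pderiv 0 Φ y + ∑ j : Fin m, b j (X y) / 2 * pderiv j.succ Φ y) y
      + ∑ i : Fin m, pderiv i.succ (fun y => b i (X y) / 2 * pderiv 0 Φ y +
        ∑ j : Fin m, a (X y) i j * pderiv j.succ Φ y) y := by
  unfold divA
  rw [Fin.sum_univ_succ]
  simp only [Fin.sum_univ_succ, AA, ext_00, ext_0s, ext_s0, ext_ss]

theorem fI_divA (h : Dat U a b c) {Φ : E (m + 1) → ℝ} (hΦ : TF Φ) (hs : tsupport Φ ⊆ UU U)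
    (x : E m) : fI (divA (AA a b c) Φ) x = Wk a b c (fI Φ) x := by
  have hop := isOpen_UU h.op
  have hsp : ∀ j, tsupport (pderiv j Φ) ⊆ UU U := fun j => (tsupport_pderiv_subset Φ j).trans hs
  -- the fluxes are test functions
  have t1 : TF fun y => kap a b c y * pderiv 0 Φ y := (hΦ.pd 0).smul hop (hsp 0) h.skap
  have t2 : ∀ j : Fin m, TF fun y => b j (X y) / 2 * pderiv j.succ Φ y := fun j =>
    (hΦ.pd j.succ).smul hop (hsp _) ((Dat.comp_X (h.sb j)).div_const 2)
  have t3 : ∀ i : Fin m, TF fun y => b i (X y) / 2 * pderiv 0 Φ y := fun i =>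
    (hΦ.pd 0).smul hop (hsp _) ((Dat.comp_X (h.sb i)).div_const 2)
  have t4 : ∀ i j : Fin m, TF fun y => a (X y) i j * pderiv j.succ Φ y := fun i j =>
    (hΦ.pd j.succ).smul hop (hsp _) (Dat.comp_X (h.sa i j))
  have T0 := t1.add (TF.sum Finset.univ fun j _ => t2 j)
  have Ti : ∀ i, TF fun y => b i (X y) / 2 * pderiv 0 Φ y +
      ∑ j : Fin m, a (X y) i j * pderiv j.succ Φ y := fun i =>
    (t3 i).add (TF.sum Finset.univ fun j _ => t4 i j)
  -- support of the fibre integral
  have hφs : tsupport (fI Φ) ⊆ U := (tsupport_fI hΦ.2).trans (by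
    rintro _ ⟨y, hy, rfl⟩
    exact (hs hy).1)
  have hφ := hΦ.fI
  have e1 : fI (divA (AA a b c) Φ) x =
      - fI (fun y => kap a b c y * pderiv 0 Φ y + ∑ j : Fin m, b j (X y) / 2 * pderiv j.succ Φ y) x
      + ∑ i : Fin m, pderiv i (fI fun y => b i (X y) / 2 * pderiv 0 Φ y +
        ∑ j : Fin m, a (X y) i j * pderiv j.succ Φ y) x := by
    have : divA (AA a b c) Φ = _ := funext (divA_AA Φ)
    rw [this, fI_add (T0.pd 0) (TF.sum Finset.univ fun i _ => (Ti i).pd i.succ),
      fI_sum Finset.univ fun i _ => (Ti i).pd i.succ]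
    simp only [fI_pderiv_zero T0, pderiv_fI (Ti _)]
  -- first flux
  have e2 : fI (fun y => kap a b c y * pderiv 0 Φ y +
      ∑ j : Fin m, b j (X y) / 2 * pderiv j.succ Φ y) x =
      - ((c x - dv b x / 2) * fI Φ x) + ∑ j, b j x / 2 * pderiv j (fI Φ) x := by
    rw [fI_add t1 (TF.sum Finset.univ fun j _ => t2 j), fI_sum Finset.univ fun j _ => t2 j]
    have g1 : fI (fun y => kap a b c y * pderiv 0 Φ y) x = -((c x - dv b x / 2) * fI Φ x) := by
      have g2 : fI (fun y => kap a b c y * pderiv 0 Φ y) x =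
          ∫ t, (Cc a b c x * pderiv 0 Φ (J t x) +
            (c x - dv b x / 2) * (Real.exp t * pderiv 0 Φ (J t x))) := by
        unfold fI
        refine integral_congr_ae (Eventually.of_forall fun t => ?_)
        simp only [kap, X_J, J_zero]
        have : Real.exp t * Real.exp (-t) = 1 := by rw [← Real.exp_add]; simp
        linear_combination Cc a b c x * pderiv 0 Φ (J t x) * this
      have i1 := integrable_slice (hΦ.pd 0) (continuous_const (y := Cc a b c x)) x
      have i2 := (integrable_slice (hΦ.pd 0) Real.continuous_exp x).const_mul (c x - dv b x / 2)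
      rw [g2, integral_add i1 i2, integral_const_mul, integral_const_mul,
        integral_pderiv_zero hΦ]
      have g3 : ∫ t, Real.exp t * pderiv 0 Φ (J t x) = - fI Φ x :=
        congrFun (fI_pderiv_zero hΦ) x
      rw [g3]
      ring
    have g4 : ∀ j : Fin m, fI (fun y => b j (X y) / 2 * pderiv j.succ Φ y) x =
        b j x / 2 * pderiv j (fI Φ) x := fun j => by
      rw [fI_mul (fun x => b j x / 2) (pderiv j.succ Φ) x, pderiv_fI hΦ]
    simp only [g1, g4]
  have e3 : ∀ i : Fin m, fI (fun y => b i (X y) / 2 * pderiv 0 Φ y +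
      ∑ j : Fin m, a (X y) i j * pderiv j.succ Φ y) =
      fun x => (-(1 / 2)) * (b i x * fI Φ x) + ∑ j, a x i j * pderiv j (fI Φ) x := by
    intro i
    rw [fI_add (t3 i) (TF.sum Finset.univ fun j _ => t4 i j), fI_sum Finset.univ fun j _ => t4 i j]
    funext x
    have g5 : fI (fun y => b i (X y) / 2 * pderiv 0 Φ y) x = (-(1 / 2)) * (b i x * fI Φ x) := by
      rw [fI_mul (fun x => b i x / 2) (pderiv 0 Φ) x, fI_pderiv_zero hΦ]
      ring
    have g6 : ∀ j : Fin m, fI (fun y => a (X y) i j * pderiv j.succ Φ y) x =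
        a x i j * pderiv j (fI Φ) x := fun j => by
      rw [fI_mul (fun x => a x i j) (pderiv j.succ Φ) x, pderiv_fI hΦ]
    simp only [g5, g6]
  rw [e1, e2]
  simp only [e3]
  -- split the derivative
  have s1 : ∀ i, TF fun y => b i y * fI Φ y := fun i => hφ.smul h.op hφs (h.sb i)
  have s2 : ∀ i, TF fun y => ∑ j, a y i j * pderiv j (fI Φ) y := fun i =>
    TF.sum Finset.univ fun j _ => (hφ.pd j).smul h.op ((tsupport_pderiv_subset _ j).trans hφs)
      (h.sa i j)
  have e4 : ∀ i : Fin m, pderiv i (fun x => (-(1 / 2)) * (b i x * fI Φ x) +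
      ∑ j, a x i j * pderiv j (fI Φ) x) x = (-(1 / 2)) * pderiv i (fun y => b i y * fI Φ y) x +
      pderiv i (fun y => ∑ j, a y i j * pderiv j (fI Φ) y) x := fun i => by
    rw [pderiv_add i ((s1 i).diff.const_mul _ x) ((s2 i).diff x), pderiv_const_mul i ((s1 i).diff x)]
  simp only [e4]
  -- product rule
  have e5 : ∑ i, pderiv i (fun y => b i y * fI Φ y) x =
      ∑ i, b i x * pderiv i (fI Φ) x + dv b x * fI Φ x := by
    by_cases hx : x ∈ U
    · have : ∀ i, pderiv i (fun y => b i y * fI Φ y) x =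
          b i x * pderiv i (fI Φ) x + pderiv i (b i) x * fI Φ x := fun i => by
        rw [pderiv_mul i (((h.sb i).contDiffAt (h.op.mem_nhds hx)).differentiableAt (by simp))
          (hφ.diff x)]
        ring
      simp only [this, Finset.sum_add_distrib, dv, Finset.sum_mul]
    · have hx' : x ∉ tsupport (fI Φ) := fun hc => hx (hφs hc)
      have g7 : fI Φ x = 0 := image_eq_zero_of_notMem_tsupport hx'
      have g8 : ∀ i, pderiv i (fI Φ) x = 0 := fun i => pderiv_eq_zero_of_notMem hx' i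
      have g9 : ∀ i, pderiv i (fun y => b i y * fI Φ y) x = 0 := fun i => by
        refine pderiv_eq_zero_of_notMem (fun hc => hx' ?_) i
        exact tsupport_mul_subset_right hc
      simp [g7, g8, g9]
  unfold Wk divA
  rw [e5, Finset.sum_add_distrib, ← Finset.mul_sum, e5]
  have e6 : ∑ j, b j x / 2 * pderiv j (fI Φ) x = (∑ i, b i x * pderiv i (fI Φ) x) / 2 := by
    rw [Finset.sum_div]
    exact Finset.sum_congr rfl fun j _ => by ring
  rw [e6]
  ring

end weak

/-! ### integrability -/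

theorem int_loc {k : ℕ} {V : Set (E k)} {w Ψ : E k → ℝ} (hw : LocallyIntegrableOn w V)
    (hΨ : Continuous Ψ) (hc : HasCompactSupport Ψ) (hs : tsupport Ψ ⊆ V) :
    Integrable fun y => w y * Ψ y := by
  have h1 : IntegrableOn w (tsupport Ψ) := hw.integrableOn_compact_subset hs hc
  have h2 : IntegrableOn (fun y => w y * Ψ y) (tsupport Ψ) :=
    h1.mul_continuousOn hΨ.continuousOn hc
  refine (integrableOn_iff_integrable_of_support_subset ?_).1 h2
  intro y hy
  by_contra hc'
  apply hy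
  simp only
  rw [image_eq_zero_of_notMem_tsupport hc', mul_zero]

theorem locInt_ext {U : Set (E m)} (hU : IsOpen U) {u : E m → ℝ} (hu : LocallyIntegrableOn u U) :
    LocallyIntegrableOn (fun y : E (m + 1) => Real.exp (y 0) * u (X y)) (UU U) := by
  rw [locallyIntegrableOn_iff (isOpen_UU hU).isLocallyClosed]
  intro K hK hKc
  obtain ⟨R, hR⟩ := hKc.isBounded.subset_closedBall (0 : E (m + 1))
  have hXK : IsCompact (X '' K) := hKc.image contDiff_X.continuous
  have hXU : X '' K ⊆ U := by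
    rintro _ ⟨y, hy, rfl⟩
    exact (hK hy).1
  have h1 : Integrable ((X '' K).indicator u) := by
    rw [integrable_indicator_iff hXK.measurableSet]
    exact hu.integrableOn_compact_subset hXU hXK
  have h2 : Integrable ((Icc (-R) R).indicator Real.exp) := by
    rw [integrable_indicator_iff measurableSet_Icc]
    exact Real.continuous_exp.integrableOn_Icc
  have h3 : Integrable (fun p : ℝ × E m => (Icc (-R) R).indicator Real.exp p.1 *
      (X '' K).indicator u p.2) (volume.prod volume) := h2.mul_prod h1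
  have h4 : Integrable (fun y : E (m + 1) => (Icc (-R) R).indicator Real.exp (y 0) *
      (X '' K).indicator u (X y)) := by
    refine (mp_Je.integrable_comp_emb (Je m).measurableEmbedding).1 ?_
    refine h3.congr (Eventually.of_forall fun p => ?_)
    simp only [Function.comp_apply, Je_apply, J_zero, X_J]
  refine h4.integrableOn.congr_fun (fun y hy => ?_) hKc.measurableSet
  have h5 : y 0 ∈ Icc (-R) R := by
    have h6 := hR hy
    rw [mem_closedBall_zero_iff] at h6
    have h7 : ‖y 0‖ ≤ ‖y‖ := PiLp.norm_apply_le _ _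
    rw [Real.norm_eq_abs] at h7
    exact abs_le.1 (h7.trans h6)
  simp only
  rw [indicator_of_mem h5, indicator_of_mem (mem_image_of_mem X hy)]

/-! ### derivatives of `e^t G(x)` -/


theorem diff_comp_X {G : E m → ℝ} {y : E (m + 1)} (h : DifferentiableAt ℝ G (X y)) :
    DifferentiableAt ℝ (fun y => G (X y)) y :=
  DifferentiableAt.comp y (g := G) (f := X) h (contDiff_X.differentiable (by simp) y)

theorem diff_exp (y : E (m + 1)) : DifferentiableAt ℝ (fun y : E (m + 1) => Real.exp (y 0)) y :=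
  (Real.contDiff_exp (n := 1).comp (contDiff_zero.of_le one_le_inf)).differentiable
    (by norm_num) y

theorem pderiv_zero_comp_X {G : E m → ℝ} {y : E (m + 1)} (h : DifferentiableAt ℝ G (X y)) :
    pderiv 0 (fun y => G (X y)) y = 0 := by
  obtain ⟨t, x, rfl⟩ : ∃ t x, y = J t x := ⟨y 0, X y, (J_X y).symm⟩
  have h1 := hasDeriv_t (Φ := fun y => G (X y)) (t := t) (x := x) (diff_comp_X h)
  simp only [X_J] at h1
  exact h1.unique (hasDerivAt_const t (G x))

theorem pderiv_succ_comp_X {G : E m → ℝ} {y : E (m + 1)} (h : DifferentiableAt ℝ G (X y))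
    (j : Fin m) : pderiv j.succ (fun y => G (X y)) y = pderiv j G (X y) := by
  obtain ⟨t, x, rfl⟩ : ∃ t x, y = J t x := ⟨y 0, X y, (J_X y).symm⟩
  have h1 := fderiv_x (Φ := fun y => G (X y)) (t := t) (x := x) (diff_comp_X h) j
  simp only [X_J] at h1
  rw [X_J]
  exact h1.symm

theorem pderiv_zero_exp (y : E (m + 1)) :
    pderiv 0 (fun y : E (m + 1) => Real.exp (y 0)) y = Real.exp (y 0) := by
  obtain ⟨t, x, rfl⟩ : ∃ t x, y = J t x := ⟨y 0, X y, (J_X y).symm⟩
  have h1 := hasDeriv_t (Φ := fun y : E (m + 1) => Real.exp (y 0)) (t := t) (x := x) (diff_exp _)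
  simp only [J_zero] at h1 ⊢
  exact h1.unique (Real.hasDerivAt_exp t)

theorem pderiv_succ_exp (y : E (m + 1)) (j : Fin m) :
    pderiv j.succ (fun y : E (m + 1) => Real.exp (y 0)) y = 0 := by
  obtain ⟨t, x, rfl⟩ : ∃ t x, y = J t x := ⟨y 0, X y, (J_X y).symm⟩
  have h1 := fderiv_x (Φ := fun y : E (m + 1) => Real.exp (y 0)) (t := t) (x := x) (diff_exp _) j
  simp only [J_zero] at h1
  rw [← h1]
  simp [pderiv]

theorem pderiv_zero_eX {G : E m → ℝ} {y : E (m + 1)} (h : DifferentiableAt ℝ G (X y)) :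
    pderiv 0 (fun y => Real.exp (y 0) * G (X y)) y = Real.exp (y 0) * G (X y) := by
  rw [pderiv_mul 0 (diff_exp y) (diff_comp_X h), pderiv_zero_exp, pderiv_zero_comp_X h]
  ring

theorem pderiv_succ_eX {G : E m → ℝ} {y : E (m + 1)} (h : DifferentiableAt ℝ G (X y))
    (j : Fin m) : pderiv j.succ (fun y => Real.exp (y 0) * G (X y)) y =
      Real.exp (y 0) * pderiv j G (X y) := by
  rw [pderiv_mul j.succ (diff_exp y) (diff_comp_X h), pderiv_succ_exp, pderiv_succ_comp_X h]
  ring

/-- **Elliptic regularity with lower order terms**: very weak `L¹_loc` solutions of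
`div (a ∇u) + b·∇u + c u = f` are smooth. -/
theorem gen_ell {U : Set (E m)} {a : E m → Matrix (Fin m) (Fin m) ℝ} {b : Fin m → E m → ℝ}
    {c : E m → ℝ} (h : Dat U a b c) {f u : E m → ℝ} (hf : ContDiffOn ℝ ∞ f U)
    (hu : LocallyIntegrableOn u U)
    (hw : ∀ φ : E m → ℝ, ContDiff ℝ ∞ φ → HasCompactSupport φ → tsupport φ ⊆ U →
      ∫ x, u x * Wk a b c φ x = ∫ x, f x * φ x) :
    ∃ v : E m → ℝ, ContDiffOn ℝ ∞ v U ∧ (∀ᵐ x, x ∈ U → v x = u x) ∧
      ∀ x ∈ U, divA a v x + ∑ i, b i x * pderiv i v x + c x * v x = f x := by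
  have hop := isOpen_UU h.op
  have hu' := locInt_ext h.op hu
  have hf' : ContDiffOn ℝ ∞ (fun y : E (m + 1) => Real.exp (y 0) * f (X y)) (UU U) :=
    (Real.contDiff_exp.comp contDiff_zero).contDiffOn.mul (Dat.comp_X hf)
  obtain ⟨V, hV, hVu, hVf⟩ := ell_regularity (m + 1) (UU U) hop (AA a b c) h.sAA
    (fun y hy => h.posAA hy) (fun y => Real.exp (y 0) * f (X y)) hf'
    (fun y => Real.exp (y 0) * u (X y)) hu' (by
      intro Φ h1 h2 h3
      have hΦ : TF Φ := ⟨h1, h2⟩
      have hsp : ∀ j, tsupport (pderiv j Φ) ⊆ UU U := fun j =>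
        (tsupport_pderiv_subset Φ j).trans h3
      have hT : TF (divA (AA a b c) Φ) := by
        have : divA (AA a b c) Φ = _ := funext fun y => rfl
        unfold divA
        refine TF.sum Finset.univ fun i _ => TF.pd (TF.sum Finset.univ fun j _ => ?_) i
        exact (hΦ.pd j).smul hop (hsp j) (h.sAA i j)
      have i1 : Integrable fun y => (Real.exp (y 0) * u (X y)) * divA (AA a b c) Φ y :=
        int_loc hu' hT.1.continuous hT.2 ((tsupport_divA_subset _ _).trans h3)
      have i2 : Integrable fun y => (Real.exp (y 0) * f (X y)) * Φ y :=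
        int_loc (hf'.continuousOn.locallyIntegrableOn hop.measurableSet) h1.continuous h2 h3
      rw [fub i1, fub i2]
      have hφs : tsupport (fI Φ) ⊆ U := (tsupport_fI h2).trans (by
        rintro _ ⟨y, hy, rfl⟩
        exact (h3 hy).1)
      have e1 := hw (fI Φ) hΦ.fI.1 hΦ.fI.2 hφs
      have e2 : ∀ x, ∫ t, Real.exp (J t x 0) * u (X (J t x)) * divA (AA a b c) Φ (J t x) =
          u x * Wk a b c (fI Φ) x := fun x => by
        rw [← fI_divA h hΦ h3 x]
        unfold fI
        rw [← integral_const_mul]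
        refine integral_congr_ae (Eventually.of_forall fun t => ?_)
        simp only [J_zero, X_J]
        ring
      have e3 : ∀ x, ∫ t, Real.exp (J t x 0) * f (X (J t x)) * Φ (J t x) =
          f x * fI Φ x := fun x => by
        unfold fI
        rw [← integral_const_mul]
        refine integral_congr_ae (Eventually.of_forall fun t => ?_)
        simp only [J_zero, X_J]
        ring
      simp only [e2, e3]
      exact e1)
  have hmem : ∀ {t : ℝ} {x : E m}, t < 1 → x ∈ U → J t x ∈ UU U := fun ht hx => by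
    refine ⟨?_, ?_⟩
    · rw [X_J]; exact hx
    · rw [J_zero]; exact ht
  -- `V (t, x) = e^t u(x)` for almost every `x`
  have c1 : ∀ᵐ x : E m, x ∈ U → ∀ t < 1, V (J t x) = Real.exp t * u x := by
    have h1 : ∀ᵐ p : ℝ × E m, J p.1 p.2 ∈ UU U → V (J p.1 p.2) = Real.exp p.1 * u p.2 := by
      have h2 := mp_Je.quasiMeasurePreserving.ae hVu
      filter_upwards [h2] with p hp
      simpa only [Je_apply, J_zero, X_J] using hp
    have h3 : ∀ᵐ p : E m × ℝ, J p.2 p.1 ∈ UU U → V (J p.2 p.1) = Real.exp p.2 * u p.1 := by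
      have h4 : MeasurePreserving (Prod.swap : E m × ℝ → ℝ × E m) volume volume :=
        Measure.measurePreserving_swap
      exact h4.quasiMeasurePreserving.ae h1
    have h5 := Measure.ae_ae_of_ae_prod h3
    filter_upwards [h5] with x hx hxU
    have h6 : EqOn (fun t => V (J t x)) (fun t => Real.exp t * u x) (Iio 1) := by
      refine Measure.eqOn_open_of_ae_eq (μ := volume) ?_ isOpen_Iio ?_ ?_
      · rw [EventuallyEq, ae_restrict_iff' measurableSet_Iio]
        filter_upwards [hx] with t ht ht1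
        exact ht (hmem ht1 hxU)
      · refine hV.continuousOn.comp ?_ fun t ht => hmem ht hxU
        exact (contDiff_J.continuous.comp (continuous_id.prodMk continuous_const)).continuousOn
      · fun_prop
    exact fun t ht => h6 ht
  have hJ0 : MapsTo (fun x : E m => J 0 x) U (UU U) := fun x hx => hmem one_pos hx
  have hcJ : ∀ t : ℝ, ContDiff ℝ ∞ fun x : E m => J t x := fun t =>
    contDiff_J.comp (contDiff_const.prodMk contDiff_id)
  have hv : ContDiffOn ℝ ∞ (fun x => V (J 0 x)) U := hV.comp (hcJ 0).contDiffOn hJ0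
  -- the same with `v`
  have c2 : ∀ t < 1, ∀ x ∈ U, V (J t x) = Real.exp t * V (J 0 x) := by
    intro t ht
    have h6 : EqOn (fun x => V (J t x)) (fun x => Real.exp t * V (J 0 x)) U := by
      refine Measure.eqOn_open_of_ae_eq (μ := volume) ?_ h.op ?_ ?_
      · rw [EventuallyEq, ae_restrict_iff' h.op.measurableSet]
        filter_upwards [c1] with x hx hxU
        rw [hx hxU t ht, hx hxU 0 one_pos, Real.exp_zero, one_mul]
      · exact hV.continuousOn.comp (hcJ t).continuous.continuousOn fun x hx => hmem ht hx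
      · exact continuousOn_const.mul hv.continuousOn
    exact fun x hx => h6 hx
  set v : E m → ℝ := fun x => V (J 0 x) with hvdef
  have hvd : ∀ x ∈ U, ContDiffAt ℝ ∞ v x := fun x hx => hv.contDiffAt (h.op.mem_nhds hx)
  have c3 : ∀ y ∈ UU U, V y = Real.exp (y 0) * v (X y) := by
    intro y hy
    conv_lhs => rw [← J_X y]
    exact c2 (y 0) hy.2 (X y) hy.1
  refine ⟨v, hv, ?_, ?_⟩
  · filter_upwards [c1] with x hx hxU
    rw [hvdef]
    simp only
    rw [hx hxU 0 one_pos, Real.exp_zero, one_mul]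
  · intro x hx
    have hy := hJ0 hx
    have d1 := hVf (J 0 x) hy
    simp only [J_zero, X_J, Real.exp_zero, one_mul] at d1
    rw [divA_congr_of_open hop (fun _ _ _ _ => rfl) c3 hy, divA_AA] at d1
    -- derivatives of `e^t v`
    have dv0 : ∀ y ∈ UU U, pderiv 0 (fun y => Real.exp (y 0) * v (X y)) y =
        Real.exp (y 0) * v (X y) := fun y hy =>
      pderiv_zero_eX ((hvd _ hy.1).differentiableAt (by simp))
    have dvj : ∀ j : Fin m, ∀ y ∈ UU U, pderiv j.succ (fun y => Real.exp (y 0) * v (X y)) y =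
        Real.exp (y 0) * pderiv j v (X y) := fun j y hy =>
      pderiv_succ_eX ((hvd _ hy.1).differentiableAt (by simp)) j
    have svj : ∀ j, ContDiffOn ℝ ∞ (pderiv j v) U := fun j => contDiffOn_pd h.op hv j
    -- first flux
    set G1 : E m → ℝ := fun x => Cc a b c x * v x with hG1
    set G2 : E m → ℝ := fun x => (c x - dv b x / 2) * v x + ∑ j, b j x / 2 * pderiv j v x with hG2
    have sG1 : ContDiffOn ℝ ∞ G1 U := h.sCc.mul hv
    have sG2 : ContDiffOn ℝ ∞ G2 U := ((h.sc.sub (h.sdv.div_const 2)).mul hv).add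
      (ContDiffOn.sum fun j _ => ((h.sb j).div_const 2).mul (svj j))
    have f1 : pderiv 0 (fun y => kap a b c y * pderiv 0 (fun y => Real.exp (y 0) * v (X y)) y +
        ∑ j : Fin m, b j (X y) / 2 * pderiv j.succ (fun y => Real.exp (y 0) * v (X y)) y) (J 0 x)
        = G2 x := by
      have g1 : (fun y => kap a b c y * pderiv 0 (fun y => Real.exp (y 0) * v (X y)) y +
          ∑ j : Fin m, b j (X y) / 2 * pderiv j.succ (fun y => Real.exp (y 0) * v (X y)) y)
          =ᶠ[𝓝 (J 0 x)] fun y => G1 (X y) + Real.exp (y 0) * G2 (X y) := by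
        filter_upwards [hop.mem_nhds hy] with y hy
        rw [dv0 y hy]
        simp only [dvj _ y hy, kap, hG1, hG2]
        have g2 : Real.exp (-(y 0)) * Real.exp (y 0) = 1 := by rw [← Real.exp_add]; simp
        have g3 : ∑ j : Fin m, b j (X y) / 2 * (Real.exp (y 0) * pderiv j v (X y)) =
            Real.exp (y 0) * ∑ j : Fin m, b j (X y) / 2 * pderiv j v (X y) := by
          rw [Finset.mul_sum]
          exact Finset.sum_congr rfl fun j _ => by ring
        rw [g3]
        linear_combination Cc a b c (X y) * v (X y) * g2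
      have g4 : DifferentiableAt ℝ G1 (X (J 0 x)) := by
        rw [X_J]
        exact (sG1.contDiffAt (h.op.mem_nhds hx)).differentiableAt (by simp)
      have g5 : DifferentiableAt ℝ G2 (X (J 0 x)) := by
        rw [X_J]
        exact (sG2.contDiffAt (h.op.mem_nhds hx)).differentiableAt (by simp)
      have g7 : DifferentiableAt ℝ (fun y : E (m + 1) => Real.exp (y 0) * G2 (X y)) (J 0 x) :=
        (diff_exp _).mul (diff_comp_X g5)
      rw [pderiv_congr g1 0, pderiv_add 0 (diff_comp_X g4) g7,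
        pderiv_zero_comp_X g4, pderiv_zero_eX g5, X_J, J_zero, Real.exp_zero]
      ring
    -- the other fluxes
    have f2 : ∀ i : Fin m, pderiv i.succ (fun y => b i (X y) / 2 *
        pderiv 0 (fun y => Real.exp (y 0) * v (X y)) y + ∑ j : Fin m, a (X y) i j *
          pderiv j.succ (fun y => Real.exp (y 0) * v (X y)) y) (J 0 x) =
        (1 / 2) * (pderiv i (b i) x * v x + b i x * pderiv i v x) +
          pderiv i (fun y => ∑ j, a y i j * pderiv j v y) x := by
      intro i
      set H1 : E m → ℝ := fun x => b i x * v x with hH1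
      set H2 : E m → ℝ := fun x => ∑ j, a x i j * pderiv j v x with hH2
      have sH1 : ContDiffOn ℝ ∞ H1 U := (h.sb i).mul hv
      have sH2 : ContDiffOn ℝ ∞ H2 U := ContDiffOn.sum fun j _ => (h.sa i j).mul (svj j)
      have g1 : (fun y => b i (X y) / 2 * pderiv 0 (fun y => Real.exp (y 0) * v (X y)) y +
          ∑ j : Fin m, a (X y) i j * pderiv j.succ (fun y => Real.exp (y 0) * v (X y)) y)
          =ᶠ[𝓝 (J 0 x)] fun y => Real.exp (y 0) * ((fun x => (1 / 2) * H1 x + H2 x) (X y)) := by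
        filter_upwards [hop.mem_nhds hy] with y hy
        rw [dv0 y hy]
        simp only [dvj _ y hy, hH1, hH2]
        have g3 : ∑ j : Fin m, a (X y) i j * (Real.exp (y 0) * pderiv j v (X y)) =
            Real.exp (y 0) * ∑ j : Fin m, a (X y) i j * pderiv j v (X y) := by
          rw [Finset.mul_sum]
          exact Finset.sum_congr rfl fun j _ => by ring
        rw [g3]
        ring
      have g4 : DifferentiableAt ℝ H1 x :=
        (sH1.contDiffAt (h.op.mem_nhds hx)).differentiableAt (by simp)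
      have g5 : DifferentiableAt ℝ H2 x :=
        (sH2.contDiffAt (h.op.mem_nhds hx)).differentiableAt (by simp)
      have g6 : DifferentiableAt ℝ (fun x => (1 / 2) * H1 x + H2 x) (X (J 0 x)) := by
        rw [X_J]
        exact (g4.const_mul _).add g5
      rw [pderiv_congr g1 i.succ, pderiv_succ_eX g6, X_J, J_zero, Real.exp_zero, one_mul,
        pderiv_add i (g4.const_mul _) g5, pderiv_const_mul i g4, hH1,
        pderiv_mul i (((h.sb i).contDiffAt (h.op.mem_nhds hx)).differentiableAt (by simp))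
          ((hvd x hx).differentiableAt (by simp))]
    rw [f1] at d1
    simp only [f2] at d1
    rw [Finset.sum_add_distrib, ← Finset.mul_sum, Finset.sum_add_distrib] at d1
    have e7 : ∑ i, pderiv i (b i) x * v x = dv b x * v x := by
      rw [dv, Finset.sum_mul]
    have e8 : ∑ j, b j x / 2 * pderiv j v x = (∑ i, b i x * pderiv i v x) / 2 := by
      rw [Finset.sum_div]
      exact Finset.sum_congr rfl fun j _ => by ring
    rw [e7, hG2] at d1
    simp only at d1
    rw [e8] at d1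
    unfold divA
    linarith

end

end Crest.Agent.R269.GEll_19
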