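import Crest.Agent.R269.Fld_851

-- ▼ part R269/Adj_851
section

/-!
# R269 (S0411), leaf GEO-ADJ, part 2 (helper851): the adjoint function `ρ_s`

`(M, A)` compact, `K : Kah A`, `P : Part A`, `s : Fld A`.
* `parts_ddb`     : integration by parts twice in a chart
* `Lop s u`       : `tr (s ∂∂̄u)`
* `rho K P s`     : smooth, `integral_Lop : ∫ Lop s u dV = ∫ u * rho K P s dV`
* `ext_of_integral` : uniqueness; hence `rho_add`, `rho_smul`, independence of `P`,
  `rho_gI : rho K P g⁻¹ = 0`, `integral_rho : ∫ rho = 0`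
-/

set_option autoImplicit false
set_option linter.unusedSectionVars false

open Set Filter Topology Complex MeasureTheory
open scoped ContDiff Matrix ComplexConjugate ComplexOrder

namespace Crest.Agent.R269.Adj_851

open Crest.Agent.R275 Crest.Agent.R275.Geo Crest.Agent.R275.Core144 Crest.Agent.R275.EDR890
open Crest.Agent.R275.Pai323 Crest.Agent.R275.C1d194
open Crest.Agent.R275.SerG398 (lint dens OffZ)
open Crest.Agent.R275.OmT75 (dj dl dl_chain dl_mul db_chain dj_sum dj_congr)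
open Crest.Agent.R273.Defs_333 Crest.Agent.R273.Hess_333 Crest.Agent.R273.HessB_333
open Crest.Agent.R273.HM_333 Crest.Agent.R273.Kah_333 Crest.Agent.R273.Vol_333
open Crest.Agent.R273.Vm_333
open Crest.Agent.R273.StV_37 Crest.Agent.R273.Piola_5 Crest.Agent.R273.Green_5
open Crest.Agent.R273.VolInv_5 Crest.Agent.R273.GreenM_5
open Crest.Agent.R269.Fld_851

noncomputable section

variable {n : ℕ} {M : Type} [TopologicalSpace M] {A : Atl n M}

/-! ### functions cut off outside a chart -/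

open Classical in
/-- `f` inside the chart `i`, `0` outside -/
def cut (A : Atl n M) (i : A.ι) {W : Type*} [Zero W] (f : M → W) : M → W :=
  fun x => if x ∈ (A.e i).source then f x else 0

theorem cut_of_mem {i : A.ι} {W : Type*} [Zero W] {f : M → W} {x : M} (hx : x ∈ (A.e i).source) :
    cut A i f x = f x := if_pos hx

theorem cut_off {i : A.ι} {W : Type*} [Zero W] {f : M → W} {x : M} (hx : x ∉ (A.e i).source) :
    cut A i f x = 0 := if_neg hx

theorem smAt_cut {i : A.ι} {W : Type*} [NormedAddCommGroup W] [NormedSpace ℝ W] {f : M → W}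
    (hf : A.SmAt i f) : A.SmAt i (cut A i f) := by
  have h1 : ContDiffOn ℝ ∞ (fun z => f ((A.e i).symm z)) (A.e i).target := hf
  exact h1.congr fun z hz => cut_of_mem ((A.e i).map_target hz)

/-- `f` vanishes on the chart `i` outside `K` -/
def Off (A : Atl n M) (i : A.ι) {W : Type*} [Zero W] (f : M → W) (K : Set M) : Prop :=
  ∀ x ∈ (A.e i).source, x ∉ K → f x = 0

theorem cut_zero_off {i : A.ι} {W : Type*} [Zero W] {f : M → W} {K : Set M} (h0 : Off A i f K)
    {x : M} (hx : x ∉ K) : cut A i f x = 0 := by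
  by_cases hi : x ∈ (A.e i).source
  · rw [cut_of_mem hi]; exact h0 x hi hx
  · exact cut_off hi

section t2

variable [T2Space M]

theorem cc_cut {i : A.ι} {f : M → ℂ} {K : Set M} (hf : A.SmAt i f) (hK : IsCompact K)
    (hKi : K ⊆ (A.e i).source) (h0 : Off A i f K) : CC A i (cut A i f) :=
  CC.of_zero_off (smAt_cut hf) hK hKi fun _ hx => cut_zero_off h0 hx

theorem sm_cut {i : A.ι} {W : Type*} [NormedAddCommGroup W] [NormedSpace ℝ W] {f : M → W}
    {K : Set M} (hf : A.SmAt i f) (hK : IsCompact K)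
    (hKi : K ⊆ (A.e i).source) (h0 : Off A i f K) : A.Sm (cut A i f) :=
  sm_of_smAt (smAt_cut hf) hK.isClosed hKi fun _ hx => cut_zero_off h0 hx

end t2


theorem rd_cut (i : A.ι) (f : M → ℂ) : rd A i (cut A i f) = rd A i f := by
  funext x
  by_cases hx : x ∈ Ui A i
  · rw [rd_of_mem hx, rd_of_mem hx, cut_of_mem ((A.e i).map_target hx)]
  · rw [rd_off hx, rd_off hx]

/-! ### derivatives -/

theorem congr_read {i : A.ι} {W : Type*} {f g : M → W} {x : M} (hx : x ∈ (A.e i).source)
    (h : f =ᶠ[𝓝 x] g) :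
    (fun z => f ((A.e i).symm z)) =ᶠ[𝓝 (A.e i x)] fun z => g ((A.e i).symm z) := by
  have hc : Tendsto (A.e i).symm (𝓝 (A.e i x)) (𝓝 x) := by
    have := (A.e i).continuousAt_symm ((A.e i).map_source hx)
    rw [ContinuousAt, (A.e i).left_inv hx] at this
    exact this
  exact hc.eventually h

theorem dl_congr {i : A.ι} {f g : M → ℂ} {x : M} (hx : x ∈ (A.e i).source)
    (h : f =ᶠ[𝓝 x] g) (a : Fin n) : dl A i a f x = dl A i a g x :=
  dj_congr (congr_read hx h)

theorem db_congr' {i : A.ι} {f g : M → ℂ} {x : M} (hx : x ∈ (A.e i).source)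
    (h : f =ᶠ[𝓝 x] g) (a : Fin n) : A.db i a f x = A.db i a g x :=
  OmT75.dbj_congr (congr_read hx h)

theorem cut_ev {i : A.ι} {f : M → ℂ} {x : M} (hx : x ∈ (A.e i).source) :
    cut A i f =ᶠ[𝓝 x] f := by
  filter_upwards [(A.e i).open_source.mem_nhds hx] with y hy
  exact cut_of_mem hy

theorem db_zero' {i : A.ι} (a : Fin n) (x : M) : A.db i a (fun _ : M => (0 : ℂ)) x = 0 := by
  unfold Atl.db dbj
  simp

theorem dl_zero' {i : A.ι} (a : Fin n) (x : M) : dl A i a (fun _ : M => (0 : ℂ)) x = 0 := by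
  unfold OmT75.dl dj
  simp

theorem smAt_mul {i : A.ι} {f g : M → ℂ} (hf : A.SmAt i f) (hg : A.SmAt i g) :
    A.SmAt i (fun x => f x * g x) := ContDiffOn.mul hf hg

theorem off_db {i : A.ι} {f : M → ℂ} {K : Set M} (hK : IsClosed K) (h0 : Off A i f K)
    (a : Fin n) : Off A i (A.db i a f) K := by
  intro x hx hxK
  have h1 : f =ᶠ[𝓝 x] fun _ => (0 : ℂ) := by
    filter_upwards [hK.isOpen_compl.mem_nhds hxK, (A.e i).open_source.mem_nhds hx] with y hy hy'
    exact h0 y hy' hy
  rw [db_congr' hx h1, db_zero']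

theorem off_dl {i : A.ι} {f : M → ℂ} {K : Set M} (hK : IsClosed K) (h0 : Off A i f K)
    (a : Fin n) : Off A i (dl A i a f) K := by
  intro x hx hxK
  have h1 : f =ᶠ[𝓝 x] fun _ => (0 : ℂ) := by
    filter_upwards [hK.isOpen_compl.mem_nhds hxK, (A.e i).open_source.mem_nhds hx] with y hy hy'
    exact h0 y hy' hy
  rw [dl_congr hx h1, dl_zero']

section t2

variable [T2Space M]

/-- Stokes in a chart for `∂̄_a` -/
theorem lint_db0 {i : A.ι} {f : M → ℂ} {K : Set M} (hf : A.SmAt i f) (hK : IsCompact K)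
    (hKi : K ⊆ (A.e i).source) (h0 : Off A i f K) (a : Fin n) : lint A i (A.db i a f) = 0 := by
  rw [← lint_db (cc_cut hf hK hKi h0) a]
  exact lint_congr fun x hx => db_congr' hx (cut_ev hx).symm a

/-- Stokes in a chart for `∂_a` -/
theorem lint_dl0 {i : A.ι} {f : M → ℂ} {K : Set M} (hf : A.SmAt i f) (hK : IsCompact K)
    (hKi : K ⊆ (A.e i).source) (h0 : Off A i f K) (a : Fin n) : lint A i (dl A i a f) = 0 := by
  have h1 : lint A i (A.db i a (fun x => conj (f x))) = 0 :=
    lint_db0 (smAt_conj hf) hK hKi (fun x hx hxK => by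
      change conj (f x) = 0
      rw [h0 x hx hxK, map_zero]) a
  have h2 : lint A i (dl A i a f) = conj (lint A i (A.db i a (fun x => conj (f x)))) := by
    rw [← lint_conj]
    refine lint_congr fun x _ => ?_
    rw [← Crest.Agent.R273.StV_37.dl_conj]
    simp only [Complex.conj_conj]
  rw [h2, h1, map_zero]

theorem integrable_off {i : A.ι} {f : M → ℂ} {K : Set M} (hf : A.SmAt i f) (hK : IsCompact K)
    (hKi : K ⊆ (A.e i).source) (h0 : Off A i f K) : Integrable (rd A i f) := by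
  rw [← rd_cut]
  exact (cc_cut hf hK hKi h0).integrable

theorem Off.mulR {i : A.ι} {f g : M → ℂ} {K : Set M} (h0 : Off A i f K) :
    Off A i (fun x => f x * g x) K := fun x hx hxK => by
  change f x * g x = 0
  rw [h0 x hx hxK, zero_mul]

/-- integration by parts for `∂_a` -/
theorem parts_dl {i : A.ι} {f g : M → ℂ} {K : Set M} (hf : A.SmAt i f) (hg : A.SmAt i g)
    (hK : IsCompact K) (hKi : K ⊆ (A.e i).source) (h0 : Off A i f K) (a : Fin n) :
    lint A i (fun x => f x * dl A i a g x) = - lint A i (fun x => dl A i a f x * g x) := by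
  have h1 := lint_dl0 (smAt_mul hf hg) hK hKi (Off.mulR h0) a
  have h2 : lint A i (dl A i a (fun x => f x * g x)) =
      lint A i (fun x => dl A i a f x * g x + f x * dl A i a g x) := by
    refine lint_congr fun x hx => ?_
    rw [dl_mul (Atl.SmAt.diffAt hf hx) (Atl.SmAt.diffAt hg hx) hx]
  have h3 := lint_add (integrable_off (smAt_mul (smAt_dl hf a) hg) hK hKi
      (Off.mulR (off_dl hK.isClosed h0 a)))
    (integrable_off (smAt_mul hf (smAt_dl hg a)) hK hKi (Off.mulR h0))
  change lint A i (dl A i a (fun x => f x * g x)) = 0 at h1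
  rw [h2, h3] at h1
  exact eq_neg_of_add_eq_zero_right h1

/-- integration by parts for `∂̄_a` -/
theorem parts_db {i : A.ι} {f g : M → ℂ} {K : Set M} (hf : A.SmAt i f) (hg : A.SmAt i g)
    (hK : IsCompact K) (hKi : K ⊆ (A.e i).source) (h0 : Off A i f K) (a : Fin n) :
    lint A i (fun x => f x * A.db i a g x) = - lint A i (fun x => A.db i a f x * g x) := by
  have h1 := lint_db0 (smAt_mul hf hg) hK hKi (Off.mulR h0) a
  have h2 : lint A i (A.db i a (fun x => f x * g x)) =
      lint A i (fun x => A.db i a f x * g x + f x * A.db i a g x) := by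
    refine lint_congr fun x hx => ?_
    rw [db_mul (Atl.SmAt.diffAt hf hx) (Atl.SmAt.diffAt hg hx) hx]
  have h3 := lint_add (integrable_off (smAt_mul (Atl.SmAt.db hf a) hg) hK hKi
      (Off.mulR (off_db hK.isClosed h0 a)))
    (integrable_off (smAt_mul hf (Atl.SmAt.db hg a)) hK hKi (Off.mulR h0))
  change lint A i (A.db i a (fun x => f x * g x)) = 0 at h1
  rw [h2, h3] at h1
  exact eq_neg_of_add_eq_zero_right h1

/-- **integration by parts for `∂_a ∂̄_b`** -/
theorem parts_ddb {i : A.ι} {f g : M → ℂ} {K : Set M} (hf : A.SmAt i f) (hg : A.SmAt i g)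
    (hK : IsCompact K) (hKi : K ⊆ (A.e i).source) (h0 : Off A i f K) (a b : Fin n) :
    lint A i (fun x => f x * dl A i a (A.db i b g) x) =
      lint A i (fun x => A.db i b (dl A i a f) x * g x) := by
  rw [parts_dl hf (Atl.SmAt.db hg b) hK hKi h0 a,
    parts_db (smAt_dl hf a) hg hK hKi (off_dl hK.isClosed h0 a) b, neg_neg]

/-! ### the adjoint in a chart -/

/-- `∑_{ab} ∂̄_b ∂_a W_{ab}` -/
def dd (A : Atl n M) (i : A.ι) (W : M → Matrix (Fin n) (Fin n) ℂ) (x : M) : ℂ :=
  ∑ a, ∑ b, A.db i b (dl A i a (fun y => W y a b)) x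

theorem smAt_dd {i : A.ι} {W : M → Matrix (Fin n) (Fin n) ℂ}
    (hW : ∀ a b, A.SmAt i (fun x => W x a b)) : A.SmAt i (dd A i W) := by
  have h1 : ContDiffOn ℝ ∞ (fun z => ∑ a, ∑ b,
      A.db i b (dl A i a (fun y => W y a b)) ((A.e i).symm z)) (A.e i).target :=
    ContDiffOn.sum fun a _ => ContDiffOn.sum fun b _ => Atl.SmAt.db (smAt_dl (hW a b) a) b
  exact h1

theorem off_dd {i : A.ι} {W : M → Matrix (Fin n) (Fin n) ℂ} {K : Set M} (hK : IsClosed K)
    (h0 : ∀ a b, Off A i (fun x => W x a b) K) : Off A i (dd A i W) K := by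
  intro x hx hxK
  exact Finset.sum_eq_zero fun a _ => Finset.sum_eq_zero fun b _ =>
    off_db hK (off_dl hK (h0 a b) a) b x hx hxK

/-- **integration by parts for a matrix valued function in a chart** -/
theorem parts_W {i : A.ι} {W : M → Matrix (Fin n) (Fin n) ℂ} {g : M → ℂ} {K : Set M}
    (hW : ∀ a b, A.SmAt i (fun x => W x a b)) (hg : A.SmAt i g)
    (hK : IsCompact K) (hKi : K ⊆ (A.e i).source) (h0 : ∀ a b, Off A i (fun x => W x a b) K) :
    lint A i (fun x => ∑ a, ∑ b, W x a b * hm A g i x a b) =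
      lint A i (fun x => dd A i W x * g x) := by
  have h1 : lint A i (fun x => ∑ a, ∑ b, W x a b * hm A g i x a b) =
      ∑ a, ∑ b, lint A i (fun x => W x a b * hm A g i x a b) := by
    have hi : ∀ a b, Integrable (rd A i (fun x => W x a b * hm A g i x a b)) := fun a b =>
      integrable_off (smAt_mul (hW a b) (smAt_hm hg a b)) hK hKi (Off.mulR (h0 a b))
    have hi' : ∀ a, Integrable (rd A i (fun x => ∑ b, W x a b * hm A g i x a b)) := by
      intro a
      have e : rd A i (fun x => ∑ b, W x a b * hm A g i x a b) =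
          fun y => ∑ b, rd A i (fun x => W x a b * hm A g i x a b) y :=
        funext fun y => rd_sum Finset.univ i _ y
      rw [e]
      exact integrable_finsetSum _ fun b _ => hi a b
    rw [lint_sum _ fun a _ => hi' a]
    exact Finset.sum_congr rfl fun a _ => lint_sum _ fun b _ => hi a b
  have h2 : lint A i (fun x => dd A i W x * g x) =
      ∑ a, ∑ b, lint A i (fun x => A.db i b (dl A i a (fun y => W y a b)) x * g x) := by
    have hi : ∀ a b, Integrable (rd A i
        (fun x => A.db i b (dl A i a (fun y => W y a b)) x * g x)) := fun a b =>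
      integrable_off (smAt_mul (Atl.SmAt.db (smAt_dl (hW a b) a) b) hg) hK hKi
        (Off.mulR (off_db hK.isClosed (off_dl hK.isClosed (h0 a b) a) b))
    have hi' : ∀ a, Integrable (rd A i (fun x => ∑ b,
        A.db i b (dl A i a (fun y => W y a b)) x * g x)) := by
      intro a
      have e : rd A i (fun x => ∑ b, A.db i b (dl A i a (fun y => W y a b)) x * g x) =
          fun y => ∑ b, rd A i (fun x => A.db i b (dl A i a (fun y => W y a b)) x * g x) y :=
        funext fun y => rd_sum Finset.univ i _ y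
      rw [e]
      exact integrable_finsetSum _ fun b _ => hi a b
    have e1 : (fun x => dd A i W x * g x) =
        fun x => ∑ a, ∑ b, A.db i b (dl A i a (fun y => W y a b)) x * g x := by
      funext x
      unfold dd
      rw [Finset.sum_mul]
      exact Finset.sum_congr rfl fun a _ => Finset.sum_mul _ _ _
    rw [e1, lint_sum _ fun a _ => hi' a]
    exact Finset.sum_congr rfl fun a _ => lint_sum _ fun b _ => hi a b
  rw [h1, h2]
  refine Finset.sum_congr rfl fun a _ => Finset.sum_congr rfl fun b _ => ?_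
  exact parts_ddb (hW a b) hg hK hKi (h0 a b) a b

/-! ### integrals over a chart -/

section meas

variable [CompactSpace M] [MeasurableSpace M] [BorelSpace M] [Finite A.ι]

theorem int_chart (h : HM (KB A)⁻¹) {i : A.ι} {F : M → ℂ} (hF : Integrable F (vm h))
    (h0 : ∀ x ∉ (A.e i).source, F x = 0) :
    ∫ x, F x ∂(vm h) = lint A i (fun x => (h.w i x : ℂ) * F x) := by
  have h3 : ∫ x, F x ∂(vm h) = ∫ x in (A.e i).source, F x ∂(vm h) := by
    symm
    exact setIntegral_eq_integral_of_forall_compl_eq_zero fun x hx => h0 x hx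
  rw [h3, setIntegral_vm h i hF.aestronglyMeasurable]
  unfold SerG398.lint
  symm
  rw [← setIntegral_eq_integral_of_forall_compl_eq_zero (s := Ui A i) (fun y hy => rd_off hy)]
  refine setIntegral_congr_fun (Crest.Agent.R273.Vm_333.isOpen_Ui i).measurableSet fun y hy => ?_
  rw [rd_of_mem hy]
  change (h.w i (sg A i y) : ℂ) * F (sg A i y) = (h.w i (sg A i y)) • F (sg A i y)
  rw [Complex.real_smul]

/-- the function `f / det g` on the chart `i`, `0` outside -/
def fr (K : Kah A) (i : A.ι) (f : M → ℂ) : M → ℂ := cut A i (fun x => f x / (K.g i x).det)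

theorem fr_of_mem (K : Kah A) {i : A.ι} {f : M → ℂ} {x : M} (hx : x ∈ (A.e i).source) :
    fr K i f x = f x / (K.g i x).det := cut_of_mem hx

theorem fr_off (K : Kah A) {i : A.ι} {f : M → ℂ} {x : M} (hx : x ∉ (A.e i).source) :
    fr K i f x = 0 := cut_off hx

theorem smAt_div (K : Kah A) {i : A.ι} {f : M → ℂ} (hf : A.SmAt i f) :
    A.SmAt i (fun x => f x / (K.g i x).det) := by
  have h1 : ContDiffOn ℝ ∞ (fun z => f ((A.e i).symm z) * ((K.g i ((A.e i).symm z)).det)⁻¹)
      (A.e i).target :=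
    ContDiffOn.mul hf ((smAt_det (K.sm i)).inv fun z hz => K_det_ne K ((A.e i).map_target hz))
  refine h1.congr fun z hz => ?_
  exact div_eq_mul_inv _ _

theorem sm_fr (K : Kah A) {i : A.ι} {f : M → ℂ} {C : Set M} (hf : A.SmAt i f) (hC : IsCompact C)
    (hCi : C ⊆ (A.e i).source) (h0 : Off A i f C) : A.Sm (fr K i f) :=
  sm_cut (smAt_div K hf) hC hCi fun x hx hxC => by
    change f x / _ = 0
    rw [h0 x hx hxC, zero_div]

theorem sm_mul {f g : M → ℂ} (hf : A.Sm f) (hg : A.Sm g) : A.Sm (fun x => f x * g x) :=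
  fun i => ContDiffOn.mul (hf i) (hg i)

theorem integral_fr (K : Kah A) {i : A.ι} {f u : M → ℂ} {C : Set M} (hf : A.SmAt i f)
    (hC : IsCompact C) (hCi : C ⊆ (A.e i).source) (h0 : Off A i f C) (hu : A.Sm u) :
    ∫ x, fr K i f x * u x ∂(vm (volK K)) = lint A i (fun x => f x * u x) := by
  rw [int_chart (volK K) (i := i) (integrable_sm (volK K) (sm_mul (sm_fr K hf hC hCi h0) hu))
    fun x hx => by rw [fr_off K hx, zero_mul]]
  refine lint_congr fun x hx => ?_
  have := K_det_ne K hx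
  rw [volK_w K i hx, fr_of_mem K hx]
  field_simp

/-! ### the function `ρ_s` -/

/-- `tr (s ∂∂̄u)` -/
def Lop (s : A.ι → M → Matrix (Fin n) (Fin n) ℂ) (u : M → ℝ) : M → ℝ := trF s (hsf A u)

theorem sm_Lop {s : A.ι → M → Matrix (Fin n) (Fin n) ℂ} (hs : IsFld A s) {u : M → ℝ}
    (hu : A.Sm u) : A.Sm (Lop s u) := sm_trF hs.tc (hsf_tn hu) hs.sm (hsf_cf hu).sm

theorem Lop_ofReal {s : A.ι → M → Matrix (Fin n) (Fin n) ℂ} (hs : IsFld A s) {u : M → ℝ}
    (hu : A.Sm u) {i : A.ι} {x : M} (hx : x ∈ (A.e i).source) :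
    ((Lop s u x : ℝ) : ℂ) = ∑ a, ∑ b, s i x a b * hm A (fun y => (u y : ℂ)) i x a b := by
  have h1 := trF_ofReal hs.tc (hsf_tn hu) hx (hs.herm i x) (hsf_herm hu hx)
  unfold Lop
  rw [h1]
  unfold prF
  rw [hm_ofReal u i hx]

/-- `ψ_i det(g) s` in the chart `i` -/
def Wi (K : Kah A) (P : Part A) (s : A.ι → M → Matrix (Fin n) (Fin n) ℂ) (i : A.ι) (x : M) :
    Matrix (Fin n) (Fin n) ℂ := ((P.ψ i x : ℂ) * (K.g i x).det) • s i x

theorem smAt_Wi (K : Kah A) (P : Part A) {s : A.ι → M → Matrix (Fin n) (Fin n) ℂ}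
    (hs : IsFld A s) (i : A.ι) (a b : Fin n) : A.SmAt i (fun x => Wi K P s i x a b) := by
  have h1 : A.SmAt i (fun x => ((P.ψ i x : ℂ) * (K.g i x).det) * s i x a b) :=
    smAt_mul (smAt_mul (smAt_psi P i i) (smAt_det (K.sm i))) (hs.sm i a b)
  exact h1

theorem off_Wi (K : Kah A) (P : Part A) (s : A.ι → M → Matrix (Fin n) (Fin n) ℂ)
    (i : A.ι) (a b : Fin n) : Off A i (fun x => Wi K P s i x a b) (tsupport (P.χ i)) := by
  intro x _ hxK
  have h1 : P.ψ i x = 0 := image_eq_zero_of_notMem_tsupport fun h => hxK (tsupport_psi P i h)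
  change ((P.ψ i x : ℂ) * (K.g i x).det) * s i x a b = 0
  rw [h1, Complex.ofReal_zero, zero_mul, zero_mul]

/-- `ρ_s`, complex valued version -/
def rhoC (K : Kah A) (P : Part A) (s : A.ι → M → Matrix (Fin n) (Fin n) ℂ) (x : M) : ℂ :=
  ∑ᶠ i, fr K i (dd A i (Wi K P s i)) x

theorem sm_fr_Wi (K : Kah A) (P : Part A) {s : A.ι → M → Matrix (Fin n) (Fin n) ℂ}
    (hs : IsFld A s) (i : A.ι) : A.Sm (fr K i (dd A i (Wi K P s i))) :=
  sm_fr K (smAt_dd (smAt_Wi K P hs i)) (P.χ_cpt i) (P.χ_sub i)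
    (off_dd (isClosed_tsupport _) (off_Wi K P s i))

theorem sm_rhoC (K : Kah A) (P : Part A) {s : A.ι → M → Matrix (Fin n) (Fin n) ℂ}
    (hs : IsFld A s) : A.Sm (rhoC K P s) := by
  have := Fintype.ofFinite A.ι
  intro j
  have h1 : ContDiffOn ℝ ∞ (fun z => ∑ i, fr K i (dd A i (Wi K P s i)) ((A.e j).symm z))
      (A.e j).target := ContDiffOn.sum fun i _ => sm_fr_Wi K P hs i j
  refine h1.congr fun z _ => ?_
  exact finsum_eq_sum_of_fintype _

/-- **the function `ρ_s`** -/
def rho (K : Kah A) (P : Part A) (s : A.ι → M → Matrix (Fin n) (Fin n) ℂ) (x : M) : ℝ :=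
  (rhoC K P s x).re

theorem sm_rho (K : Kah A) (P : Part A) {s : A.ι → M → Matrix (Fin n) (Fin n) ℂ}
    (hs : IsFld A s) : A.Sm (rho K P s) := sm_re (sm_rhoC K P hs)

theorem sm_ofReal {u : M → ℝ} (hu : A.Sm u) : A.Sm (fun x => (u x : ℂ)) := fun i =>
  smAt_ofReal (hu i)

/-- complex form of the adjoint identity -/
theorem integral_LopC (K : Kah A) (P : Part A) {s : A.ι → M → Matrix (Fin n) (Fin n) ℂ}
    (hs : IsFld A s) {u : M → ℝ} (hu : A.Sm u) :
    ∫ x, ((Lop s u x : ℝ) : ℂ) ∂(vm (volK K)) = ∫ x, rhoC K P s x * u x ∂(vm (volK K)) := by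
  classical
  have := Fintype.ofFinite A.ι
  rw [integral_vm_part (volK K) P (integrable_sm (volK K) (sm_ofReal (sm_Lop hs hu)))]
  have h1 : ∀ i, lint A i (fun x => (P.ψ i x : ℂ) * (((volK K).w i x : ℂ) *
      ((Lop s u x : ℝ) : ℂ))) = ∫ x, fr K i (dd A i (Wi K P s i)) x * u x ∂(vm (volK K)) := by
    intro i
    rw [integral_fr K (smAt_dd (smAt_Wi K P hs i)) (P.χ_cpt i) (P.χ_sub i)
      (off_dd (isClosed_tsupport _) (off_Wi K P s i)) (sm_ofReal hu),
      ← parts_W (smAt_Wi K P hs i) (smAt_ofReal (hu i)) (P.χ_cpt i) (P.χ_sub i) (off_Wi K P s i)]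
    refine lint_congr fun x hx => ?_
    rw [volK_w K i hx, Lop_ofReal hs hu hx, Finset.mul_sum, Finset.mul_sum]
    refine Finset.sum_congr rfl fun a _ => ?_
    rw [Finset.mul_sum, Finset.mul_sum]
    refine Finset.sum_congr rfl fun b _ => ?_
    change _ = ((P.ψ i x : ℂ) * (K.g i x).det) * s i x a b * _
    ring
  rw [Finset.sum_congr rfl fun i _ => h1 i, ← integral_finsetSum _ fun i _ =>
    integrable_sm (volK K) (sm_mul (sm_fr_Wi K P hs i) (sm_ofReal hu))]
  congr 1
  funext x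
  unfold rhoC
  rw [finsum_eq_sum_of_fintype, Finset.sum_mul]

/-- **(8.1)**: `∫ tr (s ∂∂̄u) dV = ∫ u ρ_s dV` -/
theorem integral_Lop (K : Kah A) (P : Part A) {s : A.ι → M → Matrix (Fin n) (Fin n) ℂ}
    (hs : IsFld A s) {u : M → ℝ} (hu : A.Sm u) :
    ∫ x, Lop s u x ∂(vm (volK K)) = ∫ x, u x * rho K P s x ∂(vm (volK K)) := by
  have h1 := integral_LopC K P hs hu
  have h0 : ∫ x, ((Lop s u x : ℝ) : ℂ) ∂(vm (volK K)) =
      ((∫ x, Lop s u x ∂(vm (volK K)) : ℝ) : ℂ) := integral_complex_ofReal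
  rw [h0] at h1
  have h2 := congrArg Complex.re h1
  rw [Complex.ofReal_re] at h2
  rw [h2]
  have h3 : ∫ x, (rhoC K P s x * u x).re ∂(vm (volK K)) =
      (∫ x, rhoC K P s x * u x ∂(vm (volK K))).re :=
    integral_re (integrable_sm (volK K) (sm_mul (sm_rhoC K P hs) (sm_ofReal hu)))
  rw [← h3]
  congr 1
  funext x
  rw [Complex.re_mul_ofReal, mul_comm]
  rfl

/-! ### uniqueness -/

theorem exists_bump {x₀ : M} {U : Set M} (hU : U ∈ 𝓝 x₀) :
    ∃ φ : M → ℝ, A.Sm φ ∧ (∀ x, 0 ≤ φ x) ∧ φ x₀ = 1 ∧ ∀ x ∉ U, φ x = 0 := by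
  classical
  obtain ⟨i, hi⟩ := A.cover x₀
  have hz := (A.e i).map_source hi
  have hc : Tendsto (A.e i).symm (𝓝 (A.e i x₀)) (𝓝 x₀) := by
    have := (A.e i).continuousAt_symm hz
    rw [ContinuousAt, (A.e i).left_inv hi] at this
    exact this
  obtain ⟨r, hr, hb⟩ := Metric.nhds_basis_closedBall.mem_iff.1
    (inter_mem ((A.e i).open_target.mem_nhds hz) (hc hU))
  let f : ContDiffBump (A.e i x₀) := ⟨r / 2, r, by positivity, by linarith⟩
  set C : Set M := (A.e i).symm '' Metric.closedBall (A.e i x₀) r with hC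
  have hCc : IsCompact C := (isCompact_closedBall _ _).image_of_continuousOn
    ((A.e i).continuousOn_symm.mono fun z hz => (hb hz).1)
  have hCU : C ⊆ U := by
    rintro _ ⟨z, hz, rfl⟩
    exact (hb hz).2
  have hCi : C ⊆ (A.e i).source := by
    rintro _ ⟨z, hz, rfl⟩
    exact (A.e i).map_target (hb hz).1
  have hoff : Off A i (fun x => f (A.e i x)) C := by
    intro x hx hxC
    by_contra h
    have h1 : A.e i x ∈ Function.support f := h
    rw [f.support_eq] at h1
    exact hxC ⟨A.e i x, Metric.ball_subset_closedBall h1, (A.e i).left_inv hx⟩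
  have hsm : A.SmAt i (fun x => f (A.e i x)) := by
    have h1 : ContDiffOn ℝ ∞ (fun z => f z) (A.e i).target := f.contDiff.contDiffOn
    refine h1.congr fun z hz => ?_
    change f (A.e i ((A.e i).symm z)) = f z
    rw [(A.e i).right_inv hz]
  refine ⟨cut A i (fun x => f (A.e i x)), sm_cut hsm hCc hCi hoff, fun x => ?_, ?_, fun x hx => ?_⟩
  · by_cases h : x ∈ (A.e i).source
    · rw [cut_of_mem h]; exact f.nonneg
    · rw [cut_off h]
  · rw [cut_of_mem hi]
    exact f.one_of_mem_closedBall (Metric.mem_closedBall_self f.rIn_pos.le)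
  · exact cut_zero_off hoff fun h => hx (hCU h)

theorem ext_of_integral (h : HM (KB A)⁻¹) {F : M → ℝ} (hF : Continuous F)
    (H : ∀ u : M → ℝ, A.Sm u → ∫ x, u x * F x ∂(vm h) = 0) : ∀ x, F x = 0 := by
  -- it suffices to exclude positive values
  have key : ∀ G : M → ℝ, Continuous G → (∀ u : M → ℝ, A.Sm u → ∫ x, u x * G x ∂(vm h) = 0) →
      ∀ x, ¬ 0 < G x := by
    intro G hG HG x₀ hx₀
    have hU : {x | 0 < G x} ∈ 𝓝 x₀ := (isOpen_lt continuous_const hG).mem_nhds hx₀
    obtain ⟨φ, hφ, hφ0, hφ1, hφU⟩ := exists_bump (A := A) hU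
    have hφc : Continuous φ := sm_continuous hφ
    have h1 := HG φ hφ
    have hnn : ∀ x, 0 ≤ φ x * G x := by
      intro x
      by_cases hx : 0 < G x
      · exact mul_nonneg (hφ0 x) hx.le
      · rw [hφU x hx, zero_mul]
    have := isOpenPos_vm h
    have := isFinite_vm h
    have hc : Continuous fun x => φ x * G x := hφc.mul hG
    have h2 : 0 < ∫ x, φ x * G x ∂(vm h) :=
      hc.integral_pos_of_hasCompactSupport_nonneg_nonzero (HasCompactSupport.of_compactSpace _)
        hnn (x := x₀) (by rw [hφ1, one_mul]; exact hx₀.ne')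
    exact h2.ne' h1
  intro x
  have h1 := key F hF H x
  have h2 := key (fun x => - F x) hF.neg (fun u hu => by
    have e : (fun x => u x * - F x) = fun x => - (u x * F x) := funext fun x => by ring
    rw [e, integral_neg, H u hu, neg_zero]) x
  have h3 : ¬ 0 < - F x := h2
  linarith [not_lt.1 h1, not_lt.1 h3]

theorem continuous_rho (K : Kah A) (P : Part A) {s : A.ι → M → Matrix (Fin n) (Fin n) ℂ}
    (hs : IsFld A s) : Continuous (rho K P s) := sm_continuous (sm_rho K P hs)

theorem integrable_cont (h : HM (KB A)⁻¹) {F : M → ℝ} (hF : Continuous F) :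
    Integrable F (vm h) := by
  have := isFinite_vm h
  exact hF.integrable_of_hasCompactSupport (HasCompactSupport.of_compactSpace F)

/-- `ρ_s` is the only continuous function with the property (8.1) -/
theorem rho_unique (K : Kah A) (P : Part A) {s : A.ι → M → Matrix (Fin n) (Fin n) ℂ}
    (hs : IsFld A s) {F : M → ℝ} (hF : Continuous F)
    (H : ∀ u : M → ℝ, A.Sm u → ∫ x, Lop s u x ∂(vm (volK K)) = ∫ x, u x * F x ∂(vm (volK K)))
    (x : M) : rho K P s x = F x := by
  have hc : Continuous fun x => rho K P s x - F x := (continuous_rho K P hs).sub hF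
  have h1 : rho K P s x - F x = 0 := ext_of_integral (volK K) hc (fun u hu => by
    have e : (fun x => u x * (rho K P s x - F x)) = fun x => u x * rho K P s x - u x * F x :=
      funext fun x => by ring
    have i1 : Integrable (fun x => u x * rho K P s x) (vm (volK K)) :=
      integrable_cont _ ((sm_continuous hu).mul (continuous_rho K P hs))
    have i2 : Integrable (fun x => u x * F x) (vm (volK K)) :=
      integrable_cont _ ((sm_continuous hu).mul hF)
    rw [e, integral_sub i1 i2, ← H u hu, integral_Lop K P hs hu, sub_self]) x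
  linarith


theorem Lop_add_left (s t : A.ι → M → Matrix (Fin n) (Fin n) ℂ) (u : M → ℝ) (x : M) :
    Lop (s + t) u x = Lop s u x + Lop t u x := trF_add_left s t _ x

theorem Lop_smul_left (c : ℝ) (s : A.ι → M → Matrix (Fin n) (Fin n) ℂ) (u : M → ℝ) (x : M) :
    Lop (c • s) u x = c * Lop s u x := trF_smul_left c s _ x

theorem hsf_add {u v : M → ℝ} (hu : A.Sm u) (hv : A.Sm v) {i : A.ι} {x : M}
    (hx : x ∈ (A.e i).source) : hsf A (u + v) i x = hsf A u i x + hsf A v i x :=
  hess_add (sm_contDiffAt hu i ((A.e i).map_source hx))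
    (sm_contDiffAt hv i ((A.e i).map_source hx))

theorem hsf_smul (c : ℝ) {u : M → ℝ} (hu : A.Sm u) {i : A.ι} {x : M}
    (hx : x ∈ (A.e i).source) : hsf A (c • u) i x = (c : ℂ) • hsf A u i x :=
  hess_const_mul c (sm_contDiffAt hu i ((A.e i).map_source hx))

theorem Lop_add_right (s : A.ι → M → Matrix (Fin n) (Fin n) ℂ) {u v : M → ℝ} (hu : A.Sm u)
    (hv : A.Sm v) (x : M) : Lop s (u + v) x = Lop s u x + Lop s v x := by
  have h1 : prF s (hsf A (u + v)) (ci A x) x =
      prF s (hsf A u) (ci A x) x + prF s (hsf A v) (ci A x) x := by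
    rw [← prF_add_right]
    unfold prF
    rw [hsf_add hu hv (mem_ci x)]
    rfl
  unfold Lop trF
  rw [h1, Complex.add_re]

theorem Lop_smul_right (c : ℝ) (s : A.ι → M → Matrix (Fin n) (Fin n) ℂ) {u : M → ℝ} (hu : A.Sm u)
    (x : M) : Lop s (c • u) x = c * Lop s u x := by
  have h1 : prF s (hsf A (c • u)) (ci A x) x = c * prF s (hsf A u) (ci A x) x := by
    unfold prF
    rw [hsf_smul c hu (mem_ci x), Finset.mul_sum]
    refine Finset.sum_congr rfl fun a _ => ?_
    rw [Finset.mul_sum]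
    refine Finset.sum_congr rfl fun b _ => ?_
    rw [Matrix.smul_apply, smul_eq_mul]
    ring
  unfold Lop trF
  rw [h1, Complex.re_ofReal_mul]

theorem Lop_const (s : A.ι → M → Matrix (Fin n) (Fin n) ℂ) (c : ℝ) (x : M) :
    Lop s (fun _ => c) x = 0 := by
  have h0 : A.Sm (fun _ : M => c) := fun i => contDiffOn_const
  have h1 : hsf A (fun _ : M => c) (ci A x) x = 0 := by
    rw [← hm_ofReal _ _ (mem_ci x)]
    ext a b
    rw [hm_apply, Matrix.zero_apply]
    have e : dl A (ci A x) a (A.db (ci A x) b fun _ : M => ((c : ℝ) : ℂ)) x =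
        dl A (ci A x) a (fun _ : M => (0 : ℂ)) x := by
      congr 1
      funext y
      unfold Atl.db dbj
      simp
    rw [e, dl_zero']
  unfold Lop trF prF
  rw [h1]
  simp

theorem rho_add (K : Kah A) (P : Part A) {s t : A.ι → M → Matrix (Fin n) (Fin n) ℂ}
    (hs : IsFld A s) (ht : IsFld A t) (x : M) :
    rho K P (s + t) x = rho K P s x + rho K P t x := by
  have hst : IsFld A (s + t) := (Fld A).add_mem hs ht
  refine rho_unique K P hst ((continuous_rho K P hs).add (continuous_rho K P ht))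
    (fun u hu => ?_) x
  have e1 : (fun x => Lop (s + t) u x) = fun x => Lop s u x + Lop t u x :=
    funext fun x => Lop_add_left s t u x
  have e2 : (fun x => u x * (rho K P s x + rho K P t x)) =
      fun x => u x * rho K P s x + u x * rho K P t x := funext fun x => by ring
  change ∫ x, (fun x => Lop (s + t) u x) x ∂_ = ∫ x, (fun x => u x * (rho K P s x + rho K P t x)) x ∂_
  have i1 : Integrable (fun x => Lop s u x) (vm (volK K)) :=
    integrable_cont _ (sm_continuous (sm_Lop hs hu))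
  have i2 : Integrable (fun x => Lop t u x) (vm (volK K)) :=
    integrable_cont _ (sm_continuous (sm_Lop ht hu))
  have i3 : Integrable (fun x => u x * rho K P s x) (vm (volK K)) :=
    integrable_cont _ ((sm_continuous hu).mul (continuous_rho K P hs))
  have i4 : Integrable (fun x => u x * rho K P t x) (vm (volK K)) :=
    integrable_cont _ ((sm_continuous hu).mul (continuous_rho K P ht))
  rw [e1, e2, integral_add i1 i2, integral_add i3 i4,
    integral_Lop K P hs hu, integral_Lop K P ht hu]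

theorem rho_smul (K : Kah A) (P : Part A) (c : ℝ) {s : A.ι → M → Matrix (Fin n) (Fin n) ℂ}
    (hs : IsFld A s) (x : M) : rho K P (c • s) x = c * rho K P s x := by
  have hst : IsFld A (c • s) := (Fld A).smul_mem c hs
  refine rho_unique K P hst ((continuous_const (y := c)).mul (continuous_rho K P hs))
    (fun u hu => ?_) x
  have e1 : (fun x => Lop (c • s) u x) = fun x => c * Lop s u x :=
    funext fun x => Lop_smul_left c s u x
  have e2 : (fun x => u x * (c * rho K P s x)) =
      fun x => c * (u x * rho K P s x) := funext fun x => by ring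
  change ∫ x, (fun x => Lop (c • s) u x) x ∂_ = ∫ x, (fun x => u x * (c * rho K P s x)) x ∂_
  rw [e1, e2, integral_const_mul, integral_const_mul, integral_Lop K P hs hu]

/-- **`ρ_{g⁻¹} = 0`** (`g` Kaehler) -/
theorem rho_gI (K : Kah A) (P : Part A) (x : M) : rho K P (gI K) x = 0 := by
  refine rho_unique K P (gI_isFld K) (F := fun _ => 0) continuous_const (fun u hu => ?_) x
  have e1 : (fun x => Lop (gI K) u x) = fun x => lapK K u x := funext fun x => trF_gI_hsf K u x
  change ∫ x, (fun x => Lop (gI K) u x) x ∂_ = _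
  rw [e1, integral_lapK K P hu]
  simp


end meas

end t2

end

end Crest.Agent.R269.Adj_851
end

-- ▼ part R269/AdjLoc_851

/-!
# R269 (S0411), leaf GEO-ADJ, part 3 (helper851): locality, chart formula, chart fields

* `fs φ s = φ • s` is a field (`isFld_fs`)
* `exF A i W` : the field given in the chart `i` by `W` (compact support), extended by
  `J W Jᴴ` and `0`; `isFld_exF`, `exF_psd`, `trF_exF`, `dtF_exF`
* `rho_near` (locality), `rho_of_supp`, **`rho_chart`** :
  `ρ_s = Re (∑_{ab} ∂_a ∂̄_b (det g s_{ab})) / det g` in every chart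
* `chF K i χ B` : the field `χ B / det g` of the chart `i`; (8.4)
-/

set_option autoImplicit false
set_option linter.unusedSectionVars false

open Set Filter Topology Complex MeasureTheory
open scoped ContDiff Matrix ComplexConjugate ComplexOrder

namespace Crest.Agent.R269.AdjLoc_851

open Crest.Agent.R275 Crest.Agent.R275.Geo Crest.Agent.R275.Core144 Crest.Agent.R275.EDR890
open Crest.Agent.R275.Pai323 Crest.Agent.R275.C1d194
open Crest.Agent.R275.SerG398 (lint dens OffZ)
open Crest.Agent.R275.OmT75 (dj dl dl_chain dl_mul db_chain dj_sum dj_congr J_smooth)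
open Crest.Agent.R273.Defs_333 Crest.Agent.R273.Hess_333 Crest.Agent.R273.HessB_333
open Crest.Agent.R273.HM_333 Crest.Agent.R273.Kah_333 Crest.Agent.R273.Vol_333
open Crest.Agent.R273.Vm_333
open Crest.Agent.R273.StV_37 Crest.Agent.R273.Piola_5 Crest.Agent.R273.Green_5
open Crest.Agent.R273.VolInv_5 Crest.Agent.R273.GreenM_5
open Crest.Agent.R269.Fld_851 Crest.Agent.R269.Adj_851

noncomputable section

variable {n : ℕ} {M : Type} [TopologicalSpace M] {A : Atl n M}

/-! ### multiples -/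

/-- `φ s` -/
def fs (φ : M → ℝ) (s : A.ι → M → Matrix (Fin n) (Fin n) ℂ) (i : A.ι) (x : M) :
    Matrix (Fin n) (Fin n) ℂ := (φ x : ℂ) • s i x

theorem isFld_fs {φ : M → ℝ} (hφ : A.Sm φ) {s : A.ι → M → Matrix (Fin n) (Fin n) ℂ}
    (hs : IsFld A s) : IsFld A (fs φ s) where
  sm i a b := by
    have h1 : A.SmAt i (fun x => (φ x : ℂ) * s i x a b) := smAt_mul (smAt_ofReal (hφ i)) (hs.sm i a b)
    exact h1
  herm i x := by
    change ((φ x : ℂ) • s i x)ᴴ = (φ x : ℂ) • s i x
    rw [Matrix.conjTranspose_smul, (hs.herm i x).eq]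
    congr 1
    exact Complex.conj_ofReal _
  tc i j x hx := by
    change (φ x : ℂ) • s j x = Jm A i j x * ((φ x : ℂ) • s i x) * (Jm A i j x)ᴴ
    rw [hs.tc i j x hx, Matrix.mul_smul, Matrix.smul_mul]
  off i x hx := by
    change (φ x : ℂ) • s i x = 0
    rw [hs.off i x hx, smul_zero]

theorem trF_fs (φ : M → ℝ) (s β : A.ι → M → Matrix (Fin n) (Fin n) ℂ) (x : M) :
    trF (fs φ s) β x = φ x * trF s β x := by
  have h1 : prF (fs φ s) β (ci A x) x = φ x * prF s β (ci A x) x := by
    unfold prF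
    rw [Finset.mul_sum]
    refine Finset.sum_congr rfl fun a _ => ?_
    rw [Finset.mul_sum]
    refine Finset.sum_congr rfl fun b _ => ?_
    change ((φ x : ℂ) * s (ci A x) x a b) * _ = _
    ring
  unfold trF
  rw [h1, Complex.re_ofReal_mul]

theorem Lop_fs (φ : M → ℝ) (s : A.ι → M → Matrix (Fin n) (Fin n) ℂ) (u : M → ℝ) (x : M) :
    Lop (fs φ s) u x = φ x * Lop s u x := trF_fs φ s _ x

/-! ### extension of a matrix function given in one chart -/

open Classical in
/-- the field given by `W` in the chart `i` -/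
def exF (A : Atl n M) (i : A.ι) (W : M → Matrix (Fin n) (Fin n) ℂ) (j : A.ι) (x : M) :
    Matrix (Fin n) (Fin n) ℂ :=
  if x ∈ (A.e i).source ∩ (A.e j).source then Jm A i j x * W x * (Jm A i j x)ᴴ else 0

theorem exF_of_mem {i j : A.ι} (W : M → Matrix (Fin n) (Fin n) ℂ) {x : M}
    (hx : x ∈ (A.e i).source ∩ (A.e j).source) :
    exF A i W j x = Jm A i j x * W x * (Jm A i j x)ᴴ := if_pos hx

theorem exF_not {i j : A.ι} (W : M → Matrix (Fin n) (Fin n) ℂ) {x : M}
    (hx : x ∉ (A.e i).source ∩ (A.e j).source) : exF A i W j x = 0 := if_neg hx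

theorem exF_self {i : A.ι} (W : M → Matrix (Fin n) (Fin n) ℂ) {x : M}
    (hx : x ∈ (A.e i).source) : exF A i W i x = W x := by
  rw [exF_of_mem W ⟨hx, hx⟩, Core144.J_self i hx]
  simp

theorem exF_off {i j : A.ι} {W : M → Matrix (Fin n) (Fin n) ℂ} {C : Set M} (h0 : Off A i W C)
    {x : M} (hx : x ∉ C) : exF A i W j x = 0 := by
  by_cases h : x ∈ (A.e i).source ∩ (A.e j).source
  · rw [exF_of_mem W h, h0 x h.1 hx, Matrix.mul_zero, Matrix.zero_mul]
  · exact exF_not W h

theorem exF_tc {i : A.ι} (W : M → Matrix (Fin n) (Fin n) ℂ) : Tc A (exF A i W) := by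
  intro j k x hx
  by_cases hi : x ∈ (A.e i).source
  · rw [exF_of_mem W ⟨hi, hx.1⟩, exF_of_mem W ⟨hi, hx.2⟩,
      ← Core144.J_mul i j k ⟨⟨hi, hx.1⟩, hx.2⟩, Matrix.conjTranspose_mul]
    simp only [Matrix.mul_assoc]
  · rw [exF_not W fun h => hi h.1, exF_not W fun h => hi h.1, Matrix.mul_zero, Matrix.zero_mul]


theorem J_on_ov (i j : A.ι) (b a : Fin n) :
    ContDiffOn ℝ ∞ (fun z => A.J i j ((A.e j).symm z) b a) (A.ov j i) := by
  have h1 : MapsTo (fun z => A.e i ((A.e j).symm z)) (A.ov j i) (A.ov i j) := by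
    intro z hz
    refine ⟨(A.e i).map_source hz.2, ?_⟩
    rw [(A.e i).left_inv hz.2]
    exact (A.e j).map_target hz.1
  have h2 : ContDiffOn ℝ ∞
      (fun z => A.J i j ((A.e i).symm (A.e i ((A.e j).symm z))) b a) (A.ov j i) :=
    ContDiffOn.comp (g := fun w => A.J i j ((A.e i).symm w) b a) (J_smooth i j b a)
      (trans_contDiffOn j i) h1
  refine h2.congr fun z hz => ?_
  rw [(A.e i).left_inv hz.2]

theorem contDiffOn_conj {U : Set (Cn n)} {f : Cn n → ℂ} (hf : ContDiffOn ℝ ∞ f U) :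
    ContDiffOn ℝ ∞ (fun z => conj (f z)) U :=
  (conjCLE : ℂ ≃L[ℝ] ℂ).contDiff.comp_contDiffOn hf

section t2

variable [T2Space M]

theorem isFld_exF {i : A.ι} {W : M → Matrix (Fin n) (Fin n) ℂ} {C : Set M}
    (hW : ∀ a b, A.SmAt i (fun x => W x a b)) (hH : ∀ x ∈ (A.e i).source, (W x).IsHermitian)
    (hC : IsCompact C) (hCi : C ⊆ (A.e i).source) (h0 : Off A i W C) : IsFld A (exF A i W) where
  sm j a b := by
    refine smAt_of_ov (j := i) (F := fun x => exF A i W j x a b) hC.isClosed hCi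
      (fun x hx => by rw [exF_off h0 hx]; rfl) ?_
    have h1 : ContDiffOn ℝ ∞ (fun z => ∑ d, (∑ c, A.J i j ((A.e j).symm z) a c *
        W ((A.e j).symm z) c d) * conj (A.J i j ((A.e j).symm z) b d)) (A.ov j i) :=
      ContDiffOn.sum fun d _ => ContDiffOn.mul (ContDiffOn.sum fun c _ =>
        ContDiffOn.mul (J_on_ov i j a c) (smAt_on_ov (hW c d) j)) (contDiffOn_conj (J_on_ov i j b d))
    refine h1.congr fun z hz => ?_
    have hx : (A.e j).symm z ∈ (A.e i).source ∩ (A.e j).source :=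
      ⟨hz.2, (A.e j).map_target hz.1⟩
    rw [exF_of_mem W hx]
    simp only [Matrix.mul_apply, Matrix.conjTranspose_apply, Jm_apply]
    rfl
  herm j x := by
    by_cases h : x ∈ (A.e i).source ∩ (A.e j).source
    · rw [exF_of_mem W h]
      unfold Matrix.IsHermitian
      rw [Matrix.conjTranspose_mul, Matrix.conjTranspose_mul, Matrix.conjTranspose_conjTranspose,
        (hH x h.1).eq, Matrix.mul_assoc]
    · rw [exF_not W h]
      exact Matrix.isHermitian_zero
  tc := exF_tc W
  off j x hx := exF_not W fun h => hx h.2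

end t2


theorem trF_zero {s β : A.ι → M → Matrix (Fin n) (Fin n) ℂ} {x : M} (h : ∀ j, s j x = 0) :
    trF s β x = 0 := by
  unfold trF prF
  rw [h]
  simp




/-! ### locality of `ρ` -/

section meas

variable [T2Space M] [CompactSpace M] [MeasurableSpace M] [BorelSpace M] [Finite A.ι]

theorem dd_congr {i : A.ι} {W W' : M → Matrix (Fin n) (Fin n) ℂ} {x : M}
    (hx : x ∈ (A.e i).source) (h : W =ᶠ[𝓝 x] W') : dd A i W x = dd A i W' x := by
  unfold dd
  refine Finset.sum_congr rfl fun a _ => Finset.sum_congr rfl fun b _ => ?_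
  refine db_congr' hx ?_ b
  have h1 : ∀ᶠ y in 𝓝 x, W =ᶠ[𝓝 y] W' := h.eventually_nhds
  filter_upwards [h1, (A.e i).open_source.mem_nhds hx] with y hy hyi
  refine dl_congr hyi ?_ a
  filter_upwards [hy] with w hw
  rw [hw]

theorem dd_zero {i : A.ι} {W : M → Matrix (Fin n) (Fin n) ℂ} {x : M}
    (hx : x ∈ (A.e i).source) (h : ∀ᶠ y in 𝓝 x, W y = 0) : dd A i W x = 0 := by
  have h1 : W =ᶠ[𝓝 x] fun _ => 0 := h
  rw [dd_congr hx h1]
  unfold dd
  refine Finset.sum_eq_zero fun a _ => Finset.sum_eq_zero fun b _ => ?_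
  have h2 : (dl A i a fun y : M => (0 : Matrix (Fin n) (Fin n) ℂ) a b) = fun _ => (0 : ℂ) :=
    funext fun y => dl_zero' a y
  rw [h2, db_zero']

theorem rho_zero_near (K : Kah A) (P : Part A) {s : A.ι → M → Matrix (Fin n) (Fin n) ℂ} {x : M}
    (h : ∀ i, ∀ᶠ y in 𝓝 x, s i y = 0) : rho K P s x = 0 := by
  have := Fintype.ofFinite A.ι
  unfold rho rhoC
  rw [finsum_eq_sum_of_fintype, Finset.sum_eq_zero, Complex.zero_re]
  intro i _
  by_cases hx : x ∈ (A.e i).source
  · rw [fr_of_mem K hx, dd_zero hx, zero_div]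
    filter_upwards [h i] with y hy
    unfold Wi
    rw [hy, smul_zero]
  · exact fr_off K hx

theorem rho_near (K : Kah A) (P : Part A) {s t : A.ι → M → Matrix (Fin n) (Fin n) ℂ}
    (hs : IsFld A s) (ht : IsFld A t) {x : M} (h : ∀ i, ∀ᶠ y in 𝓝 x, s i y = t i y) :
    rho K P s x = rho K P t x := by
  have h1 : IsFld A ((-1 : ℝ) • t) := (Fld A).smul_mem _ ht
  have h2 : rho K P (s + (-1 : ℝ) • t) x = 0 := rho_zero_near K P fun i => by
    filter_upwards [h i] with y hy
    change s i y + (-1 : ℝ) • t i y = 0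
    rw [hy, neg_one_smul, add_neg_cancel]
  rw [rho_add K P hs h1, rho_smul K P _ ht] at h2
  linarith

/-- `ρ_s` for a field with compact support in a chart -/
theorem rho_of_supp (K : Kah A) (P : Part A) {s : A.ι → M → Matrix (Fin n) (Fin n) ℂ}
    (hs : IsFld A s) {i : A.ι} {C : Set M} (hC : IsCompact C) (hCi : C ⊆ (A.e i).source)
    (h0 : ∀ j, ∀ x ∉ C, s j x = 0) (x : M) :
    rho K P s x = (fr K i (dd A i (fun y => (K.g i y).det • s i y)) x).re := by
  set W : M → Matrix (Fin n) (Fin n) ℂ := fun y => (K.g i y).det • s i y with hW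
  have hWs : ∀ a b, A.SmAt i (fun x => W x a b) := fun a b =>
    smAt_mul (f := fun y => (K.g i y).det) (g := fun y => s i y a b) (smAt_det (K.sm i)) (hs.sm i a b)
  have hW0 : ∀ a b, Off A i (fun x => W x a b) C := by
    intro a b y _ hyC
    change (K.g i y).det * s i y a b = 0
    rw [h0 i y hyC]
    exact mul_zero _
  have hF := sm_fr K (smAt_dd hWs) hC hCi (off_dd hC.isClosed hW0)
  have hFr : A.Sm fun x => (fr K i (dd A i W) x).re := sm_re hF
  refine rho_unique K P hs (sm_continuous hFr) (fun u hu => ?_) x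
  have h1 : ∫ x, ((Lop s u x : ℝ) : ℂ) ∂(vm (volK K)) =
      ∫ x, fr K i (dd A i W) x * u x ∂(vm (volK K)) := by
    rw [integral_fr K (smAt_dd hWs) hC hCi (off_dd hC.isClosed hW0) (sm_ofReal hu),
      ← parts_W hWs (smAt_ofReal (hu i)) hC hCi hW0,
      int_chart (volK K) (i := i) (integrable_sm (volK K) (sm_ofReal (sm_Lop hs hu)))
        fun x hx => by
          rw [Lop, trF_zero fun j => h0 j x fun h => hx (hCi h), Complex.ofReal_zero]]
    refine lint_congr fun x hx => ?_
    rw [volK_w K i hx, Lop_ofReal hs hu hx, Finset.mul_sum]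
    refine Finset.sum_congr rfl fun a _ => ?_
    rw [Finset.mul_sum]
    refine Finset.sum_congr rfl fun b _ => ?_
    change _ = ((K.g i x).det * s i x a b) * _
    ring
  have h2 : ∫ x, ((Lop s u x : ℝ) : ℂ) ∂(vm (volK K)) =
      ((∫ x, Lop s u x ∂(vm (volK K)) : ℝ) : ℂ) := integral_complex_ofReal
  rw [h2] at h1
  have h3 := congrArg Complex.re h1
  rw [Complex.ofReal_re] at h3
  rw [h3]
  have h4 : ∫ x, (fr K i (dd A i W) x * u x).re ∂(vm (volK K)) =
      (∫ x, fr K i (dd A i W) x * u x ∂(vm (volK K))).re :=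
    integral_re (integrable_sm (volK K) (sm_mul hF (sm_ofReal hu)))
  rw [← h4]
  congr 1
  funext x
  rw [Complex.re_mul_ofReal, mul_comm]

/-- a smooth function which is `1` near `x₀` with compact support in a chart -/
theorem exists_bump_near {i : A.ι} {x₀ : M} (hi : x₀ ∈ (A.e i).source) {U : Set M}
    (hU : U ∈ 𝓝 x₀) :
    ∃ (φ : M → ℝ) (C : Set M), A.Sm φ ∧ (∀ x, 0 ≤ φ x) ∧ (∀ x, φ x ≤ 1) ∧
      (∀ᶠ x in 𝓝 x₀, φ x = 1) ∧ IsCompact C ∧
      C ⊆ (A.e i).source ∧ C ⊆ U ∧ ∀ x ∉ C, φ x = 0 := by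
  classical
  have hz := (A.e i).map_source hi
  have hc : Tendsto (A.e i).symm (𝓝 (A.e i x₀)) (𝓝 x₀) := by
    have := (A.e i).continuousAt_symm hz
    rw [ContinuousAt, (A.e i).left_inv hi] at this
    exact this
  obtain ⟨r, hr, hb⟩ := Metric.nhds_basis_closedBall.mem_iff.1
    (inter_mem ((A.e i).open_target.mem_nhds hz) (hc hU))
  let f : ContDiffBump (A.e i x₀) := ⟨r / 2, r, by positivity, by linarith⟩
  set C : Set M := (A.e i).symm '' Metric.closedBall (A.e i x₀) r with hC
  have hCc : IsCompact C := (isCompact_closedBall _ _).image_of_continuousOn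
    ((A.e i).continuousOn_symm.mono fun z hz => (hb hz).1)
  have hCU : C ⊆ U := by
    rintro _ ⟨z, hz, rfl⟩
    exact (hb hz).2
  have hCi : C ⊆ (A.e i).source := by
    rintro _ ⟨z, hz, rfl⟩
    exact (A.e i).map_target (hb hz).1
  have hoff : Off A i (fun x => f (A.e i x)) C := by
    intro x hx hxC
    by_contra h
    have h1 : A.e i x ∈ Function.support f := h
    rw [f.support_eq] at h1
    exact hxC ⟨A.e i x, Metric.ball_subset_closedBall h1, (A.e i).left_inv hx⟩
  have hsm : A.SmAt i (fun x => f (A.e i x)) := by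
    have h1 : ContDiffOn ℝ ∞ (fun z => f z) (A.e i).target := f.contDiff.contDiffOn
    refine h1.congr fun z hz => ?_
    change f (A.e i ((A.e i).symm z)) = f z
    rw [(A.e i).right_inv hz]
  refine ⟨cut A i (fun x => f (A.e i x)), C, sm_cut hsm hCc hCi hoff, fun x => ?_, fun x => ?_, ?_,
    hCc, hCi, hCU, fun x hx => cut_zero_off hoff hx⟩
  · by_cases h : x ∈ (A.e i).source
    · rw [cut_of_mem h]; exact f.nonneg
    · rw [cut_off h]
  · by_cases h : x ∈ (A.e i).source
    · rw [cut_of_mem h]; exact f.le_one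
    · rw [cut_off h]; exact zero_le_one
  · have h1 : ∀ᶠ x in 𝓝 x₀, A.e i x ∈ Metric.closedBall (A.e i x₀) (r / 2) :=
      ((A.e i).continuousAt hi).eventually (Metric.closedBall_mem_nhds _ (by positivity))
    filter_upwards [h1, (A.e i).open_source.mem_nhds hi] with x hx hxi
    rw [cut_of_mem hxi]
    exact f.one_of_mem_closedBall hx

/-- **the chart formula for `ρ_s`** -/
theorem rho_chart (K : Kah A) (P : Part A) {s : A.ι → M → Matrix (Fin n) (Fin n) ℂ}
    (hs : IsFld A s) {i : A.ι} {x : M} (hx : x ∈ (A.e i).source) :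
    rho K P s x = (dd A i (fun y => (K.g i y).det • s i y) x / (K.g i x).det).re := by
  obtain ⟨φ, C, hφ, -, -, hφ1, hC, hCi, -, hφC⟩ := exists_bump_near hx univ_mem
  have hfs := isFld_fs hφ hs
  have h0 : ∀ j, ∀ x ∉ C, fs φ s j x = 0 := by
    intro j y hy
    change ((φ y : ℝ) : ℂ) • s j y = 0
    rw [hφC y hy, Complex.ofReal_zero, zero_smul]
  have h1 : rho K P s x = rho K P (fs φ s) x := rho_near K P hs hfs fun j => by
    filter_upwards [hφ1] with y hy
    change s j y = ((φ y : ℝ) : ℂ) • s j y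
    rw [hy, Complex.ofReal_one, one_smul]
  rw [h1, rho_of_supp K P hfs hC hCi h0, fr_of_mem K hx]
  congr 2
  refine dd_congr hx ?_
  filter_upwards [hφ1] with y hy
  change (K.g i y).det • ((φ y : ℝ) : ℂ) • s i y = (K.g i y).det • s i y
  rw [hy, Complex.ofReal_one, one_smul]

/-! ### the fields `χ B / det g` -/

/-- the function `χ B / det g` in the chart `i` -/
def chW (K : Kah A) (i : A.ι) (χ : Cn n → ℝ) (B : Matrix (Fin n) (Fin n) ℂ) (x : M) :
    Matrix (Fin n) (Fin n) ℂ := ((χ (A.e i x) : ℂ) / (K.g i x).det) • B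

/-- the field `χ B / det g` of the chart `i` -/
def chF (K : Kah A) (i : A.ι) (χ : Cn n → ℝ) (B : Matrix (Fin n) (Fin n) ℂ) :
    A.ι → M → Matrix (Fin n) (Fin n) ℂ := exF A i (chW K i χ B)

/-- the support of `χ` in `M` -/
def cs (i : A.ι) (χ : Cn n → ℝ) : Set M := (A.e i).symm '' tsupport χ

theorem isCompact_cs {i : A.ι} {χ : Cn n → ℝ} (hc : HasCompactSupport χ)
    (ht : tsupport χ ⊆ (A.e i).target) : IsCompact (cs i χ : Set M) :=
  IsCompact.image_of_continuousOn hc ((A.e i).continuousOn_symm.mono ht)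

theorem cs_sub {i : A.ι} {χ : Cn n → ℝ} (ht : tsupport χ ⊆ (A.e i).target) :
    cs i χ ⊆ (A.e i).source := by
  rintro _ ⟨z, hz, rfl⟩
  exact (A.e i).map_target (ht hz)

theorem chi_off {i : A.ι} {χ : Cn n → ℝ} {x : M} (hx : x ∈ (A.e i).source)
    (hxC : x ∉ (cs i χ : Set M)) : χ (A.e i x) = 0 := by
  by_contra h
  exact hxC ⟨A.e i x, subset_tsupport _ h, (A.e i).left_inv hx⟩


theorem off_chW (K : Kah A) {i : A.ι} {χ : Cn n → ℝ} (B : Matrix (Fin n) (Fin n) ℂ) :
    Off A i (chW K i χ B) (cs i χ) := by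
  intro x hx hxC
  unfold chW
  rw [chi_off hx hxC, Complex.ofReal_zero, zero_div, zero_smul]

theorem smAt_chi {i : A.ι} {χ : Cn n → ℝ} (hχ : ContDiff ℝ ∞ χ) :
    A.SmAt i (fun x => χ (A.e i x)) := by
  have h1 : ContDiffOn ℝ ∞ (fun z => χ z) (A.e i).target := hχ.contDiffOn
  refine h1.congr fun z hz => ?_
  change χ (A.e i ((A.e i).symm z)) = χ z
  rw [(A.e i).right_inv hz]

theorem smAt_chW (K : Kah A) {i : A.ι} {χ : Cn n → ℝ} (hχ : ContDiff ℝ ∞ χ)
    (B : Matrix (Fin n) (Fin n) ℂ) (a b : Fin n) : A.SmAt i (fun x => chW K i χ B x a b) := by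
  have h1 : A.SmAt i (fun x => ((χ (A.e i x) : ℂ) / (K.g i x).det) * B a b) :=
    smAt_mul (smAt_div K (smAt_ofReal (smAt_chi hχ))) contDiffOn_const
  exact h1

theorem det_conj (K : Kah A) {i : A.ι} {x : M} (hx : x ∈ (A.e i).source) :
    conj (K.g i x).det = (K.g i x).det := by
  rw [← det_map_conj]
  have h1 : (K.g i x).map conj = (K.g i x)ᵀ := by
    have := (K.pos i x hx).1
    ext a b
    have h2 : (K.g i x)ᴴ b a = (K.g i x) b a := by rw [this.eq]
    exact h2
  rw [h1, Matrix.det_transpose]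

theorem det_re (K : Kah A) {i : A.ι} {x : M} (hx : x ∈ (A.e i).source) :
    (((K.g i x).det.re : ℝ) : ℂ) = (K.g i x).det :=
  Complex.conj_eq_iff_re.1 (det_conj K hx)

theorem det_re_pos (K : Kah A) {i : A.ι} {x : M} (hx : x ∈ (A.e i).source) :
    0 < (K.g i x).det.re := by
  have h1 := (K.pos i x hx).det_pos
  rw [← det_re K hx] at h1
  exact_mod_cast h1

theorem chW_re (K : Kah A) {i : A.ι} (χ : Cn n → ℝ) (B : Matrix (Fin n) (Fin n) ℂ) {x : M}
    (hx : x ∈ (A.e i).source) :
    chW K i χ B x = ((χ (A.e i x) / (K.g i x).det.re : ℝ) : ℂ) • B := by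
  unfold chW
  rw [Complex.ofReal_div, det_re K hx]

theorem chW_herm (K : Kah A) {i : A.ι} (χ : Cn n → ℝ) {B : Matrix (Fin n) (Fin n) ℂ}
    (hB : B.IsHermitian) {x : M} (hx : x ∈ (A.e i).source) : (chW K i χ B x).IsHermitian := by
  rw [chW_re K χ B hx]
  unfold Matrix.IsHermitian
  rw [Matrix.conjTranspose_smul, hB.eq]
  congr 1
  exact Complex.conj_ofReal _

theorem isFld_chF (K : Kah A) {i : A.ι} {χ : Cn n → ℝ} (hχ : ContDiff ℝ ∞ χ)
    (hc : HasCompactSupport χ) (ht : tsupport χ ⊆ (A.e i).target)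
    {B : Matrix (Fin n) (Fin n) ℂ} (hB : B.IsHermitian) : IsFld A (chF K i χ B) :=
  isFld_exF (smAt_chW K hχ B) (fun _ hx => chW_herm K χ hB hx) (isCompact_cs hc ht) (cs_sub ht)
    (off_chW K B)

theorem chF_off (K : Kah A) {i j : A.ι} {χ : Cn n → ℝ} (B : Matrix (Fin n) (Fin n) ℂ) {x : M}
    (hx : x ∉ (cs i χ : Set M)) : chF K i χ B j x = 0 := exF_off (off_chW K B) hx

theorem chF_self (K : Kah A) {i : A.ι} (χ : Cn n → ℝ) (B : Matrix (Fin n) (Fin n) ℂ) {x : M}
    (hx : x ∈ (A.e i).source) :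
    chF K i χ B i x = ((χ (A.e i x) / (K.g i x).det.re : ℝ) : ℂ) • B := by
  unfold chF
  rw [exF_self _ hx, chW_re K χ B hx]







theorem wd_cm (c : ℂ) {f : Cn n → ℂ} {z : Cn n} (hf : DifferentiableAt ℝ f z) (s : WI n) :
    wd s (fun w => c * f w) z = c * wd s f z := by
  rw [wd_mul (differentiableAt_const c) hf s]
  have : wd s (fun _ : Cn n => c) z = 0 := by
    obtain ⟨b, a⟩ := s
    cases b <;> simp [wd, wdL]
  rw [this, zero_mul, zero_add]

/-- `∑ ∂̄_b ∂_a (χ B_{ab}) = ∑ B_{ab} ∂_a ∂̄_b χ` -/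
theorem dd_chi {i : A.ι} {χ : Cn n → ℝ} (hχ : ContDiff ℝ ∞ χ) (B : Matrix (Fin n) (Fin n) ℂ)
    {x : M} (hx : x ∈ (A.e i).source) :
    dd A i (fun y => (χ (A.e i y) : ℂ) • B) x = ∑ a, ∑ b, B a b * hess χ (A.e i x) a b := by
  unfold dd
  refine Finset.sum_congr rfl fun a _ => Finset.sum_congr rfl fun b _ => ?_
  have hz := (A.e i).map_source hx
  have hr : (fun z => (((χ (A.e i ((A.e i).symm z)) : ℂ) • B) a b)) =ᶠ[𝓝 (A.e i x)]
      fun z => B a b * cu χ z := by
    filter_upwards [(A.e i).open_target.mem_nhds hz] with z hz'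
    rw [(A.e i).right_inv hz', Matrix.smul_apply, smul_eq_mul, mul_comm]
    rfl
  have h1 := db_read (A := A) (dl A i a (fun y => ((χ (A.e i y) : ℂ) • B) a b)) i b hz
  rw [(A.e i).left_inv hx] at h1
  rw [h1]
  have h2 : (fun w => dl A i a (fun y => ((χ (A.e i y) : ℂ) • B) a b) ((A.e i).symm w))
      =ᶠ[𝓝 (A.e i x)] wd (false, a) (fun z => B a b * cu χ z) := by
    filter_upwards [(A.e i).open_target.mem_nhds hz, hr.eventually_nhds] with w hw hw'
    rw [dl_read _ i a hw]
    exact wd_congr hw' _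
  have hcu : ∀ w, ContDiffAt ℝ ∞ (cu χ) w := fun w => contDiffAt_cu hχ.contDiffAt
  have h3 : wd (false, a) (fun z => B a b * cu χ z) = fun w => B a b * wd (false, a) (cu χ) w := by
    funext w
    exact wd_cm (B a b) ((hcu w).differentiableAt (by simp)) _
  rw [wd_congr h2, h3, wd_cm (B a b) ((contDiffAt_wd (hcu _) _).differentiableAt (by simp)),
    wd_comm (hcu _)]
  rfl

/-- **`ρ` of a chart field** -/
theorem rho_chF (K : Kah A) (P : Part A) {i : A.ι} {χ : Cn n → ℝ} (hχ : ContDiff ℝ ∞ χ)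
    (hc : HasCompactSupport χ) (ht : tsupport χ ⊆ (A.e i).target)
    {B : Matrix (Fin n) (Fin n) ℂ} (hB : B.IsHermitian) {x : M} (hx : x ∈ (A.e i).source) :
    rho K P (chF K i χ B) x =
      (∑ a, ∑ b, B a b * hess χ (A.e i x) a b).re / (K.g i x).det.re := by
  rw [rho_chart K P (isFld_chF K hχ hc ht hB) hx]
  have h1 : (fun y => (K.g i y).det • chF K i χ B i y) =ᶠ[𝓝 x] fun y => (χ (A.e i y) : ℂ) • B := by
    filter_upwards [(A.e i).open_source.mem_nhds hx] with y hy
    have hd := K_det_ne K hy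
    unfold chF
    rw [exF_self _ hy]
    unfold chW
    rw [smul_smul, mul_div_cancel₀ _ hd]
  rw [dd_congr hx h1, dd_chi hχ B hx, ← det_re K hx, Complex.div_ofReal_re, Complex.ofReal_re]

theorem rho_chF_not (K : Kah A) (P : Part A) {i : A.ι} {χ : Cn n → ℝ}
    (hc : HasCompactSupport χ) (ht : tsupport χ ⊆ (A.e i).target)
    (B : Matrix (Fin n) (Fin n) ℂ) {x : M} (hx : x ∉ (A.e i).source) :
    rho K P (chF K i χ B) x = 0 := by
  have hC : IsClosed (cs i χ : Set M) := (isCompact_cs hc ht).isClosed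
  refine rho_zero_near K P fun j => ?_
  filter_upwards [hC.isOpen_compl.mem_nhds fun h => hx (cs_sub ht h)] with y hy
  exact chF_off K B hy

end meas

end

end Crest.Agent.R269.AdjLoc_851
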