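import Mathlib
import Crest.Prelude.Def_ProjPluricanonical
import Crest.Agent.R269.GeoDefs_328

/-!
# R269 (S0411): frozen Level-A definitions and the red theorem (helper58, captain)

Everything is AMBIENT: functions and fields live on `EE N = Fin (N+1) → ℂ` and are only used at the points
of `Cone I` (nonzero points of the affine cone).  No atlas appears here.

* `lev φ p v`    : Levi form `(D²φ(v,v) + D²φ(iv,iv)) / 4` (R273's `lev` is 4 times this);
* `omg p v`      : Fubini-Study form `(|p|²|v|² - |⟨v,p⟩|²)/|p|⁴` (= 164's `fsSq`) = `lev log|·|²`;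
* `wedgeSq w`    : `|w_1 ∧ ... ∧ w_m|²` (Gram determinant);
* `DD p b`       : `|p ∧ b_1 ∧ ... ∧ b_n|² / |p|^(2(n+1))` = `det (g(b_i,b_j))`;
* `alpha I n p v`: curvature form of `K_X` for the metric `DD`;
* `SmX I u`      : smooth function on `X`;   `PosField I n a`: smooth Hermitian metric on `T*X`,
                   `Rep I a p b` = "the frame `b` represents `a` at `p`", `a(p) = ∑ b_i b_i^*`;
* `HolSec I n m j S` : `S` is a holomorphic section of `m K_X + j A` (`A = O(1)`),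
                   `|s|² = |S p b|² |p|^(-2j) / (DD p b)^m`;
* `TP, SolvP, MAP, BigP, TDelP, PosP` : the disc-free interfaces between the parts;
* `of_all`       : the seven parts give `IsCanonicallyAmple`.
-/

set_option autoImplicit false

open MvPolynomial Crest.AlgGeometry.ProjEmb Crest.Agent.R269.Geo_328
open scoped ContDiff Topology ComplexConjugate

namespace Crest.Agent.R269.Defs_58

noncomputable section

/-- Levi form of `φ` at `p` in the direction `v`: `(D²φ(v,v) + D²φ(iv,iv)) / 4`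
`= ∂_w ∂_w̄ φ(F w)|₀` for holomorphic `F` with `F 0 = p`, `F' 0 = v`. -/
def lev {ι : Type} [Fintype ι] (φ : (ι → ℂ) → ℝ) (p v : ι → ℂ) : ℝ :=
  (iteratedFDeriv ℝ 2 φ p ![v, v] + iteratedFDeriv ℝ 2 φ p ![Complex.I • v, Complex.I • v]) / 4

/-- Fubini-Study form (`= fsSq` of helper164). -/
def omg {ι : Type} [Fintype ι] (p v : ι → ℂ) : ℝ :=
  ((∑ i, ‖p i‖ ^ 2) * (∑ i, ‖v i‖ ^ 2) - ‖∑ i, v i * conj (p i)‖ ^ 2) / (∑ i, ‖p i‖ ^ 2) ^ 2

variable {N : ℕ}

/-- `|w_1 ∧ ... ∧ w_m|²` as a Gram determinant -/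
def wedgeSq {m : ℕ} (w : Fin m → EE N) : ℝ :=
  (Matrix.of fun i j : Fin m => ∑ k, w i k * conj (w j k)).det.re

/-- `det (g(b_i, b_j))`, `g` the Fubini-Study metric, as a function of lifts -/
def DD {n : ℕ} (p : EE N) (b : Fin n → EE N) : ℝ :=
  wedgeSq (Fin.cons p b : Fin (n + 1) → EE N) / nsq p ^ (n + 1)

/-- `G_1, ..., G_(N-n) ∈ I` with linearly independent gradients at `p` -/
def IndepAt (I : Ideal (HomCoordRing N)) (n : ℕ) (p : EE N) (G : Fin (N - n) → HomCoordRing N) :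
    Prop :=
  (∀ k, G k ∈ I) ∧ LinearIndependent ℂ (fun k => gradP (G k) p)

open Classical in
/-- curvature form of the canonical bundle for the metric induced by `g`:
`L log |dG_1 ∧ ... ∧ dG_(N-n)|² - (n+1) ω` (on `Tan I p`, independent of `G`) -/
def alpha (I : Ideal (HomCoordRing N)) (n : ℕ) (p v : EE N) : ℝ :=
  if h : ∃ G, IndepAt I n p G then
    lev (fun q => Real.log (wedgeSq fun k => gradP (h.choose k) q)) p v - (n + 1) * omg p v
  else 0

/-- smooth functions on `X` -/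
def SmX (I : Ideal (HomCoordRing N)) (u : EE N → ℝ) : Prop :=
  (∀ p ∈ Cone I, ContDiffAt ℝ ∞ u p) ∧ ∀ p ∈ Cone I, ∀ c : ℂ, c ≠ 0 → u (c • p) = u p

/-- all members of the family are tangent to the cone at `p` -/
def TanFam (I : Ideal (HomCoordRing N)) {n : ℕ} (p : EE N) (b : Fin n → EE N) : Prop :=
  ∀ i, b i ∈ Tan I p

/-- the horizontal tangent frame `b` represents the Hermitian tensor `a(p)`: `a(p) = ∑ b_i b_i^*` -/
def Rep (I : Ideal (HomCoordRing N)) {n : ℕ} (a : EE N → VV N) (p : EE N) (b : Fin n → EE N) :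
    Prop :=
  TanFam I p b ∧ (∀ i, ∑ k, b i k * conj (p k) = 0) ∧
    ∀ j k, a p j k = ∑ i, b i j * conj (b i k)

/-- smooth positive field: a smooth Hermitian metric on the cotangent bundle of `X` -/
structure PosField (I : Ideal (HomCoordRing N)) (n : ℕ) (a : EE N → VV N) : Prop where
  smooth : ∀ p ∈ Cone I, ContDiffAt ℝ ∞ a p
  hom : ∀ p ∈ Cone I, ∀ c : ℂ, c ≠ 0 → a (c • p) = ((‖c‖ ^ 2 : ℝ) : ℂ) • a p
  rep : ∀ p ∈ Cone I, ∃ b : Fin n → EE N, Rep I a p b ∧ 0 < DD p b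

/-- holomorphic sections of `m K_X + j A`, `A = O(1)`, as functions of `(p; b_1, ..., b_n)` -/
structure HolSec (I : Ideal (HomCoordRing N)) (n m : ℕ) (j : ℤ)
    (S : EE N → (Fin n → EE N) → ℂ) : Prop where
  hom : ∀ p ∈ Cone I, ∀ b, TanFam I p b → ∀ c : ℂ, c ≠ 0 →
    S (c • p) (fun i => c • b i) = c ^ j * S p b
  mix : ∀ p ∈ Cone I, ∀ b, TanFam I p b → ∀ (M : Matrix (Fin n) (Fin n) ℂ) (r : Fin n → ℂ),
    S p (fun i => (∑ k, M i k • b k) + r i • p) = M.det ^ m * S p b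
  hol : ∀ (d : ℕ) (F : (Fin d → ℂ) → EE N) (b : Fin n → (Fin d → ℂ) → EE N) (z₀ : Fin d → ℂ),
    AnalyticAt ℂ F z₀ → (∀ i, AnalyticAt ℂ (b i) z₀) →
    (∀ᶠ z in 𝓝 z₀, F z ∈ Cone I ∧ TanFam I (F z) (fun i => b i z)) →
    AnalyticAt ℂ (fun z => S (F z) (fun i => b i z)) z₀

/-! ### the disc-free interfaces -/

/-- (T) = (6.3) of the blueprint -/
def TP (I : Ideal (HomCoordRing N)) (n : ℕ) : Prop :=
  ∃ c₀ : ℝ, 0 < c₀ ∧ ∃ lam : ℝ, 0 < lam ∧ ∀ e : ℝ, 0 ≤ e → ∀ a, PosField I n a → ∀ u, SmX I u →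
    (∀ p ∈ Cone I, ∀ b : Fin n → EE N, Rep I a p b →
      ∑ i, (alpha I n p (b i) + e * omg p (b i) + lev u p (b i)) ≤
        (n * c₀ + lam * u p) * DD p b ^ ((n : ℝ)⁻¹)) →
    ∀ p ∈ Cone I, 0 ≤ u p


/-- (9.5): `α + e ω + L φ > 0` with determinant bounded below independently of `e`
(linear form; it implies positivity and `det_g ≥ c₁^n`) -/
def MAP (I : Ideal (HomCoordRing N)) (n : ℕ) : Prop :=
  ∃ c₁ : ℝ, 0 < c₁ ∧ ∀ e : ℝ, 0 < e → ∃ φ, SmX I φ ∧ ∀ p ∈ Cone I, ∀ b : Fin n → EE N,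
    TanFam I p b → n * c₁ * DD p b ^ ((n : ℝ)⁻¹) ≤
      ∑ i, (alpha I n p (b i) + e * omg p (b i) + lev φ p (b i))

/-- (10.3): a holomorphic section of `m K_X - A` which is nonzero on a dense subset of `X`
(dense, so that no connectedness of `X` is ever needed: for an algebraic section this is Krull) -/
def BigP (I : Ideal (HomCoordRing N)) (n : ℕ) : Prop :=
  ∃ m : ℕ, 1 ≤ m ∧ ∃ S, HolSec I n m (-1) S ∧
    ∀ p ∈ Cone I, ∃ᶠ q in 𝓝 p, q ∈ Cone I ∧ ∃ b, TanFam I q b ∧ S q b ≠ 0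

/-- (T_δ) = (11.3) with `t = 1 + δ m₁` -/
def TDelP (I : Ideal (HomCoordRing N)) (n : ℕ) : Prop :=
  ∃ t : ℝ, 1 ≤ t ∧ ∃ δ : ℝ, 0 < δ ∧ ∃ C : ℝ, ∀ a, PosField I n a → ∀ u, SmX I u →
    (∀ p ∈ Cone I, ∀ b : Fin n → EE N, Rep I a p b →
      ∑ i, (t * alpha I n p (b i) - δ * omg p (b i) + lev u p (b i)) ≤ u p) →
    ∀ p ∈ Cone I, -C ≤ u p

/-- (12.2): `K_X` has a smooth metric with positive curvature -/
def PosP (I : Ideal (HomCoordRing N)) (n : ℕ) : Prop :=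
  ∃ φ, SmX I φ ∧ ∀ p ∈ Cone I, ∀ v ∈ Tan I p, (∀ c : ℂ, v ≠ c • p) →
    0 < alpha I n p v + lev φ p v

/-! ### the parts as statements -/

/-- Parts 1-6 (both disc lines deliver this) -/
def TStmt : Prop := ∀ (N n : ℕ) (I : Ideal (HomCoordRing N)), I.IsPrime →
  IsSmoothProjective I n → 1 ≤ n → EntireCurvesConstant I → TP I n



/-- Part 10 -/
def BigStmt : Prop := ∀ (N n : ℕ) (I : Ideal (HomCoordRing N)), I.IsPrime →
  IsSmoothProjective I n → 1 ≤ n → MAP I n → BigP I n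

/-- Part 11 -/
def TDelStmt : Prop := ∀ (N n : ℕ) (I : Ideal (HomCoordRing N)), I.IsPrime →
  IsSmoothProjective I n → 1 ≤ n → EntireCurvesConstant I → BigP I n → TDelP I n


/-- Part 13 -/
def AmpStmt : Prop := ∀ (N n : ℕ) (I : Ideal (HomCoordRing N)) [I.IsPrime],
  IsSmoothProjective I n → 1 ≤ n → PosP I n → IsCanonicallyAmple I n


/-! ### shapes of the basic dictionary lemmas (owners: ALPHA, LEV) -/

/-- a holomorphic map into the cone near `z₀` -/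
def HolAtCone (I : Ideal (HomCoordRing N)) {ι : Type} [Fintype ι] (F : (ι → ℂ) → EE N)
    (z₀ : ι → ℂ) : Prop :=
  AnalyticAt ℂ F z₀ ∧ ∀ᶠ z in 𝓝 z₀, F z ∈ Cone I


/-- `lev u p v` (`v` tangent to the cone) only depends on `u` on the cone -/
def LevConeStmt : Prop := ∀ (N n : ℕ) (I : Ideal (HomCoordRing N)), I.IsPrime →
  IsSmoothProjective I n → ∀ (u u' : EE N → ℝ), ∀ p ∈ Cone I, ContDiffAt ℝ ∞ u p →
    ContDiffAt ℝ ∞ u' p → (∀ᶠ q in 𝓝 p, q ∈ Cone I → u q = u' q) → ∀ v ∈ Tan I p,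
    lev u p v = lev u' p v


/-- `α = L log DD(F, b)` along holomorphic families -/
def AlphaFamStmt : Prop := ∀ (N n : ℕ) (I : Ideal (HomCoordRing N)), I.IsPrime →
  IsSmoothProjective I n → ∀ (d : ℕ) (F : (Fin d → ℂ) → EE N) (b : Fin n → (Fin d → ℂ) → EE N)
    (z₀ x : Fin d → ℂ), HolAtCone I F z₀ → (∀ i, AnalyticAt ℂ (b i) z₀) →
    (∀ᶠ z in 𝓝 z₀, TanFam I (F z) (fun i => b i z)) → 0 < DD (F z₀) (fun i => b i z₀) →
    lev (fun z => Real.log (DD (F z) (fun i => b i z))) z₀ x =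
      alpha I n (F z₀) (fderiv ℂ F z₀ x)


/-- `|α| ≤ C ω` on tangent vectors -/
def AlphaBddStmt : Prop := ∀ (N n : ℕ) (I : Ideal (HomCoordRing N)), I.IsPrime →
  IsSmoothProjective I n → ∃ C : ℝ, ∀ p ∈ Cone I, ∀ v ∈ Tan I p, |alpha I n p v| ≤ C * omg p v

end

end Crest.Agent.R269.Defs_58
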