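import Mathlib

/-! Levi calculus for real functions on complex normed spaces (row 269, leaf 11.1, helper653).
`lev u x v = (1/4)(D²u(v,v) + D²u(iv,iv))`, `gsq u x v = (1/4)((Du v)² + (Du(iv))²) = |∂u(v)|²`. -/

set_option autoImplicit false

open Complex Filter Topology

namespace Crest.Agent.R269.LevC_653

variable {E : Type*} [NormedAddCommGroup E] [NormedSpace ℂ E]

/-- The Levi form. -/
noncomputable def lev (u : E → ℝ) (x v : E) : ℝ :=
  (fderiv ℝ (fderiv ℝ u) x v v + fderiv ℝ (fderiv ℝ u) x (I • v) (I • v)) / 4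

/-- The mixed form `Re ∂u(v) conj ∂w(v)`. -/
noncomputable def gmul (u w : E → ℝ) (x v : E) : ℝ :=
  (fderiv ℝ u x v * fderiv ℝ w x v + fderiv ℝ u x (I • v) * fderiv ℝ w x (I • v)) / 4

/-- `|∂u(v)|²`. -/
noncomputable def gsq (u : E → ℝ) (x v : E) : ℝ := gmul u u x v

theorem gsq_eq (u : E → ℝ) (x v : E) :
    gsq u x v = ((fderiv ℝ u x v) ^ 2 + (fderiv ℝ u x (I • v)) ^ 2) / 4 := by
  unfold gsq gmul; ring

theorem gsq_nonneg (u : E → ℝ) (x v : E) : 0 ≤ gsq u x v := by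
  rw [gsq_eq]; positivity

theorem gmul_sq_le (u w : E → ℝ) (x v : E) : gmul u w x v ^ 2 ≤ gsq u x v * gsq w x v := by
  rw [gsq_eq, gsq_eq]; unfold gmul
  nlinarith [sq_nonneg (fderiv ℝ u x v * fderiv ℝ w x (I • v) - fderiv ℝ u x (I • v) * fderiv ℝ w x v)]


theorem lev_congr {u w : E → ℝ} {x : E} (h : u =ᶠ[𝓝 x] w) (v : E) : lev u x v = lev w x v := by
  unfold lev
  rw [(h.fderiv (𝕜 := ℝ)).fderiv_eq]

theorem gmul_congr {u u' w w' : E → ℝ} {x : E} (h : u =ᶠ[𝓝 x] u') (h' : w =ᶠ[𝓝 x] w') (v : E) :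
    gmul u w x v = gmul u' w' x v := by
  unfold gmul
  rw [h.fderiv_eq, h'.fderiv_eq]

theorem gsq_congr {u w : E → ℝ} {x : E} (h : u =ᶠ[𝓝 x] w) (v : E) : gsq u x v = gsq w x v :=
  gmul_congr h h v

section cal

variable {u w : E → ℝ} {x : E}

theorem diff1 (hu : ContDiffAt ℝ 2 u x) : DifferentiableAt ℝ u x :=
  hu.differentiableAt (by norm_num)

theorem diff2 (hu : ContDiffAt ℝ 2 u x) : DifferentiableAt ℝ (fderiv ℝ u) x :=
  (hu.fderiv_right (m := 1) (by norm_num)).differentiableAt (by norm_num)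

theorem ev1 (hu : ContDiffAt ℝ 2 u x) : ∀ᶠ y in 𝓝 x, DifferentiableAt ℝ u y := by
  filter_upwards [hu.eventually (by norm_num)] with y hy using diff1 hy

theorem lev_add (hu : ContDiffAt ℝ 2 u x) (hw : ContDiffAt ℝ 2 w x) (v : E) :
    lev (fun y => u y + w y) x v = lev u x v + lev w x v := by
  have h1 : fderiv ℝ (fun y => u y + w y) =ᶠ[𝓝 x] fun y => fderiv ℝ u y + fderiv ℝ w y := by
    filter_upwards [ev1 hu, ev1 hw] with y h1 h2 using fderiv_fun_add h1 h2
  unfold lev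
  rw [h1.fderiv_eq, fderiv_fun_add (diff2 hu) (diff2 hw)]
  simp only [add_apply]
  ring

theorem lev_const_mul (c : ℝ) (hu : ContDiffAt ℝ 2 u x) (v : E) :
    lev (fun y => c * u y) x v = c * lev u x v := by
  have h1 : fderiv ℝ (fun y => c * u y) =ᶠ[𝓝 x] fun y => c • fderiv ℝ u y := by
    filter_upwards [ev1 hu] with y h1 using by
      rw [fderiv_const_mul h1]
  unfold lev
  rw [h1.fderiv_eq, fderiv_fun_const_smul (diff2 hu)]
  simp only [smul_apply, smul_eq_mul]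
  ring

theorem lev_const (c : ℝ) (v : E) : lev (fun _ : E => c) x v = 0 := by
  unfold lev
  simp

theorem lev_mul (hu : ContDiffAt ℝ 2 u x) (hw : ContDiffAt ℝ 2 w x) (v : E) :
    lev (fun y => u y * w y) x v
      = u x * lev w x v + w x * lev u x v + 2 * gmul u w x v := by
  have h1 : fderiv ℝ (fun y => u y * w y) =ᶠ[𝓝 x]
      fun y => u y • fderiv ℝ w y + w y • fderiv ℝ u y := by
    filter_upwards [ev1 hu, ev1 hw] with y h1 h2 using fderiv_fun_mul h1 h2
  unfold lev gmul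
  have h2 : HasFDerivAt (fun y => u y • fderiv ℝ w y + w y • fderiv ℝ u y)
      ((u x • fderiv ℝ (fderiv ℝ w) x + (fderiv ℝ u x).smulRight (fderiv ℝ w x))
        + (w x • fderiv ℝ (fderiv ℝ u) x + (fderiv ℝ w x).smulRight (fderiv ℝ u x))) x :=
    ((diff1 hu).hasFDerivAt.smul (diff2 hw).hasFDerivAt).add
      ((diff1 hw).hasFDerivAt.smul (diff2 hu).hasFDerivAt)
  rw [h1.fderiv_eq, h2.fderiv]
  simp only [add_apply, smul_apply,
    ContinuousLinearMap.smulRight_apply, smul_eq_mul]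
  ring


/-- chain rule. -/
theorem lev_comp {F : ℝ → ℝ} (hF : ContDiffAt ℝ 2 F (u x)) (hu : ContDiffAt ℝ 2 u x) (v : E) :
    lev (fun y => F (u y)) x v
      = deriv F (u x) * lev u x v + deriv (deriv F) (u x) * gsq u x v := by
  have hF' : ∀ᶠ y in 𝓝 x, DifferentiableAt ℝ F (u y) := by
    have := hF.eventually (by norm_num)
    have h2 := hu.continuousAt.eventually this
    filter_upwards [h2] with y hy using hy.differentiableAt (by norm_num)
  have h1 : fderiv ℝ (fun y => F (u y)) =ᶠ[𝓝 x] fun y => deriv F (u y) • fderiv ℝ u y := by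
    filter_upwards [ev1 hu, hF'] with y h1 h2
    have := h2.hasDerivAt.comp_hasFDerivAt y h1.hasFDerivAt
    exact this.fderiv
  have hF2 : HasDerivAt (deriv F) (deriv (deriv F) (u x)) (u x) := by
    have h4 : DifferentiableAt ℝ (fun y => fderiv ℝ F y 1) (u x) :=
      ((hF.fderiv_right (m := 1) (by norm_num)).differentiableAt (by norm_num)).clm_apply
        (differentiableAt_const 1)
    exact h4.hasDerivAt
  have h3 : HasFDerivAt (fun y => deriv F (u y)) (deriv (deriv F) (u x) • fderiv ℝ u x) x :=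
    hF2.comp_hasFDerivAt x (diff1 hu).hasFDerivAt
  unfold lev
  rw [h1.fderiv_eq, fderiv_fun_smul h3.differentiableAt (diff2 hu), h3.fderiv, gsq_eq]
  simp only [add_apply, smul_apply,
    ContinuousLinearMap.smulRight_apply, smul_eq_mul]
  ring

theorem gsq_comp {F : ℝ → ℝ} (hF : DifferentiableAt ℝ F (u x)) (hu : DifferentiableAt ℝ u x) (v : E) :
    gsq (fun y => F (u y)) x v = deriv F (u x) ^ 2 * gsq u x v := by
  have h := (hF.hasDerivAt.comp_hasFDerivAt x hu.hasFDerivAt).fderiv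
  rw [gsq_eq, gsq_eq]
  have h' : fderiv ℝ (fun y => F (u y)) x = deriv F (u x) • fderiv ℝ u x := h
  rw [h']
  simp only [smul_apply, smul_eq_mul]
  ring

end cal

section hol

variable {h : E → ℂ} {x : E}

theorem hol_fderiv (l : ℂ →L[ℝ] ℝ) (hh : DifferentiableAt ℂ h x) (v : E) :
    fderiv ℝ (fun y => l (h y)) x v = l (fderiv ℂ h x v) := by
  have h1 : HasFDerivAt (fun y => l (h y)) (l.comp ((fderiv ℂ h x).restrictScalars ℝ)) x :=
    l.hasFDerivAt.comp x (hh.hasFDerivAt.restrictScalars ℝ)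
  rw [h1.fderiv]
  rfl

theorem hol_ev (hh : AnalyticAt ℂ h x) : ∀ᶠ y in 𝓝 x, DifferentiableAt ℂ h y := by
  filter_upwards [hh.eventually_analyticAt] with y hy using hy.differentiableAt

theorem hol_contDiffAt (l : ℂ →L[ℝ] ℝ) (hh : AnalyticAt ℂ h x) :
    ContDiffAt ℝ 2 (fun y => l (h y)) x :=
  l.contDiff.contDiffAt.comp x (hh.contDiffAt.restrict_scalars ℝ)

theorem hol_fderiv2 (l : ℂ →L[ℝ] ℝ) (hh : AnalyticAt ℂ h x) (v w : E) :
    fderiv ℝ (fderiv ℝ (fun y => l (h y))) x v w = l (fderiv ℂ (fderiv ℂ h) x v w) := by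
  have h2 : DifferentiableAt ℂ (fderiv ℂ h) x := hh.fderiv.differentiableAt
  have h1 : HasFDerivAt (fun y => fderiv ℂ h y w) ((fderiv ℂ (fderiv ℂ h) x).flip w) x := by
    have := h2.hasFDerivAt.clm_apply (hasFDerivAt_const w x)
    have e : (fderiv ℂ (fderiv ℂ h) x).flip w
        = (fderiv ℂ h x).comp (0 : E →L[ℂ] E) + (fderiv ℂ (fderiv ℂ h) x).flip w := by
      ext z
      simp
    rw [e]
    exact this
  have h3 : HasFDerivAt (fun y => l (fderiv ℂ h y w))
      (l.comp (((fderiv ℂ (fderiv ℂ h) x).flip w).restrictScalars ℝ)) x :=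
    l.hasFDerivAt.comp x (h1.restrictScalars ℝ)
  have h4 : (fun y => fderiv ℝ (fun y => l (h y)) y w) =ᶠ[𝓝 x] fun y => l (fderiv ℂ h y w) := by
    filter_upwards [hol_ev hh] with y hy using hol_fderiv l hy w
  have h5 := (diff2 (hol_contDiffAt l hh)).hasFDerivAt.clm_apply (hasFDerivAt_const w x)
  have h6 : fderiv ℝ (fun y => fderiv ℝ (fun y => l (h y)) y w) x v
      = fderiv ℝ (fderiv ℝ (fun y => l (h y))) x v w := by
    rw [h5.fderiv]
    simp
  rw [← h6, h4.fderiv_eq, h3.fderiv]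
  rfl

theorem lev_hol (l : ℂ →L[ℝ] ℝ) (hh : AnalyticAt ℂ h x) (v : E) :
    lev (fun y => l (h y)) x v = 0 := by
  unfold lev
  have e : fderiv ℂ (fderiv ℂ h) x (I • v) (I • v) = - fderiv ℂ (fderiv ℂ h) x v v := by
    rw [map_smul, map_smul, smul_apply, smul_smul, I_mul_I, neg_one_smul]
  rw [hol_fderiv2 l hh, hol_fderiv2 l hh, e, map_neg]
  simp

theorem gsq_re (hh : DifferentiableAt ℂ h x) (v : E) :
    gsq (fun y => (h y).re) x v = ‖fderiv ℂ h x v‖ ^ 2 / 4 := by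
  have e1 : fderiv ℝ (fun y => (h y).re) x v = (fderiv ℂ h x v).re := hol_fderiv reCLM hh v
  have e2 : fderiv ℝ (fun y => (h y).re) x (I • v) = (fderiv ℂ h x (I • v)).re :=
    hol_fderiv reCLM hh _
  rw [gsq_eq, e1, e2, map_smul, Complex.sq_norm, Complex.normSq_apply]
  simp
  ring

theorem gsq_im (hh : DifferentiableAt ℂ h x) (v : E) :
    gsq (fun y => (h y).im) x v = ‖fderiv ℂ h x v‖ ^ 2 / 4 := by
  have e1 : fderiv ℝ (fun y => (h y).im) x v = (fderiv ℂ h x v).im := hol_fderiv imCLM hh v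
  have e2 : fderiv ℝ (fun y => (h y).im) x (I • v) = (fderiv ℂ h x (I • v)).im :=
    hol_fderiv imCLM hh _
  rw [gsq_eq, e1, e2, map_smul, Complex.sq_norm, Complex.normSq_apply]
  simp
  ring


omit [NormedAddCommGroup E] [NormedSpace ℂ E] in
theorem nsq_eq : (fun y => ‖h y‖ ^ 2) = fun y => (h y).re * (h y).re + (h y).im * (h y).im := by
  funext y
  rw [Complex.sq_norm, Complex.normSq_apply]

theorem nsq_contDiffAt {n : WithTop ℕ∞} (hh : AnalyticAt ℂ h x) :
    ContDiffAt ℝ n (fun y => ‖h y‖ ^ 2) x := by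
  rw [nsq_eq]
  have h1 : ContDiffAt ℝ n h x := hh.contDiffAt.restrict_scalars ℝ
  have h2 : ContDiffAt ℝ n (fun y => (h y).re) x := reCLM.contDiff.contDiffAt.comp x h1
  have h3 : ContDiffAt ℝ n (fun y => (h y).im) x := imCLM.contDiff.contDiffAt.comp x h1
  exact (h2.mul h2).add (h3.mul h3)

theorem lev_nsq (hh : AnalyticAt ℂ h x) (v : E) :
    lev (fun y => ‖h y‖ ^ 2) x v = ‖fderiv ℂ h x v‖ ^ 2 := by
  have h2 : ContDiffAt ℝ 2 (fun y => (h y).re) x := hol_contDiffAt reCLM hh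
  have h3 : ContDiffAt ℝ 2 (fun y => (h y).im) x := hol_contDiffAt imCLM hh
  have e2 : lev (fun y => (h y).re) x v = 0 := lev_hol reCLM hh v
  have e3 : lev (fun y => (h y).im) x v = 0 := lev_hol imCLM hh v
  rw [nsq_eq, lev_add (h2.mul h2) (h3.mul h3), lev_mul h2 h2, lev_mul h3 h3, e2, e3]
  have g2 := gsq_re hh.differentiableAt v
  have g3 := gsq_im hh.differentiableAt v
  unfold gsq at g2 g3
  rw [g2, g3]
  ring

theorem gsq_nsq (hh : AnalyticAt ℂ h x) (v : E) :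
    gsq (fun y => ‖h y‖ ^ 2) x v = ‖h x‖ ^ 2 * ‖fderiv ℂ h x v‖ ^ 2 := by
  have h1 := hh.differentiableAt
  have f2 : HasFDerivAt (fun y => (h y).re) (reCLM.comp ((fderiv ℂ h x).restrictScalars ℝ)) x :=
    reCLM.hasFDerivAt.comp x (h1.hasFDerivAt.restrictScalars ℝ)
  have f3 : HasFDerivAt (fun y => (h y).im) (imCLM.comp ((fderiv ℂ h x).restrictScalars ℝ)) x :=
    imCLM.hasFDerivAt.comp x (h1.hasFDerivAt.restrictScalars ℝ)
  have f4 := (f2.mul f2).add (f3.mul f3)
  rw [gsq_eq, nsq_eq]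
  have : fderiv ℝ (fun y => (h y).re * (h y).re + (h y).im * (h y).im) x = _ := f4.fderiv
  rw [this, Complex.sq_norm, Complex.sq_norm, Complex.normSq_apply, Complex.normSq_apply]
  simp
  ring

end hol

end Crest.Agent.R269.LevC_653
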