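import Mathlib
import Crest.Agent.R269.LevC_653
import Crest.Agent.R269.GeoDefs_328

/-!
# R269 (S0411), leaf LEV (helper901): calculus of the Levi form

Works with `LevC_653.lev u x v = (D²u(v,v) + D²u(iv,iv)) / 4`.

* `levB u x v w` : the sesquilinear Levi form (`ℂ`-linear in `v`, antilinear in `w`);
  `levB_self : levB u x v v = lev u x v`, `levB_conj`, linearity lemmas.
* `levM u x` : the Hermitian matrix `∂_j ∂̄_k u` on `Fin m → ℂ`; `levB_eq_sum`, `lev_eq_sum`,
  `sum_lev_eq` (`∑ lev u x (b i)` depends only on `∑ b_i b_i*`), `sum_lev_congr`.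
* `lev_comp_hol` : chain rule for holomorphic maps; `gmul_comp_hol`, `gsq_comp_hol`.
* `lev_lse_ge` : log-sum-exp.
* `lev_log_nsq` : the Levi form of `log |p|²` is the Fubini-Study form.
* `continuousAt_lev`, `contDiffAt_lev`.
* `lev_nonpos_of_isLocalMax`, `lev_nonneg_of_isLocalMin`.
-/

set_option autoImplicit false
set_option linter.unusedSectionVars false

open Complex Filter Topology
open scoped ContDiff ComplexConjugate

namespace Crest.Agent.R269.Lev_901

open Crest.Agent.R269.LevC_653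

noncomputable section

variable {E : Type*} [NormedAddCommGroup E] [NormedSpace ℂ E]
variable {E' : Type*} [NormedAddCommGroup E'] [NormedSpace ℂ E']

/-! ### the sesquilinear form -/

/-- second derivative -/
def d2 (u : E → ℝ) (x v w : E) : ℝ := fderiv ℝ (fderiv ℝ u) x v w

theorem d2_symm {u : E → ℝ} {x : E} (hu : ContDiffAt ℝ 2 u x) (v w : E) :
    d2 u x v w = d2 u x w v := by
  have h := hu.isSymmSndFDerivAt (by simp)
  exact h v w

/-- sesquilinear Levi form, `ℂ`-linear in `v`, conjugate linear in `w`. -/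
def levB (u : E → ℝ) (x v w : E) : ℂ :=
  (((d2 u x v w + d2 u x (I • v) (I • w)) / 4 : ℝ) : ℂ) +
    I * (((d2 u x v (I • w) - d2 u x (I • v) w) / 4 : ℝ) : ℂ)

theorem levB_re (u : E → ℝ) (x v w : E) :
    (levB u x v w).re = (d2 u x v w + d2 u x (I • v) (I • w)) / 4 := by
  simp [levB]

theorem levB_im (u : E → ℝ) (x v w : E) :
    (levB u x v w).im = (d2 u x v (I • w) - d2 u x (I • v) w) / 4 := by
  simp [levB]

theorem levB_self_re (u : E → ℝ) (x v : E) : (levB u x v v).re = lev u x v := by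
  rw [levB_re]; rfl

theorem levB_self {u : E → ℝ} {x : E} (hu : ContDiffAt ℝ 2 u x) (v : E) :
    levB u x v v = (lev u x v : ℂ) := by
  apply Complex.ext
  · rw [levB_self_re, ofReal_re]
  · rw [levB_im, d2_symm hu (I • v) v, ofReal_im]; ring

theorem levB_conj {u : E → ℝ} {x : E} (hu : ContDiffAt ℝ 2 u x) (v w : E) :
    conj (levB u x v w) = levB u x w v := by
  apply Complex.ext
  · rw [conj_re, levB_re, levB_re, d2_symm hu v w, d2_symm hu (I • v) (I • w)]
  · rw [conj_im, levB_im, levB_im, d2_symm hu v (I • w), d2_symm hu (I • v) w]; ring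

theorem levB_add_left (u : E → ℝ) (x v v' w : E) :
    levB u x (v + v') w = levB u x v w + levB u x v' w := by
  apply Complex.ext
  · simp only [levB_re, add_re, d2, smul_add, map_add, add_apply]; ring
  · simp only [levB_im, add_im, d2, smul_add, map_add, add_apply]; ring

theorem levB_add_right (u : E → ℝ) (x v w w' : E) :
    levB u x v (w + w') = levB u x v w + levB u x v w' := by
  apply Complex.ext
  · simp only [levB_re, add_re, d2, smul_add, map_add]; ring
  · simp only [levB_im, add_im, d2, smul_add, map_add]; ring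

theorem levB_real_smul_left (u : E → ℝ) (x : E) (r : ℝ) (v w : E) :
    levB u x ((r : ℂ) • v) w = r * levB u x v w := by
  have e1 : (I • ((r : ℂ) • v)) = r • (I • v) := by
    rw [Complex.coe_smul, smul_comm]
  have e2 : ((r : ℂ) • v) = r • v := Complex.coe_smul r v
  apply Complex.ext
  · rw [re_ofReal_mul, levB_re, levB_re, e1, e2]
    simp only [d2, map_smul, smul_apply, smul_eq_mul]; ring
  · rw [im_ofReal_mul, levB_im, levB_im, e1, e2]
    simp only [d2, map_smul, smul_apply, smul_eq_mul]; ring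

theorem levB_I_smul_left (u : E → ℝ) (x : E) (v w : E) :
    levB u x (I • v) w = I * levB u x v w := by
  have e1 : (I • (I • v)) = -v := by rw [smul_smul, I_mul_I, neg_one_smul]
  apply Complex.ext
  · rw [levB_re, e1, I_mul_re, levB_im]
    simp only [d2, map_neg, neg_apply]; ring
  · rw [levB_im, e1, I_mul_im, levB_re]
    simp only [d2, map_neg, neg_apply]; ring

theorem levB_smul_left (u : E → ℝ) (x : E) (c : ℂ) (v w : E) :
    levB u x (c • v) w = c * levB u x v w := by
  have e : c • v = ((c.re : ℂ) • v) + ((c.im : ℂ) • (I • v)) := by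
    rw [smul_smul, ← add_smul, re_add_im]
  rw [e, levB_add_left, levB_real_smul_left, levB_real_smul_left, levB_I_smul_left]
  conv_rhs => rw [← re_add_im c]
  ring

theorem levB_real_smul_right (u : E → ℝ) (x : E) (r : ℝ) (v w : E) :
    levB u x v ((r : ℂ) • w) = r * levB u x v w := by
  have e1 : (I • ((r : ℂ) • w)) = r • (I • w) := by
    rw [Complex.coe_smul, smul_comm]
  have e2 : ((r : ℂ) • w) = r • w := Complex.coe_smul r w
  apply Complex.ext
  · rw [re_ofReal_mul, levB_re, levB_re, e1, e2]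
    simp only [d2, map_smul, smul_eq_mul]; ring
  · rw [im_ofReal_mul, levB_im, levB_im, e1, e2]
    simp only [d2, map_smul, smul_eq_mul]; ring

theorem levB_I_smul_right (u : E → ℝ) (x : E) (v w : E) :
    levB u x v (I • w) = -I * levB u x v w := by
  have e1 : (I • (I • w)) = -w := by rw [smul_smul, I_mul_I, neg_one_smul]
  apply Complex.ext
  · rw [levB_re, e1, neg_mul, neg_re, I_mul_re, levB_im]
    simp only [d2, map_neg]; ring
  · rw [levB_im, e1, neg_mul, neg_im, I_mul_im, levB_re]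
    simp only [d2, map_neg]; ring

theorem levB_smul_right (u : E → ℝ) (x : E) (c : ℂ) (v w : E) :
    levB u x v (c • w) = conj c * levB u x v w := by
  have e : c • w = ((c.re : ℂ) • w) + ((c.im : ℂ) • (I • w)) := by
    rw [smul_smul, ← add_smul, re_add_im]
  rw [e, levB_add_right, levB_real_smul_right, levB_real_smul_right, levB_I_smul_right]
  have e2 : conj c = (c.re : ℂ) - c.im * I := by
    apply Complex.ext <;> simp
  rw [e2]
  ring

theorem levB_zero_left (u : E → ℝ) (x w : E) : levB u x 0 w = 0 := by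
  have := levB_smul_left u x 0 0 w
  simpa using this

theorem levB_zero_right (u : E → ℝ) (x v : E) : levB u x v 0 = 0 := by
  have := levB_smul_right u x 0 v 0
  simpa using this

theorem levB_sum_left {ι : Type*} (s : Finset ι) (u : E → ℝ) (x : E) (v : ι → E) (w : E) :
    levB u x (∑ i ∈ s, v i) w = ∑ i ∈ s, levB u x (v i) w := by
  classical
  induction s using Finset.induction_on with
  | empty => simp [levB_zero_left]
  | insert a s ha ih => rw [Finset.sum_insert ha, Finset.sum_insert ha, levB_add_left, ih]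

theorem levB_sum_right {ι : Type*} (s : Finset ι) (u : E → ℝ) (x : E) (v : E) (w : ι → E) :
    levB u x v (∑ i ∈ s, w i) = ∑ i ∈ s, levB u x v (w i) := by
  classical
  induction s using Finset.induction_on with
  | empty => simp [levB_zero_right]
  | insert a s ha ih => rw [Finset.sum_insert ha, Finset.sum_insert ha, levB_add_right, ih]

theorem lev_smul {u : E → ℝ} {x : E} (c : ℂ) (v : E) :
    lev u x (c • v) = ‖c‖ ^ 2 * lev u x v := by
  rw [← levB_self_re, levB_smul_left, levB_smul_right, ← mul_assoc, Complex.mul_conj,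
    Complex.normSq_eq_norm_sq, re_ofReal_mul, levB_self_re]

theorem lev_zero (u : E → ℝ) (x : E) : lev u x 0 = 0 := by
  rw [← levB_self_re, levB_zero_left, zero_re]

/-- polarisation inequality-free expansion -/
theorem lev_add_vec {u : E → ℝ} {x : E} (hu : ContDiffAt ℝ 2 u x) (v w : E) :
    lev u x (v + w) = lev u x v + lev u x w + 2 * (levB u x v w).re := by
  rw [← levB_self_re, levB_add_left, levB_add_right, levB_add_right, add_re, add_re, add_re,
    levB_self_re, levB_self_re, ← levB_conj hu v w, conj_re]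
  ring

/-! ### the matrix -/

section mat

variable {ι : Type*} [Fintype ι] [DecidableEq ι]

/-- the matrix `∂_j ∂̄_k u` -/
def levM (u : (ι → ℂ) → ℝ) (x : ι → ℂ) : Matrix ι ι ℂ :=
  Matrix.of fun j k => levB u x (Pi.single j 1) (Pi.single k 1)

theorem levM_apply (u : (ι → ℂ) → ℝ) (x : ι → ℂ) (j k : ι) :
    levM u x j k = levB u x (Pi.single j 1) (Pi.single k 1) := rfl


theorem levB_eq_sum (u : (ι → ℂ) → ℝ) (x v w : ι → ℂ) :
    levB u x v w = ∑ j, ∑ k, v j * conj (w k) * levM u x j k := by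
  have hv : v = ∑ j, v j • (Pi.single j (1 : ℂ) : ι → ℂ) := by
    funext i; simp [Finset.sum_apply, Pi.single_apply]
  have hw : w = ∑ j, w j • (Pi.single j (1 : ℂ) : ι → ℂ) := by
    funext i; simp [Finset.sum_apply, Pi.single_apply]
  conv_lhs => rw [hv, hw]
  rw [levB_sum_left]
  refine Finset.sum_congr rfl fun j _ => ?_
  rw [levB_sum_right]
  refine Finset.sum_congr rfl fun k _ => ?_
  rw [levB_smul_left, levB_smul_right, levM_apply]
  ring

theorem lev_eq_sum (u : (ι → ℂ) → ℝ) (x v : ι → ℂ) :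
    lev u x v = (∑ j, ∑ k, v j * conj (v k) * levM u x j k).re := by
  rw [← levB_self_re, levB_eq_sum]



end mat

/-! ### chain rule for holomorphic maps -/

section chain

variable [CompleteSpace E] {F : E' → E} {x : E'} {u w : E → ℝ}

omit [CompleteSpace E] in
theorem fderiv_comp_hol (hu : DifferentiableAt ℝ u (F x)) (hF : DifferentiableAt ℂ F x) (v : E') :
    fderiv ℝ (fun y => u (F y)) x v = fderiv ℝ u (F x) (fderiv ℂ F x v) := by
  have h1 : HasFDerivAt (fun y => u (F y))
      ((fderiv ℝ u (F x)).comp ((fderiv ℂ F x).restrictScalars ℝ)) x :=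
    hu.hasFDerivAt.comp x (hF.hasFDerivAt.restrictScalars ℝ)
  rw [h1.fderiv]
  rfl

theorem gmul_comp_hol (hu : DifferentiableAt ℝ u (F x)) (hw : DifferentiableAt ℝ w (F x))
    (hF : DifferentiableAt ℂ F x) (v : E') :
    gmul (fun y => u (F y)) (fun y => w (F y)) x v = gmul u w (F x) (fderiv ℂ F x v) := by
  unfold gmul
  rw [fderiv_comp_hol hu hF, fderiv_comp_hol hw hF, fderiv_comp_hol hu hF,
    fderiv_comp_hol hw hF, map_smul]

theorem gsq_comp_hol (hu : DifferentiableAt ℝ u (F x))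
    (hF : DifferentiableAt ℂ F x) (v : E') :
    gsq (fun y => u (F y)) x v = gsq u (F x) (fderiv ℂ F x v) :=
  gmul_comp_hol hu hu hF v

theorem d2_comp_hol (hu : ContDiffAt ℝ 2 u (F x)) (hF : AnalyticAt ℂ F x) (v w : E') :
    d2 (fun y => u (F y)) x v w = d2 u (F x) (fderiv ℂ F x v) (fderiv ℂ F x w) +
      fderiv ℝ u (F x) (fderiv ℂ (fderiv ℂ F) x v w) := by
  have hcd : ContDiffAt ℝ 2 (fun y => u (F y)) x :=
    hu.comp x (hF.contDiffAt.restrict_scalars ℝ)
  have hFev : ∀ᶠ y in 𝓝 x, DifferentiableAt ℂ F y := by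
    filter_upwards [hF.eventually_analyticAt] with y hy using hy.differentiableAt
  have huev : ∀ᶠ y in 𝓝 x, DifferentiableAt ℝ u (F y) :=
    hF.continuousAt.eventually (ev1 hu)
  -- derivative of `y ↦ D(u∘F) y w`
  have h4 : (fun y => fderiv ℝ (fun y => u (F y)) y w) =ᶠ[𝓝 x]
      fun y => fderiv ℝ u (F y) (fderiv ℂ F y w) := by
    filter_upwards [hFev, huev] with y hy hy' using fderiv_comp_hol hy' hy w
  have h5 := (diff2 hcd).hasFDerivAt.clm_apply (hasFDerivAt_const w x)
  have h6 : fderiv ℝ (fun y => fderiv ℝ (fun y => u (F y)) y w) x v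
      = fderiv ℝ (fderiv ℝ (fun y => u (F y))) x v w := by
    rw [h5.fderiv]; simp
  have hF1 : HasFDerivAt F ((fderiv ℂ F x).restrictScalars ℝ) x :=
    hF.differentiableAt.hasFDerivAt.restrictScalars ℝ
  have h7 : HasFDerivAt (fun y => fderiv ℝ u (F y))
      ((fderiv ℝ (fderiv ℝ u) (F x)).comp ((fderiv ℂ F x).restrictScalars ℝ)) x :=
    (diff2 hu).hasFDerivAt.comp x hF1
  have h8 : HasFDerivAt (fun y => fderiv ℂ F y w)
      (((fderiv ℂ (fderiv ℂ F) x).flip w).restrictScalars ℝ) x := by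
    have h2 : DifferentiableAt ℂ (fderiv ℂ F) x := hF.fderiv.differentiableAt
    have := h2.hasFDerivAt.clm_apply (hasFDerivAt_const w x)
    have e : (fderiv ℂ (fderiv ℂ F) x).flip w
        = (fderiv ℂ F x).comp (0 : E' →L[ℂ] E') + (fderiv ℂ (fderiv ℂ F) x).flip w := by
      ext z; simp
    rw [e]
    exact this.restrictScalars ℝ
  have h9 := h7.clm_apply h8
  unfold d2
  rw [← h6, h4.fderiv_eq, h9.fderiv]
  simp [add_comm]

/-- CHAIN RULE: the Levi form of `u ∘ F` for holomorphic `F`. -/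
theorem lev_comp_hol (hu : ContDiffAt ℝ 2 u (F x)) (hF : AnalyticAt ℂ F x) (v : E') :
    lev (fun y => u (F y)) x v = lev u (F x) (fderiv ℂ F x v) := by
  have h1 := d2_comp_hol hu hF v v
  have h2 := d2_comp_hol hu hF (I • v) (I • v)
  have e : fderiv ℂ (fderiv ℂ F) x (I • v) (I • v) = - fderiv ℂ (fderiv ℂ F) x v v := by
    rw [map_smul, map_smul, smul_apply, smul_smul, I_mul_I, neg_one_smul]
  rw [e, map_neg, map_smul] at h2
  unfold d2 at h1 h2
  unfold lev
  rw [h1, h2]
  ring


/-- one variable version -/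
theorem lev_comp_curve {γ : ℂ → E} {z : ℂ} (hu : ContDiffAt ℝ 2 u (γ z)) (hγ : AnalyticAt ℂ γ z)
    (a : ℂ) : lev (fun y => u (γ y)) z a = lev u (γ z) (a • deriv γ z) := by
  rw [lev_comp_hol hu hγ]
  congr 1
  have : a = a • (1 : ℂ) := by simp
  conv_lhs => rw [this, map_smul]
  rfl

end chain

/-! ### finite sums, exponentials, logarithms -/

section calc2

variable {u w : E → ℝ} {x : E}

theorem lev_neg (hu : ContDiffAt ℝ 2 u x) (v : E) : lev (fun y => - u y) x v = - lev u x v := by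
  have := lev_const_mul (-1) hu v
  simpa using this

theorem lev_sub (hu : ContDiffAt ℝ 2 u x) (hw : ContDiffAt ℝ 2 w x) (v : E) :
    lev (fun y => u y - w y) x v = lev u x v - lev w x v := by
  have := lev_add hu (hw.neg) v
  simp only [← sub_eq_add_neg] at this
  rw [this, lev_neg hw]; ring


theorem lev_sum {ι : Type*} (s : Finset ι) {f : ι → E → ℝ}
    (hf : ∀ i ∈ s, ContDiffAt ℝ 2 (f i) x) (v : E) :
    lev (fun y => ∑ i ∈ s, f i y) x v = ∑ i ∈ s, lev (f i) x v := by
  classical
  induction s using Finset.induction_on with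
  | empty => simp [lev_const]
  | insert a s ha ih =>
    simp only [Finset.sum_insert ha]
    rw [lev_add (hf a (Finset.mem_insert_self _ _))
      (ContDiffAt.sum fun i hi => hf i (Finset.mem_insert_of_mem hi)),
      ih fun i hi => hf i (Finset.mem_insert_of_mem hi)]



theorem lev_log (hu : ContDiffAt ℝ 2 u x) (h0 : u x ≠ 0) (v : E) :
    lev (fun y => Real.log (u y)) x v = lev u x v / u x - gsq u x v / u x ^ 2 := by
  have h1 : deriv Real.log = fun t => t⁻¹ := Real.deriv_log'
  have h3 := lev_comp (F := Real.log) (u := u) (x := x) (Real.contDiffAt_log.2 h0) hu v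
  rw [h3, h1, deriv_inv]
  field_simp
  ring


end calc2

/-! ### holomorphic functions, Fubini-Study -/

section fs

variable {ι : Type*} [Fintype ι]

/-- `log |h|²` is pluriharmonic where `h ≠ 0` -/
theorem lev_log_nsq_hol {h : E → ℂ} {x : E} (hh : AnalyticAt ℂ h x) (h0 : h x ≠ 0) (v : E) :
    lev (fun y => Real.log (‖h y‖ ^ 2)) x v = 0 := by
  rw [lev_log (nsq_contDiffAt hh) (by positivity), lev_nsq hh, gsq_nsq hh]
  have : ‖h x‖ ≠ 0 := norm_ne_zero_iff.2 h0
  field_simp
  ring


theorem proj_analyticAt (i : ι) (x : ι → ℂ) : AnalyticAt ℂ (fun p : ι → ℂ => p i) x :=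
  (ContinuousLinearMap.proj (R := ℂ) (φ := fun _ : ι => ℂ) i).analyticAt x

theorem fderiv_proj (i : ι) (x v : ι → ℂ) : fderiv ℂ (fun p : ι → ℂ => p i) x v = v i := by
  have := (ContinuousLinearMap.proj (R := ℂ) (φ := fun _ : ι => ℂ) i).fderiv (x := x)
  have e : (fun p : ι → ℂ => p i) = (ContinuousLinearMap.proj (R := ℂ) (φ := fun _ : ι => ℂ) i) := rfl
  rw [e, this]
  rfl

theorem contDiffAt_nsq {k : WithTop ℕ∞} (x : ι → ℂ) :
    ContDiffAt ℝ k (fun p : ι → ℂ => ∑ i, ‖p i‖ ^ 2) x :=
  ContDiffAt.sum fun i _ => nsq_contDiffAt (proj_analyticAt i x)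

theorem lev_sum_nsq (x v : ι → ℂ) :
    lev (fun p : ι → ℂ => ∑ i, ‖p i‖ ^ 2) x v = ∑ i, ‖v i‖ ^ 2 := by
  rw [lev_sum _ fun i _ => nsq_contDiffAt (proj_analyticAt i x)]
  refine Finset.sum_congr rfl fun i _ => ?_
  rw [lev_nsq (proj_analyticAt i x), fderiv_proj]

theorem fderiv_sum_nsq (x v : ι → ℂ) :
    fderiv ℝ (fun p : ι → ℂ => ∑ i, ‖p i‖ ^ 2) x v = 2 * (∑ i, v i * conj (x i)).re := by
  rw [fderiv_fun_sum fun i _ => diff1 (nsq_contDiffAt (proj_analyticAt i x))]
  simp only [FunLike.coe_sum, Finset.sum_apply, Complex.re_sum]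
  rw [Finset.mul_sum]
  refine Finset.sum_congr rfl fun i _ => ?_
  have f2 : HasFDerivAt (fun y : ι → ℂ => (y i).re)
      (reCLM.comp ((fderiv ℂ (fun p : ι → ℂ => p i) x).restrictScalars ℝ)) x :=
    reCLM.hasFDerivAt.comp x ((proj_analyticAt i x).differentiableAt.hasFDerivAt.restrictScalars ℝ)
  have f3 : HasFDerivAt (fun y : ι → ℂ => (y i).im)
      (imCLM.comp ((fderiv ℂ (fun p : ι → ℂ => p i) x).restrictScalars ℝ)) x :=
    imCLM.hasFDerivAt.comp x ((proj_analyticAt i x).differentiableAt.hasFDerivAt.restrictScalars ℝ)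
  have f4 := (f2.mul f2).add (f3.mul f3)
  have e := nsq_eq (h := fun p : ι → ℂ => p i)
  rw [e]
  have h5 : fderiv ℝ (fun y : ι → ℂ => (y i).re * (y i).re + (y i).im * (y i).im) x = _ := f4.fderiv
  rw [h5]
  simp only [add_apply, smul_apply, smul_eq_mul, ContinuousLinearMap.comp_apply,
    ContinuousLinearMap.coe_restrictScalars', fderiv_proj, reCLM_apply, imCLM_apply, mul_re,
    conj_re, conj_im]
  ring

theorem gsq_sum_nsq (x v : ι → ℂ) :
    gsq (fun p : ι → ℂ => ∑ i, ‖p i‖ ^ 2) x v = ‖∑ i, v i * conj (x i)‖ ^ 2 := by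
  rw [gsq_eq, fderiv_sum_nsq, fderiv_sum_nsq, Complex.sq_norm, Complex.normSq_apply]
  have e : ∑ i, (I • v) i * conj (x i) = I * ∑ i, v i * conj (x i) := by
    rw [Finset.mul_sum]
    refine Finset.sum_congr rfl fun i _ => ?_
    rw [Pi.smul_apply, smul_eq_mul]; ring
  rw [e, I_mul_re]
  ring

/-- the Fubini-Study form -/
theorem lev_log_sum_nsq {x : ι → ℂ} (hx : x ≠ 0) (v : ι → ℂ) :
    lev (fun p : ι → ℂ => Real.log (∑ i, ‖p i‖ ^ 2)) x v
      = ((∑ i, ‖x i‖ ^ 2) * (∑ i, ‖v i‖ ^ 2) - ‖∑ i, v i * conj (x i)‖ ^ 2)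
        / (∑ i, ‖x i‖ ^ 2) ^ 2 := by
  have h0 : 0 < ∑ i, ‖x i‖ ^ 2 := by
    obtain ⟨i, hi⟩ := Function.ne_iff.1 hx
    have h1 : 0 < ‖x i‖ ^ 2 := by
      have : x i ≠ 0 := hi
      positivity
    exact lt_of_lt_of_le h1 (Finset.single_le_sum (f := fun i => ‖x i‖ ^ 2)
      (fun j _ => by positivity) (Finset.mem_univ i))
  rw [lev_log (contDiffAt_nsq x) h0.ne', lev_sum_nsq, gsq_sum_nsq]
  field_simp

end fs

/-! ### continuity and smoothness -/

section cont

variable {u : E → ℝ} {x : E}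

theorem continuousAt_fderiv2 (hu : ContDiffAt ℝ 2 u x) :
    ContinuousAt (fun y => fderiv ℝ (fderiv ℝ u) y) x := by
  have h1 : ContDiffAt ℝ 1 (fderiv ℝ u) x := hu.fderiv_right (m := 1) (by norm_num)
  have h2 : ContDiffAt ℝ 0 (fderiv ℝ (fderiv ℝ u)) x := h1.fderiv_right (m := 0) (by norm_num)
  exact h2.continuousAt

theorem continuousAt_lev (hu : ContDiffAt ℝ 2 u x) (v : E) :
    ContinuousAt (fun q : E × E => lev u q.1 q.2) (x, v) := by
  have h1 : ContinuousAt (fun q : E × E => fderiv ℝ (fderiv ℝ u) q.1) (x, v) :=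
    ContinuousAt.comp (g := fun y => fderiv ℝ (fderiv ℝ u) y) (x := (x, v))
      (continuousAt_fderiv2 hu) continuousAt_fst
  have h2 : ContinuousAt (fun q : E × E => q.2) (x, v) := continuousAt_snd
  have h3 : ContinuousAt (fun q : E × E => I • q.2) (x, v) := continuousAt_snd.const_smul I
  unfold lev
  exact ((((h1.clm_apply h2).clm_apply h2).add ((h1.clm_apply h3).clm_apply h3)).div_const 4)

theorem contDiffAt_lev (hu : ContDiffAt ℝ ∞ u x) (v : E) :
    ContDiffAt ℝ ∞ (fun q : E × E => lev u q.1 q.2) (x, v) := by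
  have h1 : ContDiffAt ℝ ∞ (fderiv ℝ u) x := hu.fderiv_right (m := ∞) (by simp)
  have h2 : ContDiffAt ℝ ∞ (fderiv ℝ (fderiv ℝ u)) x := h1.fderiv_right (m := ∞) (by simp)
  have h3 : ContDiffAt ℝ ∞ (fun q : E × E => fderiv ℝ (fderiv ℝ u) q.1) (x, v) :=
    ContDiffAt.comp (g := fun y => fderiv ℝ (fderiv ℝ u) y) (x, v) h2 contDiffAt_fst
  have h4 : ContDiffAt ℝ ∞ (fun q : E × E => q.2) (x, v) := contDiffAt_snd
  have h5 : ContDiffAt ℝ ∞ (fun q : E × E => I • q.2) (x, v) := contDiffAt_snd.const_smul I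
  unfold lev
  exact ((((h3.clm_apply h4).clm_apply h4).add ((h3.clm_apply h5).clm_apply h5)).div_const 4)


end cont

/-! ### extrema -/

section extr





end extr

end

end Crest.Agent.R269.Lev_901
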