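import Mathlib
import Crest.Agent.R269.LevC_653
import Crest.Agent.R269.GeoDefs_328
import Crest.Agent.R269.Lev_901
import Crest.Agent.R269.GeoT_328
import Crest.Agent.R269.Tan_60
import Crest.Agent.R269.Defs_58

-- ▼ part R269/Alp1_927
section

/-!
# R269 (S0411), leaf ALPHA, file 1 (helper927): Gram determinants and the complementary identity

`WS A` = `det (A Aᴴ)` as a real number (`A` = matrix whose rows are the vectors).
Main result `WS_mul_of_orthogonal`: if `A * Gᵀ = 0`, `A` has `m` rows, `G` has `c` rows, `m + c = ` number of columns,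
then for EVERY `c`-row matrix `C`:
`normSq (det (A; C)) * WS G * WS A = WS A * WS A * normSq (det (C * Gᵀ))`.
-/

set_option autoImplicit false

open Matrix ComplexConjugate
open scoped ComplexOrder

namespace Crest.Agent.R269.Alp_927

variable {m c κ : Type*} [Fintype m] [DecidableEq m] [Fintype c] [DecidableEq c]
  [Fintype κ] [DecidableEq κ]

/-- Gram determinant of the rows of `A`. -/
noncomputable def WS (A : Matrix m κ ℂ) : ℝ := (A * Aᴴ).det.re

omit [DecidableEq κ] in
theorem det_gram_nonneg (A : Matrix m κ ℂ) : 0 ≤ (A * Aᴴ).det :=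
  (Matrix.posSemidef_self_mul_conjTranspose A).det_nonneg

omit [DecidableEq κ] in
theorem WS_nonneg (A : Matrix m κ ℂ) : 0 ≤ WS A := (Complex.le_def.1 (det_gram_nonneg A)).1

omit [DecidableEq κ] in
theorem WS_cast (A : Matrix m κ ℂ) : ((WS A : ℝ) : ℂ) = (A * Aᴴ).det := by
  apply Complex.ext
  · simp [WS]
  · simpa using (Complex.le_def.1 (det_gram_nonneg A)).2

omit [DecidableEq κ] in
theorem WS_cast_conj (A : Matrix m κ ℂ) : (A.map conj * Aᵀ).det = ((WS A : ℝ) : ℂ) := by
  rw [WS_cast, ← Matrix.det_transpose (A * Aᴴ), Matrix.transpose_mul]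
  rfl

/-- the square matrix with rows `A`, `C` (the identification `e` of the columns only changes a sign) -/
def stk (e : m ⊕ c ≃ κ) (A : Matrix m κ ℂ) (C : Matrix c κ ℂ) : Matrix (m ⊕ c) (m ⊕ c) ℂ :=
  (Matrix.fromRows A C).submatrix id e

omit [DecidableEq m] [DecidableEq c] [DecidableEq κ] in
theorem stk_mul (e : m ⊕ c ≃ κ) (A A' : Matrix m κ ℂ) (C C' : Matrix c κ ℂ) :
    stk e A C * (stk e A' C')ᴴ = Matrix.fromBlocks (A * A'ᴴ) (A * C'ᴴ) (C * A'ᴴ) (C * C'ᴴ) := by
  have h2 : (stk e A' C')ᴴ = (Matrix.fromCols A'ᴴ C'ᴴ).submatrix e id := by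
    ext i j
    rcases j with j | j <;> rfl
  rw [h2, stk, Matrix.submatrix_mul_equiv (Matrix.fromRows A C) (Matrix.fromCols A'ᴴ C'ᴴ) id e id,
    Matrix.submatrix_id_id, Matrix.fromRows_mul_fromCols]


omit [DecidableEq κ] in
theorem normSq_det_stk_conj (e : m ⊕ c ≃ κ) {A : Matrix m κ ℂ} {G : Matrix c κ ℂ}
    (hAG : A * Gᵀ = 0) :
    Complex.normSq (stk e A (G.map conj)).det = WS A * WS G := by
  have h0 : (G.map conj)ᴴ = Gᵀ := by ext i j; simp
  have h4 := congrArg Matrix.det (stk_mul e A A (G.map conj) (G.map conj))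
  rw [h0, hAG, Matrix.det_mul, Matrix.det_conjTranspose, Matrix.det_fromBlocks_zero₁₂, ← WS_cast,
    WS_cast_conj] at h4
  have h5 := Complex.mul_conj (stk e A (G.map conj)).det
  rw [← Complex.ofReal_inj, ← h5, Complex.ofReal_mul]
  exact h4

omit [DecidableEq κ] in
/-- the complementary identity -/
theorem WS_mul_of_orthogonal (e : m ⊕ c ≃ κ) {A : Matrix m κ ℂ} {G : Matrix c κ ℂ}
    (hAG : A * Gᵀ = 0) (C : Matrix c κ ℂ) :
    Complex.normSq (stk e A C).det * (WS A * WS G) =
      WS A * WS A * Complex.normSq (C * Gᵀ).det := by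
  have h0 : (G.map conj)ᴴ = Gᵀ := by ext i j; simp
  have h4 := congrArg Matrix.det (stk_mul e A A C (G.map conj))
  rw [h0, hAG, Matrix.det_mul, Matrix.det_conjTranspose, Matrix.det_fromBlocks_zero₁₂, ← WS_cast] at h4
  have h5 := congrArg Complex.normSq h4
  have h6 : Complex.normSq (star (stk e A (G.map conj)).det)
      = Complex.normSq (stk e A (G.map conj)).det := Complex.normSq_conj _
  rw [Complex.normSq_mul, Complex.normSq_mul, Complex.normSq_ofReal, h6, normSq_det_stk_conj e hAG] at h5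
  exact h5

omit [DecidableEq κ] in
theorem normSq_stk_mul_WS (e : m ⊕ c ≃ κ) {A : Matrix m κ ℂ} {G : Matrix c κ ℂ}
    (hAG : A * Gᵀ = 0) (hA : WS A ≠ 0) (C : Matrix c κ ℂ) :
    Complex.normSq (stk e A C).det * WS G = WS A * Complex.normSq (C * Gᵀ).det := by
  have := WS_mul_of_orthogonal e hAG C
  have h2 : WS A * (Complex.normSq (stk e A C).det * WS G)
      = WS A * (WS A * Complex.normSq (C * Gᵀ).det) := by linarith
  exact mul_left_cancel₀ hA h2

omit [DecidableEq κ] in
/-- same row space -/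
theorem WS_mul_left (T : Matrix m m ℂ) (A : Matrix m κ ℂ) :
    WS (T * A) = Complex.normSq T.det * WS A := by
  rw [← Complex.ofReal_inj, WS_cast, Matrix.conjTranspose_mul, Matrix.mul_assoc, ← Matrix.mul_assoc A,
    Matrix.det_mul, Matrix.det_mul, Matrix.det_conjTranspose, Complex.ofReal_mul, WS_cast,
    ← Complex.mul_conj]
  rw [starRingEnd_apply]
  ring

omit [DecidableEq κ] in
theorem WS_pos_of_linearIndependent {A : Matrix m κ ℂ} (h : LinearIndependent ℂ (fun i => A i)) :
    0 < WS A := by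
  have h1 : Function.Injective A.vecMul := Matrix.vecMul_injective_iff.2 h
  have h2 := (Matrix.PosDef.mul_conjTranspose_self A h1).det_pos
  exact (Complex.lt_def.1 h2).1

omit [DecidableEq κ] in
theorem linearIndependent_of_WS {A : Matrix m κ ℂ} (h : WS A ≠ 0) :
    LinearIndependent ℂ (fun i => A i) := by
  have h1 : IsUnit (A * Aᴴ).det := by
    rw [← WS_cast]
    exact isUnit_iff_ne_zero.2 (Complex.ofReal_ne_zero.2 h)
  have h2 : IsUnit (A * Aᴴ) := (Matrix.isUnit_iff_isUnit_det _).2 h1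
  have h3 : Function.Injective (A * Aᴴ).vecMul := Matrix.vecMul_injective_iff_isUnit.2 h2
  have h4 : Function.Injective A.vecMul := by
    intro x y hxy
    apply h3
    have h5 : Matrix.vecMul x A = Matrix.vecMul y A := hxy
    show Matrix.vecMul x (A * Aᴴ) = Matrix.vecMul y (A * Aᴴ)
    rw [← Matrix.vecMul_vecMul, ← Matrix.vecMul_vecMul, h5]
  exact Matrix.vecMul_injective_iff.1 h4


end Crest.Agent.R269.Alp_927
end

-- ▼ part R269/Alp2_927
section

/-!
# R269 (S0411), leaf ALPHA, file 2 (helper927): Levi form calculus needed for `alpha`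

* `lev_comp_hol` : `lev (u ∘ F) z x = lev u (F z) (fderiv ℂ F z x)` for `F` analytic, `u` of class C².
* `lev_log_normSq` : `lev (log |h|²) = 0` for `h` analytic, nonvanishing.
-/

set_option autoImplicit false

open Complex Filter Topology Crest.Agent.R269.LevC_653

namespace Crest.Agent.R269.Alp_927

variable {E : Type*} [NormedAddCommGroup E] [NormedSpace ℂ E]
variable {E' : Type*} [NormedAddCommGroup E'] [NormedSpace ℂ E']

theorem fderiv_real_of_complex {F : E' → E} {z : E'} (hF : DifferentiableAt ℂ F z) :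
    fderiv ℝ F z = (fderiv ℂ F z).restrictScalars ℝ :=
  (hF.hasFDerivAt.restrictScalars ℝ).fderiv

variable [CompleteSpace E]

theorem fderiv2_real_of_complex {F : E' → E} {z : E'} (hF : AnalyticAt ℂ F z) (x y : E') :
    fderiv ℝ (fderiv ℝ F) z x y = fderiv ℂ (fderiv ℂ F) z x y := by
  have h1 : fderiv ℝ F =ᶠ[𝓝 z] fun w => (fderiv ℂ F w).restrictScalars ℝ := by
    filter_upwards [hF.eventually_analyticAt] with w hw
      using fderiv_real_of_complex hw.differentiableAt
  have h2 : HasFDerivAt (fderiv ℂ F) (fderiv ℂ (fderiv ℂ F) z) z :=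
    hF.fderiv.differentiableAt.hasFDerivAt
  have h3 : HasFDerivAt (fun w => (fderiv ℂ F w).restrictScalars ℝ)
      ((ContinuousLinearMap.restrictScalarsL ℂ E' E ℝ ℝ).comp
        ((fderiv ℂ (fderiv ℂ F) z).restrictScalars ℝ)) z :=
    (ContinuousLinearMap.restrictScalarsL ℂ E' E ℝ ℝ).hasFDerivAt.comp z (h2.restrictScalars ℝ)
  rw [h1.fderiv_eq, h3.fderiv]
  rfl

/-- chain rule for the Levi form. -/
theorem lev_comp_hol {u : E → ℝ} {F : E' → E} {z : E'} (hF : AnalyticAt ℂ F z)
    (hu : ContDiffAt ℝ 2 u (F z)) (x : E') :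
    lev (fun w => u (F w)) z x = lev u (F z) (fderiv ℂ F z x) := by
  have hFR : ContDiffAt ℝ 2 F z := hF.contDiffAt.restrict_scalars ℝ
  have hFc : ContinuousAt F z := hF.continuousAt
  have h1 : fderiv ℝ (fun w => u (F w)) =ᶠ[𝓝 z]
      fun w => (fderiv ℝ u (F w)).comp (fderiv ℝ F w) := by
    filter_upwards [hF.eventually_analyticAt, hFc.eventually (ev1 hu)] with w hw hw2
    exact fderiv_comp w hw2 (hw.differentiableAt.restrictScalars ℝ)
  have h2 : HasFDerivAt (fun w => fderiv ℝ u (F w))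
      ((fderiv ℝ (fderiv ℝ u) (F z)).comp (fderiv ℝ F z)) z :=
    (diff2 hu).hasFDerivAt.comp z (hF.differentiableAt.restrictScalars ℝ).hasFDerivAt
  have h3 : HasFDerivAt (fderiv ℝ F) (fderiv ℝ (fderiv ℝ F) z) z :=
    ((hFR.fderiv_right (m := 1) (by norm_num)).differentiableAt (by norm_num)).hasFDerivAt
  have h4 := h2.clm_comp h3
  have key : ∀ y, fderiv ℝ (fderiv ℝ (fun w => u (F w))) z y y
      = fderiv ℝ (fderiv ℝ u) (F z) (fderiv ℂ F z y) (fderiv ℂ F z y)
        + fderiv ℝ u (F z) (fderiv ℂ (fderiv ℂ F) z y y) := by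
    intro y
    rw [h1.fderiv_eq, h4.fderiv]
    have e1 : fderiv ℝ F z = (fderiv ℂ F z).restrictScalars ℝ :=
      fderiv_real_of_complex hF.differentiableAt
    have e2 := fderiv2_real_of_complex hF y y
    simp [e1, e2, add_comm]
  have e0 : fderiv ℂ (fderiv ℂ F) z (I • x) (I • x) = - fderiv ℂ (fderiv ℂ F) z x x := by
    rw [map_smul, map_smul, smul_apply, smul_smul, I_mul_I, neg_one_smul]
  have e1 : fderiv ℂ F z (I • x) = I • fderiv ℂ F z x := map_smul _ _ _
  unfold lev
  rw [key, key, e0, e1, map_neg]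
  ring

/-- `log |h|²` is pluriharmonic. -/
theorem lev_log_normSq {h : E' → ℂ} {z : E'} (hh : AnalyticAt ℂ h z) (h0 : h z ≠ 0) (x : E') :
    lev (fun w => Real.log (Complex.normSq (h w))) z x = 0 := by
  have h1 : (fun w => Real.log (Complex.normSq (h w))) =ᶠ[𝓝 z]
      fun w => 2 * reCLM (Complex.log (h w / h z)) + Real.log (Complex.normSq (h z)) := by
    filter_upwards [hh.continuousAt.eventually_ne h0] with w hw
    have e1 : (Complex.log (h w / h z)).re = Real.log (‖h w‖ / ‖h z‖) := by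
      rw [Complex.log_re, norm_div]
    have n1 : ‖h w‖ ≠ 0 := norm_ne_zero_iff.2 hw
    have n2 : ‖h z‖ ≠ 0 := norm_ne_zero_iff.2 h0
    rw [reCLM_apply, e1, Real.log_div n1 n2, Complex.normSq_eq_norm_sq, Complex.normSq_eq_norm_sq,
      Real.log_pow, Real.log_pow]
    push_cast
    ring
  have h2 : AnalyticAt ℂ (fun w => Complex.log (h w / h z)) z := by
    have h3 : AnalyticAt ℂ (fun w => h w / h z) z := hh.div analyticAt_const h0
    apply h3.clog
    rw [div_self h0]
    exact Complex.one_mem_slitPlane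
  have c1 : ContDiffAt ℝ 2 (fun w => reCLM (Complex.log (h w / h z))) z := hol_contDiffAt reCLM h2
  have c2 : ContDiffAt ℝ 2 (fun w => 2 * reCLM (Complex.log (h w / h z))) z := contDiffAt_const.mul c1
  rw [lev_congr h1, lev_add c2 contDiffAt_const, lev_const_mul 2 c1, lev_hol reCLM h2, lev_const]
  ring

theorem contDiffAt_log_normSq {h : E' → ℂ} {z : E'} {n : WithTop ℕ∞} (hh : AnalyticAt ℂ h z)
    (h0 : h z ≠ 0) : ContDiffAt ℝ n (fun w => Real.log (Complex.normSq (h w))) z := by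
  have h1 : ContDiffAt ℝ n (fun w => ‖h w‖ ^ 2) z := nsq_contDiffAt hh
  have h2 : (fun w => Complex.normSq (h w)) = fun w => ‖h w‖ ^ 2 := by
    funext w; rw [Complex.normSq_eq_norm_sq]
  rw [← h2] at h1
  exact h1.log (by simpa using h0)

end Crest.Agent.R269.Alp_927
end

-- ▼ part R269/Alp3_927
section

/-!
# R269 (S0411), leaf ALPHA, file 3 (helper927): `log |p ∧ b₁ ∧ … ∧ b_n|²` along holomorphic families
-/

set_option autoImplicit false

open Complex Filter Topology Matrix MvPolynomial Crest.AlgGeometry.ProjEmb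
open Crest.Agent.R269.LevC_653 Crest.Agent.R269.Geo_328
open scoped ContDiff ComplexConjugate

namespace Crest.Agent.R269.Alp_927

section gen

variable {E : Type*} [NormedAddCommGroup E] [NormedSpace ℂ E]
variable {m c κ : Type*} [Fintype m] [DecidableEq m] [Fintype c] [DecidableEq c] [Fintype κ]

theorem analyticAt_det {A : E → Matrix m m ℂ} {z : E} (hA : ∀ i j, AnalyticAt ℂ (fun w => A w i j) z) :
    AnalyticAt ℂ (fun w => (A w).det) z := by
  simp only [Matrix.det_apply]
  refine Finset.analyticAt_fun_sum _ (fun σ _ => ?_)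
  have h1 : AnalyticAt ℂ (fun w => ∏ i, A w (σ i) i) z :=
    Finset.analyticAt_fun_prod _ (fun i _ => hA _ _)
  have h2 : (fun w => Equiv.Perm.sign σ • ∏ i, A w (σ i) i)
      = fun w => ((Equiv.Perm.sign σ : ℤ) : ℂ) * ∏ i, A w (σ i) i := by
    funext w
    rw [Units.smul_def, zsmul_eq_mul]
  rw [h2]
  exact analyticAt_const.mul h1

theorem contDiffAt_det {V : Type*} [NormedAddCommGroup V] [NormedSpace ℝ V] {n : WithTop ℕ∞}
    {A : V → Matrix m m ℂ} {z : V} (hA : ∀ i j, ContDiffAt ℝ n (fun w => A w i j) z) :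
    ContDiffAt ℝ n (fun w => (A w).det) z := by
  simp only [Matrix.det_apply]
  refine ContDiffAt.sum (fun σ _ => ?_)
  have h1 : ContDiffAt ℝ n (fun w => ∏ i, A w (σ i) i) z :=
    contDiffAt_prod (fun i _ => hA _ _)
  have h2 : (fun w => Equiv.Perm.sign σ • ∏ i, A w (σ i) i)
      = fun w => ((Equiv.Perm.sign σ : ℤ) : ℂ) * ∏ i, A w (σ i) i := by
    funext w
    rw [Units.smul_def, zsmul_eq_mul]
  rw [h2]
  exact contDiffAt_const.mul h1

theorem contDiffAt_WS {V : Type*} [NormedAddCommGroup V] [NormedSpace ℝ V] {n : WithTop ℕ∞}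
    {A : V → Matrix m κ ℂ} {z : V} (hA : ∀ i j, ContDiffAt ℝ n (fun w => A w i j) z) :
    ContDiffAt ℝ n (fun w => WS (A w)) z := by
  have h1 : ContDiffAt ℝ n (fun w => (A w * (A w)ᴴ).det) z := by
    apply contDiffAt_det
    intro i j
    simp only [Matrix.mul_apply, Matrix.conjTranspose_apply]
    refine ContDiffAt.sum (fun k _ => (hA i k).mul ?_)
    exact Complex.conjCLE.contDiff.contDiffAt.comp z (hA j k)
  exact reCLM.contDiff.contDiffAt.comp z h1

theorem continuousAt_WS {V : Type*} [TopologicalSpace V]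
    {A : V → Matrix m κ ℂ} {z : V} (hA : ∀ i j, ContinuousAt (fun w => A w i j) z) :
    ContinuousAt (fun w => WS (A w)) z := by
  have hA' : ContinuousAt A z := tendsto_pi_nhds.2 (fun i => tendsto_pi_nhds.2 (fun j => hA i j))
  have h1 : ContinuousAt (fun w => (A w * (A w)ᴴ).det) z :=
    (Continuous.continuousAt (by fun_prop : Continuous fun M : Matrix m κ ℂ => (M * Mᴴ).det)).comp hA'
  exact Complex.continuous_re.continuousAt.comp h1

/-- the Levi form of `log WS` of a holomorphic family of independent vectors orthogonal to another one -/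
theorem lev_log_WS_eq {A : E → Matrix m κ ℂ} {G : E → Matrix c κ ℂ} {z : E} (e : m ⊕ c ≃ κ)
    (hA : ∀ i j, AnalyticAt ℂ (fun w => A w i j) z) (hG : ∀ i j, AnalyticAt ℂ (fun w => G w i j) z)
    (hAG : ∀ᶠ w in 𝓝 z, A w * (G w)ᵀ = 0) (hA0 : WS (A z) ≠ 0) (hG0 : WS (G z) ≠ 0) (x : E) :
    lev (fun w => Real.log (WS (A w))) z x = lev (fun w => Real.log (WS (G w))) z x := by
  classical
  set C : Matrix c κ ℂ := (G z).map conj with hC
  set a : E → ℂ := fun w => (stk e (A w) C).det with ha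
  set g : E → ℂ := fun w => (C * (G w)ᵀ).det with hg
  have haA : AnalyticAt ℂ a z := by
    apply analyticAt_det
    intro i j
    rcases i with i | i
    · exact hA i (e j)
    · exact analyticAt_const
  have hgA : AnalyticAt ℂ g z := by
    apply analyticAt_det
    intro i j
    simp only [Matrix.mul_apply, Matrix.transpose_apply]
    exact Finset.analyticAt_fun_sum _ (fun k _ => analyticAt_const.mul (hG j k))
  have hAG0 := hAG.self_of_nhds
  have ha0 : a z ≠ 0 := by
    have := normSq_det_stk_conj e hAG0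
    intro h0
    rw [← hC] at this
    change Complex.normSq (a z) = _ at this
    rw [h0, map_zero] at this
    exact mul_ne_zero hA0 hG0 this.symm
  have hg0 : g z ≠ 0 := by
    have : g z = ((WS (G z) : ℝ) : ℂ) := WS_cast_conj (G z)
    rw [this]
    exact Complex.ofReal_ne_zero.2 hG0
  have cA : ContinuousAt (fun w => WS (A w)) z := continuousAt_WS (fun i j => (hA i j).continuousAt)
  have cG : ContinuousAt (fun w => WS (G w)) z := continuousAt_WS (fun i j => (hG i j).continuousAt)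
  have hev : (fun w => Real.log (WS (A w))) =ᶠ[𝓝 z] fun w =>
      (Real.log (Complex.normSq (a w)) + Real.log (WS (G w))) + (-1) * Real.log (Complex.normSq (g w)) := by
    filter_upwards [hAG, cA.eventually_ne hA0, cG.eventually_ne hG0,
      haA.continuousAt.eventually_ne ha0, hgA.continuousAt.eventually_ne hg0] with w h1 h2 h3 h4 h5
    have h6 := normSq_stk_mul_WS e h1 h2 C
    change Complex.normSq (a w) * WS (G w) = WS (A w) * Complex.normSq (g w) at h6
    have h7 : Real.log (Complex.normSq (a w)) + Real.log (WS (G w))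
        = Real.log (WS (A w)) + Real.log (Complex.normSq (g w)) := by
      rw [← Real.log_mul (by simpa using h4) h3, h6, Real.log_mul h2 (by simpa using h5)]
    linarith
  have c1 := contDiffAt_log_normSq (n := 2) haA ha0
  have c3 := contDiffAt_log_normSq (n := 2) hgA hg0
  have c2 : ContDiffAt ℝ 2 (fun w => Real.log (WS (G w))) z :=
    (contDiffAt_WS (fun i j => (hG i j).contDiffAt.restrict_scalars ℝ)).log hG0
  rw [lev_congr hev, lev_add (c1.add c2) (contDiffAt_const.mul c3), lev_add c1 c2,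
    lev_const_mul _ c3, lev_log_normSq haA ha0, lev_log_normSq hgA hg0]
  ring


end gen

end Crest.Agent.R269.Alp_927
end

-- ▼ part R269/Alp4_927
section

/-!
# R269 (S0411), leaf ALPHA, file 4 (helper927): the curvature form `alpha` of the cone

`alphaG G n p v = lev (log WS (grad G)) p v - (n+1) lev (log |.|²) p v` for `G : Fin (N-n) → I` with independent
gradients at `p`.

* `exists_eqs` : such `G` exist at every cone point (chosen among finitely many: `exists_fin_eqs`).
* `alpha_frame` : `lev (log WS (F, b)) z x = lev (log WS (grad G)) (F z) (DF x)` for holomorphic `F`, `b` along the cone.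
* `alphaG_indep` : independence of `G` on `Tan I p`.
-/

set_option autoImplicit false

open Complex Filter Topology Matrix MvPolynomial Crest.AlgGeometry.ProjEmb
open Crest.Agent.R269.LevC_653 Crest.Agent.R269.Geo_328
open scoped ContDiff ComplexConjugate

namespace Crest.Agent.R269.Alp_927

noncomputable section

variable {N n : ℕ} {I : Ideal (HomCoordRing N)}

/-- matrix of the gradients -/
def gM {c : ℕ} (G : Fin c → HomCoordRing N) (p : EE N) : Matrix (Fin c) (Fin (N + 1)) ℂ :=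
  Matrix.of fun k => gradP (G k) p

/-- matrix with rows `p, b₁, …, b_n` -/
def rows (p : EE N) (b : Fin n → EE N) : Matrix (Fin (n + 1)) (Fin (N + 1)) ℂ :=
  Matrix.of (Fin.cons p b : Fin (n + 1) → EE N)

/-- `G` is a system of local equations at `p` -/
structure Eqs (I : Ideal (HomCoordRing N)) {c : ℕ} (G : Fin c → HomCoordRing N) (p : EE N) : Prop where
  mem : ∀ k, G k ∈ I
  ind : LinearIndependent ℂ (fun k => gradP (G k) p)

theorem Eqs.pos {c : ℕ} {G : Fin c → HomCoordRing N} {p : EE N} (h : Eqs I G p) :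
    0 < WS (gM G p) := WS_pos_of_linearIndependent h.ind

theorem eqs_of_ne {c : ℕ} {G : Fin c → HomCoordRing N} {p : EE N} (hm : ∀ k, G k ∈ I)
    (h : WS (gM G p) ≠ 0) : Eqs I G p := ⟨hm, linearIndependent_of_WS h⟩

theorem analyticAt_gradP (F : HomCoordRing N) (p : EE N) (j : Fin (N + 1)) :
    AnalyticAt ℂ (fun q : EE N => gradP F q j) p :=
  AnalyticOnNhd.eval_mvPolynomial (𝕜 := ℂ) (pderiv j F) p (Set.mem_univ _)

theorem analyticAt_gM {c : ℕ} (G : Fin c → HomCoordRing N) (p : EE N) (i : Fin c) (j : Fin (N + 1)) :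
    AnalyticAt ℂ (fun q : EE N => gM G q i j) p := analyticAt_gradP (G i) p j

theorem contDiffAt_WS_gM {c : ℕ} {k : WithTop ℕ∞} (G : Fin c → HomCoordRing N) (p : EE N) :
    ContDiffAt ℝ k (fun q => WS (gM G q)) p :=
  contDiffAt_WS (fun i j => (analyticAt_gM G p i j).contDiffAt.restrict_scalars ℝ)

/-- `log |dG₁ ∧ … ∧ dG_c|²` -/
def lG {c : ℕ} (G : Fin c → HomCoordRing N) (p : EE N) : ℝ := Real.log (WS (gM G p))

theorem contDiffAt_lG {c : ℕ} {k : WithTop ℕ∞} {G : Fin c → HomCoordRing N} {p : EE N}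
    (h : WS (gM G p) ≠ 0) : ContDiffAt ℝ k (lG G) p := (contDiffAt_WS_gM G p).log h

theorem eventually_WS_ne {c : ℕ} {G : Fin c → HomCoordRing N} {p : EE N} (h : WS (gM G p) ≠ 0) :
    ∀ᶠ q in 𝓝 p, WS (gM G q) ≠ 0 :=
  (contDiffAt_WS_gM (k := 0) G p).continuousAt.eventually_ne h

/-- finitely many systems of equations which suffice at every point of the cone -/
theorem exists_fin_eqs (hX : IsSmoothProjective I n) :
    ∃ (r : ℕ) (G : Fin r → Fin (N - n) → HomCoordRing N), (∀ s k, G s k ∈ I) ∧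
      ∀ p ∈ Cone I, ∃ s, Eqs I (G s) p := by
  obtain ⟨s, F, hF⟩ := Tan_60.exists_generators I
  let e := Fintype.equivFin (Fin (N - n) → Fin s)
  refine ⟨Fintype.card (Fin (N - n) → Fin s), fun a k => F (e.symm a k), fun a k => ?_, ?_⟩
  · rw [← hF]
    exact Ideal.subset_span ⟨_, rfl⟩
  · intro p hp
    have h1 : Module.finrank ℂ (Submodule.span ℂ {v : Fin (N + 1) → ℂ | ∃ F ∈ I, v = Tan_60.gradAt p F})
        = N - n := hX.jacobian p hp.1 hp.2
    rw [Tan_60.span_grad_eq hF hp.1] at h1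
    obtain ⟨S, hS⟩ := Tan_60.exists_linearIndependent_of_finrank _ h1
    refine ⟨e S, fun k => ?_, ?_⟩
    · rw [← hF]
      exact Ideal.subset_span ⟨_, rfl⟩
    · have hS' : LinearIndependent ℂ (fun k => gradP (F (S k)) p) := hS
      simpa using hS'

theorem exists_eqs (hX : IsSmoothProjective I n) {p : EE N} (hp : p ∈ Cone I) :
    ∃ G : Fin (N - n) → HomCoordRing N, Eqs I G p := by
  obtain ⟨r, G, _, h⟩ := exists_fin_eqs hX
  obtain ⟨s, hs⟩ := h p hp
  exact ⟨G s, hs⟩

/-- the identification of the rows of `(p, b; dG)` with the coordinates -/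
def eqv (hX : IsSmoothProjective I n) : Fin (n + 1) ⊕ Fin (N - n) ≃ Fin (N + 1) :=
  finSumFinEquiv.trans (finCongr (by have := hX.dim_le; omega))

theorem rows_mul_gM {p : EE N} {b : Fin n → EE N} {G : Fin (N - n) → HomCoordRing N}
    (hp : p ∈ Tan I p) (hb : ∀ k, b k ∈ Tan I p) (hG : ∀ k, G k ∈ I) :
    rows p b * (gM G p)ᵀ = 0 := by
  ext i k
  have key : ∀ v ∈ Tan I p, ∑ j, v j * gradP (G k) p j = 0 := by
    intro v hv
    have := hv (G k) (hG k)
    rw [dP] at this
    rw [← this]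
    exact Finset.sum_congr rfl fun j _ => mul_comm _ _
  rw [Matrix.mul_apply, Matrix.zero_apply]
  refine Fin.cases ?_ (fun l => ?_) i
  · exact key p hp
  · exact key (b l) (hb l)

section frame

variable {E : Type*} [NormedAddCommGroup E] [NormedSpace ℂ E]

theorem analyticAt_rows {F : E → EE N} {b : Fin n → E → EE N} {z : E} (hF : AnalyticAt ℂ F z)
    (hb : ∀ k, AnalyticAt ℂ (b k) z) (i : Fin (n + 1)) (j : Fin (N + 1)) :
    AnalyticAt ℂ (fun w => rows (F w) (fun k => b k w) i j) z := by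
  refine Fin.cases ?_ (fun l => ?_) i
  · exact (ContinuousLinearMap.proj (R := ℂ) (φ := fun _ : Fin (N + 1) => ℂ) j).analyticAt _ |>.comp hF
  · exact (ContinuousLinearMap.proj (R := ℂ) (φ := fun _ : Fin (N + 1) => ℂ) j).analyticAt _ |>.comp (hb l)

theorem analyticAt_gM_comp {c : ℕ} (G : Fin c → HomCoordRing N) {F : E → EE N} {z : E}
    (hF : AnalyticAt ℂ F z) (i : Fin c) (j : Fin (N + 1)) :
    AnalyticAt ℂ (fun w => gM G (F w) i j) z := (analyticAt_gM G (F z) i j).comp hF

/-- `log |F ∧ b₁ ∧ … ∧ b_n|²` along a holomorphic family on the cone -/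
theorem lev_rows (hX : IsSmoothProjective I n) {F : E → EE N} {b : Fin n → E → EE N} {z : E}
    (hF : AnalyticAt ℂ F z) (hb : ∀ k, AnalyticAt ℂ (b k) z)
    (hc : ∀ᶠ w in 𝓝 z, F w ∈ Cone I ∧ ∀ k, b k w ∈ Tan I (F w))
    (h0 : WS (rows (F z) (fun k => b k z)) ≠ 0) {G : Fin (N - n) → HomCoordRing N}
    (hG : Eqs I G (F z)) (x : E) :
    lev (fun w => Real.log (WS (rows (F w) (fun k => b k w)))) z x
      = lev (lG G) (F z) (fderiv ℂ F z x) := by
  rw [lev_log_WS_eq (eqv hX) (analyticAt_rows hF hb) (analyticAt_gM_comp G hF) ?_ h0 hG.pos.ne' x]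
  · exact Lev_901.lev_comp_hol (F := F) (u := lG G) (contDiffAt_lG hG.pos.ne') hF x
  · filter_upwards [hc] with w hw
    exact rows_mul_gM (self_mem_Tan hX hw.1.1) hw.2 hG.mem

end frame

/-! ### curves and frames in a chart -/

section chart

variable {p₀ : EE N}

theorem chart_hasFDerivAt (C : ConeChart I n p₀) {z : CC n} (hz : z ∈ Metric.ball (0 : CC n) C.R)
    (j : Fin (N + 1)) :
    HasFDerivAt (fun w => C.σ w j)
      ((ContinuousLinearMap.proj (R := ℂ) (φ := fun _ : Fin (N + 1) => ℂ) j).comp (fderiv ℂ C.σ z)) z :=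
  (ContinuousLinearMap.proj (R := ℂ) (φ := fun _ : Fin (N + 1) => ℂ) j).hasFDerivAt.comp z
    (C.an z hz).differentiableAt.hasFDerivAt

theorem chart_fderiv_i (C : ConeChart I n p₀) {z : CC n} (hz : z ∈ Metric.ball (0 : CC n) C.R)
    (x : CC n) : fderiv ℂ C.σ z x C.i = 0 := by
  have h1 : (fun w => C.σ w C.i) =ᶠ[𝓝 z] fun _ => 1 := by
    filter_upwards [Metric.isOpen_ball.mem_nhds hz] with w hw using C.σ_i w hw
  have h2 := (chart_hasFDerivAt C hz C.i).fderiv
  rw [h1.fderiv_eq, fderiv_fun_const] at h2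
  have h3 := congrArg (fun L : CC n →L[ℂ] ℂ => L x) h2
  simpa using h3.symm

theorem chart_fderiv_J (C : ConeChart I n p₀) {z : CC n} (hz : z ∈ Metric.ball (0 : CC n) C.R)
    (x : CC n) (l : Fin n) : fderiv ℂ C.σ z x (C.J l) = x l := by
  have h1 : (fun w => C.σ w (C.J l)) =ᶠ[𝓝 z] fun w => p₀ (C.J l) / p₀ C.i + w l := by
    filter_upwards [Metric.isOpen_ball.mem_nhds hz] with w hw using C.σ_J w hw l
  have h2 := (chart_hasFDerivAt C hz (C.J l)).fderiv
  have h3 : HasFDerivAt (fun w : CC n => p₀ (C.J l) / p₀ C.i + w l)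
      (ContinuousLinearMap.proj (R := ℂ) (φ := fun _ : Fin n => ℂ) l) z :=
    (ContinuousLinearMap.proj (R := ℂ) (φ := fun _ : Fin n => ℂ) l).hasFDerivAt.const_add _
  rw [h1.fderiv_eq, h3.fderiv] at h2
  have h4 := congrArg (fun L : CC n →L[ℂ] ℂ => L x) h2
  simpa using h4.symm

/-- coordinate frame of the chart -/
def cfr (C : ConeChart I n p₀) (k : Fin n) (z : CC n) : EE N := fderiv ℂ C.σ z (Pi.single k 1)

theorem cfr_mem (C : ConeChart I n p₀) {z : CC n} (hz : z ∈ Metric.ball (0 : CC n) C.R) (k : Fin n) :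
    cfr C k z ∈ Tan I (C.σ z) :=
  (C.tan z hz _).2 ⟨0, Pi.single k 1, by simp [cfr]⟩

theorem analyticAt_cfr (C : ConeChart I n p₀) {z : CC n} (hz : z ∈ Metric.ball (0 : CC n) C.R)
    (k : Fin n) : AnalyticAt ℂ (cfr C k) z :=
  ((ContinuousLinearMap.apply ℂ (EE N) (Pi.single k 1 : CC n)).analyticAt _).comp (C.an z hz).fderiv

theorem fderiv_eq_sum (L : CC n →L[ℂ] EE N) (x : CC n) : L x = ∑ k, x k • L (Pi.single k 1) := by
  conv_lhs => rw [← Finset.univ_sum_single x]
  rw [map_sum]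
  refine Finset.sum_congr rfl fun k _ => ?_
  rw [← map_smul]
  congr 1
  rw [← Pi.single_smul]
  simp

theorem linearIndependent_chart (C : ConeChart I n p₀) {z : CC n}
    (hz : z ∈ Metric.ball (0 : CC n) C.R) :
    LinearIndependent ℂ (Fin.cons (C.σ z) (fun k => cfr C k z) : Fin (n + 1) → EE N) := by
  rw [Fintype.linearIndependent_iff]
  intro g hg
  rw [Fin.sum_univ_succ] at hg
  simp only [Fin.cons_zero, Fin.cons_succ] at hg
  have e : ∑ k : Fin n, g k.succ • cfr C k z = fderiv ℂ C.σ z (fun k => g k.succ) := by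
    rw [fderiv_eq_sum]
    rfl
  rw [e] at hg
  have h0 : g 0 = 0 := by
    have := congrFun hg C.i
    rw [Pi.add_apply, chart_fderiv_i C hz, Pi.smul_apply, C.σ_i z hz] at this
    simpa using this
  intro k
  refine Fin.cases h0 (fun l => ?_) k
  have := congrFun hg (C.J l)
  rw [Pi.add_apply, chart_fderiv_J C hz, h0] at this
  simpa using this

/-- holomorphic curve in the cone with given tangent vector, with a frame -/
theorem exists_curve (hX : IsSmoothProjective I n) (C : ConeChart I n p₀) {v : EE N}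
    (hv : v ∈ Tan I p₀) :
    ∃ (γ : ℂ → EE N) (b : Fin n → ℂ → EE N), AnalyticAt ℂ γ 0 ∧ (∀ k, AnalyticAt ℂ (b k) 0) ∧
      γ 0 = p₀ ∧ fderiv ℂ γ 0 1 = v ∧
      (∀ᶠ w in 𝓝 (0 : ℂ), γ w ∈ Cone I ∧ ∀ k, b k w ∈ Tan I (γ w)) ∧
      LinearIndependent ℂ (Fin.cons (γ 0) (fun k => b k 0) : Fin (n + 1) → EE N) := by
  have h0 : (0 : CC n) ∈ Metric.ball (0 : CC n) C.R := Metric.mem_ball_self C.R_pos
  have hp : p₀ = p₀ C.i • C.σ 0 := by
    rw [C.σ_zero, smul_smul, mul_inv_cancel₀ C.p₀_ne, one_smul]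
  have hT : Tan I p₀ = Tan I (C.σ 0) := by
    conv_lhs => rw [hp]
    exact Tan_smul hX _ C.p₀_ne
  rw [hT] at hv
  obtain ⟨c, x, hcx⟩ := (C.tan 0 h0 v).1 hv
  let L : ℂ → CC n := fun w => (w * (p₀ C.i)⁻¹) • x
  have hLa : AnalyticAt ℂ L 0 := (analyticAt_id.mul analyticAt_const).smul analyticAt_const
  have hL0 : L 0 = 0 := by simp [L]
  have hLd : HasDerivAt L ((p₀ C.i)⁻¹ • x) 0 := by
    have h1 : HasDerivAt (fun w : ℂ => w * (p₀ C.i)⁻¹) (p₀ C.i)⁻¹ 0 := by
      simpa using (hasDerivAt_id (0 : ℂ)).mul_const (p₀ C.i)⁻¹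
    exact h1.smul_const x
  have hLe : ∀ᶠ w in 𝓝 (0 : ℂ), L w ∈ Metric.ball (0 : CC n) C.R := by
    have : ContinuousAt L 0 := hLa.continuousAt
    apply this.eventually_mem
    rw [hL0]
    exact Metric.isOpen_ball.mem_nhds h0
  have hσL : AnalyticAt ℂ C.σ (L 0) := by rw [hL0]; exact C.an 0 h0
  have hcne : ∀ᶠ w in 𝓝 (0 : ℂ), p₀ C.i + w * c ≠ 0 := by
    have : ContinuousAt (fun w : ℂ => p₀ C.i + w * c) 0 := by fun_prop
    apply this.eventually_ne
    simpa using C.p₀_ne
  refine ⟨fun w => (p₀ C.i + w * c) • C.σ (L w), fun k w => cfr C k (L w), ?_, ?_, ?_, ?_, ?_, ?_⟩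
  · exact (analyticAt_const.add (analyticAt_id.mul analyticAt_const)).smul (hσL.comp hLa)
  · intro k
    have : AnalyticAt ℂ (cfr C k) (L 0) := by rw [hL0]; exact analyticAt_cfr C h0 k
    exact this.comp hLa
  · simp only [hL0, zero_mul, add_zero]
    exact hp.symm
  · have h1 : HasDerivAt (fun w : ℂ => p₀ C.i + w * c) c 0 := by
      simpa using ((hasDerivAt_id (0 : ℂ)).mul_const c).const_add (p₀ C.i)
    have h2 : HasDerivAt (fun w => C.σ (L w)) (fderiv ℂ C.σ 0 ((p₀ C.i)⁻¹ • x)) 0 := by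
      have h3 : HasFDerivAt C.σ (fderiv ℂ C.σ 0) (L 0) := by
        rw [hL0]; exact (C.an 0 h0).differentiableAt.hasFDerivAt
      exact h3.comp_hasDerivAt 0 hLd
    have h4 := h1.smul h2
    have h5 : fderiv ℂ (fun w => (p₀ C.i + w * c) • C.σ (L w)) 0 1
        = (p₀ C.i + 0 * c) • (fderiv ℂ C.σ 0) ((p₀ C.i)⁻¹ • x) + c • C.σ (L 0) := by
      rw [fderiv_apply_one_eq_deriv]
      exact h4.deriv
    rw [h5, hL0, map_smul, zero_mul, add_zero, smul_smul, mul_inv_cancel₀ C.p₀_ne, one_smul, hcx,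
      add_comm]
  · filter_upwards [hLe, hcne] with w h1 h2
    refine ⟨smul_mem_Cone hX (C.σ_cone _ h1) h2, fun k => ?_⟩
    rw [Tan_smul hX _ h2]
    exact cfr_mem C h1 k
  · simp only [hL0, zero_mul, add_zero]
    have h1 := linearIndependent_chart C h0
    rw [Fintype.linearIndependent_iff] at h1 ⊢
    intro g hg
    rw [Fin.sum_univ_succ] at hg
    simp only [Fin.cons_zero, Fin.cons_succ] at hg
    have h2 := h1 (Fin.cons (g 0 * p₀ C.i) (fun k => g k.succ)) (by
      rw [Fin.sum_univ_succ]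
      simp only [Fin.cons_zero, Fin.cons_succ]
      rw [mul_smul]
      exact hg)
    intro k
    refine Fin.cases ?_ (fun l => ?_) k
    · have := h2 0
      simp only [Fin.cons_zero] at this
      exact (mul_eq_zero.1 this).resolve_right C.p₀_ne
    · have := h2 l.succ
      simpa using this

end chart

end

end Crest.Agent.R269.Alp_927
end

-- ▼ part R269/Alp5_927

/-!
# R269 (S0411), leaf ALPHA, file 5 (helper927): the `alpha` statements of `Defs_58`

* `lev_eq`, `wedgeSq_eq`, `omg_eq_lev` : dictionary `Defs_58` <-> `LevC_653`, `WS`;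
* `alpha_eq` / `alphaIndepStmt` : independence of the equations (from `ChartStmt`);
* `alphaFamStmt` : `α = L log DD(F, b)` along holomorphic families;
* `alpha_smul_add` : `α (c p) (c (v + r p)) = α p v`;
* `alphaBddStmt` : `|α| ≤ C ω`.
-/

set_option autoImplicit false

open Complex Filter Topology Matrix MvPolynomial Crest.AlgGeometry.ProjEmb
open Crest.Agent.R269.Geo_328 Crest.Agent.R269.Defs_58
open scoped ContDiff ComplexConjugate

namespace Crest.Agent.R269.Alp_927

noncomputable section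

variable {N n : ℕ} {I : Ideal (HomCoordRing N)}

theorem lev_eq {ι : Type} [Fintype ι] (φ : (ι → ℂ) → ℝ) (p v : ι → ℂ) :
    Defs_58.lev φ p v = LevC_653.lev φ p v := by
  unfold Defs_58.lev LevC_653.lev
  rw [iteratedFDeriv_two_apply, iteratedFDeriv_two_apply]
  simp

theorem wedgeSq_eq {m : ℕ} (w : Fin m → EE N) : wedgeSq w = WS (Matrix.of w) := rfl



theorem DD_eq (p : EE N) (b : Fin n → EE N) : DD p b = WS (rows p b) / nsq p ^ (n + 1) := rfl

theorem nsq_pos {p : EE N} (hp : p ≠ 0) : 0 < nsq p := by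
  obtain ⟨i, hi⟩ := Function.ne_iff.1 hp
  have h1 : 0 < ‖p i‖ ^ 2 := by
    have : p i ≠ 0 := hi
    positivity
  exact lt_of_lt_of_le h1 (Finset.single_le_sum (f := fun i => ‖p i‖ ^ 2)
    (fun j _ => by positivity) (Finset.mem_univ i))

theorem omg_eq_lev {p : EE N} (hp : p ≠ 0) (v : EE N) :
    omg p v = LevC_653.lev (fun q : EE N => Real.log (nsq q)) p v :=
  (Lev_901.lev_log_sum_nsq hp v).symm

theorem contDiffAt_nsq {k : WithTop ℕ∞} (p : EE N) : ContDiffAt ℝ k (fun q : EE N => nsq q) p :=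
  Lev_901.contDiffAt_nsq p

theorem eqs_iff {p : EE N} {G : Fin (N - n) → HomCoordRing N} :
    IndepAt I n p G ↔ Eqs I G p := ⟨fun h => ⟨h.1, h.2⟩, fun h => ⟨h.mem, h.ind⟩⟩

theorem alpha_choose (hX : IsSmoothProjective I n) {p : EE N} (hp : p ∈ Cone I) :
    ∃ G : Fin (N - n) → HomCoordRing N, Eqs I G p ∧
      ∀ v, alpha I n p v = LevC_653.lev (lG G) p v - (n + 1) * omg p v := by
  have h : ∃ G, IndepAt I n p G := by
    obtain ⟨G, hG⟩ := exists_eqs hX hp
    exact ⟨G, eqs_iff.2 hG⟩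
  refine ⟨h.choose, eqs_iff.1 h.choose_spec, fun v => ?_⟩
  unfold alpha
  rw [dif_pos h, lev_eq]
  rfl

/-- `α = L log DD(F, b)` along holomorphic families, any complex normed parameter space -/
theorem alpha_family (hX : IsSmoothProjective I n) {E : Type*} [NormedAddCommGroup E]
    [NormedSpace ℂ E] {F : E → EE N} {b : Fin n → E → EE N} {z : E}
    (hF : AnalyticAt ℂ F z) (hb : ∀ k, AnalyticAt ℂ (b k) z)
    (hc : ∀ᶠ w in 𝓝 z, F w ∈ Cone I ∧ ∀ k, b k w ∈ Tan I (F w))
    (h0 : 0 < DD (F z) (fun k => b k z)) (x : E) :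
    LevC_653.lev (fun w => Real.log (DD (F w) (fun k => b k w))) z x
      = alpha I n (F z) (fderiv ℂ F z x) := by
  have hp := hc.self_of_nhds.1
  have hn := nsq_pos hp.2
  have hW : WS (rows (F z) (fun k => b k z)) ≠ 0 := by
    intro h
    rw [DD_eq, h, zero_div] at h0
    exact lt_irrefl _ h0
  obtain ⟨G, hG, hα⟩ := alpha_choose hX hp
  have cW : ContDiffAt ℝ 2 (fun w => Real.log (WS (rows (F w) (fun k => b k w)))) z :=
    (contDiffAt_WS (fun i j => (analyticAt_rows hF hb i j).contDiffAt.restrict_scalars ℝ)).log hW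
  have cn : ContDiffAt ℝ 2 (fun w => Real.log (nsq (F w))) z :=
    (ContDiffAt.comp z (contDiffAt_nsq (F z)) (hF.contDiffAt.restrict_scalars ℝ)).log hn.ne'
  have hWe : ∀ᶠ w in 𝓝 z, WS (rows (F w) (fun k => b k w)) ≠ 0 :=
    (continuousAt_WS (fun i j => (analyticAt_rows hF hb i j).continuousAt)).eventually_ne hW
  have hev : (fun w => Real.log (DD (F w) (fun k => b k w))) =ᶠ[𝓝 z] fun w =>
      Real.log (WS (rows (F w) (fun k => b k w))) + (-((n : ℝ) + 1)) * Real.log (nsq (F w)) := by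
    filter_upwards [hc, hWe] with w h1 h2
    have h3 := nsq_pos h1.1.2
    rw [DD_eq, Real.log_div h2 (by positivity), Real.log_pow]
    push_cast
    ring
  rw [LevC_653.lev_congr hev, LevC_653.lev_add cW (contDiffAt_const.mul cn),
    LevC_653.lev_const_mul _ cn, lev_rows hX hF hb hc hW hG, hα, omg_eq_lev hp.2,
    Lev_901.lev_comp_hol (F := F) (u := fun q : EE N => Real.log (nsq q))
      ((contDiffAt_nsq (F z)).log hn.ne') hF x]
  ring

theorem alphaFamStmt : AlphaFamStmt := by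
  intro N n I _ hX d F b z₀ x hF hb hT h0
  rw [lev_eq]
  exact alpha_family hX hF.1 hb (hF.2.and hT) h0 x

/-- positivity of `DD` for independent vectors -/
theorem DD_pos {p : EE N} {b : Fin n → EE N} (hp : p ≠ 0)
    (h : LinearIndependent ℂ (Fin.cons p b : Fin (n + 1) → EE N)) : 0 < DD p b := by
  rw [DD_eq]
  have h1 : 0 < WS (rows p b) := WS_pos_of_linearIndependent h
  have h2 := nsq_pos hp
  positivity

theorem lG_indep (hch : ChartStmt) [hI : I.IsPrime] (hX : IsSmoothProjective I n) {p : EE N}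
    (hp : p ∈ Cone I) {v : EE N} (hv : v ∈ Tan I p) {G G' : Fin (N - n) → HomCoordRing N}
    (hG : Eqs I G p) (hG' : Eqs I G' p) :
    LevC_653.lev (lG G) p v = LevC_653.lev (lG G') p v := by
  obtain ⟨C⟩ := hch N n I hI hX p hp
  obtain ⟨γ, b, h1, h2, h3, h4, h5, h6⟩ := exists_curve hX C hv
  have hW : WS (rows (γ 0) (fun k => b k 0)) ≠ 0 := (WS_pos_of_linearIndependent h6).ne'
  have e1 := lev_rows hX h1 h2 h5 hW (G := G) (by rw [h3]; exact hG) 1
  have e2 := lev_rows hX h1 h2 h5 hW (G := G') (by rw [h3]; exact hG') 1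
  rw [h3, h4] at e1 e2
  rw [← e1, ← e2]

theorem alpha_eq (hch : ChartStmt) [hI : I.IsPrime] (hX : IsSmoothProjective I n) {p : EE N}
    (hp : p ∈ Cone I) {v : EE N} (hv : v ∈ Tan I p) {G : Fin (N - n) → HomCoordRing N}
    (hG : Eqs I G p) :
    alpha I n p v = LevC_653.lev (lG G) p v - (n + 1) * omg p v := by
  obtain ⟨G', hG', hα⟩ := alpha_choose hX hp
  rw [hα, lG_indep hch hX hp hv hG' hG]


theorem rows_smul_left (c : ℂ) (p : EE N) (b : Fin n → EE N) :
    rows (c • p) b = Matrix.diagonal (Fin.cons c (fun _ => 1) : Fin (n + 1) → ℂ) * rows p b := by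
  ext i j
  rw [Matrix.diagonal_mul]
  refine Fin.cases ?_ (fun l => ?_) i
  · simp [rows]
  · simp [rows]

theorem WS_rows_smul_left (c : ℂ) (p : EE N) (b : Fin n → EE N) :
    WS (rows (c • p) b) = Complex.normSq c * WS (rows p b) := by
  rw [rows_smul_left, WS_mul_left, Matrix.det_diagonal, Fin.prod_univ_succ]
  simp

theorem nsq_smul (c : ℂ) (p : EE N) : nsq (c • p) = Complex.normSq c * nsq p := by
  unfold nsq
  rw [Finset.mul_sum]
  refine Finset.sum_congr rfl fun i _ => ?_
  rw [Pi.smul_apply, smul_eq_mul, norm_mul, mul_pow, Complex.normSq_eq_norm_sq]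

/-- `C*`-invariance and horizontality -/
theorem alpha_smul_add (hch : ChartStmt) [hI : I.IsPrime] (hX : IsSmoothProjective I n) {p : EE N}
    (hp : p ∈ Cone I) {v : EE N} (hv : v ∈ Tan I p) {c : ℂ} (hc : c ≠ 0) (r : ℂ) :
    alpha I n (c • p) (c • (v + r • p)) = alpha I n p v := by
  obtain ⟨C⟩ := hch N n I hI hX p hp
  obtain ⟨γ, b, h1, h2, h3, h4, h5, h6⟩ := exists_curve hX C hv
  have hDD : 0 < DD (γ 0) (fun k => b k 0) := DD_pos (by rw [h3]; exact hp.2) h6
  let lam : ℂ → ℂ := fun w => c * (1 + r * w)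
  have hlA : AnalyticAt ℂ lam 0 :=
    analyticAt_const.mul (analyticAt_const.add (analyticAt_const.mul analyticAt_id))
  have hl0 : lam 0 = c := by simp [lam]
  have hlne : ∀ᶠ w in 𝓝 (0 : ℂ), lam w ≠ 0 := by
    apply hlA.continuousAt.eventually_ne
    rw [hl0]; exact hc
  have hF : AnalyticAt ℂ (fun w => lam w • γ w) 0 := hlA.smul h1
  have hcone : ∀ᶠ w in 𝓝 (0 : ℂ), lam w • γ w ∈ Cone I ∧ ∀ k, b k w ∈ Tan I (lam w • γ w) := by
    filter_upwards [h5, hlne] with w k1 k2
    refine ⟨smul_mem_Cone hX k1.1 k2, fun k => ?_⟩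
    rw [Tan_smul hX _ k2]
    exact k1.2 k
  have hrel : ∀ w, lam w ≠ 0 → γ w ∈ Cone I → DD (lam w • γ w) (fun k => b k w)
      = (Complex.normSq (lam w) ^ n)⁻¹ * DD (γ w) (fun k => b k w) := by
    intro w k1 k2
    have k3 := nsq_pos k2.2
    have k4 : 0 < Complex.normSq (lam w) := Complex.normSq_pos.2 k1
    rw [DD_eq, DD_eq, WS_rows_smul_left, nsq_smul]
    field_simp
    ring
  have hDD' : 0 < DD (lam 0 • γ 0) (fun k => b k 0) := by
    have k1 : lam 0 ≠ 0 := by rw [hl0]; exact hc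
    rw [hrel 0 k1 h5.self_of_nhds.1]
    have k4 : 0 < Complex.normSq (lam 0) := Complex.normSq_pos.2 k1
    positivity
  have e1 := alpha_family hX hF h2 hcone hDD' 1
  have e2 := alpha_family hX h1 h2 h5 hDD 1
  have e3 : fderiv ℂ (fun w => lam w • γ w) 0 1 = c • (v + r • p) := by
    have k1 : HasDerivAt lam (c * r) 0 := by
      have : HasDerivAt (fun w : ℂ => 1 + r * w) r 0 := by
        simpa using ((hasDerivAt_id (0 : ℂ)).const_mul r).const_add 1
      exact this.const_mul c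
    have k2 : HasDerivAt γ (fderiv ℂ γ 0 1) 0 := by
      rw [fderiv_apply_one_eq_deriv]
      exact h1.differentiableAt.hasDerivAt
    have k3 := k1.smul k2
    have k4 : fderiv ℂ (fun w => lam w • γ w) 0 1 = lam 0 • fderiv ℂ γ 0 1 + (c * r) • γ 0 := by
      rw [fderiv_apply_one_eq_deriv]
      exact k3.deriv
    rw [k4, hl0, h4, h3, smul_add, smul_smul]
  rw [e3] at e1
  simp only [hl0, h3] at e1
  rw [h4, h3] at e2
  rw [← e1, ← e2]
  have cD : ContDiffAt ℝ 2 (fun w => Real.log (DD (γ w) (fun k => b k w))) 0 := by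
    have k1 : ContDiffAt ℝ 2 (fun w => WS (rows (γ w) (fun k => b k w))) 0 :=
      contDiffAt_WS (fun i j => (analyticAt_rows h1 h2 i j).contDiffAt.restrict_scalars ℝ)
    have k2 : ContDiffAt ℝ 2 (fun w => nsq (γ w) ^ (n + 1)) 0 :=
      (ContDiffAt.comp (0 : ℂ) (contDiffAt_nsq (γ 0)) (h1.contDiffAt.restrict_scalars ℝ)).pow _
    have k3 := nsq_pos (h5.self_of_nhds.1).2
    exact (k1.div k2 (by positivity)).log hDD.ne'
  have cl := contDiffAt_log_normSq (n := 2) hlA (by rw [hl0]; exact hc)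
  have cDc : ContinuousAt (fun w => DD (γ w) (fun k => b k w)) 0 := by
    have k1 : ContDiffAt ℝ 2 (fun w => WS (rows (γ w) (fun k => b k w))) 0 :=
      contDiffAt_WS (fun i j => (analyticAt_rows h1 h2 i j).contDiffAt.restrict_scalars ℝ)
    have k2 : ContDiffAt ℝ 2 (fun w => nsq (γ w) ^ (n + 1)) 0 :=
      (ContDiffAt.comp (0 : ℂ) (contDiffAt_nsq (γ 0)) (h1.contDiffAt.restrict_scalars ℝ)).pow _
    have k3 := nsq_pos (h5.self_of_nhds.1).2
    exact (k1.div k2 (by positivity)).continuousAt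
  have hev : (fun w => Real.log (DD (lam w • γ w) (fun k => b k w))) =ᶠ[𝓝 0] fun w =>
      (-(n : ℝ)) * Real.log (Complex.normSq (lam w)) + Real.log (DD (γ w) (fun k => b k w)) := by
    filter_upwards [h5, hlne, cDc.eventually_ne hDD.ne'] with w k1 k2 k3
    have k4 : 0 < Complex.normSq (lam w) := Complex.normSq_pos.2 k2
    rw [hrel w k2 k1.1, Real.log_mul (by positivity) k3, Real.log_inv, Real.log_pow]
    ring
  rw [LevC_653.lev_congr hev, LevC_653.lev_add (contDiffAt_const.mul cl) cD,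
    LevC_653.lev_const_mul _ cl, lev_log_normSq hlA (by rw [hl0]; exact hc)]
  ring

end

end Crest.Agent.R269.Alp_927
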