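import Crest.Agent.R271.G3b_792
import Crest.Agent.R271.Rd8_692
import Crest.Agent.R271.Alg_956
import Crest.Agent.R271.Bd3_741
import Crest.Agent.R269.GeoDefs_328

-- ▼ part R269/Amp1_243
section

/-!
# Row 269 (S0411), Part 13, step 1: étale affine domains `M = Hom(B, ℂ)` over `ℂⁿ` (helper243)

`EC n` : a domain `B` of finite type over `ℂ` with étale coordinates `z : Fin n → B` (no other data).
`M = X.B →ₐ[ℂ] ℂ` is a Riemann domain (`RDom`), second countable, with compact sublevels of a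
strictly psh exhaustion, evaluations are holomorphic with `D (ev b) y w = ∑ₖ wₖ y(∂ₖ b)`, and `lintM` is
the integral against the measure of the engine `Ho51.engineP`.
-/

set_option autoImplicit false
set_option linter.unusedSectionVars false

noncomputable section

open Set Filter Topology Complex MeasureTheory Metric
open scoped ENNReal ComplexConjugate

namespace Crest.Agent.R269.Amp1_243

open Crest.Agent.R271 Crest.Agent.R271.Defs710 Crest.Agent.R271.Rd692 Crest.Agent.R271.Ho51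
open Crest.Agent.R271.G792

/-- étale affine chart: a domain `B` of finite type over `ℂ`, étale over `ℂ[z₁..zₙ]` -/
structure EC (n : ℕ) where
  /-- coordinate ring -/
  B : Type
  [cr : CommRing B]
  [dom : IsDomain B]
  [alg : Algebra ℂ B]
  ft : Algebra.FiniteType ℂ B
  /-- étale coordinates -/
  z : Fin n → B
  etale : RingHom.Etale ((MvPolynomial.aeval z : MvPolynomial (Fin n) ℂ →ₐ[ℂ] B) :
    MvPolynomial (Fin n) ℂ →+* B)

attribute [instance] EC.cr EC.dom EC.alg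

variable {n : ℕ}

/-- the points of the chart -/
abbrev EC.P (X : EC n) : Type := X.B →ₐ[ℂ] ℂ

/-- charts exist -/
lemma EC.hch (X : EC n) : ∀ y : Pt X.B, Nonempty (Chart X.z y) :=
  fun y => nonempty_chart X.z X.etale y

instance (X : EC n) : RDom n (X.B →ₐ[ℂ] ℂ) := rdom (z := X.z) X.hch

instance (X : EC n) : SecondCountableTopology (X.B →ₐ[ℂ] ℂ) := secondCountable_of_ft X.ft


variable {X : EC n}

lemma cp_eq (y : X.B →ₐ[ℂ] ℂ) : cp y = pr X.z y := rfl

lemma cp_apply (y : X.B →ₐ[ℂ] ℂ) (i : Fin n) : cp y i = y (X.z i) := rfl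

/-- the chart homeomorphism -/
abbrev eC {y₀ : X.B →ₐ[ℂ] ℂ} (C : Chart X.z y₀) :
    OpenPartialHomeomorph (X.B →ₐ[ℂ] ℂ) (Cn n) := chartHomeo X.hch C

lemma eC_isCh {y : X.B →ₐ[ℂ] ℂ} (C : Chart X.z y) : IsCh (eC C) := rfl

/-- germs in the engine's chart and in a `Chart`. -/
lemma ch_symm_eventuallyEq {y : X.B →ₐ[ℂ] ℂ} (C : Chart X.z y) :
    (fun w => (ch y).symm w) =ᶠ[𝓝 (cp y)] fun w => C.s (w - cp y) :=
  (isCh_ch y).germ (eC_isCh C) (mem_ch y) (self_mem_sheet C)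

/-- a function on `M` is `C^∞` if it is so in a `Chart` around each point -/
lemma sm_of_chart {G : Type*} [NormedAddCommGroup G] [NormedSpace ℝ G] {f : (X.B →ₐ[ℂ] ℂ) → G}
    (h : ∀ y : X.B →ₐ[ℂ] ℂ, ∃ C : Chart X.z y,
      ContDiffAt ℝ (⊤ : ℕ∞) (fun ζ => f (C.s ζ)) 0) : Sm f := by
  intro y
  obtain ⟨C, hC⟩ := h y
  have h1 : (f ∘ (ch y).symm) =ᶠ[𝓝 (cp y)] fun w => f (C.s (w - cp y)) := by
    filter_upwards [ch_symm_eventuallyEq C] with w hw
    simp only [Function.comp_apply]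
    rw [hw]
  refine ContDiffAt.congr_of_eventuallyEq ?_ h1
  have h2 : ContDiffAt ℝ (⊤ : ℕ∞) (fun ζ => f (C.s ζ)) (cp y - cp y) := by
    rw [sub_self]; exact hC
  exact ContDiffAt.comp (g := fun ζ => f (C.s ζ)) (f := fun w : Cn n => w - cp y) (cp y) h2
    (contDiffAt_id.sub contDiffAt_const)

lemma D_chart {G : Type*} [NormedAddCommGroup G] [NormedSpace ℝ G] (f : (X.B →ₐ[ℂ] ℂ) → G)
    {y : X.B →ₐ[ℂ] ℂ} (C : Chart X.z y) : D f y = fderiv ℝ (fun ζ => f (C.s ζ)) 0 := by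
  rw [D_eq (eC_isCh C) (self_mem_sheet C)]
  have h1 : (f ∘ (eC C).symm) = fun w => (fun ζ => f (C.s ζ)) (w - cp y) := by
    funext w; rfl
  rw [h1]
  have h2 := fderiv_comp_sub (𝕜 := ℝ) (f := fun ζ : Cn n => f (C.s ζ)) (x := cp y) (cp y)
  rw [h2, sub_self]

/-- derivative at all points of the sheet -/
lemma D_chart' {G : Type*} [NormedAddCommGroup G] [NormedSpace ℝ G] (f : (X.B →ₐ[ℂ] ℂ) → G)
    {y : X.B →ₐ[ℂ] ℂ} (C : Chart X.z y) {ζ : Cn n} (hζ : ζ ∈ ball (0 : Cn n) C.r) :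
    D f (C.s ζ) = fderiv ℝ (fun ζ => f (C.s ζ)) ζ := by
  rw [D_eq (eC_isCh C) (s_mem_sheet C hζ)]
  have h1 : (f ∘ (eC C).symm) = fun w => (fun ζ => f (C.s ζ)) (w - cp y) := by
    funext w; rfl
  rw [h1]
  have h2 := fderiv_comp_sub (𝕜 := ℝ) (f := fun ζ : Cn n => f (C.s ζ)) (x := cp (C.s ζ)) (cp y)
  rw [h2]
  have h3 : cp (C.s ζ) - cp y = ζ := by
    rw [cp_eq, cp_eq, chart_pr C hζ]; abel
  rw [h3]

/-- evaluations are smooth -/
lemma sm_ev (b : X.B) : Sm fun y : X.B →ₐ[ℂ] ℂ => y b := by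
  apply sm_of_chart
  intro y
  obtain ⟨C⟩ := X.hch y
  refine ⟨C, ?_⟩
  have h := C.anal b 0 (Metric.mem_ball_self C.r_pos)
  exact (h.contDiffAt (n := ((⊤ : ℕ∞) : WithTop ℕ∞))).restrict_scalars ℝ

/-- evaluations are holomorphic -/
lemma hol_ev (b : X.B) : W792.Hol fun y : X.B →ₐ[ℂ] ℂ => y b where
  sm := sm_ev b
  cl := by
    intro y w
    obtain ⟨C⟩ := X.hch y
    rw [D_chart _ C]
    have h := (C.anal b 0 (mem_ball_self C.r_pos)).differentiableAt
    exact R266.SCV.fderiv_real_smul_I h w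

variable (X) in
/-- exhaustion function -/
theorem exists_rho : ∃ ρ : (X.B →ₐ[ℂ] ℂ) → ℝ, Sm ρ ∧ (∀ c : ℝ, IsCompact {x | ρ x ≤ c}) ∧
    (∀ x w, nsq w ≤ Levi ρ x w) := by
  obtain ⟨N, a, ha⟩ := exists_gens X.ft
  have ha := isCompact_sublevel a ha
  set f : Fin N ⊕ Fin n → (X.B →ₐ[ℂ] ℂ) → ℂ := Sum.elim (fun i y => y (a i)) (fun i y => y (X.z i))
    with hf
  have hH : ∀ i, W792.Hol (f i) := by
    rintro (i | i)
    · exact hol_ev (a i)
    · exact hol_ev (X.z i)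
  have hs : Sm (W792.nS f) := W792.sm_nS fun i => (hH i).sm
  have hsplit : ∀ y, W792.nS f y = (∑ i, ‖y (a i)‖ ^ 2) + ∑ i, ‖y (X.z i)‖ ^ 2 := by
    intro y
    unfold W792.nS
    rw [Fintype.sum_sum_type]
    rfl
  refine ⟨W792.nS f, hs, ?_, ?_⟩
  · intro c
    refine (ha c).of_isClosed_subset (isClosed_le hs.continuous continuous_const) ?_
    intro y hy
    have h1 : W792.nS f y ≤ c := hy
    rw [hsplit] at h1
    have h2 : 0 ≤ ∑ i, ‖y (X.z i)‖ ^ 2 := Finset.sum_nonneg fun _ _ => by positivity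
    change ∑ i, ‖y (a i)‖ ^ 2 ≤ c
    linarith
  · intro y w
    rw [W792.Levi_eq_lev hs, W792.lev_nS hH]
    unfold W792.nT nsq
    rw [Fintype.sum_sum_type]
    have h1 : ∀ i : Fin n, D (f (Sum.inr i)) y w = w i := by
      intro i
      exact D_coord (M := X.B →ₐ[ℂ] ℂ) i y w
    simp only [h1]
    have h2 : 0 ≤ ∑ i : Fin N, ‖D (f (Sum.inl i)) y w‖ ^ 2 :=
      Finset.sum_nonneg fun _ _ => by positivity
    linarith

/-- holomorphic in charts implies analytic in `Chart`s -/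
lemma anal_of_diff {F : (X.B →ₐ[ℂ] ℂ) → ℂ}
    (hF : ∀ e : OpenPartialHomeomorph (X.B →ₐ[ℂ] ℂ) (Fin n → ℂ), IsCh e →
      DifferentiableOn ℂ (F ∘ e.symm) e.target) (y : X.B →ₐ[ℂ] ℂ) (C : Chart X.z y) :
    AnalyticOnNhd ℂ (fun ζ => F (C.s ζ)) (ball 0 C.r) := by
  intro ζ hζ
  have h1 := hF (eC C) (eC_isCh C)
  have h2 : AnalyticOnNhd ℂ (F ∘ (eC C).symm) (eC C).target :=
    R266.SCV.analyticOnNhd_of_differentiableOn (eC C).open_target h1
  have hm : ζ + pr X.z y ∈ (eC C).target := by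
    rw [chartHomeo_target, Metric.mem_ball, dist_eq_norm]
    simpa using hζ
  have h3 : AnalyticAt ℂ (F ∘ (eC C).symm) (ζ + pr X.z y) := h2 _ hm
  have h4 : AnalyticAt ℂ (fun ζ : Cn n => ζ + pr X.z y) ζ := analyticAt_id.add analyticAt_const
  have h6 := AnalyticAt.comp (g := F ∘ (eC C).symm) (f := fun ζ : Cn n => ζ + pr X.z y) h3 h4
  refine h6.congr (Eventually.of_forall fun ζ => ?_)
  change F (C.s (ζ + pr X.z y - pr X.z y)) = F (C.s ζ)
  rw [add_sub_cancel_right]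

/-- holomorphic functions are continuous -/
lemma cont_of_diff {F : (X.B →ₐ[ℂ] ℂ) → ℂ}
    (hF : ∀ e : OpenPartialHomeomorph (X.B →ₐ[ℂ] ℂ) (Fin n → ℂ), IsCh e →
      DifferentiableOn ℂ (F ∘ e.symm) e.target) : Continuous F := by
  rw [continuous_iff_continuousAt]
  intro y
  have h1 := (hF (ch y) (isCh_ch y)).continuousOn.continuousAt
    ((ch y).open_target.mem_nhds ((isCh_ch y).cp_mem (mem_ch y)))
  have h2 : F =ᶠ[𝓝 y] fun x => (F ∘ (ch y).symm) (cp x) := by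
    filter_upwards [(ch y).open_source.mem_nhds (mem_ch y)] with x hx
    simp only [Function.comp_apply]
    rw [(isCh_ch y).symm_cp hx]
  refine ContinuousAt.congr ?_ h2.symm
  exact ContinuousAt.comp (g := F ∘ (ch y).symm) (f := cp) h1 cp_cont.continuousAt



/-- `lintM` is the integral against the measure of the engine -/
theorem lintM_eq {μ : Measure (X.B →ₐ[ℂ] ℂ)} (hμ : IsLeb μ)
    {g : (X.B →ₐ[ℂ] ℂ) → ℝ≥0∞} (hg : Measurable g) :
    lintM X.z g = ∫⁻ y, g y ∂μ :=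
  lintM_eq' X.ft X.z X.hch hμ hg

/-- algebraicity -/
theorem algebraic {F : (X.B →ₐ[ℂ] ℂ) → ℂ} (hF : Ho51.Hol F)
    {u : X.B} (hu : u ≠ 0) (N M : ℕ)
    (hint : lintM X.z (fun y => ENNReal.ofReal
      (‖F y‖ ^ 2 * ‖y u‖ ^ (2 * N) / (1 + ∑ i, ‖y (X.z i)‖ ^ 2) ^ M)) < ∞) :
    ∃ b : X.B, ∀ y : X.B →ₐ[ℂ] ℂ, F y = y b := by
  have := X.ft
  exact Alg956.algebraicity_gen X.etale
    (fun y C => anal_of_diff hF y C 0 (mem_ball_self C.r_pos)) hu N M hint

/-! ### Derivations -/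

variable (X) in
/-- existence of the coordinate derivations -/
theorem exists_der : ∃ d : Fin n → Derivation ℂ X.B X.B,
    ∀ i j, d j (X.z i) = if i = j then 1 else 0 :=
  Bd741.exists_coord_deriv X.z X.etale

/-- the coordinate derivation `∂ₖ` -/
def EC.der (X : EC n) (k : Fin n) : Derivation ℂ X.B X.B := (exists_der X).choose k

lemma EC.der_z (X : EC n) (i j : Fin n) : X.der j (X.z i) = if i = j then 1 else 0 :=
  (exists_der X).choose_spec i j

lemma EC.der_z_same (X : EC n) (i : Fin n) : X.der i (X.z i) = 1 := by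
  rw [X.der_z, if_pos rfl]

/-- complex derivative of evaluations in a chart -/
lemma fderiv_chart {y : X.B →ₐ[ℂ] ℂ} (C : Chart X.z y) {ζ : Cn n}
    (hζ : ζ ∈ ball (0 : Cn n) C.r) (b : X.B) (w : Cn n) :
    fderiv ℂ (fun ζ' => C.s ζ' b) ζ w = ∑ k, w k * C.s ζ (X.der k b) := by
  have h : w = ∑ k, w k • (Pi.single k (1 : ℂ) : Cn n) := by
    funext i
    simp [Finset.sum_apply, Pi.single_apply]
  conv_lhs => rw [h]
  rw [map_sum]
  refine Finset.sum_congr rfl fun k _ => ?_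
  rw [map_smul, smul_eq_mul,
    Bd741.chart_deriv X.z X.etale X.der (fun i j => X.der_z i j) C ζ hζ k b]


end Crest.Agent.R269.Amp1_243
end
end

-- ▼ part R269/Amp3_243

/-!
# Row 269 (S0411), Part 13, step 3: the metric on an étale chart of `X` (helper243)

`XC I n` : an étale affine chart of the smooth projective `X`, normalised by `x_i = 1`, with coordinates
`z_k = x_{j k}`.  `Psi u y = log det (A Aᴴ) - (n+1) log |x|² + u x` (`A` = matrix with rows `x, ∂₁x, .., ∂ₙx`)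
is the weight of `K_X` for the metric `e^{-u}·(Fubini-Study)` in the frame `dz₁ ∧ .. ∧ dzₙ`.
-/

set_option autoImplicit false
set_option linter.unusedSectionVars false

noncomputable section

open Set Filter Topology Complex MeasureTheory Metric
open scoped ENNReal ComplexConjugate ContDiff

namespace Crest.Agent.R269.Amp3_243

open Crest.AlgGeometry.ProjEmb
open Crest.Agent.R271 Crest.Agent.R271.Defs710 Crest.Agent.R271.Rd692 Crest.Agent.R271.Ho51
open Crest.Agent.R269.Amp1_243 Crest.Agent.R269.Geo_328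

variable {N n : ℕ}

/-- étale affine chart of `X` -/
structure XC (I : Ideal (HomCoordRing N)) (n : ℕ) extends EC n where
  /-- chart index -/
  i : Fin (N + 1)
  /-- homogeneous coordinates, normalised -/
  x : Fin (N + 1) → B
  x_i : x i = 1
  /-- coordinate indices -/
  j : Fin n → Fin (N + 1)
  z_eq : ∀ k, z k = x (j k)
  rel : ∀ F ∈ I, MvPolynomial.aeval x F = 0

variable {I : Ideal (HomCoordRing N)} {X : XC I n}

/-- the point of the cone -/
def pt (X : XC I n) (y : X.B →ₐ[ℂ] ℂ) : EE N := fun l => y (X.x l)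

@[simp] lemma pt_apply (y : X.B →ₐ[ℂ] ℂ) (l : Fin (N + 1)) : pt X y l = y (X.x l) := rfl

lemma pt_i (y : X.B →ₐ[ℂ] ℂ) : pt X y X.i = 1 := by
  rw [pt_apply, X.x_i, map_one]

lemma pt_ne (y : X.B →ₐ[ℂ] ℂ) : pt X y ≠ 0 := by
  intro h
  have := congrFun h X.i
  rw [pt_i] at this
  exact one_ne_zero this

lemma pt_cone (y : X.B →ₐ[ℂ] ℂ) : pt X y ∈ affineCone I := by
  intro F hF
  have h1 := MvPolynomial.comp_aeval_apply X.x y F
  rw [X.rel F hF, map_zero] at h1
  rw [MvPolynomial.aeval_eq_eval] at h1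
  exact h1.symm

lemma pt_mem (y : X.B →ₐ[ℂ] ℂ) : pt X y ∈ Cone I := ⟨pt_cone y, pt_ne y⟩

/-- `|x|²` -/
def ns (X : XC I n) (y : X.B →ₐ[ℂ] ℂ) : ℝ := Geo_328.nsq (pt X y)

lemma ns_eq_nS : ns X = W792.nS (fun l (y : X.B →ₐ[ℂ] ℂ) => y (X.x l)) := rfl

lemma one_le_ns (y : X.B →ₐ[ℂ] ℂ) : 1 ≤ ns X y := by
  unfold ns Geo_328.nsq
  have h : ‖pt X y X.i‖ ^ 2 = 1 := by rw [pt_i]; simp
  rw [← h]
  exact Finset.single_le_sum (f := fun l => ‖pt X y l‖ ^ 2) (fun _ _ => by positivity)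
    (Finset.mem_univ X.i)

lemma ns_pos (y : X.B →ₐ[ℂ] ℂ) : 0 < ns X y := lt_of_lt_of_le one_pos (one_le_ns y)

lemma sm_ns : Sm (ns X) := by
  rw [ns_eq_nS]
  exact W792.sm_nS fun l => sm_ev _

/-- `log |x|²` -/
def lns (X : XC I n) (y : X.B →ₐ[ℂ] ℂ) : ℝ := Real.log (ns X y)


lemma sm_lns : Sm (lns X) :=
  Sm.comp_at (g := Real.log) sm_ns fun y => Real.contDiffAt_log.mpr (ns_pos y).ne'

/-- `log |x|²` is strictly psh: `lev (lns X) y w ≥ nsq w / |x|⁴` -/
theorem lev_lns_ge (y : X.B →ₐ[ℂ] ℂ) (w : Cn n) :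
    (ns X y)⁻¹ ^ 2 * Ho51.nsq w ≤ W792.lev (lns X) y w := by
  classical
  -- drop the `i`-th coordinate
  let f : {l : Fin (N + 1) // l ≠ X.i} → (X.B →ₐ[ℂ] ℂ) → ℂ := fun l y => y (X.x l.1)
  have hf : ∀ l, W792.Hol (f l) := fun l => hol_ev _
  have h0 : ∀ y, ns X y = W792.nS f y + 1 := by
    intro y
    have h1 : ns X y = ∑ l, ‖y (X.x l)‖ ^ 2 := rfl
    rw [h1, ← Finset.add_sum_erase Finset.univ _ (Finset.mem_univ X.i), X.x_i]
    have h2 : ∑ l ∈ Finset.univ.erase X.i, ‖y (X.x l)‖ ^ 2 = W792.nS f y := by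
      unfold W792.nS
      rw [← Finset.sum_subtype (s := Finset.univ.erase X.i) (p := fun l => l ≠ X.i)
        (f := fun l => ‖y (X.x l)‖ ^ 2)]
      intro l; simp
    rw [h2, map_one]
    simp
    ring
  have h1 : lns X = W792.lg f 1 := by
    funext y
    unfold lns W792.lg
    rw [h0]
  have hp : ∀ y, 0 < W792.nS f y + 1 := fun y => by
    rw [← h0]; exact ns_pos y
  rw [h1]
  refine le_trans ?_ (W792.lev_lg_ge hf hp y w)
  have h2 : Ho51.nsq w ≤ W792.nT f y w ∨ n = 0 := by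
    rcases Nat.eq_zero_or_pos n with hn | hn
    · exact Or.inr hn
    left
    have hji : ∀ k, X.j k ≠ X.i := by
      intro k hk
      have h3 := X.der_z_same k
      rw [X.z_eq, hk, X.x_i, Derivation.map_one_eq_zero] at h3
      exact zero_ne_one h3
    have hjinj : Function.Injective X.j := by
      intro k k' hkk
      by_contra hne
      have h3 := X.der_z k k'
      have h4 := X.der_z_same k'
      rw [if_neg hne, X.z_eq, hkk, ← X.z_eq, h4] at h3
      exact one_ne_zero h3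
    have h5 : ∀ k, ‖w k‖ ^ 2 = ‖D (f ⟨X.j k, hji k⟩) y w‖ ^ 2 := by
      intro k
      have : f ⟨X.j k, hji k⟩ = fun y : X.B →ₐ[ℂ] ℂ => cp y k := by
        funext y
        change y (X.x (X.j k)) = y (X.z k)
        rw [X.z_eq]
      rw [this, G792.D_coord]
    unfold Ho51.nsq W792.nT
    calc ∑ k, ‖w k‖ ^ 2 = ∑ k, ‖D (f ⟨X.j k, hji k⟩) y w‖ ^ 2 :=
          Finset.sum_congr rfl fun k _ => h5 k
      _ ≤ ∑ l, ‖D (f l) y w‖ ^ 2 := by
          have := Finset.sum_image (s := Finset.univ) (f := fun l => ‖D (f l) y w‖ ^ 2)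
            (g := fun k => (⟨X.j k, hji k⟩ : {l : Fin (N + 1) // l ≠ X.i}))
            (fun k _ k' _ h => hjinj (congrArg Subtype.val h))
          rw [← this]
          exact Finset.sum_le_sum_of_subset_of_nonneg (Finset.subset_univ _)
            fun _ _ _ => by positivity
  have h3 : 0 ≤ W792.nT f y w := W792.nT_nonneg f y w
  rw [h0]
  rcases h2 with h2 | h2
  · rw [one_mul, div_eq_mul_inv, mul_comm, inv_pow]
    have := hp y
    gcongr
  · subst h2
    have : Ho51.nsq w = 0 := by simp [Ho51.nsq]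
    rw [this, mul_zero]
    have := hp y
    positivity

/-! ### The Gram determinant -/

/-- rows `x, ∂₁x, .., ∂ₙx` -/
def frm (X : XC I n) (y : X.B →ₐ[ℂ] ℂ) : Matrix (Fin (n + 1)) (Fin (N + 1)) ℂ :=
  Fin.cons (pt X y) (fun k l => y (X.der k (X.x l)))

/-- Gram determinant of the rows of a matrix -/
def gdet (A : Matrix (Fin (n + 1)) (Fin (N + 1)) ℂ) : ℝ := (A * A.conjTranspose).det.re

open scoped ComplexOrder in
lemma gdet_pos {A : Matrix (Fin (n + 1)) (Fin (N + 1)) ℂ} (hA : LinearIndependent ℂ A.row) :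
    0 < gdet A := by
  have h1 : (A * A.conjTranspose).PosDef := by
    have h2 : Function.Injective A.vecMul := Matrix.vecMul_injective_iff.mpr hA
    exact Matrix.PosDef.mul_conjTranspose_self A h2
  exact (Complex.pos_iff.mp h1.det_pos).1

lemma frm_zero (y : X.B →ₐ[ℂ] ℂ) (l : Fin (N + 1)) : frm X y 0 l = y (X.x l) := rfl

lemma frm_succ (y : X.B →ₐ[ℂ] ℂ) (k : Fin n) (l : Fin (N + 1)) :
    frm X y k.succ l = y (X.der k (X.x l)) := rfl

lemma frm_indep (y : X.B →ₐ[ℂ] ℂ) : LinearIndependent ℂ (frm X y).row := by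
  rw [Fintype.linearIndependent_iff]
  intro g hg
  have h1 : ∀ l, ∑ a, g a * frm X y a l = 0 := by
    intro l
    have := congrFun hg l
    simpa [Finset.sum_apply, Matrix.row] using this
  have h0 : g 0 = 0 := by
    have := h1 X.i
    rw [Fin.sum_univ_succ] at this
    have h2 : ∀ k : Fin n, frm X y k.succ X.i = 0 := by
      intro k
      rw [frm_succ, X.x_i, Derivation.map_one_eq_zero, map_zero]
    simp only [h2, mul_zero, Finset.sum_const_zero, add_zero, frm_zero, X.x_i, map_one,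
      mul_one] at this
    exact this
  have h3 : ∀ k : Fin n, g k.succ = 0 := by
    intro k
    have := h1 (X.j k)
    rw [Fin.sum_univ_succ, h0, zero_mul, zero_add, Finset.sum_eq_single k] at this
    · rw [frm_succ, ← X.z_eq, X.der_z_same, map_one, mul_one] at this
      exact this
    · intro k' _ hne
      rw [frm_succ, ← X.z_eq, X.der_z, if_neg (Ne.symm hne), map_zero, mul_zero]
    · intro h; exact absurd (Finset.mem_univ k) h
  intro a
  exact Fin.cases h0 h3 a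

/-- Gram determinant -/
def gr (X : XC I n) (y : X.B →ₐ[ℂ] ℂ) : ℝ := gdet (frm X y)

lemma gr_pos (y : X.B →ₐ[ℂ] ℂ) : 0 < gr X y := gdet_pos (frm_indep y)

lemma Sm.prodC {M : Type*} [TopologicalSpace M] [RDom n M] {ι : Type*} (s : Finset ι)
    {f : ι → M → ℂ} (hf : ∀ i ∈ s, Sm (f i)) : Sm (fun x => ∏ i ∈ s, f i x) := by
  classical
  induction s using Finset.induction_on with
  | empty => simpa using Sm.const (n := n) (M := M) (1 : ℂ)
  | insert a s ha ih =>
    simp only [Finset.prod_insert ha]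
    exact (hf a (Finset.mem_insert_self a s)).mul (ih fun i hi => hf i (Finset.mem_insert_of_mem hi))

lemma sm_frm (a : Fin (n + 1)) (l : Fin (N + 1)) : Sm (fun y : X.B →ₐ[ℂ] ℂ => frm X y a l) := by
  refine Fin.cases ?_ (fun k => ?_) a
  · exact sm_ev _
  · exact sm_ev _

lemma sm_gr : Sm (gr X) := by
  have h1 : Sm (fun y : X.B →ₐ[ℂ] ℂ => (frm X y * (frm X y).conjTranspose).det) := by
    simp only [Matrix.det_apply']
    refine Sm.sum fun σ _ => ?_
    refine (Sm.const _).mul (Sm.prodC _ fun a _ => ?_)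
    simp only [Matrix.mul_apply, Matrix.conjTranspose_apply]
    exact Sm.sum fun l _ => (sm_frm _ l).mul (sm_frm _ l).conj
  exact h1.clm Complex.reCLM

/-- the weight of `K_X` in the frame `dz₁ ∧ .. ∧ dzₙ` -/
def Psi (X : XC I n) (u : EE N → ℝ) (y : X.B →ₐ[ℂ] ℂ) : ℝ :=
  Real.log (gr X y) - (n + 1) * lns X y + u (pt X y)

lemma sm_pt : Sm (pt X) := by
  intro y
  rw [contDiffAt_pi]
  intro l
  exact sm_ev (X.x l) y

lemma sm_u {u : EE N → ℝ} (hu : ∀ p ∈ Cone I, ContDiffAt ℝ ∞ u p) :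
    Sm (fun y : X.B →ₐ[ℂ] ℂ => u (pt X y)) :=
  Sm.comp_at sm_pt fun y => hu _ (pt_mem y)

lemma sm_Psi {u : EE N → ℝ} (hu : ∀ p ∈ Cone I, ContDiffAt ℝ ∞ u p) : Sm (Psi X u) := by
  unfold Psi
  refine Sm.add (Sm.sub ?_ ((Sm.const _).mulR sm_lns)) (sm_u hu)
  exact Sm.comp_at (g := Real.log) sm_gr fun y => Real.contDiffAt_log.mpr (gr_pos y).ne'

/-! ### Levi forms in the ambient space and on `M` -/

/-- Levi form of a function on `ℂⁿ` -/
def levE {n : ℕ} (f : (Fin n → ℂ) → ℝ) (z w : Fin n → ℂ) : ℝ :=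
  (1 / 4) * (fderiv ℝ (fun z => fderiv ℝ f z w) z w +
    fderiv ℝ (fun z => fderiv ℝ f z (Complex.I • w)) z (Complex.I • w))

/-- rows `σ, ∂₁σ, .., ∂ₙσ` -/
def frs (σ : CC n → EE N) (z : CC n) : Matrix (Fin (n + 1)) (Fin (N + 1)) ℂ :=
  Fin.cons (σ z) (fun k => fderiv ℂ σ z (Pi.single k 1))

/-- positively curved metric on `K_X`: `e^{-u}` times the Fubini-Study metric -/
structure PosMet (I : Ideal (HomCoordRing N)) (n : ℕ) (u : EE N → ℝ) (c : ℝ) : Prop where
  sm : ∀ p ∈ Cone I, ContDiffAt ℝ ∞ u p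
  hom : ∀ p ∈ Cone I, ∀ a : ℂ, a ≠ 0 → u (a • p) = u p
  c_pos : 0 < c
  pos : ∀ (z0 : CC n) (σ : CC n → EE N), AnalyticAt ℂ σ z0 → (∀ᶠ z in 𝓝 z0, σ z ∈ Cone I) →
    LinearIndependent ℂ (frs σ z0).row → ∀ w : CC n,
    c * levE (fun z => Real.log (Geo_328.nsq (σ z))) z0 w ≤
      levE (fun z => Real.log (gdet (frs σ z)) - (n + 1) * Real.log (Geo_328.nsq (σ z)) +
        u (σ z)) z0 w

lemma lev_chart (f : (X.B →ₐ[ℂ] ℂ) → ℝ) {y : X.B →ₐ[ℂ] ℂ} (C : Chart X.z y) (w : CC n) :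
    W792.lev f y w = levE (fun ζ => f (C.s ζ)) 0 w := by
  have h : ∀ v : CC n, D (fun y => D f y v) y v =
      fderiv ℝ (fun z => fderiv ℝ (fun ζ => f (C.s ζ)) z v) 0 v := by
    intro v
    rw [Amp1_243.D_chart _ C]
    congr 1
    apply Filter.EventuallyEq.fderiv_eq
    filter_upwards [isOpen_ball.mem_nhds (mem_ball_self C.r_pos)] with ζ hζ
    rw [D_chart' f C hζ]
  unfold W792.lev levE
  rw [h w, h (Complex.I • w)]

lemma frs_chart {y : X.B →ₐ[ℂ] ℂ} (C : Chart X.z y) {ζ : CC n} (hζ : ζ ∈ ball (0 : CC n) C.r) :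
    frs (fun ζ => pt X (C.s ζ)) ζ = frm X (C.s ζ) := by
  have h1 : ∀ l, HasFDerivAt (fun ζ => C.s ζ (X.x l)) (fderiv ℂ (fun ζ => C.s ζ (X.x l)) ζ) ζ :=
    fun l => (C.anal (X.x l) ζ hζ).differentiableAt.hasFDerivAt
  have h2 : HasFDerivAt (fun ζ => pt X (C.s ζ))
      (ContinuousLinearMap.pi fun l => fderiv ℂ (fun ζ => C.s ζ (X.x l)) ζ) ζ :=
    hasFDerivAt_pi.mpr h1
  funext a
  refine Fin.cases rfl (fun k => ?_) a
  change fderiv ℂ (fun ζ => pt X (C.s ζ)) ζ (Pi.single k 1) = fun l => C.s ζ (X.der k (X.x l))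
  rw [h2.fderiv]
  funext l
  rw [ContinuousLinearMap.pi_apply, fderiv_chart C hζ, Finset.sum_eq_single k]
  · simp
  · intro k' _ hne
    rw [Pi.single_eq_of_ne hne, zero_mul]
  · intro h; exact absurd (Finset.mem_univ k) h

/-- **the metric inequality on `M`** -/
theorem lev_Psi_ge {u : EE N → ℝ} {c : ℝ} (h : PosMet I n u c) (y : X.B →ₐ[ℂ] ℂ) (w : CC n) :
    c * W792.lev (lns X) y w ≤ W792.lev (Psi X u) y w := by
  obtain ⟨C⟩ := X.hch y
  have hb : ball (0 : CC n) C.r ∈ 𝓝 (0 : CC n) := isOpen_ball.mem_nhds (mem_ball_self C.r_pos)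
  have hσ : AnalyticAt ℂ (fun ζ => pt X (C.s ζ)) 0 := by
    rw [analyticAt_pi_iff]
    intro l
    exact C.anal (X.x l) 0 (mem_ball_self C.r_pos)
  have h1 := h.pos 0 (fun ζ => pt X (C.s ζ)) hσ (Eventually.of_forall fun ζ => pt_mem _)
    (by rw [frs_chart C (mem_ball_self C.r_pos)]; exact frm_indep _) w
  rw [lev_chart (lns X) C, lev_chart (Psi X u) C]
  have h2 : levE (fun z => Real.log (gdet (frs (fun ζ => pt X (C.s ζ)) z)) -
      (n + 1) * Real.log (Geo_328.nsq (pt X (C.s z))) + u (pt X (C.s z))) 0 w =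
      levE (fun ζ => Psi X u (C.s ζ)) 0 w := by
    have h3 : (fun z => Real.log (gdet (frs (fun ζ => pt X (C.s ζ)) z)) -
        (n + 1) * Real.log (Geo_328.nsq (pt X (C.s z))) + u (pt X (C.s z))) =ᶠ[𝓝 0]
        fun ζ => Psi X u (C.s ζ) := by
      filter_upwards [hb] with ζ hζ
      rw [frs_chart C hζ]
      rfl
    have h4 : ∀ v : CC n, fderiv ℝ (fun z => fderiv ℝ (fun z =>
        Real.log (gdet (frs (fun ζ => pt X (C.s ζ)) z)) -
        (n + 1) * Real.log (Geo_328.nsq (pt X (C.s z))) + u (pt X (C.s z))) z v) 0 v =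
        fderiv ℝ (fun z => fderiv ℝ (fun ζ => Psi X u (C.s ζ)) z v) 0 v := by
      intro v
      congr 1
      apply Filter.EventuallyEq.fderiv_eq
      filter_upwards [h3.eventuallyEq_nhds] with ζ hζ
      rw [hζ.fderiv_eq]
    unfold levE
    rw [h4, h4]
  rw [← h2]
  exact h1

end Crest.Agent.R269.Amp3_243
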