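import Crest.Agent.R269.Chart_632
import Crest.Agent.R269.CAtl_886
import Crest.Agent.R275.QN2c_734

/-!
# R269 (S0411), leaf GEO: the finite holomorphic atlas of `X^ = XX I` (helper632)

* `compactSpace_XX`  : `XX I` is compact;
* `chartX c hp`      : the chart of `XX I` given by a `ConeChart`;
* `AtlX I n`         : `A : Atl n (XX I)` with finite index type, `CA : CAtl I A`, `P : Part A`;
* `nonempty_atlX`    : existence.
-/

set_option autoImplicit false
set_option linter.unusedSectionVars false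
set_option linter.unusedVariables false

open MvPolynomial Crest.AlgGeometry.ProjEmb Set Filter Topology
open scoped ContDiff ComplexConjugate

namespace Crest.Agent.R269.AtlX_632

open Crest.Agent.R269.Geo_328 Crest.Agent.R269.CAtl_886 Crest.Agent.R275.Geo

noncomputable section

variable {N n : ℕ} {I : Ideal (HomCoordRing N)}

/-! ### compactness -/

theorem continuous_nsq : Continuous (nsq (N := N)) := by
  unfold nsq
  fun_prop

theorem isClosed_affineCone (I : Ideal (HomCoordRing N)) : IsClosed (affineCone I) := by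
  have h : affineCone I = ⋂ F ∈ I, {p : EE N | MvPolynomial.eval p F = 0} := by
    ext p; simp [affineCone]
  rw [h]
  refine isClosed_biInter fun F _ => ?_
  exact isClosed_eq (Geo0_632.contDiff_eval (m := 0) F).continuous continuous_const

theorem isCompact_sphereCone (I : Ideal (HomCoordRing N)) :
    IsCompact {p : EE N | p ∈ affineCone I ∧ nsq p = 1} := by
  refine Metric.isCompact_of_isClosed_isBounded ?_ ?_
  · exact (isClosed_affineCone I).inter (isClosed_eq continuous_nsq continuous_const)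
  · refine (Metric.isBounded_closedBall (x := (0 : EE N)) (r := 1)).subset ?_
    rintro p ⟨-, hp⟩
    rw [mem_closedBall_zero_iff, pi_norm_le_iff_of_nonneg zero_le_one]
    intro k
    have h1 : ‖p k‖ ^ 2 ≤ nsq p := Finset.single_le_sum (f := fun k => ‖p k‖ ^ 2)
      (fun _ _ => by positivity) (Finset.mem_univ k)
    rw [hp] at h1
    nlinarith [norm_nonneg (p k)]

theorem smul_mem_Cone (hX : IsSmoothProjective I n) {p : EE N} (hp : p ∈ Cone I) {c : ℂ}
    (hc : c ≠ 0) : c • p ∈ Cone I :=
  ⟨Geo0_632.smul_mem_cone hX hp.1 c, smul_ne_zero hc hp.2⟩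

theorem XX_eq_image (hX : IsSmoothProjective I n) :
    XX I = PP '' {p : EE N | p ∈ affineCone I ∧ nsq p = 1} := by
  apply subset_antisymm
  · rintro _ ⟨p, hp, rfl⟩
    have h1 := nsq_pos hp.2
    have h2 : ((Real.sqrt (nsq p))⁻¹ : ℂ) ≠ 0 := by
      have : (Real.sqrt (nsq p)) ≠ 0 := (Real.sqrt_pos.2 h1).ne'
      exact inv_ne_zero (by exact_mod_cast this)
    refine ⟨((Real.sqrt (nsq p))⁻¹ : ℂ) • p, ⟨(smul_mem_Cone hX hp h2).1, ?_⟩, PP_smul h2 p⟩
    rw [nsq_smul, norm_inv, Complex.norm_real, Real.norm_eq_abs, abs_of_nonneg (Real.sqrt_nonneg _),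
      inv_pow, Real.sq_sqrt h1.le, inv_mul_cancel₀ h1.ne']
  · rintro _ ⟨p, hp, rfl⟩
    refine ⟨p, ⟨hp.1, ?_⟩, rfl⟩
    rintro rfl
    have := hp.2
    simp [nsq] at this

theorem isCompact_XX (hX : IsSmoothProjective I n) : IsCompact (XX I) := by
  rw [XX_eq_image hX]
  refine (isCompact_sphereCone I).image_of_continuousOn ?_
  intro p hp
  have h0 : p ≠ 0 := by
    rintro rfl
    have := hp.2
    simp [nsq] at this
  exact (contDiffAt_PP h0).continuousAt.continuousWithinAt

theorem compactSpace_XX (hX : IsSmoothProjective I n) : CompactSpace (XX I) :=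
  isCompact_iff_compactSpace.1 (isCompact_XX hX)

/-! ### columns -/

/-- the `i`-th column of a matrix -/
def col (i : Fin (N + 1)) (x : VV N) : EE N := fun j => x j i

theorem continuous_col (i : Fin (N + 1)) : Continuous (col (N := N) i) := by
  unfold col
  fun_prop

theorem col_PP (i : Fin (N + 1)) (p : EE N) : col i (PP p) = (conj (p i) / (nsq p : ℂ)) • p := by
  funext j
  simp only [col, PP, Pi.smul_apply, smul_eq_mul]
  ring

theorem col_PP_ne {i : Fin (N + 1)} {p : EE N} (hp : p ≠ 0) (hi : p i ≠ 0) :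
    conj (p i) / (nsq p : ℂ) ≠ 0 := by
  refine div_ne_zero (by simpa using hi) ?_
  exact_mod_cast (nsq_pos hp).ne'

/-- a column with nonzero diagonal entry is a lift -/
theorem col_lift (hX : IsSmoothProjective I n) {i : Fin (N + 1)} (x : XX I)
    (hi : col i (x : VV N) i ≠ 0) : col i (x : VV N) ∈ Cone I ∧ PP (col i (x : VV N)) = x := by
  obtain ⟨p, hp, hpx⟩ := x.2
  rw [← hpx] at hi ⊢
  have hpi : p i ≠ 0 := by
    intro h
    apply hi
    rw [col_PP, Pi.smul_apply, h, smul_zero]
  have hc := col_PP_ne hp.2 hpi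
  rw [col_PP]
  exact ⟨smul_mem_Cone hX hp hc, PP_smul hc p⟩

/-! ### the chart -/

section chart

variable {p₀ : EE N} (c : ConeChart I n p₀)

/-- centre of the unit cube -/
def ctr : ℂ := 1 / 2 + 1 / 2 * Complex.I

/-- scale -/
def sc : ℂ := ((1 / (2 * c.R) : ℝ) : ℂ)

theorem sc_ne : sc c ≠ 0 := by
  unfold sc
  have := c.R_pos
  exact_mod_cast (by positivity : (1 / (2 * c.R) : ℝ) ≠ 0)

theorem norm_sc : ‖sc c‖ = 1 / (2 * c.R) := by
  unfold sc
  have := c.R_pos
  rw [Complex.norm_real, Real.norm_eq_abs, abs_of_pos (by positivity)]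

/-- affine coordinates of `Cn n` in the unit cube -/
def toCn (z : CC n) : Cn n := WithLp.toLp 2 (fun k => ctr + sc c * z k)

def fromCn (w : Cn n) : CC n := fun k => (w k - ctr) / sc c

@[simp] theorem fromCn_toCn (z : CC n) : fromCn c (toCn c z) = z := by
  funext k
  simp only [fromCn, toCn]
  have := sc_ne c
  field_simp
  ring

@[simp] theorem toCn_fromCn (w : Cn n) : toCn c (fromCn c w) = w := by
  ext k
  simp only [fromCn, toCn]
  have := sc_ne c
  field_simp
  ring

/-- linear part of `toCn` -/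
def Lto : CC n →L[ℂ] Cn n := LinearMap.toContinuousLinearMap
  { toFun := fun z => WithLp.toLp 2 (fun k => sc c * z k)
    map_add' := fun z w => by ext k; simp [mul_add]
    map_smul' := fun a z => by ext k; simp; ring }

def Lfrom : Cn n →L[ℂ] CC n := LinearMap.toContinuousLinearMap
  { toFun := fun w => fun k => w k / sc c
    map_add' := fun z w => by funext k; simp [add_div]
    map_smul' := fun a z => by funext k; simp; ring }

theorem Lto_apply (z : CC n) (k : Fin n) : Lto c z k = sc c * z k := rfl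
theorem Lfrom_apply (w : Cn n) (k : Fin n) : Lfrom c w k = w k / sc c := rfl

theorem toCn_eq (z : CC n) : toCn c z = WithLp.toLp 2 (fun _ => ctr) + Lto c z := by
  ext k
  simp [toCn, Lto_apply]

theorem fromCn_eq (w : Cn n) : fromCn c w = Lfrom c w - fun _ => ctr / sc c := by
  funext k
  simp [fromCn, Lfrom_apply, sub_div]

theorem hasFDerivAt_toCn (z : CC n) : HasFDerivAt (toCn c) (Lto c) z := by
  have h : toCn c = fun z => WithLp.toLp 2 (fun _ => ctr) + Lto c z := funext (toCn_eq c)
  rw [h]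
  exact (Lto c).hasFDerivAt.const_add _

theorem hasFDerivAt_fromCn (w : Cn n) : HasFDerivAt (fromCn c) (Lfrom c) w := by
  have h : fromCn c = fun w => Lfrom c w - fun _ => ctr / sc c := funext (fromCn_eq c)
  rw [h]
  exact (Lfrom c).hasFDerivAt.sub_const _

theorem differentiable_toCn : Differentiable ℂ (toCn c) := fun z =>
  (hasFDerivAt_toCn c z).differentiableAt

theorem differentiable_fromCn : Differentiable ℂ (fromCn c) := fun z =>
  (hasFDerivAt_fromCn c z).differentiableAt

theorem ratio_smul {i : Fin (N + 1)} {J : Fin n → Fin (N + 1)} {p q : EE N} {a : ℂ} (ha : a ≠ 0) :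
    ratio i J p (a • q) = ratio i J p q := by
  funext k
  simp only [ratio, Pi.smul_apply, smul_eq_mul]
  rw [mul_div_mul_left _ _ ha]

theorem differentiableOn_ratio (i : Fin (N + 1)) (J : Fin n → Fin (N + 1)) (p : EE N) :
    DifferentiableOn ℂ (ratio i J p) {q | q i ≠ 0} := by
  rw [differentiableOn_pi]
  intro k q hq
  have h1 : DifferentiableAt ℂ (fun q : EE N => q (J k)) q :=
    (ContinuousLinearMap.proj (R := ℂ) (φ := fun _ : Fin (N + 1) => ℂ) (J k)).differentiableAt
  have h2 : DifferentiableAt ℂ (fun q : EE N => q i) q :=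
    (ContinuousLinearMap.proj (R := ℂ) (φ := fun _ : Fin (N + 1) => ℂ) i).differentiableAt
  have h3 : DifferentiableAt ℂ (fun q : EE N => q (J k) / q i) q := by
    simp only [div_eq_mul_inv]
    exact h1.mul (h2.inv hq)
  exact (h3.sub_const _).differentiableWithinAt

theorem ratio_σ {z : CC n} (hz : z ∈ Metric.ball (0 : CC n) c.R) :
    ratio c.i c.J p₀ (c.σ z) = z := by
  funext k
  change c.σ z (c.J k) / c.σ z c.i - p₀ (c.J k) / p₀ c.i = z k
  rw [c.σ_i _ hz, c.σ_J _ hz]
  simp

/-- the coordinate, on all of the ambient space -/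
def zeta (q : EE N) : Cn n := toCn c (ratio c.i c.J p₀ q)

/-- domain of the coordinate -/
def WW : Set (EE N) := c.W ∩ ratio c.i c.J p₀ ⁻¹' Metric.ball 0 c.R

theorem WW_open : IsOpen (WW c) := by
  have h : ContinuousOn (ratio c.i c.J p₀) c.W :=
    (differentiableOn_ratio c.i c.J p₀).continuousOn.mono fun q hq => c.W_ne q hq
  exact h.isOpen_inter_preimage c.W_open Metric.isOpen_ball

theorem WW_smul {a : ℂ} (ha : a ≠ 0) {q : EE N} (hq : q ∈ WW c) : a • q ∈ WW c := by
  refine ⟨c.W_smul a ha q hq.1, ?_⟩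
  rw [mem_preimage, ratio_smul ha]
  exact hq.2

theorem mem_WW {q : EE N} (hq : q ∈ Cone I) : q ∈ WW c ↔ q ∈ c.W :=
  ⟨fun h => h.1, fun h => ⟨h, (c.surj q hq h).1⟩⟩

theorem zeta_smul {a : ℂ} (ha : a ≠ 0) (q : EE N) : zeta c (a • q) = zeta c q := by
  unfold zeta
  rw [ratio_smul ha]

theorem zeta_hol : DifferentiableOn ℂ (zeta c) (WW c) :=
  (differentiable_toCn c).comp_differentiableOn
    ((differentiableOn_ratio c.i c.J p₀).mono fun q hq => c.W_ne q hq.1)

/-- target of the chart -/
def tgt : Set (Cn n) := {w | fromCn c w ∈ Metric.ball (0 : CC n) c.R}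

theorem zeta_mem {q : EE N} (hq : q ∈ WW c) : zeta c q ∈ tgt c := by
  change fromCn c (toCn c (ratio c.i c.J p₀ q)) ∈ Metric.ball (0 : CC n) c.R
  rw [fromCn_toCn]
  exact hq.2

theorem σ_mem_WW {z : CC n} (hz : z ∈ Metric.ball (0 : CC n) c.R) : c.σ z ∈ WW c := by
  refine ⟨c.σ_W z hz, ?_⟩
  rw [mem_preimage, ratio_σ c hz]
  exact hz

theorem zeta_σ {w : Cn n} (hw : w ∈ tgt c) : zeta c (c.σ (fromCn c w)) = w := by
  unfold zeta
  rw [ratio_σ c hw, toCn_fromCn]

theorem tgt_open : IsOpen (tgt c) :=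
  Metric.isOpen_ball.preimage (differentiable_fromCn c).continuous

theorem col_mem_WW (_hX : IsSmoothProjective I n) {q : EE N} (hq : q ∈ Cone I) :
    col c.i (PP q) ∈ WW c ↔ q ∈ WW c := by
  rw [col_PP]
  constructor
  · intro h
    have h1 : conj (q c.i) / (nsq q : ℂ) ≠ 0 := by
      intro h0
      rw [h0, zero_smul] at h
      exact c.W_ne _ h.1 rfl
    have := WW_smul c (inv_ne_zero h1) h
    rwa [inv_smul_smul₀ h1] at this
  · intro h
    exact WW_smul c (col_PP_ne hq.2 (c.W_ne q h.1)) h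

theorem zeta_col {q : EE N} (hq : q ∈ Cone I) (hW : q ∈ WW c) :
    zeta c (col c.i (PP q)) = zeta c q := by
  rw [col_PP, zeta_smul c (col_PP_ne hq.2 (c.W_ne q hW.1))]

theorem PP_σ_ratio {q : EE N} (hq : q ∈ Cone I) (hW : q ∈ WW c) :
    PP (c.σ (ratio c.i c.J p₀ q)) = PP q := by
  have h1 := (c.surj q hq hW.1).2
  conv_rhs => rw [h1]
  exact (PP_smul (c.W_ne q hW.1) _).symm

open Classical in
/-- the chart of `XX I` -/
def chartX (hX : IsSmoothProjective I n) (hp : p₀ ∈ Cone I) : OpenPartialHomeomorph (XX I) (Cn n) where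
  toFun x := zeta c (col c.i (x : VV N))
  invFun w := if h : fromCn c w ∈ Metric.ball (0 : CC n) c.R then
    pt (c.σ (fromCn c w)) (c.σ_cone _ h) else pt p₀ hp
  source := {x | col c.i (x : VV N) ∈ WW c}
  target := tgt c
  map_source' := fun x hx => zeta_mem c hx
  map_target' := fun w hw => by
    have hw' : fromCn c w ∈ Metric.ball (0 : CC n) c.R := hw
    rw [dif_pos hw']
    change col c.i (PP _) ∈ WW c
    rw [col_mem_WW c hX (c.σ_cone _ hw')]
    exact σ_mem_WW c hw'
  left_inv' := fun x hx => by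
    have hx' : col c.i (x : VV N) ∈ WW c := hx
    have h1 : fromCn c (zeta c (col c.i (x : VV N))) ∈ Metric.ball (0 : CC n) c.R := zeta_mem c hx'
    obtain ⟨h2, h3⟩ := col_lift hX x (c.W_ne _ hx'.1)
    rw [dif_pos h1]
    apply Subtype.ext
    rw [pt_val]
    have h4 : fromCn c (zeta c (col c.i (x : VV N))) = ratio c.i c.J p₀ (col c.i (x : VV N)) := by
      unfold zeta
      rw [fromCn_toCn]
    rw [h4, PP_σ_ratio c h2 hx', h3]
  right_inv' := fun w hw => by
    have hw' : fromCn c w ∈ Metric.ball (0 : CC n) c.R := hw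
    rw [dif_pos hw', pt_val, zeta_col c (c.σ_cone _ hw') (σ_mem_WW c hw'), zeta_σ c hw]
  open_source := (WW_open c).preimage ((continuous_col c.i).comp continuous_subtype_val)
  open_target := tgt_open c
  continuousOn_toFun := by
    refine (zeta_hol c).continuousOn.comp
      ((continuous_col c.i).comp continuous_subtype_val).continuousOn fun x hx => hx
  continuousOn_invFun := by
    rw [Topology.IsInducing.subtypeVal.continuousOn_iff]
    have h1 : ContinuousOn (fun w => PP (c.σ (fromCn c w))) (tgt c) := by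
      intro w hw
      have h2 : ContinuousAt c.σ (fromCn c w) := (c.an _ hw).continuousAt
      have h3 : ContinuousAt (fromCn c) w := (differentiable_fromCn c).continuous.continuousAt
      have h4 : ContinuousAt (PP (N := N)) (c.σ (fromCn c w)) :=
        (contDiffAt_PP (c.σ_cone _ hw).2).continuousAt
      exact (ContinuousAt.comp (f := fun w => c.σ (fromCn c w)) h4
        (ContinuousAt.comp (f := fromCn c) h2 h3)).continuousWithinAt
    refine h1.congr fun w hw => ?_
    have hw' : fromCn c w ∈ Metric.ball (0 : CC n) c.R := hw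
    simp only [Function.comp_apply, dif_pos hw', pt_val]

variable (hX : IsSmoothProjective I n) (hp : p₀ ∈ Cone I)

theorem chartX_source :
    (chartX c hX hp).source = ({x : XX I | col c.i (x : VV N) ∈ WW c} : Set (XX I)) := rfl
theorem chartX_apply (x : XX I) : chartX c hX hp x = zeta c (col c.i (x : VV N)) := rfl

open Classical in
theorem chartX_symm {w : Cn n} (hw : w ∈ tgt c) : (chartX c hX hp).symm w =
    pt (c.σ (fromCn c w)) (c.σ_cone _ hw) := by
  have hw' : fromCn c w ∈ Metric.ball (0 : CC n) c.R := hw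
  change (if h : fromCn c w ∈ Metric.ball (0 : CC n) c.R then
    pt (c.σ (fromCn c w)) (c.σ_cone _ h) else pt p₀ hp) = _
  rw [dif_pos hw']

theorem pt_mem_source {q : EE N} (hq : q ∈ Cone I) :
    pt q hq ∈ (chartX c hX hp).source ↔ q ∈ WW c := by
  rw [chartX_source]
  exact col_mem_WW c hX hq

theorem chartX_pt {q : EE N} (hq : q ∈ Cone I) (hW : q ∈ WW c) :
    chartX c hX hp (pt q hq) = zeta c q := by
  rw [chartX_apply, pt_val, zeta_col c hq hW]

theorem tgt_cube {w : Cn n} (hw : w ∈ tgt c) (k : RI n) : rc w k ∈ Ioo (0 : ℝ) 1 := by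
  have h1 : ‖fromCn c w k.1‖ < c.R := by
    have h2 : ‖fromCn c w‖ < c.R := by simpa using (mem_ball_zero_iff.1 hw)
    exact lt_of_le_of_lt (norm_le_pi_norm _ _) h2
  have h2 : w k.1 = ctr + sc c * fromCn c w k.1 := by
    have := congrArg (fun v : Cn n => v k.1) (toCn_fromCn c w)
    simpa [toCn] using this.symm
  have h3 : ‖sc c * fromCn c w k.1‖ < 1 / 2 := by
    rw [norm_mul, norm_sc]
    have := c.R_pos
    rw [div_mul_eq_mul_div, one_mul, div_lt_iff₀ (by positivity)]
    linarith
  have h4 := Complex.abs_re_le_norm (sc c * fromCn c w k.1)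
  have h5 := Complex.abs_im_le_norm (sc c * fromCn c w k.1)
  rw [abs_le] at h4 h5
  have hre : (w k.1).re = 1 / 2 + (sc c * fromCn c w k.1).re := by
    rw [h2]; simp [ctr]
  have him : (w k.1).im = 1 / 2 + (sc c * fromCn c w k.1).im := by
    rw [h2]; simp [ctr]
  unfold rc
  split_ifs
  · rw [hre]; constructor <;> linarith [h4.1, h4.2]
  · rw [him]; constructor <;> linarith [h5.1, h5.2]

/-! #### the section over the chart -/

/-- the section of the cone over the chart -/
def secF (x : XX I) : EE N := c.σ (ratio c.i c.J p₀ (col c.i (x : VV N)))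

theorem secF_symm {w : Cn n} (hw : w ∈ tgt c) :
    secF c ((chartX c hX hp).symm w) = c.σ (fromCn c w) := by
  rw [chartX_symm c hX hp hw, secF, pt_val, col_PP]
  have h1 := σ_mem_WW c hw
  have h2 := c.σ_cone _ hw
  rw [ratio_smul (col_PP_ne h2.2 (c.W_ne _ h1.1)), ratio_σ c hw]

theorem secF_diff : DifferentiableOn ℂ (fun w => secF c ((chartX c hX hp).symm w)) (tgt c) := by
  have h1 : DifferentiableOn ℂ (fun w => c.σ (fromCn c w)) (tgt c) := by
    refine DifferentiableOn.comp (t := Metric.ball (0 : CC n) c.R) ?_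
      (differentiable_fromCn c).differentiableOn fun w hw => hw
    exact c.an.differentiableOn
  exact h1.congr fun w hw => secF_symm c hX hp hw

theorem secF_cone {x : XX I} (hx : x ∈ (chartX c hX hp).source) : secF c x ∈ Cone I := by
  have hx' : col c.i (x : VV N) ∈ WW c := hx
  exact c.σ_cone _ hx'.2

theorem secF_pp {x : XX I} (hx : x ∈ (chartX c hX hp).source) : PP (secF c x) = (x : VV N) := by
  have hx' : col c.i (x : VV N) ∈ WW c := hx
  obtain ⟨h2, h3⟩ := col_lift hX x (c.W_ne _ hx'.1)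
  rw [secF, PP_σ_ratio c h2 hx', h3]

theorem secF_fderiv {w : Cn n} (hw : w ∈ tgt c) (v : Cn n) :
    fderiv ℂ (fun w => secF c ((chartX c hX hp).symm w)) w v =
      fderiv ℂ c.σ (fromCn c w) (Lfrom c v) := by
  have h1 : HasFDerivAt c.σ (fderiv ℂ c.σ (fromCn c w)) (fromCn c w) :=
    (c.an _ hw).differentiableAt.hasFDerivAt
  have h2 : HasFDerivAt (fun w => c.σ (fromCn c w))
      ((fderiv ℂ c.σ (fromCn c w)).comp (Lfrom c)) w := h1.comp w (hasFDerivAt_fromCn c w)
  have h3 : (fun w => secF c ((chartX c hX hp).symm w)) =ᶠ[𝓝 w] fun w => c.σ (fromCn c w) := by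
    filter_upwards [(tgt_open c).mem_nhds hw] with y hy using secF_symm c hX hp hy
  rw [h3.fderiv_eq, h2.fderiv]
  rfl

theorem Lfrom_Lto (z : CC n) : Lfrom c (Lto c z) = z := by
  funext k
  rw [Lfrom_apply, Lto_apply]
  have := sc_ne c
  field_simp

theorem secF_tan {w : Cn n} (hw : w ∈ tgt c) (v : EE N) :
    v ∈ Tan I (secF c ((chartX c hX hp).symm w)) ↔
    ∃ (a : ℂ) (u : Cn n), v = a • secF c ((chartX c hX hp).symm w) +
      fderiv ℂ (fun w => secF c ((chartX c hX hp).symm w)) w u := by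
  have h1 := c.tan (fromCn c w) hw v
  rw [secF_symm c hX hp hw, h1]
  constructor
  · rintro ⟨a, x, rfl⟩
    refine ⟨a, Lto c x, ?_⟩
    rw [secF_fderiv c hX hp hw, Lfrom_Lto]
  · rintro ⟨a, u, rfl⟩
    refine ⟨a, Lfrom c u, ?_⟩
    rw [secF_fderiv c hX hp hw]

/-- the derivative of a `ConeChart` section in the free coordinates -/
theorem fderiv_σ_J {z : CC n} (hz : z ∈ Metric.ball (0 : CC n) c.R) (x : CC n) (k : Fin n) :
    fderiv ℂ c.σ z x (c.J k) = x k := by
  have hd : HasFDerivAt c.σ (fderiv ℂ c.σ z) z := (c.an _ hz).differentiableAt.hasFDerivAt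
  have h1 : HasFDerivAt (fun y => c.σ y (c.J k))
      ((ContinuousLinearMap.proj (R := ℂ) (φ := fun _ : Fin (N + 1) => ℂ) (c.J k)).comp
        (fderiv ℂ c.σ z)) z :=
    (ContinuousLinearMap.proj (R := ℂ) (φ := fun _ : Fin (N + 1) => ℂ) (c.J k)).hasFDerivAt.comp z hd
  have h2 : HasFDerivAt (fun y => c.σ y (c.J k))
      (ContinuousLinearMap.proj (R := ℂ) (φ := fun _ : Fin n => ℂ) k) z := by
    have h3 : HasFDerivAt (fun y : CC n => p₀ (c.J k) / p₀ c.i + y k)
        (ContinuousLinearMap.proj (R := ℂ) (φ := fun _ : Fin n => ℂ) k) z :=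
      (ContinuousLinearMap.proj (R := ℂ) (φ := fun _ : Fin n => ℂ) k).hasFDerivAt.const_add _
    refine h3.congr_of_eventuallyEq ?_
    filter_upwards [Metric.isOpen_ball.mem_nhds hz] with y hy using c.σ_J y hy k
  have := congrArg (fun L : (Fin n → ℂ) →L[ℂ] ℂ => L x) (h1.unique h2)
  simpa using this

theorem fderiv_σ_i {z : CC n} (hz : z ∈ Metric.ball (0 : CC n) c.R) (x : CC n) :
    fderiv ℂ c.σ z x c.i = 0 := by
  have hd : HasFDerivAt c.σ (fderiv ℂ c.σ z) z := (c.an _ hz).differentiableAt.hasFDerivAt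
  have h1 : HasFDerivAt (fun y => c.σ y c.i)
      ((ContinuousLinearMap.proj (R := ℂ) (φ := fun _ : Fin (N + 1) => ℂ) c.i).comp
        (fderiv ℂ c.σ z)) z :=
    (ContinuousLinearMap.proj (R := ℂ) (φ := fun _ : Fin (N + 1) => ℂ) c.i).hasFDerivAt.comp z hd
  have h2 : HasFDerivAt (fun y => c.σ y c.i) (0 : (Fin n → ℂ) →L[ℂ] ℂ) z := by
    refine (hasFDerivAt_const (1 : ℂ) z).congr_of_eventuallyEq ?_
    filter_upwards [Metric.isOpen_ball.mem_nhds hz] with y hy using c.σ_i y hy
  have := congrArg (fun L : (Fin n → ℂ) →L[ℂ] ℂ => L x) (h1.unique h2)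
  simpa using this

theorem secF_imm {w : Cn n} (hw : w ∈ tgt c) (a : ℂ) (u : Cn n)
    (h : fderiv ℂ (fun w => secF c ((chartX c hX hp).symm w)) w u =
      a • secF c ((chartX c hX hp).symm w)) : u = 0 := by
  rw [secF_fderiv c hX hp hw, secF_symm c hX hp hw] at h
  have ha : a = 0 := by
    have h1 := congrFun h c.i
    rw [fderiv_σ_i c hw, Pi.smul_apply, c.σ_i _ hw, smul_eq_mul, mul_one] at h1
    exact h1.symm
  rw [ha, zero_smul] at h
  ext k
  have h1 := congrFun h (c.J k)
  rw [fderiv_σ_J c hw, Lfrom_apply, Pi.zero_apply, div_eq_zero_iff] at h1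
  simpa using h1.resolve_right (sc_ne c)

end chart

/-! ### the atlas -/

/-- finite atlas of `XX I` with its sections and a partition of unity -/
structure AtlX (I : Ideal (HomCoordRing N)) (n : ℕ) where
  A : Atl n (XX I)
  fin : Fintype A.ι
  CA : CAtl I A
  P : Part A
  ψ01 : ∀ i x, 0 ≤ P.ψ i x ∧ P.ψ i x ≤ 1
  χ01 : ∀ i x, 0 ≤ P.χ i x ∧ P.χ i x ≤ 1

/-- the atlas given by a covering family of cone charts -/
def mkAtl (hX : IsSmoothProjective I n) {ι : Type} (p : ι → EE N) (hp : ∀ i, p i ∈ Cone I)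
    (c : ∀ i, ConeChart I n (p i))
    (hcov : ∀ x : XX I, ∃ i, x ∈ (chartX (c i) hX (hp i)).source) : Atl n (XX I) where
  ι := ι
  e i := chartX (c i) hX (hp i)
  cover := hcov
  cube i w hw k := tgt_cube (c i) hw k
  holo i j := by
    have h1 : DifferentiableOn ℂ (fun w => zeta (c j) ((c i).σ (fromCn (c i) w)))
        {w | w ∈ tgt (c i) ∧ (c i).σ (fromCn (c i) w) ∈ WW (c j)} := by
      have h3 : DifferentiableOn ℂ (fun w => (c i).σ (fromCn (c i) w))
          {w | w ∈ tgt (c i) ∧ (c i).σ (fromCn (c i) w) ∈ WW (c j)} :=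
        DifferentiableOn.comp (t := Metric.ball (0 : CC n) (c i).R) (c i).an.differentiableOn
          (differentiable_fromCn (c i)).differentiableOn fun w hw => hw.1
      exact (zeta_hol (c j)).comp h3 fun w hw => hw.2
    have h2 : {z | z ∈ (chartX (c i) hX (hp i)).target ∧
        (chartX (c i) hX (hp i)).symm z ∈ (chartX (c j) hX (hp j)).source} =
        {w | w ∈ tgt (c i) ∧ (c i).σ (fromCn (c i) w) ∈ WW (c j)} := by
      ext w
      simp only [mem_ofPred_eq]
      refine and_congr_right fun hw => ?_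
      have hw' : w ∈ tgt (c i) := hw
      rw [chartX_symm (c i) hX (hp i) hw', pt_mem_source]
    rw [h2]
    refine h1.congr fun w hw => ?_
    rw [chartX_symm (c i) hX (hp i) hw.1, chartX_pt (c j) hX (hp j) ((c i).σ_cone _ hw.1) hw.2]

/-- the sections over `mkAtl` -/
def mkCAtl (hX : IsSmoothProjective I n) {ι : Type} (p : ι → EE N) (hp : ∀ i, p i ∈ Cone I)
    (c : ∀ i, ConeChart I n (p i))
    (hcov : ∀ x : XX I, ∃ i, x ∈ (chartX (c i) hX (hp i)).source) :
    CAtl I (mkAtl hX p hp c hcov) where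
  F i x := secF (c i) x
  F_hol i := secF_diff (c i) hX (hp i)
  F_cone i x hx := secF_cone (c i) hX (hp i) hx
  F_pp i x hx := secF_pp (c i) hX (hp i) hx
  F_tan i z hz v := secF_tan (c i) hX (hp i) hz v
  F_imm i z hz a w h := secF_imm (c i) hX (hp i) hz a w h
  W i := WW (c i)
  W_open i := WW_open (c i)
  W_smul i a ha q hq := WW_smul (c i) ha hq
  ζ i := zeta (c i)
  ζ_hol i := zeta_hol (c i)
  ζ_smul i a ha q hq := zeta_smul (c i) ha q
  ζ_mem i q hq := zeta_mem (c i) hq
  mem_W i q hq := (pt_mem_source (c i) hX (hp i) hq).symm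
  ζ_e i q hq hW := chartX_pt (c i) hX (hp i) hq hW

theorem nonempty_atlX (hI : I.IsPrime) (hX : IsSmoothProjective I n) : Nonempty (AtlX I n) := by
  classical
  have : CompactSpace (XX I) := compactSpace_XX hX
  have hch : ∀ x : XX I, Nonempty (ConeChart I n (lift x)) := fun x =>
    Chart_632.coneChart hI hX (lift_cone x)
  choose c hc using fun x : XX I => (hch x).elim fun a => (⟨a, trivial⟩ : ∃ _ : ConeChart I n (lift x), True)
  have hcov : (univ : Set (XX I)) ⊆ ⋃ x, (chartX (c x) hX (lift_cone x)).source := by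
    intro x _
    rw [mem_iUnion]
    refine ⟨x, ?_⟩
    have h1 := (pt_mem_source (c x) hX (lift_cone x) (lift_cone x)).2
      ((mem_WW (c x) (lift_cone x)).2 (c x).mem_W)
    rwa [pt_lift] at h1
  obtain ⟨t, ht⟩ := isCompact_univ.elim_finite_subcover _
    (fun x => (chartX (c x) hX (lift_cone x)).open_source) hcov
  have hcov' : ∀ x : XX I, ∃ i : {y // y ∈ t},
      x ∈ (chartX (c i.1) hX (lift_cone i.1)).source := by
    intro x
    have := ht (mem_univ x)
    simp only [mem_iUnion, exists_prop] at this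
    obtain ⟨y, hy, hxy⟩ := this
    exact ⟨⟨y, hy⟩, hxy⟩
  obtain ⟨P, hP1, hP2, -⟩ := Crest.Agent.R275.QN2b734.exists_part_compact
    (mkAtl hX (ι := {y // y ∈ t}) (fun i => lift i.1)
    (fun i => lift_cone i.1) (fun i => c i.1) hcov')
  exact ⟨{ A := mkAtl hX (ι := {y // y ∈ t}) (fun i => lift i.1)
            (fun i => lift_cone i.1) (fun i => c i.1) hcov'
           fin := (inferInstance : Fintype {y // y ∈ t})
           CA := mkCAtl hX (ι := {y // y ∈ t}) (fun i => lift i.1)
            (fun i => lift_cone i.1) (fun i => c i.1) hcov'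
           P := P
           ψ01 := hP1
           χ01 := hP2 }⟩

end

end Crest.Agent.R269.AtlX_632
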