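import Crest.Agent.R269.Geo0_632
import Crest.Agent.R269.GeoDefs_328

-- ▼ part R269/Geo1_632
section

/-!
# R269, leaf GEO (G0), part 2: tangent spaces of the cone and affine charts `Ch I n`
-/

set_option autoImplicit false
set_option linter.unusedSectionVars false

open MvPolynomial Crest.AlgGeometry.ProjEmb Set Filter Topology
open scoped ContDiff Matrix

namespace Crest.Agent.R269.Geo1_632

open Geo0_632

noncomputable section

variable {N n : ℕ} {I : Ideal (HomCoordRing N)}

/-- Zariski tangent space of the cone at `p` -/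
def T (I : Ideal (HomCoordRing N)) (p : E N) : Submodule ℂ (E N) where
  carrier := {v | ∀ F ∈ I, dF F p v = 0}
  add_mem' := fun {v w} hv hw F hF => by rw [map_add, hv F hF, hw F hF, add_zero]
  zero_mem' := fun F _ => map_zero _
  smul_mem' := fun c v hv F hF => by rw [map_smul, hv F hF, smul_zero]

theorem mem_T {p v : E N} : v ∈ T I p ↔ ∀ F ∈ I, dF F p v = 0 := Iff.rfl

theorem self_mem_T (hX : IsSmoothProjective I n) {p : E N} (hp : p ∈ affineCone I) : p ∈ T I p :=
  fun _ hF => dF_self hX hp hF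

theorem eval_smul_of_isHomogeneous {G : HomCoordRing N} {d : ℕ} (hG : G.IsHomogeneous d) (c : ℂ)
    (p : E N) : eval (c • p) G = c ^ d * eval p G := by
  rw [eval_eq, eval_eq, Finset.mul_sum]
  refine Finset.sum_congr rfl fun m hm => ?_
  have h5 : m.degree = d := by
    have := hG (mem_support_iff.1 hm)
    rw [Finsupp.degree_eq_weight_one]
    exact this
  have h6 : ∏ i ∈ m.support, (c • p) i ^ m i = c ^ d * ∏ i ∈ m.support, p i ^ m i := by
    simp only [Pi.smul_apply, smul_eq_mul, mul_pow, Finset.prod_mul_distrib]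
    rw [Finset.prod_pow_eq_pow_sum]
    congr 2
  rw [h6]; ring

theorem T_le_T_smul (hX : IsSmoothProjective I n) {p : E N} {c : ℂ} (hc : c ≠ 0) :
    T I p ≤ T I (c • p) := by
  intro v hv F hF
  have h2 : F = ∑ d ∈ Finset.range (F.totalDegree + 1), homogeneousComponent d F :=
    (sum_homogeneousComponent F).symm
  have h1 : ∀ d, dF (homogeneousComponent d F) (c • p) v = 0 := by
    intro d
    have h3 := hv _ (hX.homogeneous F hF d)
    rw [dF_apply] at h3 ⊢
    have h4 : ∀ i, c * (v i * eval (c • p) (pderiv i (homogeneousComponent d F))) =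
        c ^ (d - 1) * c * (v i * eval p (pderiv i (homogeneousComponent d F))) := by
      intro i
      rw [eval_smul_of_isHomogeneous ((homogeneousComponent_isHomogeneous d F).pderiv (i := i))]
      ring
    have h5 : c * ∑ i, v i * eval (c • p) (pderiv i (homogeneousComponent d F)) = 0 := by
      rw [Finset.mul_sum, Finset.sum_congr rfl fun i _ => h4 i, ← Finset.mul_sum, h3, mul_zero]
    exact (mul_eq_zero.1 h5).resolve_left hc
  have h6 : dF F (c • p) v = ∑ d ∈ Finset.range (F.totalDegree + 1),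
      dF (homogeneousComponent d F) (c • p) v := by
    conv_lhs => rw [h2]
    simp only [dF_apply, map_sum, Finset.mul_sum]
    exact Finset.sum_comm
  rw [h6]
  exact Finset.sum_eq_zero fun d _ => h1 d

theorem T_smul (hX : IsSmoothProjective I n) {p : E N} {c : ℂ} (hc : c ≠ 0) :
    T I (c • p) = T I p := by
  refine le_antisymm ?_ (T_le_T_smul hX hc)
  have := T_le_T_smul hX (p := c • p) (inv_ne_zero hc)
  rwa [inv_smul_smul₀ hc] at this


/-- Affine chart of the cone: a holomorphic normalised parametrisation. -/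
structure Ch (I : Ideal (HomCoordRing N)) (n : ℕ) where
  i : Fin (N + 1)
  J : Fin n → Fin (N + 1)
  J_inj : Function.Injective J
  J_ne : ∀ k, J k ≠ i
  U : Set (Fin n → ℂ)
  U_open : IsOpen U
  σ : (Fin n → ℂ) → E N
  W : Set (E N)
  W_open : IsOpen W
  W_smul : ∀ x ∈ W, ∀ c : ℂ, c ≠ 0 → c • x ∈ W
  W_ne : ∀ x ∈ W, x i ≠ 0
  σ_an : ∀ z ∈ U, ContDiffAt ℂ ω σ z
  σ_cone : ∀ z ∈ U, σ z ∈ affineCone I
  σ_mem : ∀ z ∈ U, σ z ∈ W
  σ_i : ∀ z ∈ U, σ z i = 1
  σ_J : ∀ z ∈ U, ∀ k, σ z (J k) = z k
  W_U : ∀ x ∈ W, x ∈ affineCone I → (fun k => x (J k) / x i) ∈ U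
  W_eq : ∀ x ∈ W, x ∈ affineCone I → x = x i • σ (fun k => x (J k) / x i)
  tangent : ∀ z ∈ U, ∀ v ∈ T I (σ z),
    v = v i • σ z + fderiv ℂ σ z (fun k => v (J k) - v i * z k)

theorem exists_chart (hI : I.IsPrime) (hX : IsSmoothProjective I n) {p : E N}
    (hp : p ∈ affineCone I) (hp0 : p ≠ 0) : ∃ c : Ch I n, p ∈ c.W := by
  classical
  obtain ⟨F, e, S, ε, hF, hε, hDp, hS, hSp, W, hWo, hpW, hW⟩ := exists_local_graph hI hX hp hp0
  -- vectors tangent with vanishing free coordinates vanish
  have hzero : ∀ x : E N, Del F e x ≠ 0 → ∀ v : E N, (∀ a, dF (F a) x v = 0) →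
      (∀ l, v (e (Sum.inr l)) = 0) → v = 0 := by
    intro x hx v h1 h2
    have h3 : (fun b => v (e (Sum.inl b))) = 0 := by
      refine Matrix.eq_zero_of_mulVec_eq_zero hx ?_
      funext a
      have h4 := h1 a
      rw [dF_apply, ← e.sum_comp, Fintype.sum_sum_type] at h4
      simp only [h2, zero_mul, Finset.sum_const_zero, add_zero] at h4
      simpa [Matrix.mulVec, dotProduct, mul_comm] using h4
    funext j
    obtain ⟨j, rfl⟩ := e.surjective j
    rcases j with j | j
    · exact congrFun h3 j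
    · exact h2 j
  have hex : ∃ l0, p (e (Sum.inr l0)) ≠ 0 := by
    by_contra hcon
    push Not at hcon
    exact hp0 (hzero p hDp p (fun a => dF_self hX hp (hF a)) hcon)
  obtain ⟨l0, hl0⟩ := hex
  set i : Fin (N + 1) := e (Sum.inr l0) with hi
  let J : Fin n → Fin (N + 1) := fun k => e (Sum.inr (l0.succAbove k))
  set z0 : Fin (n + 1) → ℂ := fun l => p (e (Sum.inr l)) with hz0
  let ins : (Fin n → ℂ) → (Fin (n + 1) → ℂ) := fun z => p i • (l0.insertNth 1 z : Fin (n + 1) → ℂ)
  have hins0 : ∀ z, ins z l0 = p i := fun z => by simp [ins]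
  have hinsk : ∀ z k, ins z (l0.succAbove k) = p i * z k := fun z k => by simp [ins]
  have hinsc : ContDiff ℂ ω ins := by
    rw [contDiff_pi]
    intro l
    rcases eq_or_ne l l0 with rfl | hl
    · simp only [hins0]; exact contDiff_const
    · obtain ⟨k, rfl⟩ := Fin.exists_succAbove_eq hl
      simp only [hinsk]
      exact contDiff_const.mul (contDiff_apply ℂ ℂ k)
  let σ : (Fin n → ℂ) → E N := fun z => (p i)⁻¹ • S (ins z)
  let W1 : Set (E N) := {x | x i ≠ 0 ∧ (p i / x i) • x ∈ W}
  have hW1o : IsOpen W1 := by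
    have h1 : IsOpen {x : E N | x i ≠ 0} :=
      isOpen_ne.preimage (continuous_apply (A := fun _ : Fin (N + 1) => ℂ) i)
    have h2 : ContinuousOn (fun x : E N => (p i / x i) • x) {x : E N | x i ≠ 0} := by
      have h3 : ContinuousOn (fun x : E N => p i / x i) {x : E N | x i ≠ 0} :=
        ContinuousOn.div (f := fun _ : E N => p i) (g := fun x : E N => x i)
          continuousOn_const (continuous_apply i).continuousOn fun x hx => hx
      exact h3.smul continuousOn_id
    exact h2.isOpen_inter_preimage h1 hWo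
  let U1 : Set (Fin n → ℂ) := {z | ins z ∈ Metric.ball z0 ε}
  have hU1o : IsOpen U1 := Metric.isOpen_ball.preimage hinsc.continuous
  have hσc : ∀ z ∈ U1, ContDiffAt ℂ ω σ z := fun z hz =>
    ((hS _ hz).1.comp z hinsc.contDiffAt).const_smul (p i)⁻¹
  have hσcone : ∀ z ∈ U1, σ z ∈ affineCone I := fun z hz => smul_mem_cone hX (hS _ hz).2.1 _
  have hσi : ∀ z ∈ U1, σ z i = 1 := fun z hz => by
    simp only [σ, Pi.smul_apply, smul_eq_mul, hi]
    rw [(hS _ hz).2.2.1 l0, hins0, inv_mul_cancel₀ hl0]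
  have hσJ : ∀ z ∈ U1, ∀ k, σ z (J k) = z k := fun z hz k => by
    simp only [σ, Pi.smul_apply, smul_eq_mul, J]
    rw [(hS _ hz).2.2.1 (l0.succAbove k), hinsk, ← mul_assoc, inv_mul_cancel₀ hl0, one_mul]
  have hW1cone : ∀ x ∈ W1, x ∈ affineCone I →
      (fun k => x (J k) / x i) ∈ U1 ∧ x = x i • σ (fun k => x (J k) / x i) := by
    intro x hx hxc
    obtain ⟨hxi, hxW⟩ := hx
    have h1 := hW _ hxW (smul_mem_cone hX hxc _)
    have h2 : ins (fun k => x (J k) / x i) = fun l => ((p i / x i) • x) (e (Sum.inr l)) := by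
      funext l
      rcases eq_or_ne l l0 with rfl | hl
      · rw [hins0]
        simp only [Pi.smul_apply, smul_eq_mul, ← hi]
        field_simp
      · obtain ⟨k, rfl⟩ := Fin.exists_succAbove_eq hl
        rw [hinsk]
        simp only [Pi.smul_apply, smul_eq_mul, J]
        field_simp
    refine ⟨?_, ?_⟩
    · have h4 : ins (fun k => x (J k) / x i) ∈ Metric.ball z0 ε := by rw [h2]; exact h1.1
      exact h4
    · simp only [σ]
      rw [h2, h1.2, smul_smul, smul_smul]
      have : x i * (p i)⁻¹ * (p i / x i) = 1 := by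
        have h3 : p i ≠ 0 := hl0
        field_simp
      rw [this, one_smul]
  refine ⟨{ i := i, J := J, J_inj := ?_, J_ne := ?_, U := U1 ∩ σ ⁻¹' W1, U_open := ?_, σ := σ,
            W := W1, W_open := hW1o, W_smul := ?_, W_ne := fun x hx => hx.1,
            σ_an := fun z hz => hσc z hz.1, σ_cone := fun z hz => hσcone z hz.1,
            σ_mem := fun z hz => hz.2, σ_i := fun z hz => hσi z hz.1,
            σ_J := fun z hz => hσJ z hz.1, W_U := ?_, W_eq := fun x hx hxc => (hW1cone x hx hxc).2,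
            tangent := ?_ }, ?_⟩
  · intro k k' hk
    have := e.injective hk
    exact Fin.succAbove_right_injective (Sum.inr_injective this)
  · intro k hk
    have := Sum.inr_injective (e.injective hk)
    exact Fin.succAbove_ne l0 k this
  · have h1 : ContinuousOn σ U1 := fun z hz => (hσc z hz).continuousAt.continuousWithinAt
    exact h1.isOpen_inter_preimage hU1o hW1o
  · intro x hx c hc
    refine ⟨by simpa using ⟨hc, hx.1⟩, ?_⟩
    have h1 : (p i / (c • x) i) • (c • x) = (p i / x i) • x := by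
      rw [smul_smul, Pi.smul_apply, smul_eq_mul]
      congr 1
      have := hx.1
      field_simp
    rw [h1]; exact hx.2
  · intro x hx hxc
    have h1 := hW1cone x hx hxc
    refine ⟨h1.1, ?_⟩
    have h2 : σ (fun k => x (J k) / x i) = (x i)⁻¹ • x := by
      have hxi : x i ≠ 0 := hx.1
      have h4 : (x i)⁻¹ • x = (x i)⁻¹ • (x i • σ (fun k => x (J k) / x i)) := by rw [← h1.2]
      rw [h4, inv_smul_smul₀ hxi]
    change σ _ ∈ W1
    rw [h2]
    have hxi : x i ≠ 0 := hx.1
    refine ⟨by simp [hxi], ?_⟩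
    have h3 : (p i / ((x i)⁻¹ • x) i) • ((x i)⁻¹ • x) = (p i / x i) • x := by
      rw [smul_smul, Pi.smul_apply, smul_eq_mul]
      congr 1
      field_simp
    rw [h3]; exact hx.2
  · intro z hz v hv
    have hz1 := hz.1
    have hσd : DifferentiableAt ℂ σ z := (hσc z hz1).differentiableAt (by simp)
    have hnear : ∀ᶠ y in 𝓝 z, y ∈ U1 := hU1o.mem_nhds hz1
    -- components of the derivative
    have hdi : ∀ w, fderiv ℂ σ z w i = 0 := by
      intro w
      have h1 : HasFDerivAt (fun y => σ y i)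
          ((ContinuousLinearMap.proj (R := ℂ) (φ := fun _ : Fin (N + 1) => ℂ) i).comp
            (fderiv ℂ σ z)) z :=
        (ContinuousLinearMap.proj (R := ℂ) (φ := fun _ : Fin (N + 1) => ℂ) i).hasFDerivAt.comp z
          hσd.hasFDerivAt
      have h2 : HasFDerivAt (fun y => σ y i) (0 : (Fin n → ℂ) →L[ℂ] ℂ) z :=
        (hasFDerivAt_const (1 : ℂ) z).congr_of_eventuallyEq (by
          filter_upwards [hnear] with y hy using hσi y hy)
      have := congrArg (fun L : (Fin n → ℂ) →L[ℂ] ℂ => L w) (h1.unique h2)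
      simpa using this
    have hdJ : ∀ w k, fderiv ℂ σ z w (J k) = w k := by
      intro w k
      have h1 : HasFDerivAt (fun y => σ y (J k))
          ((ContinuousLinearMap.proj (R := ℂ) (φ := fun _ : Fin (N + 1) => ℂ) (J k)).comp
            (fderiv ℂ σ z)) z :=
        (ContinuousLinearMap.proj (R := ℂ) (φ := fun _ : Fin (N + 1) => ℂ) (J k)).hasFDerivAt.comp z
          hσd.hasFDerivAt
      have h2 : HasFDerivAt (fun y => σ y (J k))
          (ContinuousLinearMap.proj (R := ℂ) (φ := fun _ : Fin n => ℂ) k) z :=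
        (ContinuousLinearMap.proj (R := ℂ) (φ := fun _ : Fin n => ℂ) k).hasFDerivAt.congr_of_eventuallyEq (by
          filter_upwards [hnear] with y hy using hσJ y hy k)
      have := congrArg (fun L : (Fin n → ℂ) →L[ℂ] ℂ => L w) (h1.unique h2)
      simpa using this
    have hdT : ∀ w, fderiv ℂ σ z w ∈ T I (σ z) := by
      intro w G hG
      have h1 : HasFDerivAt (fun y => eval (σ y) G) ((dF G (σ z)).comp (fderiv ℂ σ z)) z :=
        (hasFDerivAt_eval G (σ z)).comp z hσd.hasFDerivAt
      have h2 : HasFDerivAt (fun y => eval (σ y) G) (0 : (Fin n → ℂ) →L[ℂ] ℂ) z :=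
        (hasFDerivAt_const (0 : ℂ) z).congr_of_eventuallyEq (by
          filter_upwards [hnear] with y hy using hσcone y hy G hG)
      have := congrArg (fun L : (Fin n → ℂ) →L[ℂ] ℂ => L w) (h1.unique h2)
      simpa using this
    set u : E N := v - (v i • σ z + fderiv ℂ σ z (fun k => v (J k) - v i * z k)) with hu
    have huT : u ∈ T I (S (ins z)) := by
      have h1 : u ∈ T I (σ z) := by
        refine Submodule.sub_mem _ hv (Submodule.add_mem _ (Submodule.smul_mem _ _ ?_) (hdT _))
        exact self_mem_T hX (hσcone z hz1)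
      have h2 : T I (σ z) = T I (S (ins z)) := T_smul hX (inv_ne_zero hl0)
      rwa [h2] at h1
    have hui : u i = 0 := by
      simp only [hu, Pi.sub_apply, Pi.add_apply, Pi.smul_apply, smul_eq_mul]
      rw [hdi, hσi z hz1]; ring
    have huJ : ∀ k, u (J k) = 0 := by
      intro k
      simp only [hu, Pi.sub_apply, Pi.add_apply, Pi.smul_apply, smul_eq_mul]
      rw [hdJ, hσJ z hz1]; ring
    have hu0 : u = 0 := by
      refine hzero _ (hS _ hz1).2.2.2 u (fun a => huT _ (hF a)) fun l => ?_
      rcases eq_or_ne l l0 with rfl | hl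
      · exact hui
      · obtain ⟨k, rfl⟩ := Fin.exists_succAbove_eq hl
        exact huJ k
    rw [hu, sub_eq_zero] at hu0
    exact hu0
  · refine ⟨hl0, ?_⟩
    have h3 : p i ≠ 0 := hl0
    rw [div_self h3, one_smul]; exact hpW

end

end Crest.Agent.R269.Geo1_632
end

-- ▼ part R269/Chart_632

/-!
# R269, leaf GEO-0: the local chart theorem `ChartStmt` of `GeoDefs_328` (from `Geo1_632.exists_chart`)
-/

set_option autoImplicit false
set_option linter.unusedSectionVars false

open MvPolynomial Crest.AlgGeometry.ProjEmb Set Filter Topology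
open scoped ContDiff Matrix

namespace Crest.Agent.R269.Chart_632

open Geo0_632 Geo1_632 Geo_328

noncomputable section

variable {N n : ℕ} {I : Ideal (HomCoordRing N)}

theorem dP_eq_dF (F : HomCoordRing N) (p v : EE N) : dP F p v = dF F p v := by
  rw [dF_apply, dP]
  exact Finset.sum_congr rfl fun j _ => mul_comm _ _

theorem Tan_eq_T (p : EE N) : Tan I p = T I p := by
  ext v
  simp only [mem_Tan, mem_T, dP_eq_dF]

theorem coneChart (hI : I.IsPrime) (hX : IsSmoothProjective I n) {p₀ : EE N} (hp : p₀ ∈ Cone I) :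
    Nonempty (ConeChart I n p₀) := by
  obtain ⟨c, hc⟩ := exists_chart hI hX hp.1 hp.2
  set z0 : CC n := fun k => p₀ (c.J k) / p₀ c.i with hz0
  have hz0U : z0 ∈ c.U := c.W_U p₀ hc hp.1
  obtain ⟨R, hR, hball⟩ := Metric.isOpen_iff.1 c.U_open z0 hz0U
  have hmem : ∀ z ∈ Metric.ball (0 : CC n) R, z0 + z ∈ c.U := by
    intro z hz
    apply hball
    rw [Metric.mem_ball, dist_eq_norm, add_sub_cancel_left]
    simpa using hz
  let σ : CC n → EE N := fun z => c.σ (z0 + z)
  have hratio : ContinuousOn (ratio c.i c.J p₀) c.W := by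
    rw [continuousOn_pi]
    intro k
    have h1 : ContinuousOn (fun q : EE N => q (c.J k) / q c.i) c.W :=
      ContinuousOn.div (f := fun q : EE N => q (c.J k)) (g := fun q : EE N => q c.i)
        (continuous_apply _).continuousOn (continuous_apply _).continuousOn fun q hq => c.W_ne q hq
    exact h1.sub continuousOn_const
  have hratio_smul : ∀ a : ℂ, a ≠ 0 → ∀ q : EE N, ratio c.i c.J p₀ (a • q) = ratio c.i c.J p₀ q := by
    intro a ha q
    funext k
    simp only [ratio, Pi.smul_apply, smul_eq_mul]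
    rw [mul_div_mul_left _ _ ha]
  have hratioσ : ∀ z ∈ Metric.ball (0 : CC n) R, ratio c.i c.J p₀ (σ z) = z := by
    intro z hz
    funext k
    change c.σ (z0 + z) (c.J k) / c.σ (z0 + z) c.i - p₀ (c.J k) / p₀ c.i = z k
    rw [c.σ_i _ (hmem z hz), c.σ_J _ (hmem z hz)]
    simp [hz0]
  have hσd : ∀ z ∈ Metric.ball (0 : CC n) R, ContDiffAt ℂ ω σ z := by
    intro z hz
    exact (c.σ_an _ (hmem z hz)).comp z (contDiffAt_const.add contDiffAt_id)
  have hfd : ∀ z ∈ Metric.ball (0 : CC n) R, fderiv ℂ σ z = fderiv ℂ c.σ (z0 + z) := by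
    intro z hz
    have h1 : DifferentiableAt ℂ c.σ (z0 + z) := (c.σ_an _ (hmem z hz)).differentiableAt (by simp)
    have h2 : HasFDerivAt σ ((fderiv ℂ c.σ (z0 + z)).comp (ContinuousLinearMap.id ℂ (CC n))) z :=
      HasFDerivAt.comp z h1.hasFDerivAt ((hasFDerivAt_id z).const_add z0)
    rw [h2.fderiv, ContinuousLinearMap.comp_id]
  refine ⟨{ i := c.i, J := c.J, J_inj := c.J_inj, J_ne := c.J_ne, p₀_ne := c.W_ne _ hc, R := R,
            R_pos := hR, σ := σ, W := c.W ∩ ratio c.i c.J p₀ ⁻¹' Metric.ball 0 R,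
            W_open := hratio.isOpen_inter_preimage c.W_open Metric.isOpen_ball,
            W_smul := ?_, W_ne := fun q hq => c.W_ne q hq.1, mem_W := ?_,
            an := fun z hz => (hσd z hz).analyticAt, σ_cone := ?_, σ_W := ?_, σ_zero := ?_,
            σ_i := fun z hz => c.σ_i _ (hmem z hz),
            σ_J := fun z hz k => c.σ_J _ (hmem z hz) k, surj := ?_, tan := ?_ }⟩
  · intro a ha q hq
    refine ⟨c.W_smul q hq.1 a ha, ?_⟩
    rw [mem_preimage, hratio_smul a ha]; exact hq.2
  · refine ⟨hc, ?_⟩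
    have : ratio c.i c.J p₀ p₀ = 0 := by
      funext k; simp [ratio]
    rw [mem_preimage, this]; exact Metric.mem_ball_self hR
  · intro z hz
    refine ⟨c.σ_cone _ (hmem z hz), fun h => ?_⟩
    have h1 := c.σ_i _ (hmem z hz)
    have h2 : c.σ (z0 + z) = 0 := h
    rw [h2] at h1
    simp at h1
  · intro z hz
    refine ⟨c.σ_mem _ (hmem z hz), ?_⟩
    rw [mem_preimage, hratioσ z hz]; exact hz
  · have h1 := c.W_eq p₀ hc hp.1
    have h2 : p₀ c.i ≠ 0 := c.W_ne _ hc
    change c.σ (z0 + 0) = _
    rw [add_zero]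
    have h3 : (p₀ c.i)⁻¹ • p₀ = (p₀ c.i)⁻¹ • (p₀ c.i • c.σ z0) := by rw [hz0, ← h1]
    rw [h3, inv_smul_smul₀ h2]
  · intro q hq hqW
    refine ⟨hqW.2, ?_⟩
    have h1 := c.W_eq q hqW.1 hq.1
    have h2 : z0 + ratio c.i c.J p₀ q = fun k => q (c.J k) / q c.i := by
      funext k; simp [ratio, hz0]
    change q = q c.i • c.σ (z0 + ratio c.i c.J p₀ q)
    rw [h2]; exact h1
  · intro z hz v
    rw [Tan_eq_T]
    constructor
    · intro hv
      have h1 := c.tangent _ (hmem z hz) v hv
      refine ⟨v c.i, fun k => v (c.J k) - v c.i * (z0 + z) k, ?_⟩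
      rw [hfd z hz]; exact h1
    · rintro ⟨a, x, rfl⟩
      have hcone := c.σ_cone _ (hmem z hz)
      refine Submodule.add_mem _ (Submodule.smul_mem _ _ (self_mem_T hX hcone)) ?_
      intro G hG
      have hd : DifferentiableAt ℂ σ z := (hσd z hz).differentiableAt (by simp)
      have h1 : HasFDerivAt (fun y => eval (σ y) G) ((dF G (σ z)).comp (fderiv ℂ σ z)) z :=
        (hasFDerivAt_eval G (σ z)).comp z hd.hasFDerivAt
      have h2 : HasFDerivAt (fun y => eval (σ y) G) (0 : (Fin n → ℂ) →L[ℂ] ℂ) z := by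
        refine (hasFDerivAt_const (0 : ℂ) z).congr_of_eventuallyEq ?_
        filter_upwards [Metric.isOpen_ball.mem_nhds hz] with y hy
        exact c.σ_cone _ (hmem y hy) G hG
      have := congrArg (fun L : (Fin n → ℂ) →L[ℂ] ℂ => L x) (h1.unique h2)
      simpa using this

/-- the statement of `GeoDefs_328` -/
theorem chartStmt : ChartStmt := fun _ _ _ hI hX _ hp => coneChart hI hX hp

end

end Crest.Agent.R269.Chart_632
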