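import Mathlib
import Crest.Prelude.Def_ProjPluricanonical

-- ▼ part R269/DictA_795
section

/-!
Row 269, DICT, part A: the local ring of the Prelude as a subalgebra, evaluation homomorphisms.
-/

set_option autoImplicit false
set_option linter.unusedSectionVars false

open MvPolynomial Crest.AlgGeometry.ProjEmb

noncomputable section

namespace Crest.Agent.R269.DictA_795

variable {N : ℕ} {I : Ideal (HomCoordRing N)} [I.IsPrime]

/-! ### The function field inside the fraction field of the cone -/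

/-- inclusion of the function field in the fraction field of the cone -/
def toConeHom (I : Ideal (HomCoordRing N)) [I.IsPrime] : FnField I →ₐ[ℂ] ConeFracField I :=
  (fnSubfield I).val


theorem toConeHom_injective : Function.Injective (toConeHom I) := (toConeHom I).toRingHom.injective

/-- the image of polynomials, as an algebra hom -/
def coneHom (I : Ideal (HomCoordRing N)) [I.IsPrime] : HomCoordRing N →ₐ[ℂ] ConeFracField I :=
  (IsScalarTower.toAlgHom ℂ (HomCoordRing N ⧸ I) (ConeFracField I)).comp (Ideal.Quotient.mkₐ ℂ I)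


theorem coneHom_eq_zero_iff {G : HomCoordRing N} : coneHom I G = 0 ↔ G ∈ I := by
  have h1 : coneHom I G = algebraMap (HomCoordRing N ⧸ I) (ConeFracField I)
    (Ideal.Quotient.mk I G) := rfl
  rw [h1, map_eq_zero_iff _ (IsFractionRing.injective _ _), Ideal.Quotient.eq_zero_iff_mem]


/-- `u` is represented by `G/H` -/
def IsRep (u : FnField I) (G H : HomCoordRing N) : Prop :=
  toConeHom I u * coneHom I H = coneHom I G



theorem IsRep.add {u v : FnField I} {G H G' H' : HomCoordRing N} (h : IsRep u G H) (h' : IsRep v G' H') :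
    IsRep (u + v) (G * H' + G' * H) (H * H') := by
  unfold IsRep at *
  simp only [map_add, map_mul]
  rw [← h, ← h']; ring

theorem IsRep.mul {u v : FnField I} {G H G' H' : HomCoordRing N} (h : IsRep u G H) (h' : IsRep v G' H') :
    IsRep (u * v) (G * G') (H * H') := by
  unfold IsRep at *
  simp only [map_mul]
  rw [← h, ← h']; ring

theorem IsRep.neg {u : FnField I} {G H : HomCoordRing N} (h : IsRep u G H) :
    IsRep (-u) (-G) H := by
  unfold IsRep at *
  simp only [map_neg]
  rw [← h]; ring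

theorem rep_algebraMap (c : ℂ) : IsRep (algebraMap ℂ (FnField I) c) (C c) (1 : HomCoordRing N) := by
  unfold IsRep
  rw [map_one, mul_one, AlgHom.commutes]
  have : (C c : HomCoordRing N) = algebraMap ℂ (HomCoordRing N) c := rfl
  rw [this, AlgHom.commutes]

theorem rep_one : IsRep (1 : FnField I) (1 : HomCoordRing N) 1 := by
  unfold IsRep; simp

theorem rep_zero : IsRep (0 : FnField I) (0 : HomCoordRing N) 1 := by
  unfold IsRep; simp

theorem IsRep.inv {u : FnField I} {G H : HomCoordRing N} (h : IsRep u G H) (hG : G ∉ I) :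
    IsRep u⁻¹ H G := by
  unfold IsRep at *
  have h1 : coneHom I G ≠ 0 := fun h0 => hG (coneHom_eq_zero_iff.1 h0)
  rw [map_inv₀]
  have hu : toConeHom I u ≠ 0 := by
    intro h0; rw [h0, zero_mul] at h; exact h1 h.symm
  rw [← h]; field_simp

theorem IsRep.sub_mem {u : FnField I} {G H G' H' : HomCoordRing N} (h : IsRep u G H)
    (h' : IsRep u G' H') : G * H' - G' * H ∈ I := by
  rw [← coneHom_eq_zero_iff]
  unfold IsRep at *
  simp only [map_sub, map_mul]
  rw [← h, ← h']; ring

/-- cone points do not kill non-members trivially: `eval p H ≠ 0` implies `H ∉ I` -/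
theorem not_mem_of_eval_ne {p : Fin (N + 1) → ℂ} (hp : p ∈ affineCone I) {H : HomCoordRing N}
    (h : eval p H ≠ 0) : H ∉ I := fun hH => h (hp H hH)

/-- The local ring at `p` as a subalgebra of the function field. -/
def stalk (I : Ideal (HomCoordRing N)) [I.IsPrime] (p : Fin (N + 1) → ℂ) :
    Subalgebra ℂ (FnField I) where
  carrier := stalkFn I p
  mul_mem' := by
    rintro a b ⟨k, G, H, hG, hH, hp, hr⟩ ⟨k', G', H', hG', hH', hp', hr'⟩
    refine ⟨k + k', G * G', H * H', hG.mul hG', hH.mul hH', ?_, IsRep.mul hr hr'⟩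
    rw [map_mul]; exact mul_ne_zero hp hp'
  add_mem' := by
    rintro a b ⟨k, G, H, hG, hH, hp, hr⟩ ⟨k', G', H', hG', hH', hp', hr'⟩
    refine ⟨k + k', G * H' + G' * H, H * H', ?_, hH.mul hH', ?_, IsRep.add hr hr'⟩
    · refine (hG.mul hH').add ?_
      rw [add_comm k k']; exact hG'.mul hH
    · rw [map_mul]; exact mul_ne_zero hp hp'
  algebraMap_mem' c := by
    refine ⟨0, C c, 1, isHomogeneous_C _ _, isHomogeneous_one _ _, ?_, rep_algebraMap c⟩
    simp



/-! ### Evaluation homomorphisms -/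

section evalHom

variable {S : Type*} [CommRing S] [Algebra ℂ S]

/-- data: an `S`-point `x` of the cone at which all homogeneous polynomials not vanishing at `p`
are units -/
structure IsPt (I : Ideal (HomCoordRing N)) (p : Fin (N + 1) → ℂ) (x : HomCoordRing N →ₐ[ℂ] S) :
    Prop where
  zero : ∀ F ∈ I, x F = 0
  unit : ∀ (k : ℕ) (H : HomCoordRing N), H.IsHomogeneous k → eval p H ≠ 0 → IsUnit (x H)

theorem evalFun_exists {p : Fin (N + 1) → ℂ} {x : HomCoordRing N →ₐ[ℂ] S} (hx : IsPt I p x)
    (u : stalk I p) : ∃ s : S, ∀ (G H : HomCoordRing N), IsRep (u : FnField I) G H →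
      x H * s = x G := by
  obtain ⟨u, k, G, H, hG, hH, hp, hr⟩ := u
  obtain ⟨v, hv⟩ := hx.unit k H hH hp
  refine ⟨x G * (v⁻¹ : Sˣ), fun G' H' h' => ?_⟩
  have h0 : x G * x H' = x G' * x H := by
    have := hx.zero _ (IsRep.sub_mem hr h')
    rwa [map_sub, map_mul, map_mul, sub_eq_zero] at this
  have hvv : (v : S) * (v⁻¹ : Sˣ) = 1 := v.mul_inv
  calc x H' * (x G * (v⁻¹ : Sˣ)) = (x G * x H') * (v⁻¹ : Sˣ) := by ring
    _ = x G' * (x H * (v⁻¹ : Sˣ)) := by rw [h0]; ring
    _ = x G' := by rw [← hv, hvv, mul_one]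

/-- The value at the `S`-point `x` of the regular function `u`. -/
def evalFun {p : Fin (N + 1) → ℂ} {x : HomCoordRing N →ₐ[ℂ] S} (hx : IsPt I p x)
    (u : stalk I p) : S := (evalFun_exists hx u).choose

theorem evalFun_spec {p : Fin (N + 1) → ℂ} {x : HomCoordRing N →ₐ[ℂ] S} (hx : IsPt I p x)
    (u : stalk I p) {G H : HomCoordRing N} (h : IsRep (u : FnField I) G H) :
    x H * evalFun hx u = x G := (evalFun_exists hx u).choose_spec G H h

theorem exists_rep {p : Fin (N + 1) → ℂ} (u : stalk I p) :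
    ∃ (k : ℕ) (G H : HomCoordRing N), G.IsHomogeneous k ∧ H.IsHomogeneous k ∧
      eval p H ≠ 0 ∧ IsRep (u : FnField I) G H := u.2

theorem evalFun_unique {p : Fin (N + 1) → ℂ} {x : HomCoordRing N →ₐ[ℂ] S} (hx : IsPt I p x)
    (u : stalk I p) {k : ℕ} {G H : HomCoordRing N} (hH : H.IsHomogeneous k) (hp : eval p H ≠ 0)
    (h : IsRep (u : FnField I) G H) {s : S} (hs : x H * s = x G) : s = evalFun hx u := by
  obtain ⟨v, hv⟩ := hx.unit k H hH hp
  have h1 := evalFun_spec hx u h
  rw [← hs] at h1
  rw [← hv] at h1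
  exact (v.mul_right_inj.1 h1).symm

/-- The evaluation homomorphism of the local ring at an `S`-point. -/
def evalHom {p : Fin (N + 1) → ℂ} {x : HomCoordRing N →ₐ[ℂ] S} (hx : IsPt I p x) :
    stalk I p →ₐ[ℂ] S where
  toFun := evalFun hx
  map_one' := by
    refine (evalFun_unique hx 1 (k := 0) (G := 1) (H := 1) (isHomogeneous_one _ _) (by simp)
      rep_one ?_).symm
    simp
  map_zero' := by
    refine (evalFun_unique hx 0 (k := 0) (G := 0) (H := 1) (isHomogeneous_one _ _) (by simp)
      rep_zero ?_).symm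
    simp
  map_mul' u v := by
    obtain ⟨k, G, H, hG, hH, hp, hr⟩ := exists_rep u
    obtain ⟨k', G', H', hG', hH', hp', hr'⟩ := exists_rep v
    symm
    refine evalFun_unique hx (u * v) (hH.mul hH') (by rw [map_mul]; exact mul_ne_zero hp hp')
      (IsRep.mul hr hr') ?_
    rw [map_mul, map_mul, ← evalFun_spec hx u hr, ← evalFun_spec hx v hr']; ring
  map_add' u v := by
    obtain ⟨k, G, H, hG, hH, hp, hr⟩ := exists_rep u
    obtain ⟨k', G', H', hG', hH', hp', hr'⟩ := exists_rep v
    symm
    refine evalFun_unique hx (u + v) (hH.mul hH') (by rw [map_mul]; exact mul_ne_zero hp hp')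
      (IsRep.add hr hr') ?_
    rw [map_mul, map_add, map_mul, map_mul, ← evalFun_spec hx u hr, ← evalFun_spec hx v hr']; ring
  commutes' c := by
    symm
    refine evalFun_unique hx _ (k := 0) (isHomogeneous_one _ _) (by simp)
      (rep_algebraMap (I := I) c) ?_
    have : (C c : HomCoordRing N) = algebraMap ℂ (HomCoordRing N) c := rfl
    rw [map_one, one_mul, this, AlgHom.commutes]

theorem evalHom_spec {p : Fin (N + 1) → ℂ} {x : HomCoordRing N →ₐ[ℂ] S} (hx : IsPt I p x)
    (u : stalk I p) {G H : HomCoordRing N} (h : IsRep (u : FnField I) G H) :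
    x H * evalHom hx u = x G := evalFun_spec hx u h


end evalHom

/-! ### Values and differentials at points -/

/-- a point of the cone as a `ℂ`-point -/
theorem isPt_point {p : Fin (N + 1) → ℂ} (hp : p ∈ affineCone I) :
    IsPt I p (aeval p : HomCoordRing N →ₐ[ℂ] ℂ) where
  zero F hF := by simpa [coe_aeval_eq_eval] using hp F hF
  unit k H _ h0 := by
    simpa [coe_aeval_eq_eval] using h0

/-- value of a regular function at `p` -/
def ev {p : Fin (N + 1) → ℂ} (hp : p ∈ affineCone I) : stalk I p →ₐ[ℂ] ℂ := evalHom (isPt_point hp)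

theorem ev_spec {p : Fin (N + 1) → ℂ} (hp : p ∈ affineCone I) (u : stalk I p)
    {G H : HomCoordRing N} (h : IsRep (u : FnField I) G H) :
    eval p H * ev hp u = eval p G := by
  unfold ev
  simpa [coe_aeval_eq_eval] using evalHom_spec (isPt_point hp) u h

theorem ev_eq_div {p : Fin (N + 1) → ℂ} (hp : p ∈ affineCone I) (u : stalk I p)
    {G H : HomCoordRing N} (h : IsRep (u : FnField I) G H) (hH : eval p H ≠ 0) :
    ev hp u = eval p G / eval p H := by
  rw [eq_div_iff hH, mul_comm]; exact ev_spec hp u h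

theorem mem_stalkMaxFn_iff_ev {p : Fin (N + 1) → ℂ} (hp : p ∈ affineCone I) (u : stalk I p) :
    (u : FnField I) ∈ stalkMaxFn I p ↔ ev hp u = 0 := by
  constructor
  · rintro ⟨k, G, H, hG, hH, hpH, hpG, hr⟩
    rw [ev_eq_div hp u hr hpH, hpG, zero_div]
  · intro h
    obtain ⟨k, G, H, hG, hH, hpH, hr⟩ := exists_rep u
    refine ⟨k, G, H, hG, hH, hpH, ?_, hr⟩
    rw [← ev_spec hp u hr, h, mul_zero]

theorem stalkMaxFn_subset_stalkFn {p : Fin (N + 1) → ℂ} : stalkMaxFn I p ⊆ stalkFn I p := by
  rintro u ⟨k, G, H, hG, hH, hpH, hpG, hr⟩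
  exact ⟨k, G, H, hG, hH, hpH, hr⟩

/-- elements of the stalk with non-zero value are units -/
theorem isUnit_of_ev_ne {p : Fin (N + 1) → ℂ} (hp : p ∈ affineCone I) (u : stalk I p)
    (hu : ev hp u ≠ 0) : IsUnit u := by
  obtain ⟨k, G, H, hG, hH, hpH, hr⟩ := exists_rep u
  have hG0 : eval p G ≠ 0 := by
    rw [← ev_spec hp u hr]; exact mul_ne_zero hpH hu
  have hinv : (u : FnField I)⁻¹ ∈ stalk I p :=
    ⟨k, H, G, hH, hG, hG0, IsRep.inv hr (not_mem_of_eval_ne hp hG0)⟩
  have hu0 : (u : FnField I) ≠ 0 := by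
    intro h0
    have h00 : u = 0 := Subtype.ext h0
    apply hu; rw [h00, map_zero]
  refine ⟨⟨u, ⟨_, hinv⟩, ?_, ?_⟩, rfl⟩
  · apply Subtype.ext; exact mul_inv_cancel₀ hu0
  · apply Subtype.ext; exact inv_mul_cancel₀ hu0

theorem isUnit_iff_ev {p : Fin (N + 1) → ℂ} (hp : p ∈ affineCone I) (u : stalk I p) :
    IsUnit u ↔ ev hp u ≠ 0 :=
  ⟨fun h => (h.map (ev hp)).ne_zero, isUnit_of_ev_ne hp u⟩

end Crest.Agent.R269.DictA_795
end
end

-- ▼ part R269/DictB_795

/-!
Row 269, DICT, part B: charts of the cone, gradients, coordinate data.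
-/

set_option autoImplicit false
set_option linter.unusedSectionVars false

open MvPolynomial Crest.AlgGeometry.ProjEmb
open Crest.Agent.R269.DictA_795

noncomputable section

namespace Crest.Agent.R269.DictB_795

/-! ### General algebra -/

/-- an alternating map evaluated on linear combinations of `n` vectors -/
theorem alt_det {R M M' : Type*} [CommRing R] [AddCommGroup M] [Module R M] [AddCommGroup M']
    [Module R M'] {m : ℕ} (f : M [⋀^Fin m]→ₗ[R] M') (e : Fin m → M) (c : Matrix (Fin m) (Fin m) R) :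
    f (fun l => ∑ s, c l s • e s) = c.det • f e := by
  let L : (Fin m → R) →ₗ[R] M := Fintype.linearCombination R e
  have hL : ∀ v, L v = ∑ s, v s • e s := fun v => rfl
  let g : (Fin m → R) [⋀^Fin m]→ₗ[R] M' := f.compLinearMap L
  let g' : (Fin m → R) [⋀^Fin m]→ₗ[R] M' :=
    (LinearMap.toSpanSingleton R M' (f e)).compAlternatingMap
      (Matrix.detRowAlternating (n := Fin m) (R := R))
  have hgg : g = g' := by
    refine Module.Basis.ext_alternating (Pi.basisFun R (Fin m)) fun i h => ?_
    let σ : Equiv.Perm (Fin m) := Equiv.ofBijective i (Finite.injective_iff_bijective.1 h)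
    have h1 : (fun j => (Pi.basisFun R (Fin m)) (i j)) = (fun j => (Pi.basisFun R (Fin m)) j) ∘ σ := rfl
    rw [h1, AlternatingMap.map_perm, AlternatingMap.map_perm]
    congr 1
    have h2 : g (fun j => (Pi.basisFun R (Fin m)) j) = f e := by
      change f (fun j => L ((Pi.basisFun R (Fin m)) j)) = f e
      congr 1
      funext j
      rw [hL]
      simp [Pi.single_apply]
    have h3 : g' (fun j => (Pi.basisFun R (Fin m)) j) = f e := by
      change (Matrix.det (fun j => (Pi.basisFun R (Fin m)) j)) • f e = f e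
      have : Matrix.det (fun j => (Pi.basisFun R (Fin m)) j) = (1 : R) := by
        have h4 : (fun j => (Pi.basisFun R (Fin m)) j) = (1 : Matrix (Fin m) (Fin m) R) := by
          funext j k
          simp [Matrix.one_apply, Pi.single_apply, eq_comm]
        rw [h4, Matrix.det_one]
      rw [this, one_smul]
    rw [h2, h3]
  have := congrArg (fun h => h c) hgg
  exact this

/-- a derivation applied to a polynomial expression -/
theorem der_aeval {R A M σ : Type*} [CommRing R] [CommRing A] [Algebra R A] [AddCommGroup M]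
    [Module A M] [Module R M] [Fintype σ] (D : Derivation R A M) (y : σ → A)
    (G : MvPolynomial σ R) : D (aeval y G) = ∑ j, aeval y (pderiv j G) • D (y j) := by
  classical
  induction G using MvPolynomial.induction_on with
  | C a =>
    simp only [pderiv_C, map_zero, zero_smul, Finset.sum_const_zero]
    have : aeval y (C a : MvPolynomial σ R) = algebraMap R A a := by
      rw [← MvPolynomial.algebraMap_eq, AlgHom.commutes]
    rw [this, D.map_algebraMap]
  | add p q hp hq =>
    simp only [map_add, hp, hq, add_smul, Finset.sum_add_distrib]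
  | mul_X p i hp =>
    simp only [map_mul, D.leibniz, hp, pderiv_mul, map_add, add_smul, Finset.sum_add_distrib, aeval_X]
    rw [add_comm]
    congr 1
    · rw [Finset.smul_sum]
      refine Finset.sum_congr rfl fun j _ => ?_
      rw [smul_smul, mul_comm]
    · rw [Finset.sum_eq_single i]
      · simp
      · intro j _ hj
        rw [pderiv_X_of_ne (Ne.symm hj)]; simp
      · simp

/-- homogeneity of evaluation in an algebra -/
theorem aeval_smul_hom {R A σ : Type*} [CommRing R] [CommRing A] [Algebra R A] {G : MvPolynomial σ R}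
    {k : ℕ} (hG : G.IsHomogeneous k) (c : A) (x : σ → A) :
    aeval (fun j => c * x j) G = c ^ k * aeval x G := by
  rw [aeval_def, aeval_def, eval₂_eq, eval₂_eq, Finset.mul_sum]
  refine Finset.sum_congr rfl fun d hd => ?_
  have h1 : ∑ i ∈ d.support, d i = k := by
    have := hG (mem_support_iff.1 hd)
    rw [← this, Finsupp.weight_apply]
    simp [Finsupp.sum]
  have h2 : ∏ i ∈ d.support, (c * x i) ^ d i = c ^ k * ∏ i ∈ d.support, x i ^ d i := by
    simp_rw [mul_pow]
    rw [Finset.prod_mul_distrib, Finset.prod_pow_eq_pow_sum, h1]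
  rw [h2]; ring

/-! ### Dehomogenisation -/

variable {N : ℕ} {I : Ideal (HomCoordRing N)} [I.IsPrime]

/-- dehomogenisation with respect to `x_i`, with values in the function field -/
def dh (I : Ideal (HomCoordRing N)) [I.IsPrime] (i : Fin (N + 1)) : HomCoordRing N →ₐ[ℂ] FnField I :=
  aeval (fnRatio I i)

theorem coneHom_X_ne {i : Fin (N + 1)} (hi : (X i : HomCoordRing N) ∉ I) : coneHom I (X i) ≠ 0 :=
  fun h => hi (coneHom_eq_zero_iff.1 h)

theorem toConeHom_fnRatio (i j : Fin (N + 1)) :
    toConeHom I (fnRatio I i j) = coneHom I (X j) / coneHom I (X i) := rfl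

theorem rep_fnRatio {i : Fin (N + 1)} (hi : (X i : HomCoordRing N) ∉ I) (j : Fin (N + 1)) :
    IsRep (fnRatio I i j) (X j) (X i) := by
  unfold IsRep
  rw [toConeHom_fnRatio, div_mul_cancel₀ _ (coneHom_X_ne hi)]

theorem fnRatio_self {i : Fin (N + 1)} (hi : (X i : HomCoordRing N) ∉ I) : fnRatio I i i = 1 := by
  apply toConeHom_injective
  rw [toConeHom_fnRatio, div_self (coneHom_X_ne hi), map_one]

theorem coneHom_eq_aeval (G : HomCoordRing N) : coneHom I G = aeval (fun j => coneHom I (X j)) G := by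
  have : coneHom I = aeval (fun j => coneHom I (X j)) := by
    apply MvPolynomial.algHom_ext; intro j; simp
  exact congrArg (fun h => h G) this

theorem toConeHom_dh (i : Fin (N + 1)) (G : HomCoordRing N) :
    toConeHom I (dh I i G) = aeval (fun j => coneHom I (X j) / coneHom I (X i)) G := by
  have : (toConeHom I).comp (dh I i) = aeval (fun j => coneHom I (X j) / coneHom I (X i)) := by
    apply MvPolynomial.algHom_ext; intro j; simp [dh, toConeHom_fnRatio]
  exact congrArg (fun h => h G) this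

theorem rep_dh {i : Fin (N + 1)} (hi : (X i : HomCoordRing N) ∉ I) {k : ℕ} {G : HomCoordRing N}
    (hG : G.IsHomogeneous k) : IsRep (dh I i G) G (X i ^ k) := by
  unfold IsRep
  have h0 := coneHom_X_ne hi
  rw [toConeHom_dh, coneHom_eq_aeval G, map_pow, mul_comm]
  rw [← aeval_smul_hom hG]
  congr 2
  funext j
  field_simp

theorem dh_eq_zero_of_mem_hom {i : Fin (N + 1)} (hi : (X i : HomCoordRing N) ∉ I) {k : ℕ}
    {G : HomCoordRing N} (hG : G.IsHomogeneous k) (hGI : G ∈ I) : dh I i G = 0 := by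
  have h1 := rep_dh hi hG
  unfold IsRep at h1
  rw [coneHom_eq_zero_iff.2 hGI, map_pow] at h1
  have h2 : toConeHom I (dh I i G) = 0 := by
    rcases mul_eq_zero.1 h1 with h | h
    · exact h
    · exact absurd h (pow_ne_zero _ (coneHom_X_ne hi))
  apply toConeHom_injective
  rw [h2, map_zero]

/-- homogeneous ideals -/
def Hom (I : Ideal (HomCoordRing N)) : Prop := ∀ F ∈ I, ∀ d : ℕ, homogeneousComponent d F ∈ I

theorem dh_eq_zero_of_mem (hI : Hom I) {i : Fin (N + 1)} (hi : (X i : HomCoordRing N) ∉ I)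
    {G : HomCoordRing N} (hGI : G ∈ I) : dh I i G = 0 := by
  rw [← sum_homogeneousComponent G, map_sum]
  refine Finset.sum_eq_zero fun d _ => ?_
  exact dh_eq_zero_of_mem_hom hi (homogeneousComponent_isHomogeneous d G) (hI G hGI d)

theorem dh_mem_chartRing (i : Fin (N + 1)) (G : HomCoordRing N) : dh I i G ∈ chartRing I i := by
  unfold chartRing
  rw [Algebra.adjoin_range_eq_range_aeval]
  exact ⟨G, rfl⟩

theorem exists_dh_of_mem_chartRing {i : Fin (N + 1)} {u : FnField I} (hu : u ∈ chartRing I i) :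
    ∃ G, dh I i G = u := by
  unfold chartRing at hu
  rw [Algebra.adjoin_range_eq_range_aeval] at hu
  exact hu

theorem X_not_mem {p : Fin (N + 1) → ℂ} (hp : p ∈ affineCone I) {i : Fin (N + 1)} (hpi : p i ≠ 0) :
    (X i : HomCoordRing N) ∉ I := fun h => hpi (by simpa using hp _ h)

theorem fnRatio_mem_stalk {p : Fin (N + 1) → ℂ} (hp : p ∈ affineCone I) {i : Fin (N + 1)}
    (hpi : p i ≠ 0) (j : Fin (N + 1)) : fnRatio I i j ∈ stalk I p :=
  ⟨1, X j, X i, isHomogeneous_X _ _, isHomogeneous_X _ _, by simpa using hpi,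
    rep_fnRatio (X_not_mem hp hpi) j⟩

/-- the ratio `x_j/x_i` as an element of the local ring -/
def yA {p : Fin (N + 1) → ℂ} (hp : p ∈ affineCone I) {i : Fin (N + 1)} (hpi : p i ≠ 0)
    (j : Fin (N + 1)) : stalk I p := ⟨fnRatio I i j, fnRatio_mem_stalk hp hpi j⟩

/-- dehomogenisation with values in the local ring -/
def dhA {p : Fin (N + 1) → ℂ} (hp : p ∈ affineCone I) {i : Fin (N + 1)} (hpi : p i ≠ 0) :
    HomCoordRing N →ₐ[ℂ] stalk I p := aeval (yA hp hpi)

theorem coe_dhA {p : Fin (N + 1) → ℂ} (hp : p ∈ affineCone I) {i : Fin (N + 1)} (hpi : p i ≠ 0)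
    (G : HomCoordRing N) : (dhA hp hpi G : FnField I) = dh I i G := by
  have : (stalk I p).val.comp (dhA hp hpi) = dh I i := by
    apply MvPolynomial.algHom_ext; intro j; simp [dhA, dh, yA]
  exact congrArg (fun h => h G) this

theorem chartRing_le_stalk {p : Fin (N + 1) → ℂ} (hp : p ∈ affineCone I) {i : Fin (N + 1)}
    (hpi : p i ≠ 0) : chartRing I i ≤ stalk I p := by
  intro u hu
  obtain ⟨G, rfl⟩ := exists_dh_of_mem_chartRing hu
  rw [← coe_dhA hp hpi]; exact (dhA hp hpi G).2

theorem dhA_eq_zero_of_mem (hI : Hom I) {p : Fin (N + 1) → ℂ} (hp : p ∈ affineCone I)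
    {i : Fin (N + 1)} (hpi : p i ≠ 0) {G : HomCoordRing N} (hG : G ∈ I) : dhA hp hpi G = 0 := by
  apply Subtype.ext
  rw [coe_dhA, dh_eq_zero_of_mem hI (X_not_mem hp hpi) hG]; rfl

theorem ev_yA {p : Fin (N + 1) → ℂ} (hp : p ∈ affineCone I) {i : Fin (N + 1)} (hpi : p i ≠ 0)
    (j : Fin (N + 1)) : ev hp (yA hp hpi j) = p j / p i := by
  rw [ev_eq_div hp (yA hp hpi j) (rep_fnRatio (X_not_mem hp hpi) j) (by simpa using hpi)]
  simp

theorem ev_dhA {p : Fin (N + 1) → ℂ} (hp : p ∈ affineCone I) {i : Fin (N + 1)} (hpi : p i ≠ 0)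
    {k : ℕ} {G : HomCoordRing N} (hG : G.IsHomogeneous k) :
    ev hp (dhA hp hpi G) = eval p G / p i ^ k := by
  have hr : IsRep ((dhA hp hpi G : stalk I p) : FnField I) G (X i ^ k) := by
    rw [coe_dhA]; exact rep_dh (X_not_mem hp hpi) hG
  rw [ev_eq_div hp _ hr (by simpa using pow_ne_zero k hpi)]
  simp

/-- every element of the local ring is a quotient of dehomogenised polynomials -/
theorem exists_dhA {p : Fin (N + 1) → ℂ} (hp : p ∈ affineCone I) {i : Fin (N + 1)} (hpi : p i ≠ 0)
    (u : stalk I p) : ∃ (k : ℕ) (G H : HomCoordRing N), G.IsHomogeneous k ∧ H.IsHomogeneous k ∧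
      eval p H ≠ 0 ∧ IsRep (u : FnField I) G H ∧ u * dhA hp hpi H = dhA hp hpi G ∧
      IsUnit (dhA hp hpi H) := by
  obtain ⟨k, G, H, hG, hH, hpH, hr⟩ := exists_rep u
  refine ⟨k, G, H, hG, hH, hpH, hr, ?_, ?_⟩
  · apply Subtype.ext
    change (u : FnField I) * (dhA hp hpi H : FnField I) = (dhA hp hpi G : FnField I)
    rw [coe_dhA, coe_dhA]
    apply toConeHom_injective
    have hi := X_not_mem hp hpi
    have h0 := coneHom_X_ne hi
    have h1 := rep_dh hi hG
    have h2 := rep_dh hi hH
    unfold IsRep at h1 h2 hr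
    rw [map_pow] at h1 h2
    have h3 : coneHom I (X i) ^ k ≠ 0 := pow_ne_zero _ h0
    apply mul_right_cancel₀ h3
    rw [map_mul, mul_assoc, h2, hr, h1]
  · apply isUnit_of_ev_ne hp
    rw [ev_dhA hp hpi hH]
    exact div_ne_zero hpH (pow_ne_zero _ hpi)

/-! ### Gradients -/

/-- gradient of `F` at `p` -/
def grad (F : HomCoordRing N) (p : Fin (N + 1) → ℂ) : Fin (N + 1) → ℂ :=
  fun j => eval p (pderiv j F)

theorem grad_add (F G : HomCoordRing N) (p : Fin (N + 1) → ℂ) :
    grad (F + G) p = grad F p + grad G p := by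
  funext j; simp [grad]

theorem grad_sum {ι : Type*} (s : Finset ι) (F : ι → HomCoordRing N) (p : Fin (N + 1) → ℂ) :
    grad (∑ i ∈ s, F i) p = ∑ i ∈ s, grad (F i) p := by
  funext j; simp [grad]

/-- span of all gradients at `p` -/
def gradSpan (I : Ideal (HomCoordRing N)) (p : Fin (N + 1) → ℂ) :
    Submodule ℂ (Fin (N + 1) → ℂ) :=
  Submodule.span ℂ {v | ∃ F ∈ I, v = fun j => eval p (pderiv j F)}

theorem grad_mem {F : HomCoordRing N} (hF : F ∈ I) (p : Fin (N + 1) → ℂ) : grad F p ∈ gradSpan I p :=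
  Submodule.subset_span ⟨F, hF, rfl⟩

/-- gradients of homogeneous members -/
def homGrads (I : Ideal (HomCoordRing N)) (p : Fin (N + 1) → ℂ) : Set (Fin (N + 1) → ℂ) :=
  {v | ∃ F ∈ I, ∃ d : ℕ, F.IsHomogeneous d ∧ v = grad F p}

theorem span_homGrads (hI : Hom I) (p : Fin (N + 1) → ℂ) :
    Submodule.span ℂ (homGrads I p) = gradSpan I p := by
  apply le_antisymm
  · rw [Submodule.span_le]
    rintro v ⟨F, hF, d, -, rfl⟩
    exact grad_mem hF p
  · unfold gradSpan
    rw [Submodule.span_le]
    rintro v ⟨F, hF, rfl⟩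
    have h1 : (fun j => eval p (pderiv j F)) = grad F p := rfl
    rw [h1]
    conv => enter [2]; rw [← sum_homogeneousComponent F]
    rw [grad_sum]
    refine Submodule.sum_mem _ fun d _ => Submodule.subset_span
      ⟨_, hI F hF d, d, homogeneousComponent_isHomogeneous d F, rfl⟩

theorem exists_homog_basis (hI : Hom I) {p : Fin (N + 1) → ℂ} {c : ℕ}
    (hc : Module.finrank ℂ (gradSpan I p) = c) :
    ∃ (F : Fin c → HomCoordRing N) (d : Fin c → ℕ), (∀ a, F a ∈ I) ∧
      (∀ a, (F a).IsHomogeneous (d a)) ∧ LinearIndependent ℂ (fun a => grad (F a) p) := by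
  obtain ⟨b, hb1, hb2, hb3⟩ := exists_linearIndependent ℂ (homGrads I p)
  have hfin : Finite b := hb3.finite_of_isNoetherian  
  have := Fintype.ofFinite b
  have hcard : Fintype.card b = c := by
    have h1 := finrank_span_eq_card hb3
    rw [Subtype.range_coe, hb2, span_homGrads hI, hc] at h1
    exact h1.symm
  let e : Fin c ≃ b := (Fintype.equivFinOfCardEq hcard).symm
  have h2 : ∀ a : Fin c, ∃ F ∈ I, ∃ d : ℕ, F.IsHomogeneous d ∧ (e a : Fin (N + 1) → ℂ) = grad F p :=
    fun a => hb1 (e a).2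
  choose F hF d hd hg using h2
  refine ⟨F, d, hF, hd, ?_⟩
  have h3 : (fun a => grad (F a) p) = (Subtype.val : b → (Fin (N + 1) → ℂ)) ∘ e := by
    funext a; exact (hg a).symm
  rw [h3]
  exact hb3.comp _ e.injective

/-- Euler relation -/
theorem euler {p : Fin (N + 1) → ℂ} (hp : p ∈ affineCone I) {F : HomCoordRing N} (hF : F ∈ I)
    {d : ℕ} (hd : F.IsHomogeneous d) : ∑ j, p j * grad F p j = 0 := by
  have h1 := hd.sum_X_mul_pderiv
  have h2 := congrArg (eval p) h1
  simp only [map_sum, map_mul, eval_X, map_nsmul] at h2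
  rw [hp F hF, smul_zero] at h2
  exact h2

/-- selecting columns -/
theorem exists_cols {c : ℕ} {ι : Type} [Fintype ι] [DecidableEq ι] (M : Matrix (Fin c) ι ℂ)
    (hM : LinearIndependent ℂ M.row) :
    ∃ J : Fin c → ι, Function.Injective J ∧ (M.submatrix id J).det ≠ 0 := by
  have hrank : M.rank = c := by
    have := hM.rank_matrix
    simpa using this
  have hcol : Submodule.span ℂ (Set.range M.col) = ⊤ := by
    apply Submodule.eq_top_of_finrank_eq
    rw [← Matrix.rank_eq_finrank_span_cols, hrank]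
    simp
  obtain ⟨κ, a, ha, hs, hl⟩ := exists_linearIndependent' ℂ M.col
  have : Finite κ := Finite.of_injective a ha
  have := Fintype.ofFinite κ
  have hcard : Fintype.card κ = c := by
    have h1 := finrank_span_eq_card hl
    rw [hs, hcol, finrank_top] at h1
    simpa using h1.symm
  let e : Fin c ≃ κ := (Fintype.equivFinOfCardEq hcard).symm
  refine ⟨a ∘ e, ha.comp e.injective, ?_⟩
  have h2 : LinearIndependent ℂ (M.submatrix id (a ∘ e)).col := by
    have h3 : (M.submatrix id (a ∘ e)).col = (M.col ∘ a) ∘ e := by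
      funext j i; rfl
    rw [h3]
    exact hl.comp _ e.injective
  have h4 := Matrix.linearIndependent_cols_iff_isUnit.1 h2
  exact ((Matrix.isUnit_iff_isUnit_det _).1 h4).ne_zero

end Crest.Agent.R269.DictB_795
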