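import Mathlib
import Crest.Prelude.Def_ProjPluricanonical
import Crest.Agent.R269.DictB_795

-- ▼ part R269/DictC_795
section

/-!
Row 269, DICT, part C: coordinate data (Jacobian minors), Kaehler differentials of the local rings.
-/

set_option autoImplicit false
set_option linter.unusedSectionVars false

open MvPolynomial Crest.AlgGeometry.ProjEmb
open Crest.Agent.R269.DictA_795 Crest.Agent.R269.DictB_795

noncomputable section

namespace Crest.Agent.R269.DictC_795

variable {N n : ℕ} {I : Ideal (HomCoordRing N)} [I.IsPrime]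

/-- the Jacobian condition (last clause of `IsSmoothProjective`) -/
theorem finrank_gradSpan (hX : IsSmoothProjective I n) {p : Fin (N + 1) → ℂ}
    (hp : p ∈ affineCone I) (hp0 : p ≠ 0) : Module.finrank ℂ (gradSpan I p) = N - n :=
  hX.jacobian p hp hp0

/-- Coordinate data: a chart index `i`, a partition of the remaining indices in `n` coordinate
indices `S` and `N-n` dependent indices `J`, and `N-n` homogeneous equations `F`. -/
structure CD (I : Ideal (HomCoordRing N)) (n : ℕ) where
  i : Fin (N + 1)
  S : Fin n → Fin (N + 1)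
  J : Fin (N - n) → Fin (N + 1)
  F : Fin (N - n) → HomCoordRing N
  d : Fin (N - n) → ℕ
  F_mem : ∀ a, F a ∈ I
  F_hom : ∀ a, (F a).IsHomogeneous (d a)
  bij : Function.Bijective (Sum.elim (fun _ : Unit => i) (Sum.elim S J))

namespace CD

variable (c : CD I n)

/-- the Jacobian matrix with respect to the dependent variables -/
def jac : Matrix (Fin (N - n)) (Fin (N - n)) (HomCoordRing N) :=
  Matrix.of fun a b => pderiv (c.J b) (c.F a)

/-- the Jacobian minor -/
def δ : HomCoordRing N := c.jac.det

/-- degree of the minor -/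
def e : ℕ := ∑ a, (c.d a - 1)

theorem δ_hom : c.δ.IsHomogeneous c.e := by
  unfold δ e
  rw [Matrix.det_apply]
  refine IsHomogeneous.sum _ _ _ fun σ _ => ?_
  have h1 : (∏ a, c.jac (σ a) a).IsHomogeneous (∑ a, (c.d (σ a) - 1)) := by
    refine IsHomogeneous.prod _ _ _ fun a _ => ?_
    exact (c.F_hom (σ a)).pderiv
  have h2 : ∑ a, (c.d (σ a) - 1) = ∑ a, (c.d a - 1) := Equiv.sum_comp σ (fun a => c.d a - 1)
  rw [h2] at h1
  rcases Int.units_eq_one_or (Equiv.Perm.sign σ) with h | h
  · rw [h, one_smul]; exact h1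
  · rw [h, Units.neg_smul, one_smul]; exact h1.neg

/-- the index bijection -/
def eqv : Unit ⊕ (Fin n ⊕ Fin (N - n)) ≃ Fin (N + 1) := Equiv.ofBijective _ c.bij

@[simp] theorem eqv_i : c.eqv (Sum.inl ()) = c.i := rfl
@[simp] theorem eqv_S (s : Fin n) : c.eqv (Sum.inr (Sum.inl s)) = c.S s := rfl
@[simp] theorem eqv_J (b : Fin (N - n)) : c.eqv (Sum.inr (Sum.inr b)) = c.J b := rfl

theorem sum_eq {M : Type*} [AddCommMonoid M] (f : Fin (N + 1) → M) :
    ∑ j, f j = f c.i + (∑ s, f (c.S s) + ∑ b, f (c.J b)) := by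
  rw [← Equiv.sum_comp c.eqv, Fintype.sum_sum_type, Fintype.sum_sum_type]
  simp

/-- the domain of the coordinate data: points of the cone with `x_i ≠ 0`, `δ ≠ 0` -/
structure Dom (q : Fin (N + 1) → ℂ) : Prop where
  cone : q ∈ affineCone I
  i : q c.i ≠ 0
  δ : eval q c.δ ≠ 0

theorem Dom.ne_zero {c : CD I n} {q : Fin (N + 1) → ℂ} (h : c.Dom q) : q ≠ 0 := by
  intro h0; exact h.i (by rw [h0]; rfl)

end CD

/-- **Existence of coordinates**. -/
theorem exists_CD (hX : IsSmoothProjective I n) {p : Fin (N + 1) → ℂ} (hp : p ∈ affineCone I)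
    (hp0 : p ≠ 0) {i : Fin (N + 1)} (hpi : p i ≠ 0) : ∃ c : CD I n, c.Dom p ∧ c.i = i := by
  classical
  have hI : Hom I := hX.homogeneous
  obtain ⟨F, d, hF, hd, hl⟩ := exists_homog_basis hI (finrank_gradSpan hX hp hp0)
  -- remove the column `i`
  let M : Matrix (Fin (N - n)) {j : Fin (N + 1) // j ≠ i} ℂ := Matrix.of fun a j => grad (F a) p j
  have hM : LinearIndependent ℂ M.row := by
    rw [Fintype.linearIndependent_iff] at hl ⊢
    intro g hg
    apply hl g
    funext j
    have h1 : ∀ j' : {j : Fin (N + 1) // j ≠ i}, ∑ a, g a * grad (F a) p j' = 0 := by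
      intro j'
      have := congrFun hg j'
      simpa [M, Matrix.row] using this
    by_cases hj : j = i
    · subst hj
      have h2 : ∑ k, p k * ∑ a, g a * grad (F a) p k = 0 := by
        have h3 : ∑ k, p k * ∑ a, g a * grad (F a) p k =
            ∑ a, g a * ∑ k, p k * grad (F a) p k := by
          simp_rw [Finset.mul_sum]
          rw [Finset.sum_comm]
          refine Finset.sum_congr rfl fun a _ => Finset.sum_congr rfl fun k _ => by ring
        rw [h3]
        refine Finset.sum_eq_zero fun a _ => ?_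
        rw [euler hp (hF a) (hd a), mul_zero]
      rw [Finset.sum_eq_single j] at h2
      · have h4 := (mul_eq_zero.1 h2).resolve_left hpi
        simpa using h4
      · intro k _ hk
        rw [h1 ⟨k, hk⟩, mul_zero]
      · simp
    · simpa using h1 ⟨j, hj⟩
  obtain ⟨J', hJ', hdet⟩ := exists_cols M hM
  let J : Fin (N - n) → Fin (N + 1) := fun b => (J' b).1
  have hJinj : Function.Injective J := fun a b h => hJ' (Subtype.ext h)
  have hJi : ∀ b, J b ≠ i := fun b => (J' b).2
  let T : Finset (Fin (N + 1)) := (insert i (Finset.univ.image J))ᶜ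
  have hTcard : T.card = n := by
    have h1 : (insert i (Finset.univ.image J)).card = (N - n) + 1 := by
      rw [Finset.card_insert_of_notMem, Finset.card_image_of_injective _ hJinj]
      · simp
      · simp only [Finset.mem_image, Finset.mem_univ, true_and, not_exists]
        exact hJi
    have h2 := Finset.card_compl (insert i (Finset.univ.image J))
    rw [h1, Fintype.card_fin] at h2
    have h3 := hX.dim_le
    change ((insert i (Finset.univ.image J))ᶜ).card = n
    omega
  let eT : Fin n ≃ T := (Finset.equivFinOfCardEq hTcard).symm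
  let S : Fin n → Fin (N + 1) := fun s => (eT s).1
  have hST : ∀ s, S s ≠ i ∧ ∀ b, S s ≠ J b := by
    intro s
    have := (eT s).2
    simp only [T, Finset.mem_compl, Finset.mem_insert, Finset.mem_image, Finset.mem_univ,
      true_and, not_or, not_exists] at this
    exact ⟨this.1, fun b hb => this.2 b hb.symm⟩
  have hSinj : Function.Injective S := fun a b h => eT.injective (Subtype.ext h)
  have hbij : Function.Bijective (Sum.elim (fun _ : Unit => i) (Sum.elim S J)) := by
    constructor
    · rintro (a | a | a) (b | b | b) h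
      · rfl
      · exact absurd h.symm (hST b).1
      · exact absurd h.symm (hJi b)
      · exact absurd h (hST a).1
      · rw [hSinj h]
      · exact absurd h ((hST a).2 b)
      · exact absurd h (hJi a)
      · exact absurd h.symm ((hST b).2 a)
      · rw [hJinj h]
    · intro j
      by_cases h1 : j = i
      · exact ⟨Sum.inl (), h1.symm⟩
      by_cases h2 : ∃ b, J b = j
      · obtain ⟨b, hb⟩ := h2
        exact ⟨Sum.inr (Sum.inr b), hb⟩
      · have h3 : j ∈ T := by
          simp only [T, Finset.mem_compl, Finset.mem_insert, Finset.mem_image, Finset.mem_univ,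
            true_and, not_or]
          exact ⟨h1, h2⟩
        refine ⟨Sum.inr (Sum.inl (eT.symm ⟨j, h3⟩)), ?_⟩
        simp [S]
  refine ⟨⟨i, S, J, F, d, hF, hd, hbij⟩, ⟨hp, hpi, ?_⟩, rfl⟩
  have h5 : eval p (CD.δ ⟨i, S, J, F, d, hF, hd, hbij⟩) = (M.submatrix id J').det := by
    unfold CD.δ CD.jac
    rw [RingHom.map_det]
    rfl
  rw [h5]; exact hdet

namespace CD

variable (c : CD I n) {q : Fin (N + 1) → ℂ}

/-- at points of the domain, every gradient of a member of `I` is a combination of the `∇F_a` -/
theorem grad_mem_span (hX : IsSmoothProjective I n) (hq : q ∈ affineCone I) (hq0 : q ≠ 0)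
    (hδ : eval q c.δ ≠ 0) {G : HomCoordRing N} (hG : G ∈ I) :
    grad G q ∈ Submodule.span ℂ (Set.range fun a => grad (c.F a) q) := by
  have hl : LinearIndependent ℂ (fun a => grad (c.F a) q) := by
    have h1 : LinearIndependent ℂ (c.jac.map (eval q)).row := by
      rw [Matrix.linearIndependent_rows_iff_isUnit, Matrix.isUnit_iff_isUnit_det]
      have : (c.jac.map (eval q)).det = eval q c.δ := by
        unfold δ
        rw [RingHom.map_det]; rfl
      rw [this]
      exact isUnit_iff_ne_zero.2 hδ
    rw [Fintype.linearIndependent_iff] at h1 ⊢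
    intro g hg
    apply h1 g
    funext b
    have := congrFun hg (c.J b)
    simpa [jac, grad, Matrix.row] using this
  have h2 : Submodule.span ℂ (Set.range fun a => grad (c.F a) q) = gradSpan I q := by
    apply Submodule.eq_of_le_of_finrank_eq
    · rw [Submodule.span_le]
      rintro v ⟨a, rfl⟩
      exact grad_mem (c.F_mem a) q
    · rw [finrank_span_eq_card hl, finrank_gradSpan hX hq hq0]; simp
  rw [h2]
  exact grad_mem hG q

/-- the coefficients of the tangential vector field `θ_s` -/
def tcoef (s : Fin n) : Fin (N + 1) → HomCoordRing N := fun j =>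
  Sum.elim (fun _ => 0) (Sum.elim (fun t => if t = s then c.δ else 0)
    (fun b => - (c.jac.adjugate.mulVec (fun a => pderiv (c.S s) (c.F a))) b)) (c.eqv.symm j)

/-- the tangential vector field `θ_s` -/
def θ (s : Fin n) : Derivation ℂ (HomCoordRing N) (HomCoordRing N) := mkDerivation ℂ (c.tcoef s)

theorem tcoef_i (s : Fin n) : c.tcoef s c.i = 0 := by
  unfold tcoef
  rw [← c.eqv_i, Equiv.symm_apply_apply]; rfl

theorem tcoef_S (s t : Fin n) : c.tcoef s (c.S t) = if t = s then c.δ else 0 := by
  have h : c.eqv.symm (c.S t) = Sum.inr (Sum.inl t) := by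
    rw [← c.eqv_S t, Equiv.symm_apply_apply]
  unfold tcoef
  rw [h]; rfl

theorem tcoef_J (s : Fin n) (b : Fin (N - n)) :
    c.tcoef s (c.J b) = - (c.jac.adjugate.mulVec (fun a => pderiv (c.S s) (c.F a))) b := by
  have h : c.eqv.symm (c.J b) = Sum.inr (Sum.inr b) := by
    rw [← c.eqv_J b, Equiv.symm_apply_apply]
  unfold tcoef
  rw [h]; rfl

theorem θ_apply (s : Fin n) (G : HomCoordRing N) : c.θ s G = ∑ j, pderiv j G * c.tcoef s j := by
  have h := der_aeval (c.θ s) (X : Fin (N + 1) → HomCoordRing N) G
  rw [aeval_X_left_apply] at h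
  rw [h]
  refine Finset.sum_congr rfl fun j _ => ?_
  rw [aeval_X_left_apply, smul_eq_mul]
  congr 1
  exact mkDerivation_X _ _ _

theorem θ_F (s : Fin n) (a : Fin (N - n)) : c.θ s (c.F a) = 0 := by
  rw [θ_apply, c.sum_eq, tcoef_i, mul_zero, zero_add]
  simp_rw [tcoef_S, tcoef_J]
  simp only [mul_ite, mul_zero, Finset.sum_ite_eq', Finset.mem_univ, if_true, mul_neg,
    Finset.sum_neg_distrib]
  have h1 : ∑ b, pderiv (c.J b) (c.F a) *
      (c.jac.adjugate.mulVec (fun a => pderiv (c.S s) (c.F a))) b =
      (c.jac.mulVec (c.jac.adjugate.mulVec (fun a => pderiv (c.S s) (c.F a)))) a := rfl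
  rw [h1, Matrix.mulVec_mulVec, Matrix.mul_adjugate, Matrix.smul_mulVec, Matrix.one_mulVec]
  simp only [Pi.smul_apply, smul_eq_mul]
  change pderiv (c.S s) (c.F a) * c.δ + -(c.δ * pderiv (c.S s) (c.F a)) = 0
  ring

theorem eval_θ (s : Fin n) (G : HomCoordRing N) (q : Fin (N + 1) → ℂ) :
    eval q (c.θ s G) = ∑ j, grad G q j * eval q (c.tcoef s j) := by
  rw [θ_apply, map_sum]
  refine Finset.sum_congr rfl fun j _ => ?_
  rw [map_mul]; rfl

theorem eval_θ_eq_zero (hX : IsSmoothProjective I n) (hq : q ∈ affineCone I) (hq0 : q ≠ 0)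
    (hδ : eval q c.δ ≠ 0) {G : HomCoordRing N} (hG : G ∈ I) (s : Fin n) :
    eval q (c.θ s G) = 0 := by
  rw [eval_θ]
  have h1 := c.grad_mem_span hX hq hq0 hδ hG
  let L : (Fin (N + 1) → ℂ) →ₗ[ℂ] ℂ :=
    Fintype.linearCombination ℂ (fun j => eval q (c.tcoef s j))
  have hL : ∀ v, L v = ∑ j, v j * eval q (c.tcoef s j) := fun v => by
    simp [L, Fintype.linearCombination_apply]
  rw [← hL]
  have h2 : Submodule.span ℂ (Set.range fun a => grad (c.F a) q) ≤ LinearMap.ker L := by
    rw [Submodule.span_le]
    rintro v ⟨a, rfl⟩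
    change L (grad (c.F a) q) = 0
    rw [hL, ← eval_θ, θ_F, map_zero]
  exact h2 h1

/-- a polynomial vanishing on the cone belongs to `I` -/
theorem mem_of_eval_zero {G : HomCoordRing N} (h : ∀ q ∈ affineCone I, eval q G = 0) : G ∈ I := by
  have h1 : G ∈ vanishingIdeal ℂ (zeroLocus ℂ I) := by
    rw [mem_vanishingIdeal_iff]
    intro q hq
    have h2 : q ∈ affineCone I := by
      intro F hF
      have := hq F hF
      simpa [coe_aeval_eq_eval] using this
    have := h q h2
    simpa [coe_aeval_eq_eval] using this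
  rw [vanishingIdeal_zeroLocus_eq_radical, Ideal.IsPrime.radical inferInstance] at h1
  exact h1

/-- the fields `θ_s` preserve `I` -/
theorem θ_mem (hX : IsSmoothProjective I n) (hi : (X c.i : HomCoordRing N) ∉ I) (hδ : c.δ ∉ I)
    {G : HomCoordRing N} (hG : G ∈ I) (s : Fin n) : c.θ s G ∈ I := by
  have h1 : X c.i * c.δ * c.θ s G ∈ I := by
    apply mem_of_eval_zero
    intro q hq
    rw [map_mul, map_mul, eval_X]
    by_cases h2 : q c.i = 0
    · rw [h2, zero_mul, zero_mul]
    by_cases h3 : eval q c.δ = 0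
    · rw [h3, mul_zero, zero_mul]
    have h4 : q ≠ 0 := fun h0 => h2 (by rw [h0]; rfl)
    rw [c.eval_θ_eq_zero hX hq h4 h3 hG s, mul_zero]
  rcases Ideal.IsPrime.mem_or_mem inferInstance h1 with h | h
  · rcases Ideal.IsPrime.mem_or_mem inferInstance h with h' | h'
    · exact absurd h' hi
    · exact absurd h' hδ
  · exact h

theorem Dom.not_mem_i {c : CD I n} (h : c.Dom q) : (X c.i : HomCoordRing N) ∉ I :=
  X_not_mem h.cone h.i

theorem Dom.not_mem_δ {c : CD I n} (h : c.Dom q) : c.δ ∉ I := not_mem_of_eval_ne h.cone h.δ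

/-! ### The differentials of the coordinates generate -/

/-- `w_s = x_{S s}/x_i` as an element of the local ring at `q` -/
def w {c : CD I n} (h : c.Dom q) (s : Fin n) : stalk I q := yA h.cone h.i (c.S s)


/-- For every module-valued derivation the values on `w_s` generate the values on all `y_j`. -/
theorem der_y_mem {c : CD I n} (h : c.Dom q) (hI : Hom I) {M : Type*} [AddCommGroup M]
    [Module (stalk I q) M] [Module ℂ M] (D : Derivation ℂ (stalk I q) M)
    (j : Fin (N + 1)) :
    D (yA h.cone h.i j) ∈ Submodule.span (stalk I q) (Set.range fun s => D (w h s)) := by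
  set P := Submodule.span (stalk I q) (Set.range fun s => D (w h s)) with hP
  have hS : ∀ s, D (yA h.cone h.i (c.S s)) ∈ P := fun s => Submodule.subset_span ⟨s, rfl⟩
  have hi : D (yA h.cone h.i c.i) ∈ P := by
    have : yA h.cone h.i c.i = 1 := Subtype.ext (fnRatio_self h.not_mem_i)
    rw [this, D.map_one_eq_zero]; exact P.zero_mem
  have hF : ∀ a, ∑ b, dhA h.cone h.i (c.jac a b) • D (yA h.cone h.i (c.J b)) ∈ P := by
    intro a
    have h1 := der_aeval D (yA h.cone h.i) (c.F a)
    have h2 : aeval (yA h.cone h.i) (c.F a) = 0 := dhA_eq_zero_of_mem hI h.cone h.i (c.F_mem a)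
    rw [h2, map_zero, c.sum_eq] at h1
    have h3 : ∑ b, dhA h.cone h.i (c.jac a b) • D (yA h.cone h.i (c.J b)) =
      - (dhA h.cone h.i (pderiv c.i (c.F a)) • D (yA h.cone h.i c.i) +
        ∑ s, dhA h.cone h.i (pderiv (c.S s) (c.F a)) • D (yA h.cone h.i (c.S s))) := by
      rw [eq_neg_iff_add_eq_zero, add_comm, add_assoc]
      exact h1.symm
    rw [h3]
    exact P.neg_mem (P.add_mem (P.smul_mem _ hi) (P.sum_mem fun s _ => P.smul_mem _ (hS s)))
  have hJ : ∀ b, D (yA h.cone h.i (c.J b)) ∈ P := by
    intro b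
    let Mx : Matrix (Fin (N - n)) (Fin (N - n)) (stalk I q) :=
      c.jac.map (dhA h.cone h.i)
    have h4 : ∑ a, Mx.adjugate b a • ∑ b', Mx a b' • D (yA h.cone h.i (c.J b')) =
        Mx.det • D (yA h.cone h.i (c.J b)) := by
      simp_rw [Finset.smul_sum, smul_smul]
      rw [Finset.sum_comm]
      simp_rw [← Finset.sum_smul]
      have h5 : ∀ b', ∑ a, Mx.adjugate b a * Mx a b' = (Mx.adjugate * Mx) b b' := fun b' => rfl
      simp_rw [h5, Matrix.adjugate_mul, Matrix.smul_apply, Matrix.one_apply]
      simp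
    have h6 : Mx.det • D (yA h.cone h.i (c.J b)) ∈ P := by
      rw [← h4]
      exact P.sum_mem fun a _ => P.smul_mem _ (hF a)
    have h7 : IsUnit Mx.det := by
      have h8 : Mx.det = dhA h.cone h.i c.δ := by
        unfold δ
        rw [AlgHom.map_det]; rfl
      rw [h8]
      apply isUnit_of_ev_ne h.cone
      rw [ev_dhA h.cone h.i c.δ_hom]
      exact div_ne_zero h.δ (pow_ne_zero _ h.i)
    obtain ⟨u, hu⟩ := h7
    have h9 : D (yA h.cone h.i (c.J b)) = (u⁻¹ : (stalk I q)ˣ) • (Mx.det • D (yA h.cone h.i (c.J b))) := by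
      rw [← hu]
      exact (inv_smul_smul u _).symm
    rw [h9]
    exact P.smul_mem _ h6
  rcases hj : c.eqv.symm j with (u | s | b)
  · have : j = c.i := by rw [← c.eqv_i, ← hj.trans rfl, Equiv.apply_symm_apply]
    rw [this]; exact hi
  · have : j = c.S s := by rw [← c.eqv_S, ← hj, Equiv.apply_symm_apply]
    rw [this]; exact hS s
  · have : j = c.J b := by rw [← c.eqv_J, ← hj, Equiv.apply_symm_apply]
    rw [this]; exact hJ b

theorem der_mem {c : CD I n} (h : c.Dom q) (hI : Hom I) {M : Type*} [AddCommGroup M]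
    [Module (stalk I q) M] [Module ℂ M] (D : Derivation ℂ (stalk I q) M)
    (u : stalk I q) :
    D u ∈ Submodule.span (stalk I q) (Set.range fun s => D (w h s)) := by
  set P := Submodule.span (stalk I q) (Set.range fun s => D (w h s)) with hP
  have h1 : ∀ G, D (dhA h.cone h.i G) ∈ P := by
    intro G
    change D (aeval (yA h.cone h.i) G) ∈ P
    rw [der_aeval]
    exact P.sum_mem fun j _ => P.smul_mem _ (der_y_mem h hI D j)
  obtain ⟨k, G, H, hG, hH, hqH, hr, he, hu⟩ := exists_dhA h.cone h.i u
  have h2 := D.leibniz u (dhA h.cone h.i H)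
  rw [he] at h2
  have h3 : dhA h.cone h.i H • D u ∈ P := by
    have : dhA h.cone h.i H • D u = D (dhA h.cone h.i G) - u • D (dhA h.cone h.i H) := by
      rw [h2]; abel
    rw [this]
    exact P.sub_mem (h1 G) (P.smul_mem _ (h1 H))
  obtain ⟨v, hv⟩ := hu
  have h4 : D u = (v⁻¹ : (stalk I q)ˣ) • (dhA h.cone h.i H • D u) := by
    rw [← hv]; exact (inv_smul_smul v _).symm
  rw [h4]
  exact P.smul_mem _ h3


/-- universal coefficients: for every `u` in the local ring there are `a_s` in the local ring with
`D u = ∑ a_s D w_s` for EVERY derivation `D` (to every module). -/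
theorem exists_coeff {c : CD I n} (h : c.Dom q) (hI : Hom I) (u : stalk I q) :
    ∃ a : Fin n → stalk I q,
      KaehlerDifferential.D ℂ (stalk I q) u = ∑ s, a s • KaehlerDifferential.D ℂ (stalk I q) (w h s) := by
  have h1 := der_mem h hI (KaehlerDifferential.D ℂ (stalk I q)) u
  rw [Submodule.mem_span_range_iff_exists_fun] at h1
  obtain ⟨a, ha⟩ := h1
  exact ⟨a, ha.symm⟩

end CD

/-- every derivation factors through the universal one -/
theorem der_of_universal {A M : Type*} [CommRing A] [Algebra ℂ A] [AddCommGroup M] [Module A M]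
    [Module ℂ M] [IsScalarTower ℂ A M] (D : Derivation ℂ A M) {m : ℕ} {u : A} {a : Fin m → A}
    {w : Fin m → A}
    (h : KaehlerDifferential.D ℂ A u = ∑ s, a s • KaehlerDifferential.D ℂ A (w s)) :
    D u = ∑ s, a s • D (w s) := by
  have h1 := congrArg D.liftKaehlerDifferential h
  simpa using h1

end Crest.Agent.R269.DictC_795
end
end

-- ▼ part R269/DictD_795
section

/-!
Row 269, DICT, part D: top forms. `wedgeD w ≠ 0`, `wedgeD a = J • wedgeD w`, tensor powers.
-/

set_option autoImplicit false
set_option linter.unusedSectionVars false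

open MvPolynomial Crest.AlgGeometry.ProjEmb
open Crest.Agent.R269.DictA_795 Crest.Agent.R269.DictB_795 Crest.Agent.R269.DictC_795

noncomputable section

namespace Crest.Agent.R269.DictD_795

variable {N n : ℕ} {I : Ideal (HomCoordRing N)} [I.IsPrime]

/-! ### Derivations of the fraction field of the cone -/

/-- a derivation of the polynomial ring preserving `I` induces one of the cone's fraction field -/
theorem exists_coneDer (θ : Derivation ℂ (HomCoordRing N) (HomCoordRing N))
    (hθ : ∀ G ∈ I, θ G ∈ I) :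
    ∃ Θ : Derivation ℂ (ConeFracField I) (ConeFracField I),
      ∀ G, Θ (coneHom I G) = coneHom I (θ G) := by
  let A := HomCoordRing N ⧸ I
  let K := ConeFracField I
  have hsurj : Function.Surjective (Ideal.Quotient.mkₐ ℂ I) := Ideal.Quotient.mkₐ_surjective ℂ I
  have hker : ∀ x, Ideal.Quotient.mkₐ ℂ I x = 0 → Ideal.Quotient.mkₐ ℂ I (θ x) = 0 := by
    intro x hx
    rw [Ideal.Quotient.mkₐ_eq_mk, Ideal.Quotient.eq_zero_iff_mem] at hx ⊢
    exact hθ x hx
  let D₀ : Derivation ℂ A A := Derivation.liftOfSurjective hsurj hker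
  have hD₀ : ∀ G, D₀ (Ideal.Quotient.mk I G) = Ideal.Quotient.mk I (θ G) := by
    intro G
    exact Derivation.liftOfSurjective_apply hsurj hker G
  let D₁ : Derivation ℂ A K := (Algebra.linearMap A K).compDer D₀
  have : Algebra.FormallyEtale A K := Algebra.FormallyEtale.of_isLocalization (nonZeroDivisors A)
  have hb := KaehlerDifferential.isBaseChange_of_formallyEtale ℂ A K
  let L : Ω[K⁄ℂ] →ₗ[K] K := hb.lift D₁.liftKaehlerDifferential
  refine ⟨L.compDer (KaehlerDifferential.D ℂ K), fun G => ?_⟩
  change L (KaehlerDifferential.D ℂ K (algebraMap A K (Ideal.Quotient.mk I G))) = _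
  have h1 : KaehlerDifferential.D ℂ K (algebraMap A K (Ideal.Quotient.mk I G)) =
      KaehlerDifferential.map ℂ ℂ A K (KaehlerDifferential.D ℂ A (Ideal.Quotient.mk I G)) := by
    rw [KaehlerDifferential.map_D]
  rw [h1]
  have h2 : L (KaehlerDifferential.map ℂ ℂ A K (KaehlerDifferential.D ℂ A (Ideal.Quotient.mk I G))) =
      D₁.liftKaehlerDifferential (KaehlerDifferential.D ℂ A (Ideal.Quotient.mk I G)) :=
    hb.lift_eq _ _
  rw [h2, Derivation.liftKaehlerDifferential_comp_D]
  change algebraMap A K (D₀ (Ideal.Quotient.mk I G)) = _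
  rw [hD₀]; rfl

/-- the cone's fraction field as an algebra over the function field -/
instance algCone : Algebra (FnField I) (ConeFracField I) := (toConeHom I).toRingHom.toAlgebra


instance towerCone : IsScalarTower ℂ (FnField I) (ConeFracField I) :=
  IsScalarTower.of_algebraMap_eq fun c => ((toConeHom I).commutes c).symm

/-- linear form on the Kaehler differentials of the function field induced by a derivation of the
cone's fraction field -/
def coneForm (Θ : Derivation ℂ (ConeFracField I) (ConeFracField I)) :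
    Ω[FnField I⁄ℂ] →ₗ[FnField I] ConeFracField I :=
  (Derivation.compAlgebraMap (FnField I) Θ).liftKaehlerDifferential

theorem coneForm_D (Θ : Derivation ℂ (ConeFracField I) (ConeFracField I)) (u : FnField I) :
    coneForm Θ (KaehlerDifferential.D ℂ (FnField I) u) = Θ (toConeHom I u) := by
  unfold coneForm
  rw [Derivation.liftKaehlerDifferential_comp_D]; rfl

/-- determinant of `n` linear forms with values in an algebra, as an alternating map -/
def detAlt {L K M : Type*} [CommRing L] [CommRing K] [Algebra L K] [AddCommGroup M] [Module L M]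
    (φ : Fin n → (M →ₗ[L] K)) : M [⋀^Fin n]→ₗ[L] K :=
  { (MultilinearMap.restrictScalars L
      (Matrix.detRowAlternating (n := Fin n) (R := K)).toMultilinearMap).compLinearMap
      (fun _ => LinearMap.pi φ) with
    map_eq_zero_of_eq' := fun v i j hv hij => by
      change Matrix.det (fun l s => φ s (v l)) = 0
      apply Matrix.det_zero_of_row_eq hij
      funext s
      rw [hv] }


/-- the determinant functional on top forms attached to `n` derivations -/
def detForm (Θ : Fin n → Derivation ℂ (ConeFracField I) (ConeFracField I)) :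
    TopForms I n →ₗ[FnField I] ConeFracField I :=
  exteriorPower.alternatingMapLinearEquiv (detAlt fun s => coneForm (Θ s))

theorem detForm_wedgeD (Θ : Fin n → Derivation ℂ (ConeFracField I) (ConeFracField I))
    (a : Fin n → FnField I) :
    detForm Θ (wedgeD I n a) = Matrix.det (Matrix.of fun l s => Θ s (toConeHom I (a l))) := by
  unfold detForm wedgeD
  refine (exteriorPower.alternatingMapLinearEquiv_apply_ιMulti
    (detAlt fun s => coneForm (Θ s)) _).trans ?_
  change Matrix.det (fun l s => coneForm (Θ s) (KaehlerDifferential.D ℂ (FnField I) (a l))) = _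
  congr 1
  funext l s
  rw [coneForm_D]; rfl

end Crest.Agent.R269.DictD_795

namespace Crest.Agent.R269.DictC_795.CD

open Crest.Agent.R269.DictD_795

variable {N n : ℕ} {I : Ideal (HomCoordRing N)} [I.IsPrime] (c : CD I n)

/-- the coordinates as rational functions -/
def wL (s : Fin n) : FnField I := fnRatio I c.i (c.S s)

/-- the coordinate top form `dw_1 ∧ … ∧ dw_n` -/
def ω : TopForms I n := wedgeD I n c.wL

/-- `(dw_1 ∧ … ∧ dw_n)^{⊗ m}` -/
def wm (m : ℕ) : PluriForms I n m := PiTensorProduct.tprod (FnField I) (fun _ : Fin m => c.ω)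

theorem ω_ne_zero (hX : IsSmoothProjective I n) (hi : (X c.i : HomCoordRing N) ∉ I)
    (hδ : c.δ ∉ I) : c.ω ≠ 0 := by
  intro h0
  have h1 : ∀ s, ∃ Θ : Derivation ℂ (ConeFracField I) (ConeFracField I),
      ∀ G, Θ (coneHom I G) = coneHom I (c.θ s G) :=
    fun s => exists_coneDer (c.θ s) fun G hG => c.θ_mem hX hi hδ hG s
  choose Θ hΘ using h1
  have h2 := detForm_wedgeD Θ c.wL
  have h3 : detForm Θ (wedgeD I n c.wL) = 0 := by
    change detForm Θ c.ω = 0
    rw [h0, map_zero]
  rw [h3] at h2
  have hxi := coneHom_X_ne hi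
  have h4 : ∀ l s, Θ s (toConeHom I (c.wL l)) =
      if l = s then coneHom I c.δ / coneHom I (X c.i) else 0 := by
    intro l s
    have h5 : coneHom I (X c.i) * toConeHom I (c.wL l) = coneHom I (X (c.S l)) := by
      rw [wL, toConeHom_fnRatio]; field_simp
    have h6 := congrArg (Θ s) h5
    rw [Derivation.leibniz, hΘ, hΘ] at h6
    have h7 : c.θ s (X c.i) = 0 := by
      have : c.θ s (X c.i) = c.tcoef s c.i := mkDerivation_X _ _ _
      rw [this, tcoef_i]
    have h8 : c.θ s (X (c.S l)) = if l = s then c.δ else 0 := by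
      have : c.θ s (X (c.S l)) = c.tcoef s (c.S l) := mkDerivation_X _ _ _
      rw [this, tcoef_S]
    rw [h7, h8, map_zero, smul_zero, add_zero, smul_eq_mul] at h6
    rw [eq_comm, ← mul_right_inj' hxi, eq_comm, h6]
    split_ifs
    · field_simp
    · simp
  have h9 : (Matrix.of fun l s => Θ s (toConeHom I (c.wL l))) =
      Matrix.diagonal (fun _ : Fin n => coneHom I c.δ / coneHom I (X c.i)) := by
    funext l s
    rw [Matrix.of_apply, h4, Matrix.diagonal_apply]
  rw [h9, Matrix.det_diagonal] at h2
  have h10 : (∏ _s : Fin n, coneHom I c.δ / coneHom I (X c.i)) ≠ 0 := by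
    refine Finset.prod_ne_zero_iff.2 fun _ _ => div_ne_zero ?_ hxi
    intro h; exact hδ (coneHom_eq_zero_iff.1 h)
  exact h10 h2.symm

variable {q : Fin (N + 1) → ℂ}

theorem Dom.ω_ne_zero {c : CD I n} (h : c.Dom q) (hX : IsSmoothProjective I n) : c.ω ≠ 0 :=
  CD.ω_ne_zero c hX h.not_mem_i h.not_mem_δ

/-- **Local top forms are multiples of the coordinate form**, with coefficient the determinant of
the universal coefficient matrix. -/
theorem exists_det {c : CD I n} (h : c.Dom q) (hI : Hom I) (a : Fin n → stalk I q) :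
    ∃ C : Matrix (Fin n) (Fin n) (stalk I q),
      (∀ l, KaehlerDifferential.D ℂ (stalk I q) (a l) =
        ∑ s, C l s • KaehlerDifferential.D ℂ (stalk I q) (w h s)) ∧
      wedgeD I n (fun l => (a l : FnField I)) = (C.det : FnField I) • c.ω := by
  choose C hC using fun l => exists_coeff h hI (a l)
  refine ⟨Matrix.of C, hC, ?_⟩
  have h1 : ∀ l, KaehlerDifferential.D ℂ (FnField I) (a l : FnField I) =
      ∑ s, ((C l s : stalk I q) : FnField I) • KaehlerDifferential.D ℂ (FnField I) (c.wL s) := by
    intro l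
    have h2 := congrArg (KaehlerDifferential.map ℂ ℂ (stalk I q) (FnField I)) (hC l)
    rw [map_sum, KaehlerDifferential.map_D] at h2
    simp_rw [map_smul, KaehlerDifferential.map_D] at h2
    exact h2
  unfold wedgeD
  have h3 : (fun l => KaehlerDifferential.D ℂ (FnField I) (a l : FnField I)) = fun l =>
      ∑ s, (Matrix.of (fun l s => ((C l s : stalk I q) : FnField I))) l s •
        KaehlerDifferential.D ℂ (FnField I) (c.wL s) := by
    funext l; exact h1 l
  rw [h3]
  have h4 := alt_det (exteriorPower.ιMulti (FnField I) n) (fun s => KaehlerDifferential.D ℂ (FnField I) (c.wL s))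
    (Matrix.of (fun l s => ((C l s : stalk I q) : FnField I)))
  refine h4.trans ?_
  congr 1
  have h5 : (Matrix.of (fun l s => ((C l s : stalk I q) : FnField I))) =
      (Matrix.of C).map (stalk I q).val := rfl
  rw [h5]
  exact (AlgHom.map_det (stalk I q).val (Matrix.of C)).symm

end Crest.Agent.R269.DictC_795.CD
end
end

-- ▼ part R269/DictE_795

/-!
Row 269, DICT, part E: tensor powers, local description of `chartSections`,
`pluricanonicalSections`, `vanishingSections`, `vanishingSections2`.
-/

set_option autoImplicit false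
set_option linter.unusedSectionVars false

open MvPolynomial Crest.AlgGeometry.ProjEmb
open Crest.Agent.R269.DictA_795 Crest.Agent.R269.DictB_795 Crest.Agent.R269.DictC_795
open Crest.Agent.R269.DictD_795

noncomputable section

namespace Crest.Agent.R269.DictE_795

variable {N n : ℕ} {I : Ideal (HomCoordRing N)} [I.IsPrime]

/-- induction over the function field -/
theorem fnField_induction {P : FnField I → Prop} (hr : ∀ i j, P (fnRatio I i j))
    (halg : ∀ a : ℂ, P (algebraMap ℂ (FnField I) a)) (hadd : ∀ a b, P a → P b → P (a + b))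
    (hinv : ∀ a, P a → P a⁻¹) (hmul : ∀ a b, P a → P b → P (a * b)) (u : FnField I) : P u := by
  obtain ⟨x, hx⟩ := u
  have key : ∀ (y : ConeFracField I) (hy : y ∈ fnSubfield I), P (⟨y, hy⟩ : ↥(fnSubfield I)) := by
    intro y hy
    unfold fnSubfield at hy
    induction hy using IntermediateField.adjoin_induction with
    | mem z hz =>
      obtain ⟨⟨i, j⟩, rfl⟩ := hz
      exact hr i j
    | algebraMap a => exact halg a
    | add y z hy hz h1 h2 => exact hadd _ _ h1 h2
    | inv y hy h1 => exact hinv _ h1
    | mul y z hy hz h1 h2 => exact hmul _ _ h1 h2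
  exact key x hx

end Crest.Agent.R269.DictE_795

namespace Crest.Agent.R269.DictC_795.CD

open Crest.Agent.R269.DictE_795

variable {N n : ℕ} {I : Ideal (HomCoordRing N)} [I.IsPrime] {c : CD I n} {q : Fin (N + 1) → ℂ}

theorem D_fnRatio_mem (h : c.Dom q) (hI : Hom I) (j : Fin (N + 1)) :
    KaehlerDifferential.D ℂ (FnField I) (fnRatio I c.i j) ∈
      Submodule.span (FnField I) (Set.range fun s => KaehlerDifferential.D ℂ (FnField I) (c.wL s)) := by
  obtain ⟨a, ha⟩ := exists_coeff h hI (yA h.cone h.i j)
  have h2 := congrArg (KaehlerDifferential.map ℂ ℂ (stalk I q) (FnField I)) ha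
  rw [map_sum, KaehlerDifferential.map_D] at h2
  simp_rw [map_smul, KaehlerDifferential.map_D] at h2
  have h3 : KaehlerDifferential.D ℂ (FnField I) (fnRatio I c.i j) =
      ∑ s, (a s : FnField I) • KaehlerDifferential.D ℂ (FnField I) (c.wL s) := h2
  rw [h3]
  exact Submodule.sum_mem _ fun s _ => Submodule.smul_mem _ _ (Submodule.subset_span ⟨s, rfl⟩)

/-- the differentials of the coordinates span the Kaehler differentials of the function field -/
theorem span_DL (h : c.Dom q) (hI : Hom I) :
    Submodule.span (FnField I) (Set.range fun s => KaehlerDifferential.D ℂ (FnField I) (c.wL s)) = ⊤ := by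
  set P := Submodule.span (FnField I)
    (Set.range fun s => KaehlerDifferential.D ℂ (FnField I) (c.wL s)) with hP
  have hinv : ∀ a : FnField I, KaehlerDifferential.D ℂ (FnField I) a ∈ P →
      KaehlerDifferential.D ℂ (FnField I) a⁻¹ ∈ P := by
    intro a ha
    by_cases h0 : a = 0
    · rw [h0, inv_zero, map_zero]; exact P.zero_mem
    · rw [Derivation.leibniz_inv]
      exact P.smul_mem _ ha
  have hmul : ∀ a b : FnField I, KaehlerDifferential.D ℂ (FnField I) a ∈ P →
      KaehlerDifferential.D ℂ (FnField I) b ∈ P → KaehlerDifferential.D ℂ (FnField I) (a * b) ∈ P := by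
    intro a b ha hb
    rw [Derivation.leibniz]
    exact P.add_mem (P.smul_mem _ hb) (P.smul_mem _ ha)
  rw [eq_top_iff, ← KaehlerDifferential.span_range_derivation, Submodule.span_le]
  rintro _ ⟨u, rfl⟩
  refine fnField_induction (P := fun u => KaehlerDifferential.D ℂ (FnField I) u ∈ P) ?_ ?_ ?_ hinv hmul u
  · intro i j
    by_cases hi : (X i : HomCoordRing N) ∈ I
    · have h0 : fnRatio I i j = 0 := by
        apply toConeHom_injective
        rw [toConeHom_fnRatio, coneHom_eq_zero_iff.2 hi, div_zero, map_zero]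
      rw [h0, map_zero]; exact P.zero_mem
    · have h0 : fnRatio I i j = fnRatio I c.i j * (fnRatio I c.i i)⁻¹ := by
        apply toConeHom_injective
        rw [map_mul, map_inv₀, toConeHom_fnRatio, toConeHom_fnRatio, toConeHom_fnRatio]
        have h1 := coneHom_X_ne hi
        have h2 := coneHom_X_ne h.not_mem_i
        field_simp
      rw [h0]
      exact hmul _ _ (D_fnRatio_mem h hI j) (hinv _ (D_fnRatio_mem h hI i))
  · intro a
    rw [Derivation.map_algebraMap]; exact P.zero_mem
  · intro a b ha hb
    rw [map_add]; exact P.add_mem ha hb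

/-- every rational top form is a multiple of the coordinate form -/
theorem exists_smul_ω (h : c.Dom q) (hI : Hom I) (t : TopForms I n) : ∃ F : FnField I, t = F • c.ω := by
  have h1 : Submodule.span (FnField I) (Set.range (exteriorPower.ιMulti (FnField I) n
      (M := Ω[FnField I⁄ℂ]))) = ⊤ := exteriorPower.ιMulti_span _ _ _
  have h2 : ∀ v : Fin n → Ω[FnField I⁄ℂ], ∃ F : FnField I,
      (exteriorPower.ιMulti (FnField I) n v : TopForms I n) = F • c.ω := by
    intro v
    have h3 : ∀ l, ∃ a : Fin n → FnField I,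
        ∑ s, a s • KaehlerDifferential.D ℂ (FnField I) (c.wL s) = v l := by
      intro l
      have : v l ∈ (⊤ : Submodule (FnField I) (Ω[FnField I⁄ℂ])) := trivial
      rw [← span_DL h hI, Submodule.mem_span_range_iff_exists_fun] at this
      exact this
    choose a ha using h3
    refine ⟨(Matrix.of a).det, ?_⟩
    have h4 := alt_det (exteriorPower.ιMulti (FnField I) n)
      (fun s => KaehlerDifferential.D ℂ (FnField I) (c.wL s)) (Matrix.of a)
    refine Eq.trans ?_ h4
    congr 1
    funext l
    exact (ha l).symm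
  have h3 : t ∈ Submodule.span (FnField I) (Set.range (exteriorPower.ιMulti (FnField I) n
      (M := Ω[FnField I⁄ℂ]))) := by
    rw [h1]; trivial
  induction h3 using Submodule.span_induction with
  | mem x hx =>
    obtain ⟨v, rfl⟩ := hx
    exact h2 v
  | zero => exact ⟨0, by rw [zero_smul]; rfl⟩
  | add x y _ _ hx hy =>
    obtain ⟨F, hF⟩ := hx
    obtain ⟨G, hG⟩ := hy
    exact ⟨F + G, by rw [add_smul, ← hF, ← hG]; rfl⟩
  | smul a x _ hx =>
    obtain ⟨F, hF⟩ := hx
    exact ⟨a * F, by rw [mul_smul, ← hF]; rfl⟩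

end Crest.Agent.R269.DictC_795.CD

namespace Crest.Agent.R269.DictE_795

variable {N n : ℕ} {I : Ideal (HomCoordRing N)} [I.IsPrime]

theorem tprod_smul {L M : Type*} [CommRing L] [AddCommGroup M] [Module L M] {m : ℕ} (b : Fin m → L)
    (v : Fin m → M) : PiTensorProduct.tprod L (fun k => b k • v k) =
      (∏ k, b k) • PiTensorProduct.tprod L v :=
  MultilinearMap.map_smul_univ _ b v

/-- a pure tensor power of a nonzero vector is nonzero -/
theorem tprod_const_ne_zero {L M : Type*} [Field L] [AddCommGroup M] [Module L M] {m : ℕ} {v : M}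
    (hv : v ≠ 0) : PiTensorProduct.tprod L (fun _ : Fin m => v) ≠ 0 := by
  obtain ⟨f, hf⟩ := Module.Projective.exists_dual_ne_zero L hv
  intro h0
  let g : MultilinearMap L (fun _ : Fin m => M) L :=
    (MultilinearMap.mkPiAlgebra L (Fin m) L).compLinearMap (fun _ => f)
  have h1 : PiTensorProduct.lift g (PiTensorProduct.tprod L (fun _ : Fin m => v)) = g (fun _ => v) :=
    PiTensorProduct.lift.tprod _
  rw [h0, map_zero] at h1
  have h2 : g (fun _ => v) = ∏ _k : Fin m, f v := rfl
  rw [h2] at h1
  exact (Finset.prod_ne_zero_iff.2 fun _ _ => hf) h1.symm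

end Crest.Agent.R269.DictE_795

namespace Crest.Agent.R269.DictC_795.CD

open Crest.Agent.R269.DictE_795

variable {N n : ℕ} {I : Ideal (HomCoordRing N)} [I.IsPrime] {c : CD I n} {q : Fin (N + 1) → ℂ}

theorem Dom.wm_ne_zero (h : c.Dom q) (hX : IsSmoothProjective I n) (m : ℕ) : c.wm m ≠ 0 :=
  tprod_const_ne_zero (h.ω_ne_zero hX)

/-- the coefficient is unique -/
theorem Dom.coeff_unique (h : c.Dom q) (hX : IsSmoothProjective I n) {m : ℕ} {F G : FnField I}
    (hFG : F • c.wm m = G • c.wm m) : F = G := by
  have h1 : (F - G) • c.wm m = 0 := by rw [sub_smul, hFG, sub_self]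
  rcases smul_eq_zero.1 h1 with h2 | h2
  · exact sub_eq_zero.1 h2
  · exact absurd h2 (h.wm_ne_zero hX m)

/-- every rational pluricanonical form is a multiple of `(dw)^{⊗ m}` -/
theorem Dom.exists_coeff (h : c.Dom q) (hI : Hom I) {m : ℕ} (s : PluriForms I n m) :
    ∃ F : FnField I, s = F • c.wm m := by
  have h1 : s ∈ Submodule.span (FnField I) (Set.range (PiTensorProduct.tprod (FnField I)
      (s := fun _ : Fin m => TopForms I n))) := by
    rw [PiTensorProduct.span_tprod_eq_top]; trivial
  induction h1 using Submodule.span_induction with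
  | mem x hx =>
    obtain ⟨v, rfl⟩ := hx
    choose F hF using fun k => exists_smul_ω h hI (v k)
    refine ⟨∏ k, F k, ?_⟩
    have h2 : v = fun k => F k • c.ω := funext hF
    rw [h2, tprod_smul]; rfl
  | zero => exact ⟨0, (zero_smul _ _).symm⟩
  | add x y _ _ hx hy =>
    obtain ⟨F, hF⟩ := hx
    obtain ⟨G, hG⟩ := hy
    exact ⟨F + G, by rw [add_smul, ← hF, ← hG]⟩
  | smul a x _ hx =>
    obtain ⟨F, hF⟩ := hx
    exact ⟨a * F, by rw [mul_smul, ← hF]⟩


/-- local pluricanonical symbols -/
theorem exists_symbol (h : c.Dom q) (hI : Hom I) {m : ℕ} (a : Fin m → Fin n → stalk I q) :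
    ∃ J : stalk I q, pluriSymbol I n m (fun k l => (a k l : FnField I)) = (J : FnField I) • c.wm m := by
  choose C hC1 hC2 using fun k => exists_det h hI (a k)
  refine ⟨∏ k, (C k).det, ?_⟩
  unfold pluriSymbol
  have h1 : (fun k : Fin m => wedgeD I n (fun l => ((a k l : stalk I q) : FnField I))) =
      fun k => ((C k).det : FnField I) • c.ω := funext hC2
  rw [h1, tprod_smul]
  congr 1
  exact (map_prod (stalk I q).val _ _).symm

/-- change of coordinates: another coordinate system at the same point gives a unit multiple -/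
theorem exists_unit_change {c c' : CD I n} (h : c.Dom q) (h' : c'.Dom q)
    (hX : IsSmoothProjective I n) : ∃ J : (stalk I q)ˣ, c'.ω = ((J : stalk I q) : FnField I) • c.ω := by
  have hI : Hom I := hX.homogeneous
  obtain ⟨C, -, hC⟩ := exists_det h hI (w h')
  obtain ⟨C', -, hC'⟩ := exists_det h' hI (w h)
  have h1 : c'.ω = (C.det : FnField I) • c.ω := hC
  have h2 : c.ω = (C'.det : FnField I) • c'.ω := hC'
  have h3 : (C.det : FnField I) * (C'.det : FnField I) = 1 := by
    have h4 : ((1 : FnField I) - (C'.det : FnField I) * (C.det : FnField I)) • c.ω = 0 := by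
      rw [sub_smul, one_smul, mul_smul, ← h1, ← h2, sub_self]
    rcases smul_eq_zero.1 h4 with h5 | h5
    · rw [mul_comm]; exact (sub_eq_zero.1 h5).symm
    · exact absurd h5 (h.ω_ne_zero hX)
  refine ⟨⟨C.det, C'.det, Subtype.ext h3, Subtype.ext ?_⟩, h1⟩
  rw [mul_comm]; exact h3

theorem wm_change {c c' : CD I n} {J : FnField I} (hJ : c'.ω = J • c.ω) (m : ℕ) :
    c'.wm m = J ^ m • c.wm m := by
  unfold wm
  have : (fun _ : Fin m => c'.ω) = fun _ => J • c.ω := by funext; exact hJ
  rw [this, tprod_smul]; simp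

end Crest.Agent.R269.DictC_795.CD

namespace Crest.Agent.R269.DictE_795

variable {N n : ℕ} {I : Ideal (HomCoordRing N)} [I.IsPrime]

/-- `s` is regular at `p`: in some coordinates its coefficient is in the local ring -/
def RegAt (n m : ℕ) (p : Fin (N + 1) → ℂ) (s : PluriForms I n m) : Prop :=
  ∃ (c : CD I n) (_ : c.Dom p) (F : stalk I p), s = (F : FnField I) • c.wm m

theorem RegAt.of_coord {m : ℕ} {p : Fin (N + 1) → ℂ} {s : PluriForms I n m}
    (hX : IsSmoothProjective I n) (hs : RegAt n m p s) (c : CD I n) (h : c.Dom p) :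
    ∃ F : stalk I p, s = (F : FnField I) • c.wm m := by
  obtain ⟨c', h', F, hF⟩ := hs
  obtain ⟨J, hJ⟩ := CD.exists_unit_change h h' hX
  refine ⟨F * (J : stalk I p) ^ m, ?_⟩
  rw [hF, CD.wm_change hJ m, smul_smul]
  rfl

/-- sections over a chart are regular at the points of the chart -/
theorem regAt_of_mem_chartSections (hX : IsSmoothProjective I n) {m : ℕ} {p : Fin (N + 1) → ℂ}
    (hp : p ∈ affineCone I) {i : Fin (N + 1)} (hpi : p i ≠ 0) {s : PluriForms I n m}
    (hs : s ∈ chartSections I n m i) {c : CD I n} (h : c.Dom p) :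
    ∃ F : stalk I p, s = (F : FnField I) • c.wm m := by
  have hI : Hom I := hX.homogeneous
  unfold chartSections at hs
  induction hs using Submodule.span_induction with
  | mem x hx =>
    obtain ⟨b, a, rfl⟩ := hx
    have hle := chartRing_le_stalk hp hpi
    obtain ⟨J, hJ⟩ := CD.exists_symbol h hI (m := m) (fun k l => (⟨a k l, hle (a k l).2⟩ : stalk I p))
    refine ⟨⟨b, hle b.2⟩ * J, ?_⟩
    have h1 : (PiTensorProduct.tprod (FnField I) fun k : Fin m =>
        wedgeD I n fun l => ((a k l : chartRing I i) : FnField I)) = (J : FnField I) • c.wm m := hJ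
    rw [h1, smul_smul]; rfl
  | zero => exact ⟨0, (zero_smul _ _).symm⟩
  | add x y _ _ hx hy =>
    obtain ⟨F, hF⟩ := hx
    obtain ⟨G, hG⟩ := hy
    exact ⟨F + G, by rw [hF, hG, ← add_smul]; rfl⟩
  | smul a x _ hx =>
    obtain ⟨F, hF⟩ := hx
    refine ⟨algebraMap ℂ _ a * F, ?_⟩
    rw [hF]
    have : ((algebraMap ℂ (stalk I p) a * F : stalk I p) : FnField I) =
      algebraMap ℂ (FnField I) a * (F : FnField I) := rfl
    rw [this, mul_smul, algebraMap_smul]

/-- `chartSections` is closed under multiplication by the chart ring -/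
theorem smul_mem_chartSections {m : ℕ} {i : Fin (N + 1)} (b : chartRing I i) {s : PluriForms I n m}
    (hs : s ∈ chartSections I n m i) : (b : FnField I) • s ∈ chartSections I n m i := by
  unfold chartSections at hs ⊢
  induction hs using Submodule.span_induction with
  | mem x hx =>
    obtain ⟨b', a, rfl⟩ := hx
    apply Submodule.subset_span
    refine ⟨b * b', a, ?_⟩
    rw [smul_smul]; rfl
  | zero => rw [smul_zero]; exact Submodule.zero_mem _
  | add x y _ _ hx hy => rw [smul_add]; exact Submodule.add_mem _ hx hy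
  | smul a x _ hx =>
    rw [smul_comm]
    exact Submodule.smul_mem _ _ hx

/-- **Local-to-global**: a form regular at every point of the chart `x_i ≠ 0` is a section over the
chart. -/
theorem mem_chartSections_of_regAt (hX : IsSmoothProjective I n) {m : ℕ} {i : Fin (N + 1)}
    (hXi : (X i : HomCoordRing N) ∉ I) {s : PluriForms I n m}
    (hs : ∀ p ∈ affineCone I, p i ≠ 0 → RegAt n m p s) : s ∈ chartSections I n m i := by
  have hI : Hom I := hX.homogeneous
  let 𝔞 : Ideal (HomCoordRing N) :=
    { carrier := {G | dh I i G • s ∈ chartSections I n m i}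
      add_mem' := fun {a b} ha hb => by
        simp only [Set.mem_ofPred_eq, map_add, add_smul] at *
        exact Submodule.add_mem _ ha hb
      zero_mem' := by
        simp only [Set.mem_ofPred_eq, map_zero, zero_smul]; exact Submodule.zero_mem _
      smul_mem' := fun a b hb => by
        simp only [Set.mem_ofPred_eq, smul_eq_mul, map_mul, mul_smul] at *
        exact smul_mem_chartSections ⟨dh I i a, dh_mem_chartRing i a⟩ hb }
  have h𝔞 : ∀ G, G ∈ 𝔞 ↔ dh I i G • s ∈ chartSections I n m i := fun G => Iff.rfl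
  have htop : 𝔞 = ⊤ := by
    by_contra hne
    obtain ⟨𝔪, h𝔪, hle⟩ := Ideal.exists_le_maximal 𝔞 hne
    rw [isMaximal_iff_eq_vanishingIdeal_singleton] at h𝔪
    obtain ⟨q, hq⟩ := h𝔪
    have hev : ∀ G ∈ 𝔞, eval q G = 0 := by
      intro G hG
      have := hle hG
      rw [hq, mem_vanishingIdeal_iff] at this
      simpa [coe_aeval_eq_eval] using this q rfl
    have hqcone : q ∈ affineCone I := by
      intro F hF
      apply hev
      rw [h𝔞, dh_eq_zero_of_mem hI hXi hF, zero_smul]
      exact Submodule.zero_mem _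
    have hqi : q i = 1 := by
      have h1 : X i - 1 ∈ 𝔞 := by
        rw [h𝔞, map_sub, map_one]
        have : dh I i (X i) = 1 := by
          unfold dh; rw [aeval_X]; exact fnRatio_self hXi
        rw [this, sub_self, zero_smul]
        exact Submodule.zero_mem _
      have h2 := hev _ h1
      simp only [map_sub, eval_X, map_one, sub_eq_zero] at h2
      exact h2
    have hqi0 : q i ≠ 0 := by rw [hqi]; exact one_ne_zero
    have hq0 : q ≠ 0 := fun h0 => hqi0 (by rw [h0]; rfl)
    obtain ⟨c, hc, hci⟩ := exists_CD hX hqcone hq0 hqi0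
    obtain ⟨F, hF⟩ := RegAt.of_coord hX (hs q hqcone hqi0) c hc
    obtain ⟨k, G, H, hG, hH, hqH, -, he, -⟩ := exists_dhA hqcone hqi0 F
    have h3 : H ∈ 𝔞 := by
      rw [h𝔞, hF, smul_smul]
      have h4 : dh I i H * (F : FnField I) = dh I i G := by
        have h5 : (F : FnField I) * (dhA hqcone hqi0 H : FnField I) =
            (dhA hqcone hqi0 G : FnField I) := congrArg Subtype.val he
        rw [coe_dhA, coe_dhA] at h5
        rw [← h5, mul_comm]
      rw [h4]
      unfold chartSections
      apply Submodule.subset_span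
      subst hci
      refine ⟨⟨dh I c.i G, dh_mem_chartRing c.i G⟩, fun _ s => ⟨c.wL s, ?_⟩, rfl⟩
      unfold chartRing
      exact Algebra.subset_adjoin ⟨_, rfl⟩
    exact hqH (hev H h3)
  have h1 : (1 : HomCoordRing N) ∈ 𝔞 := by rw [htop]; trivial
  rw [h𝔞, map_one, one_smul] at h1
  exact h1

end Crest.Agent.R269.DictE_795
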