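import Mathlib
import Crest.Agent.R269.Cnt2_197
import Crest.Prelude.Def_ProjPluricanonical
import Crest.Agent.R269.DictE_795
import Crest.Agent.R065.NN_669
import Crest.Agent.R271.C5a_756

-- ▼ part R269/Cnt1_197
section

/-!
Row 269, P10-COUNT, part 1: the abstract convexity argument.
-/

set_option autoImplicit false

namespace Crest.Agent.R269.Cnt1_197

open Module

section lin

variable {k F : Type*} [Field k] [AddCommGroup F] [Module k F]

/-- One convexity step: `V0 ≤ V1 ≤ V2`, `u : V1 → V2` and `x, u x ∈ V1 → x ∈ V0`. -/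
theorem conv_step (V0 V1 V2 : Submodule k F) (h12 : V1 ≤ V2)
    [Module.Finite k V2] (u : F →ₗ[k] F) (hu : ∀ x ∈ V1, u x ∈ V2)
    (hinj : ∀ x ∈ V1, u x ∈ V1 → x ∈ V0) (hfin : Module.Finite k V0) :
    finrank k V1 + finrank k V1 ≤ finrank k V0 + finrank k V2 := by
  have hf1 : Module.Finite k V1 := Submodule.finiteDimensional_of_le h12
  let u1 : V1 →ₗ[k] V2 := u.restrict hu
  let V1' : Submodule k V2 := V1.comap V2.subtype
  let g : V1 →ₗ[k] (V2 ⧸ V1') := V1'.mkQ ∘ₗ u1
  have h1 := g.finrank_range_add_finrank_ker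
  have h2 : finrank k (LinearMap.range g) ≤ finrank k (V2 ⧸ V1') := Submodule.finrank_le _
  have h3 := V1'.finrank_quotient_add_finrank
  have h4 : finrank k V1' = finrank k V1 :=
    (Submodule.comapSubtypeEquivOfLe h12).finrank_eq
  have h5 : finrank k (LinearMap.ker g) ≤ finrank k V0 := by
    let e : LinearMap.ker g →ₗ[k] V0 :=
      { toFun := fun x => ⟨x.1.1, hinj x.1.1 x.1.2 (by
          have hx : g x.1 = 0 := x.2
          have hx' : u1 x.1 ∈ V1' := by
            rw [← Submodule.Quotient.mk_eq_zero]; exact hx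
          exact hx')⟩
        map_add' := fun _ _ => rfl
        map_smul' := fun _ _ => rfl }
    refine LinearMap.finrank_le_finrank_of_injective (f := e) ?_
    intro x y hxy
    apply Subtype.ext
    apply Subtype.ext
    exact congrArg (fun v : V0 => (v : F)) hxy
  omega

end lin

/-- A convex sequence with `d 0 = 0`: `d j / j` is nondecreasing. -/
theorem conv_succ (d : ℕ → ℕ) (h0 : d 0 = 0) (hc : ∀ j, d (j + 1) + d (j + 1) ≤ d j + d (j + 2))
    (j : ℕ) : d j * (j + 1) ≤ j * d (j + 1) := by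
  induction j with
  | zero => simp [h0]
  | succ j ih =>
    have h1 := hc j
    have h2 := Nat.mul_le_mul_left (j + 1) h1
    nlinarith

theorem conv_le (d : ℕ → ℕ) (h0 : d 0 = 0) (hc : ∀ j, d (j + 1) + d (j + 1) ≤ d j + d (j + 2))
    {J M : ℕ} (h : J ≤ M) : d J * M ≤ J * d M := by
  induction M, h using Nat.le_induction with
  | base => rw [mul_comm]
  | succ M hJM ih =>
    rcases Nat.eq_zero_or_pos M with rfl | hM
    · have : J = 0 := by omega
      subst this; simp [h0]
    · have h1 := conv_succ d h0 hc M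
      have h2 : M * (d J * (M + 1)) ≤ M * (J * d (M + 1)) := by
        calc M * (d J * (M + 1)) = (d J * M) * (M + 1) := by ring
          _ ≤ (J * d M) * (M + 1) := Nat.mul_le_mul_right _ ih
          _ = J * (d M * (M + 1)) := by ring
          _ ≤ J * (M * d (M + 1)) := Nat.mul_le_mul_left _ h1
          _ = M * (J * d (M + 1)) := by ring
      exact Nat.le_of_mul_le_mul_left h2 hM

section lin2

variable {k F : Type*} [Field k] [AddCommGroup F] [Module k F]

/-- The abstract convexity argument for a filtered space `V 0 ≤ V 1 ≤ …` with `V 0 = 0`. -/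
theorem filt_conv (V : ℕ → Submodule k F) (h0 : V 0 = ⊥) (hmono : ∀ j, V j ≤ V (j + 1))
    (hfin : ∀ j, Module.Finite k (V j)) (u : F →ₗ[k] F) (hu : ∀ j, ∀ x ∈ V j, u x ∈ V (j + 1))
    (hinj : ∀ j, ∀ x ∈ V (j + 1), u x ∈ V (j + 1) → x ∈ V j) {J M : ℕ} (h : J ≤ M) :
    finrank k (V J) * M ≤ J * finrank k (V M) := by
  refine conv_le (fun j => finrank k (V j)) (by simp [h0]) (fun j => ?_) h
  have := hfin (j + 2)
  exact conv_step (V j) (V (j + 1)) (V (j + 2)) (hmono (j + 1)) u (fun x hx => hu _ x hx)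
    (hinj j) (hfin j)

end lin2

end Crest.Agent.R269.Cnt1_197
end

-- ▼ part R269/Cnt3_197
section

/-!
Row 269, P10-COUNT, part 3: the crude bound `dim WW I l k ≤ C (k+1)^r`.
-/

set_option autoImplicit false
set_option linter.unusedSectionVars false

open MvPolynomial Module Crest.AlgGeometry.ProjEmb
open Crest.Agent.R269.DictA_795 Crest.Agent.R269.DictB_795
open Crest.Agent.R065.HF669 Crest.Agent.R269.Cnt2_197

noncomputable section

namespace Crest.Agent.R269.Cnt3_197

variable {N : ℕ} {I : Ideal (HomCoordRing N)} [I.IsPrime]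

/-- the generators `x_i / x_l` of the chart ring -/
def zz (I : Ideal (HomCoordRing N)) [I.IsPrime] (l : Fin (N + 1)) :
    Fin (N + 1) → ↥(chartRing I l) :=
  fun i => ⟨fnRatio I l i, fnRatio_mem_chartRing l i⟩

theorem coe_aeval_zz (l : Fin (N + 1)) (G : HomCoordRing N) :
    ((aeval (zz I l) G : ↥(chartRing I l)) : FnField I) = aeval (fnRatio I l) G := by
  have : (chartRing I l).val.comp (aeval (zz I l)) = aeval (fnRatio I l) := by
    apply MvPolynomial.algHom_ext; intro j; simp [zz]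
  exact congrArg (fun h => h G) this

theorem mem_U_zz {l : Fin (N + 1)} {q : ℕ} {x : ↥(chartRing I l)} :
    x ∈ U ℂ (zz I l) q ↔ (x : FnField I) ∈ U ℂ (fnRatio I l) q := by
  rw [mem_U, mem_U]
  constructor
  · rintro ⟨f, hf, rfl⟩
    exact ⟨f, hf, (coe_aeval_zz l f).symm⟩
  · rintro ⟨f, hf, h⟩
    exact ⟨f, hf, Subtype.ext (by rw [coe_aeval_zz, h])⟩

theorem exists_mem_U_zz {l : Fin (N + 1)} (x : ↥(chartRing I l)) : ∃ q, x ∈ U ℂ (zz I l) q := by
  obtain ⟨q, hq⟩ := exists_mem_U_of_mem_chartRing x.2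
  exact ⟨q, mem_U_zz.2 hq⟩

theorem exists_D (I : Ideal (HomCoordRing N)) [I.IsPrime] (l : Fin (N + 1)) :
    ∃ D : NData ℂ (zz I l), ∀ i, D.y i ∈ U ℂ (zz I l) 1 := by
  obtain ⟨D, -, hD⟩ := exists_NData (k := ℂ) (zz I l) (exists_mem_U_zz) (zz I l) {1}
    (Set.finite_singleton 1) (fun q => by
      intro x hx
      have := Submodule.mul_mem_mul (Submodule.subset_span (Set.mem_singleton (1 : ↥(chartRing I l)))
        : (1 : ↥(chartRing I l)) ∈ Submodule.span ℂ {1}) hx
      rwa [one_mul] at this)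
  exact ⟨D, hD⟩

/-- degree of the coordinates of the elements of `WW` -/
theorem crd_degree {l : Fin (N + 1)} (hl : (X l : HomCoordRing N) ∉ I) (D : NData ℂ (zz I l))
    (hD : ∀ i, D.y i ∈ U ℂ (zz I l) 1) {k : ℕ} {ψ : ↥(chartRing I l)}
    (hψ : (ψ : FnField I) ∈ WW I l k) (i : Fin D.δ) :
    (D.crd ψ i).totalDegree ≤ k + D.a := by
  rcases Nat.eq_zero_or_pos D.r with h0 | h0
  · have : IsEmpty (Fin D.r) := by rw [h0]; infer_instance
    rw [MvPolynomial.eq_C_of_isEmpty (D.crd ψ i), totalDegree_C]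
    exact Nat.zero_le _
  obtain ⟨r, hr⟩ := exists_U_mul_mem hl hψ
  let g : MvPolynomial (Fin D.r) ℂ := X ⟨0, h0⟩ ^ r
  have hg : aeval D.y g ∈ U ℂ (zz I l) r := by
    have := pow_mem_U (hD ⟨0, h0⟩) r
    simpa [g] using this
  have h1 : aeval D.y g * ψ ∈ U ℂ (zz I l) (r + k) := by
    rw [mem_U_zz]
    exact hr r le_rfl _ (mem_U_zz.1 hg)
  have h2 := D.c3 _ _ h1 i
  rw [D.crd_smul] at h2
  by_cases hz : D.crd ψ i = 0
  · rw [hz, totalDegree_zero]; exact Nat.zero_le _
  · have h3 : (g * D.crd ψ i).totalDegree = g.totalDegree + (D.crd ψ i).totalDegree :=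
      totalDegree_mul_of_isDomain (pow_ne_zero _ (X_ne_zero _)) hz
    have h4 : g.totalDegree = r := by simp [g, totalDegree_X_pow]
    rw [h3, h4] at h2
    omega

theorem crd_injective {l : Fin (N + 1)} (D : NData ℂ (zz I l)) :
    Function.Injective D.crd := by
  rw [injective_iff_map_eq_zero]
  intro x hx
  have h1 := D.c1 x
  simp only [hx, Pi.zero_apply, map_zero, zero_mul, Finset.sum_const_zero] at h1
  rcases mul_eq_zero.1 h1 with h | h
  · exact absurd h D.aeval_h_ne
  · exact h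

theorem finrank_WW_le {l : Fin (N + 1)} (hl : (X l : HomCoordRing N) ∉ I) (D : NData ℂ (zz I l))
    (hD : ∀ i, D.y i ∈ U ℂ (zz I l) 1) (k : ℕ) :
    Module.Finite ℂ (WW I l k) ∧
      finrank ℂ (WW I l k) ≤ D.δ * (k + D.a + D.r).choose D.r := by
  let L : WW I l k →ₗ[ℂ] (Fin D.δ → W ℂ (Fin D.r) (k + D.a)) :=
    { toFun := fun ψ i => ⟨D.crd ⟨ψ.1, mem_chartRing_of_mem_WW hl ψ.2⟩ i,
        mem_W.2 (crd_degree hl D hD ψ.2 i)⟩
      map_add' := fun ψ φ => by
        funext i
        apply Subtype.ext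
        have : (⟨(ψ + φ).1, mem_chartRing_of_mem_WW hl (ψ + φ).2⟩ : ↥(chartRing I l)) =
          ⟨ψ.1, mem_chartRing_of_mem_WW hl ψ.2⟩ + ⟨φ.1, mem_chartRing_of_mem_WW hl φ.2⟩ := rfl
        change D.crd _ i = D.crd _ i + D.crd _ i
        rw [this, map_add]; rfl
      map_smul' := fun c ψ => by
        funext i
        apply Subtype.ext
        have : (⟨(c • ψ).1, mem_chartRing_of_mem_WW hl (c • ψ).2⟩ : ↥(chartRing I l)) =
          c • ⟨ψ.1, mem_chartRing_of_mem_WW hl ψ.2⟩ := rfl
        change D.crd _ i = c • D.crd _ i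
        rw [this, map_smul]; rfl }
  have hL : Function.Injective L := by
    rw [injective_iff_map_eq_zero]
    intro ψ hψ
    have h1 : D.crd ⟨ψ.1, mem_chartRing_of_mem_WW hl ψ.2⟩ = 0 := by
      funext i
      exact congrArg (fun v => ((v i : W ℂ (Fin D.r) (k + D.a)) : MvPolynomial (Fin D.r) ℂ)) hψ
    have h2 := crd_injective D (h1.trans (map_zero D.crd).symm)
    exact Subtype.ext (congrArg (fun v : ↥(chartRing I l) => (v : FnField I)) h2)
  refine ⟨Module.Finite.of_injective L hL, ?_⟩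
  refine (LinearMap.finrank_le_finrank_of_injective hL).trans ?_
  rw [finrank_pi_fintype]
  simp [finrank_W]

theorem choose_bound (δ a r k : ℕ) :
    δ * (k + a + r).choose r ≤ (δ * (a + r + 1) ^ r) * (k + 1) ^ r := by
  rw [mul_assoc, ← mul_pow]
  refine Nat.mul_le_mul_left _ ((Nat.choose_le_pow _ _).trans (Nat.pow_le_pow_left ?_ r))
  nlinarith

/-- The crude bound. -/
theorem crude {l : Fin (N + 1)} (hl : (X l : HomCoordRing N) ∉ I) :
    ∃ (r : ℕ) (y : Fin r → FnField I) (C : ℕ), AlgebraicIndependent ℂ y ∧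
      ∀ k, Module.Finite ℂ (WW I l k) ∧ finrank ℂ (WW I l k) ≤ C * (k + 1) ^ r := by
  obtain ⟨D, hD⟩ := exists_D I l
  refine ⟨D.r, fun i => (D.y i : FnField I), D.δ * (D.a + D.r + 1) ^ D.r, ?_, fun k => ?_⟩
  · have := D.hy.map' (f := (chartRing I l).val) Subtype.val_injective
    exact this
  · obtain ⟨h1, h2⟩ := finrank_WW_le hl D hD k
    exact ⟨h1, h2.trans (choose_bound _ _ _ _)⟩

end Crest.Agent.R269.Cnt3_197
end
end

-- ▼ part R269/Cnt4_197
section

/-!
Row 269, P10-COUNT, part 4: twisted pluricanonical forms `TW I n l a j = H⁰(aK + jA)` and the crude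
bound of their dimension.
-/

set_option autoImplicit false
set_option linter.unusedSectionVars false

open MvPolynomial Module Crest.AlgGeometry.ProjEmb
open Crest.Agent.R269.DictA_795 Crest.Agent.R269.DictB_795 Crest.Agent.R269.DictC_795
open Crest.Agent.R269.DictD_795 Crest.Agent.R269.DictE_795
open Crest.Agent.R065.HF669 Crest.Agent.R269.Cnt2_197 Crest.Agent.R269.Cnt3_197

noncomputable section

namespace Crest.Agent.R269.Cnt4_197

variable {N n : ℕ} {I : Ideal (HomCoordRing N)} [I.IsPrime]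

/-- `H⁰(aK + jA)`: forms `s` with `(x_l/x_i)^j s` regular on the chart `x_i ≠ 0`, all `i`. -/
def TW (I : Ideal (HomCoordRing N)) [I.IsPrime] (n : ℕ) (l : Fin (N + 1)) (a : ℕ) (j : ℤ) :
    Submodule ℂ (PluriForms I n a) where
  carrier := {s | ∀ i, (X i : HomCoordRing N) ∉ I →
    (fnRatio I i l) ^ j • s ∈ chartSections I n a i}
  add_mem' := by
    intro x y hx hy i hi
    rw [smul_add]; exact Submodule.add_mem _ (hx i hi) (hy i hi)
  zero_mem' := by
    intro i _
    rw [smul_zero]; exact Submodule.zero_mem _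
  smul_mem' := by
    intro c x hx i hi
    rw [smul_comm]; exact Submodule.smul_mem _ _ (hx i hi)


theorem mul_smul_mem {l : Fin (N + 1)} (hl : (X l : HomCoordRing N) ∉ I) {a : ℕ} {j : ℤ}
    {s : PluriForms I n a} (hs : s ∈ TW I n l a j) {k : ℕ} {ψ : FnField I} (hψ : ψ ∈ WW I l k) :
    ψ • s ∈ TW I n l a (j + k) := by
  intro i hi
  have h1 := hs i hi
  have h2 := mem_WW.1 hψ i hi
  have h3 := smul_mem_chartSections ⟨_, h2⟩ h1
  have h0 := fnRatio_ne_zero hi hl
  rw [smul_smul] at h3 ⊢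
  have e : fnRatio I i l ^ (j + (k : ℤ)) * ψ = fnRatio I i l ^ k * ψ * fnRatio I i l ^ j := by
    rw [zpow_add₀ h0, zpow_natCast]; ring
  rw [e]; exact h3

theorem TW_mono_succ {l : Fin (N + 1)} (hl : (X l : HomCoordRing N) ∉ I) {a : ℕ} {j : ℤ} :
    TW I n l a j ≤ TW I n l a (j + 1) := by
  intro s hs
  have := mul_smul_mem hl hs (WW_mono (Nat.zero_le 1) (one_mem_WW l))
  rwa [one_smul] at this

/-! ### Denominators -/

/-- expansion of an alternating map on linear combinations -/
theorem alt_expand {R M M' : Type*} [CommRing R] [AddCommGroup M] [Module R M] [AddCommGroup M']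
    [Module R M'] {m K : ℕ} (f : M [⋀^Fin m]→ₗ[R] M') (e : Fin K → M) (b : Fin m → Fin K → R) :
    f (fun t => ∑ j, b t j • e j) =
      ∑ J : Fin m → Fin K, (∏ t, b t (J t)) • f (fun t => e (J t)) := by
  have h1 := f.toMultilinearMap.map_sum (fun t j => b t j • e j)
  refine Eq.trans h1 (Finset.sum_congr rfl fun J _ => ?_)
  exact f.toMultilinearMap.map_smul_univ (fun t => b t (J t)) (fun t => e (J t))

variable {c : CD I n} {q : Fin (N + 1) → ℂ}

theorem exists_wedge_den (h : c.Dom q) (hI : Hom I) {l : Fin (N + 1)}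
    (hl : (X l : HomCoordRing N) ∉ I) :
    ∃ (e : ℕ) (hd : FnField I), hd ∈ WW I l e ∧ hd ≠ 0 ∧
      ∀ i, (X i : HomCoordRing N) ∉ I → ∀ v : Fin n → FnField I, (∀ t, v t ∈ chartRing I i) →
        ∃ φ : FnField I, wedgeD I n v = φ • c.ω ∧
          fnRatio I i l ^ e * (hd * φ) ∈ chartRing I i := by
  classical
  choose cf hcf using fun (x : Fin (N + 1) × (Fin n → Fin (N + 1))) =>
    CD.exists_smul_ω h hI (wedgeD I n (fun t => fnRatio I x.1 (x.2 t)))
  obtain ⟨e, hd, hde, hd0, hden⟩ := exists_common_den hl Finset.univ cf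
  refine ⟨e, hd, hde, hd0, fun i hi v hv => ?_⟩
  choose G hG using fun t => exists_dh_of_mem_chartRing (hv t)
  let b : Fin n → Fin (N + 1) → FnField I := fun t j => dh I i (pderiv j (G t))
  have hD : ∀ t, KaehlerDifferential.D ℂ (FnField I) (v t) =
      ∑ j, b t j • KaehlerDifferential.D ℂ (FnField I) (fnRatio I i j) := by
    intro t
    rw [← hG t]
    exact der_aeval (KaehlerDifferential.D ℂ (FnField I)) (fnRatio I i) (G t)
  refine ⟨∑ J : Fin n → Fin (N + 1), (∏ t, b t (J t)) * cf (i, J), ?_, ?_⟩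
  · have h1 : wedgeD I n v = exteriorPower.ιMulti (FnField I) n
        (fun t => ∑ j, b t j • KaehlerDifferential.D ℂ (FnField I) (fnRatio I i j)) := by
      unfold wedgeD
      congr 1
      funext t
      exact hD t
    rw [h1]
    have h2 := alt_expand (exteriorPower.ιMulti (FnField I) n)
      (fun j => KaehlerDifferential.D ℂ (FnField I) (fnRatio I i j)) b
    refine Eq.trans h2 ?_
    rw [Finset.sum_smul]
    refine Finset.sum_congr rfl fun J _ => ?_
    rw [mul_smul]
    congr 1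
    exact hcf (i, J)
  · rw [Finset.mul_sum, Finset.mul_sum]
    refine sum_mem fun J _ => ?_
    have e1 : fnRatio I i l ^ e * (hd * ((∏ t, b t (J t)) * cf (i, J))) =
        (∏ t, b t (J t)) * (fnRatio I i l ^ e * (hd * cf (i, J))) := by ring
    rw [e1]
    refine mul_mem (prod_mem fun t _ => dh_mem_chartRing i _) ?_
    exact mem_WW.1 (hden (i, J) (Finset.mem_univ _)) i hi

theorem exists_den_chart (h : c.Dom q) (hI : Hom I) {l : Fin (N + 1)}
    (hl : (X l : HomCoordRing N) ∉ I) :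
    ∃ (e : ℕ) (hd : FnField I), hd ∈ WW I l e ∧ hd ≠ 0 ∧
      ∀ (a : ℕ) (i : Fin (N + 1)), (X i : HomCoordRing N) ∉ I → ∀ s ∈ chartSections I n a i,
        ∃ φ : FnField I, s = φ • c.wm a ∧
          fnRatio I i l ^ (a * e) * (hd ^ a * φ) ∈ chartRing I i := by
  obtain ⟨e, hd, hde, hd0, hw⟩ := exists_wedge_den h hI hl
  refine ⟨e, hd, hde, hd0, fun a i hi s hs => ?_⟩
  unfold chartSections at hs
  induction hs using Submodule.span_induction with
  | mem x hx =>
    obtain ⟨b, v, rfl⟩ := hx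
    choose φ hφ1 hφ2 using fun k => hw i hi (fun t => (v k t : FnField I)) (fun t => (v k t).2)
    refine ⟨(b : FnField I) * ∏ k, φ k, ?_, ?_⟩
    · rw [mul_smul]
      congr 1
      have h1 : (fun k : Fin a => wedgeD I n (fun t => ((v k t : chartRing I i) : FnField I))) =
          fun k => φ k • c.ω := funext hφ1
      rw [h1, tprod_smul]
      rfl
    · have e1 : fnRatio I i l ^ (a * e) * (hd ^ a * ((b : FnField I) * ∏ k, φ k)) =
          (b : FnField I) * ∏ k : Fin a, (fnRatio I i l ^ e * (hd * φ k)) := by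
        rw [Finset.prod_mul_distrib, Finset.prod_mul_distrib]
        simp only [Finset.prod_const, Finset.card_univ, Fintype.card_fin]
        rw [← pow_mul, mul_comm a e]; ring
      rw [e1]
      exact mul_mem b.2 (prod_mem fun k _ => hφ2 k)
  | zero =>
    refine ⟨0, by rw [zero_smul], ?_⟩
    rw [mul_zero, mul_zero]; exact zero_mem _
  | add x y _ _ hx hy =>
    obtain ⟨φ, h1, h2⟩ := hx
    obtain ⟨φ', h1', h2'⟩ := hy
    refine ⟨φ + φ', by rw [add_smul, ← h1, ← h1'], ?_⟩
    rw [mul_add, mul_add]; exact add_mem h2 h2'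
  | smul r x _ hx =>
    obtain ⟨φ, h1, h2⟩ := hx
    refine ⟨algebraMap ℂ (FnField I) r * φ, ?_, ?_⟩
    · rw [mul_smul, ← h1, algebraMap_smul]
    · have e1 : fnRatio I i l ^ (a * e) * (hd ^ a * (algebraMap ℂ (FnField I) r * φ)) =
          algebraMap ℂ (FnField I) r * (fnRatio I i l ^ (a * e) * (hd ^ a * φ)) := by ring
      rw [e1]
      exact mul_mem (Subalgebra.algebraMap_mem _ r) h2

/-! ### The coefficient map -/

/-- `F ↦ F • wm` is an isomorphism -/
def coefEquiv (h : c.Dom q) (hX : IsSmoothProjective I n) (a : ℕ) :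
    FnField I ≃ₗ[FnField I] PluriForms I n a :=
  LinearEquiv.ofBijective (LinearMap.toSpanSingleton (FnField I) (PluriForms I n a) (c.wm a))
    ⟨fun F G hFG => h.coeff_unique hX hFG, fun s => by
      obtain ⟨F, hF⟩ := h.exists_coeff hX.homogeneous s
      exact ⟨F, hF.symm⟩⟩

theorem coefEquiv_symm_smul (h : c.Dom q) (hX : IsSmoothProjective I n) (a : ℕ)
    (s : PluriForms I n a) : (coefEquiv h hX a).symm s • c.wm a = s :=
  (coefEquiv h hX a).apply_symm_apply s

/-- **Crude bound** for the twisted forms. -/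
theorem crude_TW (hX : IsSmoothProjective I n) (h : c.Dom q) {l : Fin (N + 1)}
    (hl : (X l : HomCoordRing N) ∉ I) :
    ∃ (r : ℕ) (y : Fin r → FnField I) (C : ℕ), AlgebraicIndependent ℂ y ∧
      ∀ a j : ℕ, Module.Finite ℂ (TW I n l a j) ∧
        finrank ℂ (TW I n l a j) ≤ C * (a + j + 1) ^ r := by
  obtain ⟨e, hd, hde, hd0, hden⟩ := exists_den_chart h hX.homogeneous hl
  obtain ⟨r, y, C, hy, hC⟩ := crude (I := I) hl
  refine ⟨r, y, C * (e + 1) ^ r, hy, fun a j => ?_⟩
  have key : ∀ s ∈ TW I n l a j, hd ^ a * (coefEquiv h hX a).symm s ∈ WW I l (j + a * e) := by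
    intro s hs
    rw [mem_WW]
    intro i hi
    obtain ⟨φ, h1, h2⟩ := hden a i hi _ (hs i hi)
    have h3 : φ = fnRatio I i l ^ j * (coefEquiv h hX a).symm s := by
      refine h.coeff_unique hX (m := a) ?_
      rw [← h1, mul_smul, coefEquiv_symm_smul, zpow_natCast]
    rw [h3] at h2
    have e1 : fnRatio I i l ^ (j + a * e) * (hd ^ a * (coefEquiv h hX a).symm s) =
        fnRatio I i l ^ (a * e) * (hd ^ a * (fnRatio I i l ^ j * (coefEquiv h hX a).symm s)) := by
      rw [pow_add]; ring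
    rw [e1]; exact h2
  let L : TW I n l a j →ₗ[ℂ] WW I l (j + a * e) :=
    { toFun := fun s => ⟨hd ^ a * (coefEquiv h hX a).symm s.1, key s.1 s.2⟩
      map_add' := fun s t => by
        apply Subtype.ext
        change hd ^ a * (coefEquiv h hX a).symm (s.1 + t.1) = _
        rw [map_add, mul_add]; rfl
      map_smul' := fun r s => by
        apply Subtype.ext
        change hd ^ a * (coefEquiv h hX a).symm (r • s.1) =
          r • (hd ^ a * (coefEquiv h hX a).symm s.1)
        rw [← algebraMap_smul (FnField I) r s.1, map_smul, smul_eq_mul, Algebra.smul_def]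
        ring }
  have hL : Function.Injective L := by
    intro s t hst
    have h1 : hd ^ a * (coefEquiv h hX a).symm s.1 = hd ^ a * (coefEquiv h hX a).symm t.1 :=
      congrArg (fun v : WW I l (j + a * e) => (v : FnField I)) hst
    have h2 := mul_left_cancel₀ (pow_ne_zero a hd0) h1
    exact Subtype.ext ((coefEquiv h hX a).symm.injective h2)
  obtain ⟨hf, hb⟩ := hC (j + a * e)
  refine ⟨Module.Finite.of_injective L hL, ?_⟩
  refine (LinearMap.finrank_le_finrank_of_injective hL).trans (hb.trans ?_)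
  rw [mul_assoc, ← mul_pow]
  refine Nat.mul_le_mul_left _ (Nat.pow_le_pow_left ?_ r)
  nlinarith

end Crest.Agent.R269.Cnt4_197
end
end

-- ▼ part R269/Cnt5_197
section

/-!
Row 269, P10-COUNT, part 5: over a UFD `R`, if `s₀ x` and `s₁ x` are integral over `R` and
`s₀, s₁` are coprime, then `x` is integral over `R`.
-/

set_option autoImplicit false

open Polynomial
open scoped nonZeroDivisors

namespace Crest.Agent.R269.Cnt5_197

/-- a nonzero polynomial over the fraction field is a multiple of a primitive one -/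
theorem exists_primitive {R K : Type*} [CommRing R] [IsDomain R] [UniqueFactorizationMonoid R]
    [Field K] [Algebra R K] [IsFractionRing R K] (g : K[X]) (hg : g ≠ 0) :
    ∃ P : R[X], P.IsPrimitive ∧ P.map (algebraMap R K) ∣ g ∧ g ∣ P.map (algebraMap R K) := by
  obtain ⟨inst⟩ : Nonempty (NormalizedGCDMonoid R) := inferInstance
  set G := IsLocalization.integerNormalization R⁰ g with hG
  obtain ⟨b, hb0, hb⟩ := IsLocalization.integerNormalization_spec R⁰ g
  rw [Algebra.smul_def, Polynomial.algebraMap_apply] at hb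
  have hb0' : algebraMap R K b ≠ 0 := by
    intro h
    exact nonZeroDivisors.ne_zero hb0 ((map_eq_zero_iff _ (IsFractionRing.injective R K)).1 h)
  have hGc : G = C G.content * G.primPart := G.eq_C_content_mul_primPart
  have hG0 : G ≠ 0 := by
    intro h
    rw [← hG, h, Polynomial.map_zero] at hb
    rcases mul_eq_zero.1 hb.symm with h1 | h1
    · exact hb0' (by simpa using h1)
    · exact hg h1
  have hc0 : algebraMap R K G.content ≠ 0 := by
    intro h
    have h1 := (map_eq_zero_iff _ (IsFractionRing.injective R K)).1 h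
    rw [content_eq_zero_iff] at h1
    exact hG0 h1
  have h2 : C (algebraMap R K b) * g = C (algebraMap R K G.content) *
      G.primPart.map (algebraMap R K) := by
    rw [← hb, ← hG]
    conv_lhs => rw [hGc]
    rw [Polynomial.map_mul, map_C]
  refine ⟨G.primPart, G.isPrimitive_primPart, ?_, ?_⟩
  · refine ⟨C ((algebraMap R K b)⁻¹ * algebraMap R K G.content), ?_⟩
    have h3 : C ((algebraMap R K b)⁻¹) * (C (algebraMap R K b) * g) = g := by
      rw [← mul_assoc, ← C_mul, inv_mul_cancel₀ hb0', C_1, one_mul]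
    rw [← h3, h2, C_mul]; ring
  · refine ⟨C ((algebraMap R K G.content)⁻¹ * algebraMap R K b), ?_⟩
    have h3 : C ((algebraMap R K G.content)⁻¹) * (C (algebraMap R K G.content) *
        G.primPart.map (algebraMap R K)) = G.primPart.map (algebraMap R K) := by
      rw [← mul_assoc, ← C_mul, inv_mul_cancel₀ hc0, C_1, one_mul]
    rw [← h3, ← h2, C_mul]; ring

theorem exists_scaled {R L : Type*} [CommRing R] [IsDomain R] [Field L] [Algebra R L] {s : R}
    (hs : s ≠ 0) {x : L} (h : IsIntegral R (algebraMap R L s * x)) :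
    ∃ (G : R[X]) (d : ℕ), aeval x G = 0 ∧ G.leadingCoeff = s ^ d := by
  obtain ⟨F, hF, hF0⟩ := h
  refine ⟨F.comp (C s * X), F.natDegree, ?_, ?_⟩
  · rw [aeval_comp, map_mul, aeval_C, aeval_X]; exact hF0
  · have h1 : (C s * X : R[X]).natDegree = 1 := natDegree_C_mul_X s hs
    rw [leadingCoeff_comp (by rw [h1]; exact one_ne_zero), hF.leadingCoeff, one_mul,
      leadingCoeff_C_mul_X]

theorem isIntegral_of_two {R L : Type*} [CommRing R] [IsDomain R] [UniqueFactorizationMonoid R]
    [Field L] [Algebra R L] (hinj : Function.Injective (algebraMap R L)) {s0 s1 : R}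
    (hs0 : s0 ≠ 0) (hs1 : s1 ≠ 0) (hrel : IsRelPrime s0 s1) {x : L}
    (h0 : IsIntegral R (algebraMap R L s0 * x)) (h1 : IsIntegral R (algebraMap R L s1 * x)) :
    IsIntegral R x := by
  let K := FractionRing R
  let _ : Algebra K L := (IsFractionRing.lift (A := R) (K := K) hinj).toAlgebra
  have htow : IsScalarTower R K L := IsScalarTower.of_algebraMap_eq fun r =>
    (IsFractionRing.lift_algebraMap (A := R) (K := K) hinj r).symm
  obtain ⟨G0, d0, hG0, hl0⟩ := exists_scaled hs0 h0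
  obtain ⟨G1, d1, hG1, hl1⟩ := exists_scaled hs1 h1
  have hG0' : aeval x (G0.map (algebraMap R K)) = 0 := by rw [aeval_map_algebraMap, hG0]
  have hG1' : aeval x (G1.map (algebraMap R K)) = 0 := by rw [aeval_map_algebraMap, hG1]
  have hG0ne : G0 ≠ 0 := by
    intro h
    rw [h, leadingCoeff_zero] at hl0
    exact pow_ne_zero d0 hs0 hl0.symm
  have hxint : IsIntegral K x := by
    rw [← isAlgebraic_iff_isIntegral]
    refine ⟨G0.map (algebraMap R K), ?_, hG0'⟩
    rwa [Ne, Polynomial.map_eq_zero_iff (IsFractionRing.injective R K)]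
  obtain ⟨P, hP, hP1, hP2⟩ := exists_primitive (R := R) (minpoly K x) (minpoly.ne_zero hxint)
  have hd0 : P ∣ G0 :=
    hP.dvd_of_fraction_map_dvd_fraction_map (K := K) (hP1.trans (minpoly.dvd K x hG0'))
  have hd1 : P ∣ G1 :=
    hP.dvd_of_fraction_map_dvd_fraction_map (K := K) (hP1.trans (minpoly.dvd K x hG1'))
  have hu : IsUnit P.leadingCoeff := by
    have e0 : P.leadingCoeff ∣ s0 ^ d0 := by
      rw [← hl0]; exact leadingCoeff_dvd_leadingCoeff hd0
    have e1 : P.leadingCoeff ∣ s1 ^ d1 := by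
      rw [← hl1]; exact leadingCoeff_dvd_leadingCoeff hd1
    exact (hrel.pow (m := d0) (n := d1)) e0 e1
  have hPx : aeval x P = 0 := by
    have h2 : aeval x (P.map (algebraMap R K)) = 0 := by
      obtain ⟨Q, hQ⟩ := hP2
      rw [hQ, map_mul, minpoly.aeval, zero_mul]
    rwa [aeval_map_algebraMap] at h2
  obtain ⟨u, hu⟩ := hu
  refine ⟨C ((u⁻¹ : Rˣ) : R) * P, ?_, ?_⟩
  · unfold Monic
    rw [leadingCoeff_mul, leadingCoeff_C, ← hu, Units.inv_mul]
  · have : aeval x (C ((u⁻¹ : Rˣ) : R) * P) = 0 := by rw [map_mul, hPx, mul_zero]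
    exact this

end Crest.Agent.R269.Cnt5_197
end

-- ▼ part R269/Cnt6_197
section

/-!
Row 269, P10-COUNT, part 6: the graded Noether normalisation `ℂ[T, y₁T, …, y_rT] ⊆ K[T]`, integrality
of the Rees algebra `⊕ U_q T^q`, and the extension lemma.
-/

set_option autoImplicit false

open Polynomial
open Crest.Agent.R065.HF669

noncomputable section

namespace Crest.Agent.R269.Cnt6_197

variable {E : Type*} [Field E] [Algebra ℂ E] {r : ℕ}

/-- `(1, y_1, …, y_r)` -/
def xv (y : Fin r → E) : Fin (r + 1) → E := Fin.cons 1 y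

/-- `(T, y_1 T, …, y_r T)` -/
def gg (y : Fin r → E) : Fin (r + 1) → E[X] := fun i => monomial 1 (xv y i)

theorem coeff_aeval_gg (y : Fin r → E) (F : MvPolynomial (Fin (r + 1)) ℂ) (q : ℕ) :
    (MvPolynomial.aeval (gg y) F).coeff q =
      MvPolynomial.aeval (xv y) (MvPolynomial.homogeneousComponent q F) :=
  Crest.Agent.R271.C5_756.coeff_aeval_monomial_one (xv y) F q

theorem aeval_smul_hom' {R A σ : Type*} [CommRing R] [CommRing A] [Algebra R A]
    {G : MvPolynomial σ R} {k : ℕ} (hG : G.IsHomogeneous k) (c : A) (x : σ → A) :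
    MvPolynomial.aeval (fun j => c * x j) G = c ^ k * MvPolynomial.aeval x G := by
  rw [MvPolynomial.aeval_def, MvPolynomial.aeval_def, MvPolynomial.eval₂_eq,
    MvPolynomial.eval₂_eq, Finset.mul_sum]
  refine Finset.sum_congr rfl fun d hd => ?_
  have h1 : ∑ i ∈ d.support, d i = k := by
    have := hG (MvPolynomial.mem_support_iff.1 hd)
    rw [← this, Finsupp.weight_apply]
    simp [Finsupp.sum]
  rw [← h1]
  simp_rw [mul_pow]
  rw [Finset.prod_mul_distrib, Finset.prod_pow_eq_pow_sum]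
  ring

theorem aeval_eq_eval' {τ : Type*} (w : τ → ℂ) (F : MvPolynomial τ ℂ) :
    MvPolynomial.aeval w F = MvPolynomial.eval w F := by
  rw [← MvPolynomial.coe_aeval_eq_eval]; rfl

theorem homog_eq_zero {y : Fin r → E} (hy : AlgebraicIndependent ℂ y)
    {F : MvPolynomial (Fin (r + 1)) ℂ} {k : ℕ} (hF : F.IsHomogeneous k)
    (h : MvPolynomial.aeval (xv y) F = 0) : F = 0 := by
  let v : Fin (r + 1) → MvPolynomial (Fin r) ℂ := Fin.cons 1 MvPolynomial.X
  have h1 : MvPolynomial.aeval v F = 0 := by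
    apply hy
    rw [map_zero]
    have h2 : (MvPolynomial.aeval y).comp (MvPolynomial.aeval v) =
        (MvPolynomial.aeval (xv y) : MvPolynomial (Fin (r + 1)) ℂ →ₐ[ℂ] E) := by
      apply MvPolynomial.algHom_ext
      intro i
      refine Fin.cases ?_ (fun j => ?_) i
      · simp [v, xv]
      · simp [v, xv]
    have h3 := congrArg (fun f => f F) h2
    simp only [AlgHom.comp_apply] at h3
    rw [h3, h]
  have h2 : ∀ b : Fin r → ℂ, MvPolynomial.eval (Fin.cons 1 b : Fin (r + 1) → ℂ) F = 0 := by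
    intro b
    have h3 : (MvPolynomial.aeval b).comp (MvPolynomial.aeval v) =
        (MvPolynomial.aeval (Fin.cons 1 b : Fin (r + 1) → ℂ) :
          MvPolynomial (Fin (r + 1)) ℂ →ₐ[ℂ] ℂ) := by
      apply MvPolynomial.algHom_ext
      intro i
      refine Fin.cases ?_ (fun j => ?_) i
      · simp [v]
      · simp [v]
    have h4 := congrArg (fun f => f F) h3
    simp only [AlgHom.comp_apply] at h4
    rw [h1, map_zero, aeval_eq_eval'] at h4
    exact h4.symm
  have h3 : MvPolynomial.X 0 * F = 0 := by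
    apply MvPolynomial.funext
    intro w
    rw [map_mul, MvPolynomial.eval_X, map_zero]
    by_cases hw : w 0 = 0
    · rw [hw, zero_mul]
    · have h4 : w = fun j => w 0 * (Fin.cons 1 (fun k : Fin r => w k.succ / w 0) :
          Fin (r + 1) → ℂ) j := by
        funext j
        refine Fin.cases ?_ (fun k => ?_) j
        · simp
        · simp only [Fin.cons_succ]
          field_simp
      have h5 : MvPolynomial.eval w F = w 0 ^ k *
          MvPolynomial.eval (Fin.cons 1 (fun k : Fin r => w k.succ / w 0) : Fin (r + 1) → ℂ) F := by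
        conv_lhs => rw [h4]
        have h6 := aeval_smul_hom' hF (w 0)
          (Fin.cons 1 (fun k : Fin r => w k.succ / w 0) : Fin (r + 1) → ℂ)
        rw [aeval_eq_eval', aeval_eq_eval'] at h6
        exact h6
      rw [h5, h2, mul_zero, mul_zero]
  rcases mul_eq_zero.1 h3 with h4 | h4
  · exact absurd h4 (MvPolynomial.X_ne_zero 0)
  · exact h4

theorem aeval_gg_injective {y : Fin r → E} (hy : AlgebraicIndependent ℂ y) :
    Function.Injective (MvPolynomial.aeval (gg y) : MvPolynomial (Fin (r + 1)) ℂ →ₐ[ℂ] E[X]) := by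
  rw [injective_iff_map_eq_zero]
  intro F hF
  rw [← MvPolynomial.sum_homogeneousComponent F]
  refine Finset.sum_eq_zero fun d _ => ?_
  refine homog_eq_zero hy (MvPolynomial.homogeneousComponent_isHomogeneous d F) ?_
  rw [← coeff_aeval_gg, hF, coeff_zero]

/-! ### Integrality of the Rees algebra -/

variable {σ : Type*}

/-- the homogenisation of a polynomial in `y` of degree `≤ q` -/
theorem exists_aeval_gg (y : Fin r → E) {q : ℕ} {u : E} (hu : u ∈ U ℂ y q) :
    ∃ F : MvPolynomial (Fin (r + 1)) ℂ, MvPolynomial.aeval (gg y) F = monomial q u := by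
  let S : Submodule ℂ E :=
    ((MvPolynomial.aeval (gg y) : MvPolynomial (Fin (r + 1)) ℂ →ₐ[ℂ] E[X]).range.toSubmodule).comap
      ((monomial q : E →ₗ[E] E[X]).restrictScalars ℂ)
  have key : U ℂ y q ≤ S := by
    apply U_le_of_monomials
    intro n hn
    change monomial q (n.prod fun i e => y i ^ e) ∈
      (MvPolynomial.aeval (gg y) : MvPolynomial (Fin (r + 1)) ℂ →ₐ[ℂ] E[X]).range
    obtain ⟨d, rfl⟩ := exists_add_of_le hn
    refine ⟨MvPolynomial.X 0 ^ d * ∏ i ∈ n.support, MvPolynomial.X i.succ ^ n i, ?_⟩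
    have h1 : ∀ i : Fin r, MvPolynomial.aeval (gg y) (MvPolynomial.X i.succ :
        MvPolynomial (Fin (r + 1)) ℂ) = monomial 1 (y i) := by
      intro i; simp [gg, xv]
    have h0 : MvPolynomial.aeval (gg y) (MvPolynomial.X 0 :
        MvPolynomial (Fin (r + 1)) ℂ) = monomial 1 (1 : E) := by
      simp [gg, xv]
    have h2 : MvPolynomial.aeval (gg y) (∏ i ∈ n.support, (MvPolynomial.X i.succ :
        MvPolynomial (Fin (r + 1)) ℂ) ^ n i) = monomial n.degree (n.prod fun i e => y i ^ e) := by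
      rw [map_prod]
      simp_rw [map_pow, h1, monomial_pow, one_mul]
      rw [Finsupp.prod, Finsupp.degree_apply]
      generalize n.support = s
      classical
      induction s using Finset.induction_on with
      | empty => simp
      | insert i s hi ih =>
        rw [Finset.prod_insert hi, ih, Finset.prod_insert hi, Finset.sum_insert hi,
          monomial_mul_monomial]
    change MvPolynomial.aeval (gg y) _ = _
    rw [map_mul, h2, map_pow, h0, monomial_pow, monomial_mul_monomial, one_pow, one_mul, one_mul,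
      add_comm]
  obtain ⟨F, hF⟩ := key hu
  exact ⟨F, hF⟩

/-- the algebra structure of `E[T]` over `ℂ[X_0, …, X_r]` -/
@[reducible] def algR (y : Fin r → E) : Algebra (MvPolynomial (Fin (r + 1)) ℂ) E[X] :=
  (MvPolynomial.aeval (gg y)).toRingHom.toAlgebra

theorem isIntegral_monomial {z : σ → E} {y : Fin r → E} (hy1 : ∀ i, y i ∈ U ℂ z 1)
    {B : Set E} (hB : B.Finite) (hBU : ∀ q, U ℂ z q ≤ Submodule.span ℂ B * U ℂ y q)
    {q : ℕ} {a : E} (ha : a ∈ U ℂ z q) :
    @IsIntegral (MvPolynomial (Fin (r + 1)) ℂ) E[X] _ _ (algR y) (monomial q a : E[X]) := by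
  let _ := algR y
  have halg : ∀ F : MvPolynomial (Fin (r + 1)) ℂ,
      algebraMap (MvPolynomial (Fin (r + 1)) ℂ) E[X] F = MvPolynomial.aeval (gg y) F :=
    fun F => rfl
  let M : Submodule (MvPolynomial (Fin (r + 1)) ℂ) E[X] := Submodule.span _ (C '' B)
  have hMfg : M.FG := Submodule.fg_span (hB.image _)
  have hMN : IsNoetherian (MvPolynomial (Fin (r + 1)) ℂ) M := isNoetherian_of_fg_of_noetherian M hMfg
  have hCm : ∀ m ∈ Submodule.span ℂ B, (C m : E[X]) ∈ M := by
    intro m hm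
    induction hm using Submodule.span_induction with
    | mem b hb => exact Submodule.subset_span ⟨b, hb, rfl⟩
    | zero => rw [map_zero]; exact M.zero_mem
    | add x y _ _ hx hy => rw [map_add]; exact M.add_mem hx hy
    | smul c x _ hx =>
      have h3 : (C (c • x) : E[X]) = (MvPolynomial.C c : MvPolynomial (Fin (r + 1)) ℂ) • C x := by
        change _ = MvPolynomial.aeval (gg y) (MvPolynomial.C c) * C x
        rw [MvPolynomial.aeval_C, Polynomial.algebraMap_apply, ← C_mul, Algebra.smul_def]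
      rw [h3]; exact M.smul_mem _ hx
  -- all the graded pieces are in `M`
  have hmem : ∀ (q : ℕ) (a : E), a ∈ U ℂ z q → (monomial q a : E[X]) ∈ M := by
    intro q a ha
    have h2 := hBU q ha
    clear ha
    induction h2 using Submodule.mul_induction_on' with
    | mem_mul_mem m hm u hu =>
      obtain ⟨F, hF⟩ := exists_aeval_gg y hu
      have h3 : (monomial q (m * u) : E[X]) = F • (C m) := by
        rw [Algebra.smul_def, halg, hF, monomial_mul_C, mul_comm]
      rw [h3]
      exact M.smul_mem _ (hCm m hm)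
    | add x _ y _ hx hy => rw [map_add]; exact M.add_mem hx hy
  -- the Rees algebra
  have hxv : ∀ i, xv y i ∈ U ℂ z 1 := by
    intro i
    refine Fin.cases ?_ (fun j => ?_) i
    · exact one_mem_U z 1
    · exact hy1 j
  let S : Subalgebra (MvPolynomial (Fin (r + 1)) ℂ) E[X] :=
    { carrier := {P | ∀ k, P.coeff k ∈ U ℂ z k}
      mul_mem' := by
        intro P Q hP hQ k
        rw [coeff_mul]
        refine Submodule.sum_mem _ fun x hx => ?_
        have := mul_mem_U (hP x.1) (hQ x.2)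
        rwa [Finset.HasAntidiagonal.mem_antidiagonal.1 hx] at this
      add_mem' := by
        intro P Q hP hQ k
        rw [coeff_add]; exact Submodule.add_mem _ (hP k) (hQ k)
      algebraMap_mem' := by
        intro F k
        rw [halg, coeff_aeval_gg]
        refine U_le_U hxv k ?_
        exact aeval_mem_U ((MvPolynomial.homogeneousComponent_isHomogeneous k F).totalDegree_le) }
  have hSM : Subalgebra.toSubmodule S ≤ M := by
    intro P hP
    rw [← P.sum_monomial_eq]
    exact M.sum_mem fun k _ => hmem k _ (hP k)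
  have hSN : IsNoetherian (MvPolynomial (Fin (r + 1)) ℂ) (Subalgebra.toSubmodule S) :=
    isNoetherian_of_le hSM
  refine isIntegral_of_submodule_noetherian S hSN _ ?_
  intro k
  rw [coeff_monomial]
  split_ifs with h
  · rw [← h]; exact ha
  · exact Submodule.zero_mem _

end Crest.Agent.R269.Cnt6_197
end
end

-- ▼ part R269/Cnt7_197
section

/-!
Row 269, P10-COUNT, part 7: the extension lemma (REG): if `t f` and `t y f` are regular at `p`
(`t = x_l/x_i`, `y = Y/x_l` a linear Noether parameter) and the local ring is integrally closed,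
then `f` is regular at `p`.
-/

set_option autoImplicit false
set_option linter.unusedSectionVars false

open MvPolynomial Module Crest.AlgGeometry.ProjEmb
open Crest.Agent.R269.DictA_795 Crest.Agent.R269.DictB_795
open Crest.Agent.R065.HF669 Crest.Agent.R269.Cnt2_197 Crest.Agent.R269.Cnt6_197

noncomputable section

namespace Crest.Agent.R269.Cnt7_197

section eqn

variable {E : Type*} [Field E] [Algebra ℂ E] {r : ℕ} {σ : Type*}

theorem exists_equation {z : σ → E} {y : Fin r → E} (hy1 : ∀ i, y i ∈ U ℂ z 1) {k : ℕ} {a : E}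
    (h : @IsIntegral (MvPolynomial (Fin (r + 1)) ℂ) (Polynomial E) _ _ (algR y)
      (Polynomial.monomial k a)) :
    ∃ (d : ℕ) (c : ℕ → E), (∀ j, c j ∈ U ℂ z (k * (d - j))) ∧
      a ^ d + ∑ j ∈ Finset.range d, c j * a ^ j = 0 := by
  let _ := algR y
  obtain ⟨P, hP, hP0⟩ := h
  have hxv : ∀ i, xv y i ∈ U ℂ z 1 := by
    intro i
    refine Fin.cases ?_ (fun j => ?_) i
    · exact one_mem_U z 1
    · exact hy1 j
  refine ⟨P.natDegree, fun j => (aeval (gg y) (P.coeff j)).coeff (k * (P.natDegree - j)), ?_, ?_⟩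
  · intro j
    change (aeval (gg y) (P.coeff j)).coeff _ ∈ _
    rw [coeff_aeval_gg]
    refine U_le_U hxv _ ?_
    exact aeval_mem_U ((homogeneousComponent_isHomogeneous _ _).totalDegree_le)
  · rw [Polynomial.eval₂_eq_sum_range] at hP0
    have h1 := congrArg (fun Q => Polynomial.coeff Q (k * P.natDegree)) hP0
    simp only [Polynomial.coeff_zero, Polynomial.finsetSum_coeff] at h1
    have h2 : ∀ j ∈ Finset.range (P.natDegree + 1),
        (algebraMap (MvPolynomial (Fin (r + 1)) ℂ) (Polynomial E) (P.coeff j) *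
          (Polynomial.monomial k a) ^ j).coeff (k * P.natDegree) =
        (aeval (gg y) (P.coeff j)).coeff (k * (P.natDegree - j)) * a ^ j := by
      intro j hj
      have hj' : j ≤ P.natDegree := by rw [Finset.mem_range] at hj; omega
      have h3 : k * P.natDegree = k * (P.natDegree - j) + k * j := by
        rw [← mul_add]; congr 1; omega
      rw [Polynomial.monomial_pow, h3, Polynomial.coeff_mul_monomial]
      rfl
    rw [Finset.sum_congr rfl h2, Finset.sum_range_succ] at h1
    have h4 : (aeval (gg y) (P.coeff P.natDegree)).coeff (k * (P.natDegree - P.natDegree)) = 1 := by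
      rw [Nat.sub_self, mul_zero]
      have : P.coeff P.natDegree = 1 := hP
      rw [this, map_one, Polynomial.coeff_one_zero]
    rw [h4, one_mul, add_comm] at h1
    exact h1

theorem isIntegral_two_monomial {z : σ → E} {y : Fin r → E} (hy : AlgebraicIndependent ℂ y)
    (hy1 : ∀ i, y i ∈ U ℂ z 1) {B : Set E} (hB : B.Finite)
    (hBU : ∀ q, U ℂ z q ≤ Submodule.span ℂ B * U ℂ y q) (k0 : Fin r) {k : ℕ} {a : E}
    (h0 : a ∈ U ℂ z (k + 1)) (h1 : y k0 * a ∈ U ℂ z (k + 1)) :
    @IsIntegral (MvPolynomial (Fin (r + 1)) ℂ) (Polynomial E) _ _ (algR y)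
      (Polynomial.monomial k a) := by
  let _ := algR y
  let L := FractionRing (Polynomial E)
  have htow : IsScalarTower (MvPolynomial (Fin (r + 1)) ℂ) (Polynomial E) L := inferInstance
  have hinjL : Function.Injective (algebraMap (Polynomial E) L) := IsFractionRing.injective _ _
  have hinj : Function.Injective (algebraMap (MvPolynomial (Fin (r + 1)) ℂ) L) := by
    rw [IsScalarTower.algebraMap_eq (MvPolynomial (Fin (r + 1)) ℂ) (Polynomial E) L]
    exact hinjL.comp (aeval_gg_injective hy)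
  have hI0 := isIntegral_monomial hy1 hB hBU h0
  have hI1 := isIntegral_monomial hy1 hB hBU h1
  have hrel : IsRelPrime (X 0 : MvPolynomial (Fin (r + 1)) ℂ) (X k0.succ) := by
    have hp0 : Prime (X 0 : MvPolynomial (Fin (r + 1)) ℂ) := MvPolynomial.X_prime
    rw [hp0.irreducible.isRelPrime_iff_not_dvd]
    intro hdvd
    rw [MvPolynomial.X_dvd_X] at hdvd
    exact (Fin.succ_ne_zero k0) hdvd.symm
  have key := Cnt5_197.isIntegral_of_two (L := L) hinj (MvPolynomial.X_ne_zero 0)
    (MvPolynomial.X_ne_zero k0.succ) hrel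
    (x := algebraMap (Polynomial E) L (Polynomial.monomial k a)) ?_ ?_
  · exact (isIntegral_algebraMap_iff hinjL).1 key
  · have e : algebraMap (MvPolynomial (Fin (r + 1)) ℂ) L (X 0) *
        algebraMap (Polynomial E) L (Polynomial.monomial k a) =
        algebraMap (Polynomial E) L (Polynomial.monomial (k + 1) a) := by
      rw [IsScalarTower.algebraMap_apply (MvPolynomial (Fin (r + 1)) ℂ) (Polynomial E) L,
        ← map_mul]
      congr 1
      change aeval (gg y) (X 0) * _ = _
      rw [aeval_X]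
      simp only [gg, xv, Fin.cons_zero]
      rw [Polynomial.monomial_mul_monomial, one_mul, add_comm]
    rw [e]
    exact hI0.algebraMap
  · have e : algebraMap (MvPolynomial (Fin (r + 1)) ℂ) L (X k0.succ) *
        algebraMap (Polynomial E) L (Polynomial.monomial k a) =
        algebraMap (Polynomial E) L (Polynomial.monomial (k + 1) (y k0 * a)) := by
      rw [IsScalarTower.algebraMap_apply (MvPolynomial (Fin (r + 1)) ℂ) (Polynomial E) L,
        ← map_mul]
      congr 1
      change aeval (gg y) (X k0.succ) * _ = _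
      rw [aeval_X]
      simp only [gg, xv, Fin.cons_succ]
      rw [Polynomial.monomial_mul_monomial, add_comm]
    rw [e]
    exact hI1.algebraMap

end eqn

variable {N : ℕ} {I : Ideal (HomCoordRing N)} [I.IsPrime]

theorem dh_change {l : Fin (N + 1)} (hl : (X l : HomCoordRing N) ∉ I) (i : Fin (N + 1)) {k : ℕ}
    {H : HomCoordRing N} (hH : H.IsHomogeneous k) :
    dh I i H = fnRatio I i l ^ k * dh I l H := by
  unfold dh
  rw [← aeval_smul_hom hH]
  congr 1
  congr 1
  funext j
  exact (fnRatio_mul hl i j).symm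

theorem rep_mul_dh {l : Fin (N + 1)} (hl : (X l : HomCoordRing N) ∉ I) {k : ℕ}
    {G H : HomCoordRing N} (hG : G.IsHomogeneous k) (hH : H.IsHomogeneous k) {u : FnField I}
    (h : IsRep u G H) : u * dh I l H = dh I l G := by
  apply toConeHom_injective
  rw [map_mul]
  have h1 := rep_dh hl hG
  have h2 := rep_dh hl hH
  unfold IsRep at h h1 h2
  have h0 : coneHom I (X l ^ k) ≠ 0 := by
    rw [map_pow]; exact pow_ne_zero _ (coneHom_X_ne hl)
  apply mul_right_cancel₀ h0
  rw [h1, mul_assoc, h2, h]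

/-- **The extension lemma (REG).** -/
theorem reg_core {l : Fin (N + 1)} (hl : (X l : HomCoordRing N) ∉ I) {r : ℕ}
    {y : Fin r → FnField I} (hy : AlgebraicIndependent ℂ y)
    (hy1 : ∀ i, y i ∈ U ℂ (fnRatio I l) 1) {B : Set (FnField I)} (hB : B.Finite)
    (hBU : ∀ q, U ℂ (fnRatio I l) q ≤ Submodule.span ℂ B * U ℂ y q) (k0 : Fin r)
    {p : Fin (N + 1) → ℂ} (hp : p ∈ affineCone I) {i : Fin (N + 1)} (hpi : p i ≠ 0)
    (hcl : ∀ g : FnField I, IsIntegral (stalk I p) g → g ∈ stalk I p) {f : FnField I}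
    (h0 : fnRatio I i l * f ∈ stalk I p) (h1 : fnRatio I i l * y k0 * f ∈ stalk I p) :
    f ∈ stalk I p := by
  have hXi : (X i : HomCoordRing N) ∉ I := X_not_mem hp hpi
  obtain ⟨k1, G1, H1, hG1, hH1, hpH1, hr1⟩ := h0
  obtain ⟨k2, G2, H2, hG2, hH2, hpH2, hr2⟩ := h1
  have e1 := rep_mul_dh hl hG1 hH1 (u := fnRatio I i l * f) hr1
  have e2 := rep_mul_dh hl hG2 hH2 (u := fnRatio I i l * y k0 * f) hr2
  have hzt : fnRatio I l i * fnRatio I i l = 1 := by rw [fnRatio_mul hXi, fnRatio_self hl]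
  set t := fnRatio I i l with ht
  set w := fnRatio I l i with hw
  set a := dh I l H1 * dh I l H2 * f with ha
  have hdU : ∀ {k : ℕ} {G : HomCoordRing N}, G.IsHomogeneous k → dh I l G ∈ U ℂ (fnRatio I l) k :=
    fun hG => aeval_mem_U hG.totalDegree_le
  have ha1 : a = dh I l H2 * (w * dh I l G1) := by
    rw [← e1]
    have : dh I l H2 * (w * (t * f * dh I l H1)) = (w * t) * (dh I l H1 * dh I l H2 * f) := by ring
    rw [this, hzt, one_mul]
  have ha2 : y k0 * a = dh I l H1 * (w * dh I l G2) := by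
    rw [← e2]
    have : dh I l H1 * (w * (t * y k0 * f * dh I l H2)) =
      (w * t) * (y k0 * (dh I l H1 * dh I l H2 * f)) := by ring
    rw [this, hzt, one_mul]
  have hw1 : w ∈ U ℂ (fnRatio I l) 1 := self_mem_U _ i
  have hm0 : a ∈ U ℂ (fnRatio I l) (k1 + k2 + 1) := by
    rw [ha1]
    have := mul_mem_U (hdU hH2) (mul_mem_U hw1 (hdU hG1))
    have e : k2 + (1 + k1) = k1 + k2 + 1 := by omega
    rwa [e] at this
  have hm1 : y k0 * a ∈ U ℂ (fnRatio I l) (k1 + k2 + 1) := by
    rw [ha2]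
    have := mul_mem_U (hdU hH1) (mul_mem_U hw1 (hdU hG2))
    have e : k1 + (1 + k2) = k1 + k2 + 1 := by omega
    rwa [e] at this
  have hint := isIntegral_two_monomial hy hy1 hB hBU k0 hm0 hm1
  obtain ⟨d, c, hc, heq⟩ := exists_equation hy1 hint
  set k := k1 + k2 with hk
  -- `α = t^k a` is integral over the stalk
  have hcs : ∀ j, t ^ (k * (d - j)) * c j ∈ stalk I p := by
    intro j
    have h3 := mem_WW.1 (U_le_WW hl _ (hc j)) i hXi
    exact chartRing_le_stalk hp hpi h3
  let e : Fin d → stalk I p := fun j => ⟨t ^ (k * (d - j)) * c j, hcs j⟩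
  have hα : IsIntegral (stalk I p) (t ^ k * a) := by
    refine ⟨Polynomial.X ^ d + ∑ j : Fin d, Polynomial.C (e j) * Polynomial.X ^ (j : ℕ),
      Polynomial.monic_X_pow_add (Polynomial.degree_sum_fin_lt e), ?_⟩
    rw [Polynomial.eval₂_add, Polynomial.eval₂_X_pow, Polynomial.eval₂_finsetSum]
    have h5 : ∑ j : Fin d, Polynomial.eval₂ (algebraMap (stalk I p) (FnField I)) (t ^ k * a)
        (Polynomial.C (e j) * Polynomial.X ^ (j : ℕ)) =
        ∑ j ∈ Finset.range d, t ^ (k * d) * (c j * a ^ j) := by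
      rw [Finset.sum_range]
      refine Finset.sum_congr rfl fun j _ => ?_
      rw [Polynomial.eval₂_mul, Polynomial.eval₂_C, Polynomial.eval₂_X_pow]
      have h6 : algebraMap (stalk I p) (FnField I) (e j) = t ^ (k * (d - j)) * c j := rfl
      have h7 : k * d = k * (d - j) + k * j := by
        rw [← mul_add]; congr 1; omega
      have h8 : (t ^ k * a) ^ (j : ℕ) = t ^ (k * (j : ℕ)) * a ^ (j : ℕ) := by
        rw [mul_pow, ← pow_mul]
      rw [h6, h7, h8, pow_add t (k * (d - j)) (k * j)]; ring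
    rw [h5, ← Finset.mul_sum, mul_pow, ← pow_mul, ← mul_add, heq, mul_zero]
  have hαm := hcl _ hα
  -- remove the units
  have e3 : t ^ k * a = dh I i H1 * dh I i H2 * f := by
    rw [dh_change hl i hH1, dh_change hl i hH2, ha, hk, pow_add]; ring
  rw [e3] at hαm
  have hunit : ∀ {k : ℕ} {H : HomCoordRing N}, H.IsHomogeneous k → eval p H ≠ 0 →
      ∃ v ∈ stalk I p, v * dh I i H = 1 := by
    intro k H hH hpH
    have h6 : IsUnit (dhA hp hpi H) := by
      apply isUnit_of_ev_ne hp
      rw [ev_dhA hp hpi hH]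
      exact div_ne_zero hpH (pow_ne_zero _ hpi)
    obtain ⟨v, hv⟩ := h6.exists_left_inv
    refine ⟨v, v.2, ?_⟩
    have := congrArg (fun x : stalk I p => (x : FnField I)) hv
    simp only [MulMemClass.coe_mul, OneMemClass.coe_one, coe_dhA] at this
    exact this
  obtain ⟨v1, hv1, hv1'⟩ := hunit hH1 hpH1
  obtain ⟨v2, hv2, hv2'⟩ := hunit hH2 hpH2
  have h8 := mul_mem (mul_mem hv1 hv2) hαm
  have h9 : v1 * v2 * (dh I i H1 * dh I i H2 * f) = (v1 * dh I i H1) * (v2 * dh I i H2) * f := by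
    ring
  rw [h9, hv1', hv2', one_mul, one_mul] at h8
  exact h8

end Crest.Agent.R269.Cnt7_197
end
end

-- ▼ part R269/Cnt8_197

/-!
Row 269, P10-COUNT, part 8: the convexity argument for `j ↦ dim H⁰(aK + jA)` and the existence of a
section of `aK - A`.
-/

set_option autoImplicit false
set_option linter.unusedSectionVars false

open MvPolynomial Module Crest.AlgGeometry.ProjEmb
open Crest.Agent.R269.DictA_795 Crest.Agent.R269.DictB_795 Crest.Agent.R269.DictC_795
open Crest.Agent.R269.DictD_795 Crest.Agent.R269.DictE_795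
open Crest.Agent.R065.HF669 Crest.Agent.R269.Cnt2_197 Crest.Agent.R269.Cnt3_197
open Crest.Agent.R269.Cnt4_197 Crest.Agent.R269.Cnt7_197

noncomputable section

namespace Crest.Agent.R269.Cnt8_197

variable {N n : ℕ} {I : Ideal (HomCoordRing N)} [I.IsPrime]

/-- linear Noether parameters on the chart `x_l ≠ 0`, with degree control -/
structure NN (I : Ideal (HomCoordRing N)) [I.IsPrime] (l : Fin (N + 1)) where
  r : ℕ
  y : Fin r → FnField I
  B : Set (FnField I)
  ind : AlgebraicIndependent ℂ y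
  y1 : ∀ i, y i ∈ U ℂ (fnRatio I l) 1
  fin : B.Finite
  span : ∀ q, U ℂ (fnRatio I l) q ≤ Submodule.span ℂ B * U ℂ y q

theorem exists_NN (I : Ideal (HomCoordRing N)) [I.IsPrime] (l : Fin (N + 1)) :
    Nonempty (NN I l) := by
  obtain ⟨j, y, B, -, h1, h2, h3, -, h4⟩ :=
    noether_normalisation (k := ℂ) (N + 1) (fnRatio I l)
  exact ⟨⟨j, y, B, h2, h1, h3, h4⟩⟩

/-- in positive dimension there is a Noether parameter -/
theorem NN.r_pos {l : Fin (N + 1)} (D : NN I l) (hl : (X l : HomCoordRing N) ∉ I)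
    (hX : IsSmoothProjective I n) (hn : 1 ≤ n) {c : CD I n} {q : Fin (N + 1) → ℂ}
    (h : c.Dom q) : 0 < D.r := by
  by_contra hr
  have hr0 : D.r = 0 := by omega
  have hemp : IsEmpty (Fin D.r) := by rw [hr0]; infer_instance
  have hU : ∀ q, U ℂ D.y q ≤ 1 := by
    intro q x hx
    obtain ⟨f, -, rfl⟩ := mem_U.1 hx
    rw [MvPolynomial.eq_C_of_isEmpty f, MvPolynomial.aeval_C]
    exact Submodule.mem_one.2 ⟨_, rfl⟩
  have hU2 : ∀ q, U ℂ (fnRatio I l) q ≤ Submodule.span ℂ D.B := by
    intro q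
    refine (D.span q).trans (Submodule.mul_le.2 fun m hm u hu => ?_)
    obtain ⟨b, rfl⟩ := Submodule.mem_one.1 (hU q hu)
    rw [mul_comm, ← Algebra.smul_def]
    exact Submodule.smul_mem _ _ hm
  have hsub : Subalgebra.toSubmodule (chartRing I l) ≤ Submodule.span ℂ D.B := by
    intro x hx
    obtain ⟨q, hq⟩ := exists_mem_U_of_mem_chartRing hx
    exact hU2 q hq
  have hfinB : Module.Finite ℂ (Submodule.span ℂ D.B) :=
    Module.Finite.span_of_finite ℂ D.fin
  have hfin : Module.Finite ℂ (chartRing I l) := Submodule.finiteDimensional_of_le hsub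
  have hint : Algebra.IsIntegral ℂ (chartRing I l) := Algebra.IsIntegral.of_finite ℂ _
  have hbij : Function.Bijective (algebraMap ℂ (chartRing I l)) :=
    IsAlgClosed.algebraMap_bijective_of_isIntegral
  have hconst : ∀ j, ∃ b : ℂ, fnRatio I l j = algebraMap ℂ (FnField I) b := by
    intro j
    obtain ⟨b, hb⟩ := hbij.2 ⟨fnRatio I l j, fnRatio_mem_chartRing l j⟩
    exact ⟨b, (congrArg (fun v : chartRing I l => (v : FnField I)) hb).symm⟩
  have hD : KaehlerDifferential.D ℂ (FnField I) (c.wL ⟨0, hn⟩) = 0 := by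
    have hi : (X c.i : HomCoordRing N) ∉ I := h.not_mem_i
    have h1 : fnRatio I l c.i ≠ 0 := fnRatio_ne_zero hl hi
    have h2 : c.wL ⟨0, hn⟩ = (fnRatio I l c.i)⁻¹ * fnRatio I l (c.S ⟨0, hn⟩) := by
      rw [eq_inv_mul_iff_mul_eq₀ h1]
      exact fnRatio_mul hi l _
    obtain ⟨b, hb⟩ := hconst c.i
    obtain ⟨b', hb'⟩ := hconst (c.S ⟨0, hn⟩)
    rw [h2, hb, hb', ← map_inv₀, ← map_mul, Derivation.map_algebraMap]
  apply h.ω_ne_zero hX
  unfold CD.ω wedgeD
  exact (exteriorPower.ιMulti (FnField I) n).map_coord_zero ⟨0, hn⟩ hD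

/-- **(REG)** for twisted forms. -/
theorem TW_reg (hX : IsSmoothProjective I n) {l : Fin (N + 1)} (hl : (X l : HomCoordRing N) ∉ I)
    (D : NN I l) (k0 : Fin D.r)
    (hcl : ∀ p ∈ affineCone I, p ≠ 0 → ∀ g : FnField I, IsIntegral (stalk I p) g → g ∈ stalk I p)
    {a : ℕ} {j : ℤ} {s : PluriForms I n a} (hs : s ∈ TW I n l a j)
    (hs' : D.y k0 • s ∈ TW I n l a j) : s ∈ TW I n l a (j - 1) := by
  intro i hi
  refine mem_chartSections_of_regAt hX hi fun p hp hpi => ?_
  have hp0 : p ≠ 0 := fun h => hpi (by rw [h]; rfl)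
  obtain ⟨c, hc, -⟩ := exists_CD hX hp hp0 hpi
  obtain ⟨F, hF⟩ := hc.exists_coeff hX.homogeneous s
  have ht0 : fnRatio I i l ≠ 0 := fnRatio_ne_zero hi hl
  set t := fnRatio I i l with ht
  have h0 : t * (t ^ (j - 1) * F) ∈ stalk I p := by
    obtain ⟨G, hG⟩ := regAt_of_mem_chartSections hX hp hpi (hs i hi) hc
    have h1 : t ^ j * F = (G : FnField I) := by
      refine hc.coeff_unique hX (m := a) ?_
      rw [← hG, mul_smul, ← hF]
    have h2 : t * (t ^ (j - 1) * F) = t ^ j * F := by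
      rw [← mul_assoc, zpow_sub_one₀ ht0, mul_comm t, mul_assoc (t ^ j), inv_mul_cancel₀ ht0,
        mul_one]
    rw [h2, h1]; exact G.2
  have h1 : t * D.y k0 * (t ^ (j - 1) * F) ∈ stalk I p := by
    obtain ⟨G, hG⟩ := regAt_of_mem_chartSections hX hp hpi (hs' i hi) hc
    have h1 : t ^ j * (D.y k0 * F) = (G : FnField I) := by
      refine hc.coeff_unique hX (m := a) ?_
      rw [← hG, mul_smul, mul_smul, ← hF]
    have h2 : t * D.y k0 * (t ^ (j - 1) * F) = t ^ j * (D.y k0 * F) := by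
      have h3 : t * t ^ (j - 1) = t ^ j := by
        rw [zpow_sub_one₀ ht0, mul_comm t, mul_assoc, inv_mul_cancel₀ ht0, mul_one]
      rw [← h3]; ring
    rw [h2, h1]; exact G.2
  have hf := reg_core hl D.ind D.y1 D.fin D.span k0 hp hpi (hcl p hp hp0) h0 h1
  refine ⟨c, hc, ⟨_, hf⟩, ?_⟩
  change t ^ (j - 1) • s = (t ^ (j - 1) * F) • c.wm a
  rw [mul_smul, ← hF]

/-- **The counting inequality.** -/
theorem count (hX : IsSmoothProjective I n) (hn : 1 ≤ n) {l : Fin (N + 1)}
    (hl : (X l : HomCoordRing N) ∉ I) {c : CD I n} {q : Fin (N + 1) → ℂ} (h : c.Dom q)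
    (hcl : ∀ p ∈ affineCone I, p ≠ 0 → ∀ g : FnField I, IsIntegral (stalk I p) g → g ∈ stalk I p)
    (htr : ∀ (r : ℕ) (y : Fin r → FnField I), AlgebraicIndependent ℂ y → r ≤ n) :
    ∃ C : ℕ, (∀ a j : ℕ, Module.Finite ℂ (TW I n l a j) ∧
        finrank ℂ (TW I n l a j) ≤ C * (a + j + 1) ^ n) ∧
      ∀ a : ℕ, TW I n l a (-1) = ⊥ → ∀ J M : ℕ, J ≤ M →
        finrank ℂ (TW I n l a J) * (M + 1) ≤ (J + 1) * finrank ℂ (TW I n l a M) := by
  obtain ⟨r, y, C, hy, hC⟩ := crude_TW hX h hl
  refine ⟨C, fun a j => ⟨(hC a j).1, (hC a j).2.trans ?_⟩, ?_⟩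
  · exact Nat.mul_le_mul_left _ (Nat.pow_le_pow_right (by omega) (htr r y hy))
  intro a hbot J M hJM
  obtain ⟨D⟩ := exists_NN I l
  have hr := D.r_pos hl hX hn h
  let k0 : Fin D.r := ⟨0, hr⟩
  let V : ℕ → Submodule ℂ (PluriForms I n a) := fun j => TW I n l a ((j : ℤ) - 1)
  have hVsucc : ∀ j : ℕ, V (j + 1) = TW I n l a (j : ℤ) := by
    intro j
    change TW I n l a (((j + 1 : ℕ) : ℤ) - 1) = _
    congr 1
    push_cast; ring
  have hV0 : V 0 = ⊥ := by
    change TW I n l a (((0 : ℕ) : ℤ) - 1) = ⊥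
    rw [← hbot]; congr 1
  have hfin : ∀ j, Module.Finite ℂ (V j) := by
    intro j
    cases j with
    | zero => rw [hV0]; infer_instance
    | succ j => rw [hVsucc]; exact (hC a j).1
  let u : PluriForms I n a →ₗ[ℂ] PluriForms I n a :=
    { toFun := fun s => D.y k0 • s
      map_add' := fun s t => smul_add _ _ _
      map_smul' := fun c s => smul_comm _ _ _ }
  have key := Cnt1_197.filt_conv V hV0 (fun j => ?_) hfin u (fun j x hx => ?_)
    (fun j x hx hx' => ?_) (J := J + 1) (M := M + 1) (by omega)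
  · rw [hVsucc, hVsucc] at key
    exact key
  · have := TW_mono_succ (n := n) hl (a := a) (j := (j : ℤ) - 1)
    have e : ((j : ℤ) - 1) + 1 = (((j + 1 : ℕ) : ℤ) - 1) := by push_cast; ring
    rw [e] at this
    exact this
  · have h1 := mul_smul_mem hl hx (U_le_WW hl 1 (D.y1 k0))
    have e : ((j : ℤ) - 1) + ((1 : ℕ) : ℤ) = (((j + 1 : ℕ) : ℤ) - 1) := by push_cast; ring
    rw [e] at h1
    exact h1
  · rw [hVsucc] at hx hx'
    exact TW_reg hX hl D k0 hcl hx hx'

/-- elementary estimate behind `big` -/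
theorem numeric (C n j0 : ℕ) (c2 : ℝ) (hc2 : 0 < c2) :
    ∃ q : ℕ, 1 ≤ q ∧ ∃ m0 : ℕ, ∀ m : ℕ, m0 ≤ m → m / q + j0 ≤ m ∧
      ∀ d : ℕ, c2 * (m : ℝ) ^ n ≤ d → ¬ (d * (m + 1) ≤ (m / q + j0 + 1) *
        (C * (m + 1 + m + 1) ^ n)) := by
  set K : ℝ := C * 4 ^ n with hK
  have hK0 : 0 ≤ K := by positivity
  obtain ⟨q, hq⟩ := exists_nat_gt (2 * K / c2)
  have hqq : 0 < (max q 2 : ℕ) := by omega
  obtain ⟨m1, hm1⟩ := exists_nat_gt (2 * K * (j0 + 1) / c2)
  refine ⟨max q 2, by omega, max m1 (max 1 (2 * j0)), fun m hm => ?_⟩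
  have hm1' : m1 ≤ m := (le_max_left _ _).trans hm
  have hm2 : 1 ≤ m := (le_max_left _ _).trans ((le_max_right _ _).trans hm)
  have hm3 : 2 * j0 ≤ m := (le_max_right _ _).trans ((le_max_right _ _).trans hm)
  have hdiv : m / max q 2 ≤ m / 2 := Nat.div_le_div_left (le_max_right _ _) (by norm_num)
  refine ⟨by omega, fun d hd hcon => ?_⟩
  have hcast : (d : ℝ) * (m + 1) ≤ (((m / max q 2 : ℕ) : ℝ) + j0 + 1) *
      (C * ((m : ℝ) + 1 + m + 1) ^ n) := by exact_mod_cast hcon
  have hmpos : (0 : ℝ) < m := by exact_mod_cast hm2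
  have hmn : (0 : ℝ) < (m : ℝ) ^ n := by positivity
  have h1 : ((m : ℝ) + 1 + m + 1) ^ n ≤ 4 ^ n * (m : ℝ) ^ n := by
    rw [← mul_pow]
    have h5 : (1 : ℝ) ≤ m := by exact_mod_cast hm2
    exact pow_le_pow_left₀ (by positivity) (by linarith) n
  have h2 : ((m / max q 2 : ℕ) : ℝ) ≤ (m : ℝ) / (max q 2 : ℕ) := Nat.cast_div_le
  have hqpos : (0 : ℝ) < (max q 2 : ℕ) := by exact_mod_cast hqq
  have hq' : 2 * K / c2 < (max q 2 : ℕ) := hq.trans_le (by exact_mod_cast le_max_left _ _)
  have h3 : K * ((m : ℝ) / (max q 2 : ℕ)) < c2 * m / 2 := by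
    rw [div_lt_iff₀ hc2] at hq'
    rw [mul_div_assoc', div_lt_iff₀ hqpos]
    nlinarith
  have h4 : K * (j0 + 1) < c2 * m / 2 := by
    have h5 : 2 * K * (j0 + 1) / c2 < m := hm1.trans_le (by exact_mod_cast hm1')
    rw [div_lt_iff₀ hc2] at h5
    linarith
  have h5 : (d : ℝ) * (m + 1) ≤ K * (m : ℝ) ^ n * ((m : ℝ) / (max q 2 : ℕ) + j0 + 1) := by
    calc (d : ℝ) * (m + 1) ≤ (((m / max q 2 : ℕ) : ℝ) + j0 + 1) *
          (C * ((m : ℝ) + 1 + m + 1) ^ n) := hcast
      _ ≤ ((m : ℝ) / (max q 2 : ℕ) + j0 + 1) * (C * (4 ^ n * (m : ℝ) ^ n)) := by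
          gcongr
      _ = K * (m : ℝ) ^ n * ((m : ℝ) / (max q 2 : ℕ) + j0 + 1) := by rw [hK]; ring
  have h6 : c2 * (m : ℝ) ^ n * m < c2 * (m : ℝ) ^ n * m := by
    calc c2 * (m : ℝ) ^ n * m ≤ d * (m + 1) := by
          have h7 : c2 * (m : ℝ) ^ n * m ≤ d * m := mul_le_mul_of_nonneg_right hd hmpos.le
          have h8 : (0 : ℝ) ≤ d := Nat.cast_nonneg d
          linarith
      _ ≤ K * (m : ℝ) ^ n * ((m : ℝ) / (max q 2 : ℕ) + j0 + 1) := h5
      _ = (m : ℝ) ^ n * (K * ((m : ℝ) / (max q 2 : ℕ)) + K * (j0 + 1)) := by ring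
      _ < (m : ℝ) ^ n * (c2 * m / 2 + c2 * m / 2) := by
          apply mul_lt_mul_of_pos_left _ hmn
          linarith
      _ = c2 * (m : ℝ) ^ n * m := by ring
  exact lt_irrefl _ h6

/-- **BIG**: many sections of `(m+1)K + (m/q + j₀)A`, uniformly in `q`, give a nonzero section of
`aK - A`, `a ≥ 1`. -/
theorem big (hX : IsSmoothProjective I n) (hn : 1 ≤ n) {l : Fin (N + 1)}
    (hl : (X l : HomCoordRing N) ∉ I) {c : CD I n} {q : Fin (N + 1) → ℂ} (h : c.Dom q)
    (hcl : ∀ p ∈ affineCone I, p ≠ 0 → ∀ g : FnField I, IsIntegral (stalk I p) g → g ∈ stalk I p)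
    (htr : ∀ (r : ℕ) (y : Fin r → FnField I), AlgebraicIndependent ℂ y → r ≤ n)
    (c2 : ℝ) (hc2 : 0 < c2) (j0 : ℕ) :
    ∃ q : ℕ, 1 ≤ q ∧ ∃ m0 : ℕ, ∀ m : ℕ, m0 ≤ m →
      c2 * (m : ℝ) ^ n ≤ finrank ℂ (TW I n l (m + 1) ((m / q + j0 : ℕ) : ℤ)) →
      ∃ s ∈ TW I n l (m + 1) (-1), s ≠ 0 := by
  obtain ⟨C, hC1, hC2⟩ := count hX hn hl h hcl htr
  obtain ⟨q, hq, m0, hm0⟩ := numeric C n j0 c2 hc2
  refine ⟨q, hq, m0, fun m hm hbig => ?_⟩
  by_contra hcon
  push Not at hcon
  have hbot : TW I n l (m + 1) (-1) = ⊥ := by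
    rw [Submodule.eq_bot_iff]; exact hcon
  obtain ⟨h1, h2⟩ := hm0 m hm
  refine h2 _ hbig ?_
  refine (hC2 (m + 1) hbot (m / q + j0) m h1).trans ?_
  exact Nat.mul_le_mul_left _ (hC1 (m + 1) m).2

end Crest.Agent.R269.Cnt8_197
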