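import Mathlib

/-!
Determinant inequalities for positive (semi)definite Hermitian matrices: `n (det A det B)^{1/n} ≤
tr (A B)`, its dual description, Minkowski's inequality.  (Row 269, Steps 7, 9.)
-/

set_option autoImplicit false
noncomputable section

open Matrix
open scoped ComplexOrder MatrixOrder

namespace Crest.Agent.R269.DetIneq271

variable {ι : Type*} [Fintype ι] [DecidableEq ι]

/-- `(det A)^{1/n}` (real, for positive semidefinite `A`). -/
def dn (A : Matrix ι ι ℂ) : ℝ := (A.det.re) ^ ((Fintype.card ι : ℝ)⁻¹)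

theorem det_re_nonneg {A : Matrix ι ι ℂ} (hA : A.PosSemidef) : 0 ≤ A.det.re :=
  (Complex.nonneg_iff.mp hA.det_nonneg).1

theorem det_eq_re {A : Matrix ι ι ℂ} (hA : A.PosSemidef) : A.det = (A.det.re : ℂ) := by
  refine Complex.ext rfl ?_
  simpa using (Complex.nonneg_iff.mp hA.det_nonneg).2.symm

theorem det_re_pos {A : Matrix ι ι ℂ} (hA : A.PosDef) : 0 < A.det.re :=
  (Complex.pos_iff.mp hA.det_pos).1

theorem dn_nonneg {A : Matrix ι ι ℂ} (hA : A.PosSemidef) : 0 ≤ dn A :=
  Real.rpow_nonneg (det_re_nonneg hA) _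

theorem dn_pos {A : Matrix ι ι ℂ} (hA : A.PosDef) : 0 < dn A :=
  Real.rpow_pos_of_pos (det_re_pos hA) _

theorem det_mul_re {A B : Matrix ι ι ℂ} (hA : A.PosSemidef) (hB : B.PosSemidef) :
    (A * B).det.re = A.det.re * B.det.re := by
  rw [Matrix.det_mul, det_eq_re hA, det_eq_re hB]
  simp

/-- AM-GM for the eigenvalues: `n (det A)^{1/n} ≤ tr A`. -/
theorem card_mul_dn_le_trace [Nonempty ι] {A : Matrix ι ι ℂ} (hA : A.PosSemidef) :
    (Fintype.card ι : ℝ) * dn A ≤ A.trace.re := by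
  have hn : (0 : ℝ) < Fintype.card ι := by exact_mod_cast Fintype.card_pos
  have htr : A.trace.re = ∑ i, hA.1.eigenvalues i := by
    rw [hA.1.trace_eq_sum_eigenvalues]
    simp
  have hdet : A.det.re = ∏ i, hA.1.eigenvalues i := by
    rw [hA.1.det_eq_prod_eigenvalues, ← RCLike.ofReal_prod]
    exact Complex.ofReal_re _
  have h2 := Real.geom_mean_le_arith_mean_weighted (Finset.univ : Finset ι)
    (fun _ => (Fintype.card ι : ℝ)⁻¹) (hA.1.eigenvalues) (fun _ _ => by positivity)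
    (by simp [hn.ne']) (fun i _ => hA.eigenvalues_nonneg i)
  rw [dn, hdet, htr]
  rw [← Real.finsetProd_rpow _ _ (fun i _ => hA.eigenvalues_nonneg i)]
  rw [← Finset.mul_sum] at h2
  calc (Fintype.card ι : ℝ) * ∏ i, hA.1.eigenvalues i ^ (Fintype.card ι : ℝ)⁻¹
      ≤ (Fintype.card ι : ℝ) * ((Fintype.card ι : ℝ)⁻¹ * ∑ i, hA.1.eigenvalues i) :=
        mul_le_mul_of_nonneg_left h2 hn.le
    _ = ∑ i, hA.1.eigenvalues i := by field_simp

theorem dn_mul {A B : Matrix ι ι ℂ} (hA : A.PosSemidef) (hB : B.PosSemidef) :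
    dn (A * B) = dn A * dn B := by
  rw [dn, det_mul_re hA hB, Real.mul_rpow (det_re_nonneg hA) (det_re_nonneg hB)]
  rfl

/-- `n (det A)^{1/n} (det B)^{1/n} ≤ tr (A B)`. -/
theorem card_mul_dn_mul_dn_le_trace [Nonempty ι] {A B : Matrix ι ι ℂ} (hA : A.PosSemidef)
    (hB : B.PosSemidef) : (Fintype.card ι : ℝ) * (dn A * dn B) ≤ (A * B).trace.re := by
  obtain ⟨S, hS⟩ : ∃ S : Matrix ι ι ℂ, A = Sᴴ * S := by
    refine ⟨CFC.sqrt A, ?_⟩
    have h1 : (CFC.sqrt A)ᴴ = CFC.sqrt A := (CFC.sqrt_nonneg A).posSemidef.isHermitian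
    rw [h1]
    exact (CFC.sqrt_mul_sqrt_self A hA.nonneg).symm
  have hC : (S * B * Sᴴ).PosSemidef := hB.mul_mul_conjTranspose_same S
  have h1 := card_mul_dn_le_trace hC
  have h2 : (S * B * Sᴴ).trace = (A * B).trace := by
    rw [hS, Matrix.trace_mul_cycle, Matrix.mul_assoc]
  have h3 : (S * B * Sᴴ).det = (A * B).det := by
    rw [hS]
    simp only [Matrix.det_mul]
    ring
  rw [h2] at h1
  have h4 : dn (S * B * Sᴴ) = dn (A * B) := by
    rw [dn, dn, h3]
  rw [h4, dn_mul hA hB] at h1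
  exact h1

theorem dn_smul {A : Matrix ι ι ℂ} [Nonempty ι] (hA : A.PosSemidef) {c : ℝ} (hc : 0 ≤ c) :
    dn ((c : ℂ) • A) = c * dn A := by
  have hn : (Fintype.card ι : ℝ) ≠ 0 := by exact_mod_cast Fintype.card_ne_zero
  have h1 : ((c : ℂ) • A).det.re = c ^ Fintype.card ι * A.det.re := by
    rw [Matrix.det_smul, ← Complex.ofReal_pow, Complex.re_ofReal_mul]
  rw [dn, h1, Real.mul_rpow (by positivity) (det_re_nonneg hA), ← Real.rpow_natCast,
    ← Real.rpow_mul hc, mul_inv_cancel₀ hn, Real.rpow_one]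
  rfl


@[simp] theorem dn_one : dn (1 : Matrix ι ι ℂ) = 1 := by simp [dn]

theorem dn_inv {A : Matrix ι ι ℂ} (hA : A.PosDef) : dn A⁻¹ = (dn A)⁻¹ := by
  have h1 : dn (A * A⁻¹) = dn A * dn A⁻¹ := dn_mul hA.posSemidef hA.inv.posSemidef
  have hu : IsUnit A.det := (Matrix.isUnit_iff_isUnit_det A).mp hA.isUnit
  rw [Matrix.mul_nonsing_inv A hu, dn_one] at h1
  have h2 := dn_pos hA
  field_simp
  linarith

/-- Dual description: the infimum of `tr (A B)` over `B` positive definite with `det B = 1` is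
attained: `tr (A B) = n (det A)^{1/n}`. -/
theorem exists_dual [Nonempty ι] {A : Matrix ι ι ℂ} (hA : A.PosDef) :
    ∃ B : Matrix ι ι ℂ, B.PosDef ∧ dn B = 1 ∧ (A * B).trace.re = Fintype.card ι * dn A := by
  have hu : IsUnit A.det := (Matrix.isUnit_iff_isUnit_det A).mp hA.isUnit
  have hpos := dn_pos hA
  refine ⟨(dn A : ℂ) • A⁻¹, ?_, ?_, ?_⟩
  · exact hA.inv.smul (by exact_mod_cast hpos)
  · rw [dn_smul hA.inv.posSemidef hpos.le, dn_inv hA]
    field_simp
  · rw [Matrix.mul_smul, Matrix.mul_nonsing_inv A hu, Matrix.trace_smul, Matrix.trace_one]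
    simp [mul_comm]

/-- Minkowski's determinant inequality, `A + B` positive definite. -/
theorem dn_add_aux [Nonempty ι] {A B : Matrix ι ι ℂ} (hA : A.PosSemidef) (hB : B.PosSemidef)
    (hAB : (A + B).PosDef) : dn A + dn B ≤ dn (A + B) := by
  have hn : (0 : ℝ) < Fintype.card ι := by exact_mod_cast Fintype.card_pos
  obtain ⟨C, hC, hC1, hC2⟩ := exists_dual hAB
  have h1 := card_mul_dn_mul_dn_le_trace hA hC.posSemidef
  have h2 := card_mul_dn_mul_dn_le_trace hB hC.posSemidef
  rw [hC1, mul_one] at h1 h2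
  rw [Matrix.add_mul, Matrix.trace_add, Complex.add_re] at hC2
  have h3 : (Fintype.card ι : ℝ) * (dn A + dn B) ≤ Fintype.card ι * dn (A + B) := by
    rw [← hC2, mul_add]
    exact add_le_add h1 h2
  exact le_of_mul_le_mul_left h3 hn

/-- **Minkowski's determinant inequality.** -/
theorem dn_add [Nonempty ι] {A B : Matrix ι ι ℂ} (hA : A.PosSemidef) (hB : B.PosSemidef) :
    dn A + dn B ≤ dn (A + B) := by
  by_cases hAB : (A + B).PosDef
  · exact dn_add_aux hA hB hAB
  · -- then both determinants vanish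
    have hS : (A + B).PosSemidef := hA.add hB
    have hn : (Fintype.card ι : ℝ)⁻¹ ≠ 0 := by
      have : (Fintype.card ι : ℝ) ≠ 0 := by exact_mod_cast Fintype.card_ne_zero
      exact inv_ne_zero this
    have hA0 : dn A = 0 := by
      have h1 : A.det = 0 := by
        by_contra h
        exact hAB ((hA.posDef_iff_det_ne_zero.mpr h).add_posSemidef hB)
      rw [dn, h1, Complex.zero_re, Real.zero_rpow hn]
    have hB0 : dn B = 0 := by
      have h1 : B.det = 0 := by
        by_contra h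
        exact hAB (by
          rw [add_comm]
          exact (hB.posDef_iff_det_ne_zero.mpr h).add_posSemidef hA)
      rw [dn, h1, Complex.zero_re, Real.zero_rpow hn]
    rw [hA0, hB0, add_zero]
    exact dn_nonneg hS

theorem dn_mono [Nonempty ι] {A B : Matrix ι ι ℂ} (hA : A.PosSemidef) (hAB : (B - A).PosSemidef) :
    dn A ≤ dn B := by
  have h1 := dn_add hA hAB
  have h2 := dn_nonneg hAB
  rw [add_sub_cancel] at h1
  linarith









end Crest.Agent.R269.DetIneq271
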