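import Crest.Agent.R269.RegStmt_848
import Crest.Agent.R273.C0e_390
import Crest.Agent.R273.Vol_333
import Crest.Agent.R269.GlueB_390
import Crest.Agent.R269.Defs_58
import Crest.Agent.R269.DictA_886
import Crest.Agent.R269.Lev_901
import Crest.Agent.R269.Chart_632
import Crest.Agent.R269.AdjLoc_851
import Crest.Agent.R269.DetIneq_271
import Crest.Agent.R273.Vm_333
import Crest.Agent.R269.Fld_851
import Crest.Agent.R269.Alp5_927

-- ▼ part R269/RegPot_848
section

/-!
# R269 (S0411), task REG-POT (helper848): the algebra of potentials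

`om_tr`, `dg_tr`     : transformation of the Kaehler form and of `det g`;
`Pot.add`, `Pot.smul`, `Pot.ofHM` : sums, real multiples, curvature of a Hermitian metric;
`lv_ofHM`            : `lv w z v / 4 = ∑ cur a b v_a conj v_b`.
-/

set_option autoImplicit false
set_option linter.unusedSectionVars false

open MeasureTheory Set Filter Topology
open scoped ContDiff ComplexConjugate Matrix

namespace Crest.Agent.R269.RegStmt_848

open Crest.Agent.R275.Geo Crest.Agent.R275.Core144 Crest.Agent.R273.C0d_390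
  Crest.Agent.R273.Kah_333 Crest.Agent.R273.Defs_333 Crest.Agent.R273.Hess_333
  Crest.Agent.R273.HessB_333 Crest.Agent.R273.HM_333 Crest.Agent.R273.Vol_333

noncomputable section

variable {n : ℕ} {M : Type} [TopologicalSpace M] {A : Atl n M}

/-- Hermitian form of a matrix -/
def qf (H : Matrix (Fin n) (Fin n) ℂ) (v : Cn n) : ℂ := ∑ a, ∑ b, H a b * v a * conj (v b)

theorem qf_hess (u : Cn n → ℝ) (z v : Cn n) : qf (hess u z) v = hq u z v := rfl

theorem lv_eq_qf {u : Cn n → ℝ} {z : Cn n} (hu : ContDiffAt ℝ ∞ u z) (v : Cn n) :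
    lv u z v / 4 = (qf (hess u z) v).re := by
  rw [Crest.Agent.R273.C0e_390.lv_eq_lev, qf_hess, hq_re hu]

theorem om_eq_qf (K : Kah A) (i : A.ι) (z v : Cn n) :
    om K i z v = (qf (K.g i ((A.e i).symm z)) v).re := rfl

/-- the chart transition applied to a tangent vector -/
theorem fderiv_trans (i j : A.ι) {z : Cn n} (hz : z ∈ A.ov i j) (v : Cn n) (b : Fin n) :
    (fderiv ℂ (fun y => A.e j ((A.e i).symm y)) z v) b
      = ∑ a, Jm A i j ((A.e i).symm z) b a * v a := by
  have hv : v = ∑ a, v a • (EuclideanSpace.single a (1 : ℂ) : Cn n) := by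
    ext c
    simp [Finset.sum_apply, Pi.single_apply]
  conv_lhs => rw [hv]
  rw [map_sum]
  simp only [map_smul]
  rw [WithLp.ofLp_sum, Finset.sum_apply]
  refine Finset.sum_congr rfl fun a _ => ?_
  simp only [Jm, Matrix.of_apply, Atl.J, (A.e i).right_inv hz.1, WithLp.ofLp_smul, Pi.smul_apply,
    smul_eq_mul]
  ring

theorem qf_eq_dot (H : Matrix (Fin n) (Fin n) ℂ) (v : Cn n) :
    qf H v = (fun a => v a) ⬝ᵥ (H *ᵥ fun b => conj (v b)) := by
  unfold qf
  simp only [dotProduct, Matrix.mulVec, Finset.mul_sum]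
  refine Finset.sum_congr rfl fun a _ => Finset.sum_congr rfl fun b _ => ?_
  ring

theorem qf_tr (H : Matrix (Fin n) (Fin n) ℂ) (J : Matrix (Fin n) (Fin n) ℂ) {v w : Cn n}
    (hw : ∀ b, w b = ∑ a, J b a * v a) : qf (Jᵀ * H * J.map conj) v = qf H w := by
  have h1 : (fun b => w b) = J *ᵥ fun a => v a := funext hw
  have h2 : (fun b => conj (w b)) = J.map conj *ᵥ fun a => conj (v a) := by
    funext b
    rw [hw b]
    simp [Matrix.mulVec, dotProduct]
  rw [qf_eq_dot, qf_eq_dot, h1, h2, ← Matrix.mulVec_mulVec, ← Matrix.mulVec_mulVec,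
    Matrix.dotProduct_mulVec, Matrix.vecMul_transpose]



/-- transformation of the Levi form from the transformation of the Hessian matrix -/
theorem lv_tr_of_hess {u v : Cn n → ℝ} {i j : A.ι} {z : Cn n} (hz : z ∈ A.ov i j)
    (hu : ContDiffAt ℝ ∞ u z) (hv : ContDiffAt ℝ ∞ v (A.e j ((A.e i).symm z)))
    (h : hess u z = (Jm A i j ((A.e i).symm z))ᵀ * hess v (A.e j ((A.e i).symm z)) *
      (Jm A i j ((A.e i).symm z)).map conj) (x : Cn n) :
    lv u z x = lv v (A.e j ((A.e i).symm z))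
      (fderiv ℂ (fun y => A.e j ((A.e i).symm y)) z x) := by
  have h1 := lv_eq_qf hu x
  have h2 := lv_eq_qf hv (fderiv ℂ (fun y => A.e j ((A.e i).symm y)) z x)
  rw [h, qf_tr _ _ (fderiv_trans i j hz x)] at h1
  linarith


/-- the curvature form of a Hermitian metric -/
def Pot.ofHM {L : LB A} (h : HM L) : Pot A where
  w := h.wt
  sm := wt_smooth h
  tr := by
    intro i j z hz x
    have hx : (A.e i).symm z ∈ (A.e i).source ∩ (A.e j).source := ⟨(A.e i).map_target hz.1, hz.2⟩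
    have h1 := cur_tr h hx
    unfold cur at h1
    rw [(A.e i).right_inv hz.1] at h1
    exact lv_tr_of_hess hz (wt_contDiffAt h i hz.1)
      (wt_contDiffAt h j ((A.e j).map_source hz.2)) h1 x

theorem Pot.contDiffAt (γ : Pot A) {i : A.ι} {z : Cn n} (hz : z ∈ (A.e i).target) :
    ContDiffAt ℝ ∞ (γ.w i) z := (γ.sm i).contDiffAt ((A.e i).open_target.mem_nhds hz)

theorem contDiffAt_two {u : Cn n → ℝ} {z : Cn n} (h : ContDiffAt ℝ ∞ u z) : ContDiffAt ℝ 2 u z :=
  h.of_le (WithTop.coe_le_coe.2 le_top)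

theorem mem_target_of_ov {i j : A.ι} {z : Cn n} (hz : z ∈ A.ov i j) :
    A.e j ((A.e i).symm z) ∈ (A.e j).target := (A.e j).map_source hz.2

/-- sum of two forms -/
def Pot.add (γ γ' : Pot A) : Pot A where
  w i z := γ.w i z + γ'.w i z
  sm i := (γ.sm i).add (γ'.sm i)
  tr i j z hz x := by
    have h1 := contDiffAt_two (γ.contDiffAt hz.1)
    have h2 := contDiffAt_two (γ'.contDiffAt hz.1)
    have h3 := contDiffAt_two (γ.contDiffAt (mem_target_of_ov hz))
    have h4 := contDiffAt_two (γ'.contDiffAt (mem_target_of_ov hz))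
    rw [Crest.Agent.R269.GlueB_390.lv_add h1 h2, Crest.Agent.R269.GlueB_390.lv_add h3 h4,
      γ.tr i j z hz, γ'.tr i j z hz]

/-- real multiple of a form -/
def Pot.smul (r : ℝ) (γ : Pot A) : Pot A where
  w i z := r * γ.w i z
  sm i := contDiffOn_const.mul (γ.sm i)
  tr i j z hz x := by
    have h1 := contDiffAt_two (γ.contDiffAt hz.1)
    have h3 := contDiffAt_two (γ.contDiffAt (mem_target_of_ov hz))
    rw [Crest.Agent.R269.GlueB_390.lv_const_mul h1, Crest.Agent.R269.GlueB_390.lv_const_mul h3,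
      γ.tr i j z hz]

/-- the curvature form of the canonical bundle with the metric induced by `K`: `w = log det g` -/
def Pot.can (K : Kah A) : Pot A := (Pot.ofHM (volK K)).smul (-1)

theorem Pot.can_w (K : Kah A) (i : A.ι) (z : Cn n) : (Pot.can K).w i z = Real.log (dg K i z) := by
  simp only [Pot.can, Pot.smul, Pot.ofHM, HM.wt, volK, dg]
  ring

@[simp] theorem Pot.add_w (γ γ' : Pot A) (i : A.ι) (z : Cn n) :
    (γ.add γ').w i z = γ.w i z + γ'.w i z := rfl

@[simp] theorem Pot.smul_w (r : ℝ) (γ : Pot A) (i : A.ι) (z : Cn n) :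
    (γ.smul r).w i z = r * γ.w i z := rfl

@[simp] theorem Pot.ofHM_w {L : LB A} (h : HM L) (i : A.ι) : (Pot.ofHM h).w i = h.wt i := rfl

/-- the matrix of a form in the chart `i` -/
def Pot.mat (γ : Pot A) (i : A.ι) (x : M) : Matrix (Fin n) (Fin n) ℂ := hess (γ.w i) (A.e i x)

theorem Pot.lv_eq (γ : Pot A) {i : A.ι} {z : Cn n} (hz : z ∈ (A.e i).target) (v : Cn n) :
    lv (γ.w i) z v / 4 = (qf (γ.mat i ((A.e i).symm z)) v).re := by
  rw [lv_eq_qf (γ.contDiffAt hz), Pot.mat, (A.e i).right_inv hz]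

theorem Pot.mat_add (γ γ' : Pot A) {i : A.ι} {x : M} (hx : x ∈ (A.e i).source) :
    (γ.add γ').mat i x = γ.mat i x + γ'.mat i x := by
  have hz := (A.e i).map_source hx
  exact hess_add (γ.contDiffAt hz) (γ'.contDiffAt hz)

theorem Pot.mat_ofHM {L : LB A} (h : HM L) (i : A.ι) (x : M) : (Pot.ofHM h).mat i x = cur h i x := rfl



/-- `e ω` can be absorbed when `γ` contains a multiple of `ω` -/
theorem Smooth.mono {K : Kah A} {γ : Pot A} {c c' e : ℝ} {φ : M → ℝ} (h : Smooth K γ c e φ)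
    (hc : c' ≤ c) (hK : ∀ i, ∀ z ∈ (A.e i).target, 0 ≤ dg K i z) : Smooth K γ c' e φ where
  sm := h.sm
  pos := h.pos
  ma i z hz b := by
    refine le_trans ?_ (h.ma i z hz b)
    have h1 : (0 : ℝ) ≤ (‖b.det‖ ^ 2 * dg K i z) ^ ((1 : ℝ) / n) :=
      Real.rpow_nonneg (mul_nonneg (by positivity) (hK i z hz)) _
    have h2 : (n : ℝ) * c' ≤ n * c := mul_le_mul_of_nonneg_left hc (by positivity)
    exact mul_le_mul_of_nonneg_right h2 h1

theorem dg_pos (K : Kah A) {i : A.ι} {z : Cn n} (hz : z ∈ (A.e i).target) : 0 < dg K i z :=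
  det_re_pos (K.pos i _ ((A.e i).map_target hz))


end

end Crest.Agent.R269.RegStmt_848
end

-- ▼ part R269/RegAmb_848
section

/-!
# R269 (S0411), task REG-POT (helper848): from `Smooth` (Part 9, atlas) to the ambient `MAP`, `PosP`

`wedgeSq_lin`, `DD_frame`, `DD_eq_det` : algebra of the Gram determinants `wedgeSq`, `DD`;
`Pt CA i p`      : a cone point over the chart `i`;
`exists_vec`, `lev_dict`, `omg_dict`, `alpha_dict`, `DD_dict` : the dictionary at a cone point;
`amb_of_smooth`  : `Smooth` gives the ambient inequality and positivity;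
`map_of_smooth`, `pos_of_smooth` : `MAP I n`, `PosP I n`.
-/

set_option autoImplicit false
set_option linter.unusedSectionVars false

open MvPolynomial Crest.AlgGeometry.ProjEmb Set Filter Topology
open scoped ContDiff ComplexConjugate Matrix

namespace Crest.Agent.R269.RegAmb_848

open Crest.Agent.R269.Geo_328 Crest.Agent.R275.Geo Crest.Agent.R269.CAtl_886
  Crest.Agent.R269.DictA_886 Crest.Agent.R269.Defs_58 Crest.Agent.R269.RegStmt_848
  Crest.Agent.R273.C0d_390 Crest.Agent.R273.Kah_333 Crest.Agent.R273.FS_333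

noncomputable section

variable {N n : ℕ}

/-! ### Gram determinants -/

/-- the Gram matrix of a family -/
def gram {m : ℕ} (w : Fin m → EE N) : Matrix (Fin m) (Fin m) ℂ :=
  Matrix.of fun i j => ∑ k, w i k * conj (w j k)

theorem wedgeSq_eq {m : ℕ} (w : Fin m → EE N) : wedgeSq w = (gram w).det.re := rfl

theorem gram_eq {m : ℕ} (w : Fin m → EE N) : gram w = Matrix.of w * (Matrix.of w)ᴴ := by
  ext i j
  simp [gram, Matrix.mul_apply]

theorem gram_lin {m m' : ℕ} (T : Matrix (Fin m') (Fin m) ℂ) (w : Fin m → EE N) :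
    gram (fun i => ∑ j, T i j • w j) = T * gram w * Tᴴ := by
  have h : (Matrix.of fun i => ∑ j, T i j • w j : Matrix (Fin m') (Fin (N + 1)) ℂ) =
      T * Matrix.of w := by
    ext i k
    simp [Matrix.mul_apply, Finset.sum_apply]
  rw [gram_eq, h, gram_eq, Matrix.conjTranspose_mul]
  simp only [Matrix.mul_assoc]

theorem gram_herm {m : ℕ} (w : Fin m → EE N) : (gram w).IsHermitian := by
  rw [gram_eq]
  exact Matrix.isHermitian_mul_conjTranspose_self _

theorem det_gram {m : ℕ} (w : Fin m → EE N) : (gram w).det = (wedgeSq w : ℂ) := by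
  have h := (gram_herm w).eq
  have h1 : conj (gram w).det = (gram w).det := by
    conv_rhs => rw [← h]
    rw [Matrix.det_conjTranspose]
    rfl
  rw [wedgeSq_eq]
  exact (Complex.conj_eq_iff_re.1 h1).symm

theorem wedgeSq_lin {m : ℕ} (T : Matrix (Fin m) (Fin m) ℂ) (w : Fin m → EE N) :
    wedgeSq (fun i => ∑ j, T i j • w j) = ‖T.det‖ ^ 2 * wedgeSq w := by
  have h : ((wedgeSq (fun i => ∑ j, T i j • w j) : ℝ) : ℂ) = ((‖T.det‖ ^ 2 * wedgeSq w : ℝ) : ℂ) := by
    rw [← det_gram, gram_lin, Matrix.det_mul, Matrix.det_mul, Matrix.det_conjTranspose, det_gram]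
    push_cast
    rw [show (‖T.det‖ : ℂ) ^ 2 = T.det * conj T.det by
      rw [Complex.mul_conj, Complex.normSq_eq_norm_sq]; push_cast; rfl]
    rw [Complex.star_def]
    ring
  exact_mod_cast h

/-- determinant of a matrix with a single nonzero entry in the first row -/
theorem det_row_zero {m : ℕ} (T : Matrix (Fin (m + 1)) (Fin (m + 1)) ℂ)
    (h : ∀ j : Fin m, T 0 j.succ = 0) :
    T.det = T 0 0 * (Matrix.of fun i j : Fin m => T i.succ j.succ).det := by
  rw [Matrix.det_succ_row_zero, Fin.sum_univ_succ]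
  have h1 : ∑ x : Fin m, (-1 : ℂ) ^ (x.succ : ℕ) * T 0 x.succ *
      (T.submatrix Fin.succ (x.succ).succAbove).det = 0 :=
    Finset.sum_eq_zero fun x _ => by rw [h x, mul_zero, zero_mul]
  rw [h1, add_zero]
  simp only [Fin.val_zero, pow_zero, one_mul]
  congr 1

theorem wedgeSq_cons {m : ℕ} {p p' : EE N} {b b' : Fin m → EE N} (c : ℂ) (r : Fin m → ℂ)
    (x : Matrix (Fin m) (Fin m) ℂ) (hp : p' = c • p)
    (hb : ∀ k, b' k = (∑ a, x k a • b a) + r k • p) :
    wedgeSq (Fin.cons p' b' : Fin (m + 1) → EE N) =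
      ‖c * x.det‖ ^ 2 * wedgeSq (Fin.cons p b : Fin (m + 1) → EE N) := by
  set T : Matrix (Fin (m + 1)) (Fin (m + 1)) ℂ :=
    Matrix.of (Fin.cons (Fin.cons c 0) fun k => Fin.cons (r k) (x k)) with hT
  have h1 : (Fin.cons p' b' : Fin (m + 1) → EE N) =
      fun i => ∑ j, T i j • (Fin.cons p b : Fin (m + 1) → EE N) j := by
    funext i
    refine Fin.cases ?_ (fun k => ?_) i
    · rw [Fin.sum_univ_succ]
      simp [hT, hp]
    · rw [Fin.sum_univ_succ]
      simp only [Fin.cons_succ, Fin.cons_zero, hb k, hT, Matrix.of_apply]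
      rw [add_comm]
  have h2 : T.det = c * x.det := by
    rw [det_row_zero T (fun j => by simp [hT])]
    congr 1
  rw [h1, wedgeSq_lin, h2]

theorem DD_frame {p q : EE N} {c : ℂ} (hc : c ≠ 0) (hp : p = c • q) (x : Matrix (Fin n) (Fin n) ℂ)
    (r : Fin n → ℂ) {e b : Fin n → EE N}
    (hb : ∀ k, b k = c • (∑ a, x a k • e a) + r k • p) :
    DD p b = ‖x.det‖ ^ 2 * DD q e := by
  have h1 := wedgeSq_cons (p := q) (p' := p) (b := e) (b' := b) c (fun k => r k * c) (c • xᵀ) hp
    (fun k => by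
      rw [hb k, hp, smul_smul, Finset.smul_sum]
      simp [smul_smul])
  have h2 : (c • xᵀ).det = c ^ n * x.det := by
    rw [Matrix.det_smul, Matrix.det_transpose, Fintype.card_fin]
  unfold DD
  rw [h1, h2, hp, CAtl_886.nsq_smul, norm_mul, norm_mul, norm_pow, mul_pow (‖c‖ ^ 2)]
  have h3 : ‖c‖ ≠ 0 := norm_ne_zero_iff.2 hc
  rw [show (‖c‖ * (‖c‖ ^ n * ‖x.det‖)) ^ 2 = (‖c‖ ^ 2) ^ (n + 1) * ‖x.det‖ ^ 2 by ring, mul_assoc,
    mul_div_mul_left _ _ (by positivity), mul_div_assoc]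

theorem nsq_cast (q : EE N) : ((nsq q : ℝ) : ℂ) = ∑ k, q k * conj (q k) := by
  rw [nsq, Complex.ofReal_sum]
  exact Finset.sum_congr rfl fun k _ => by rw [Complex.mul_conj, Complex.normSq_eq_norm_sq]

/-- `DD` as the determinant of the Fubini-Study Gram matrix -/
theorem DD_eq_det {q : EE N} (hq : q ≠ 0) (e : Fin n → EE N) :
    DD q e = (Matrix.of fun a b : Fin n => (nsq q : ℂ)⁻¹ * (∑ k, e a k * conj (e b k)) -
      ((nsq q : ℂ)⁻¹) ^ 2 * ((∑ k, e a k * conj (q k)) * (∑ k, q k * conj (e b k)))).det.re := by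
  set S : ℂ := (nsq q : ℂ) with hS
  have hS0 : S ≠ 0 := by
    rw [hS]
    exact_mod_cast (nsq_pos hq).ne'
  set f : Fin n → EE N := fun a => e a - (S⁻¹ * ∑ k, e a k * conj (q k)) • q with hf
  have h1 := wedgeSq_cons (p := q) (p' := q) (b := e) (b' := f) 1
    (fun a => -(S⁻¹ * ∑ k, e a k * conj (q k))) 1 (one_smul _ _).symm
    (fun k => by
      rw [hf]
      simp only [Matrix.one_apply, ite_smul, one_smul, zero_smul, Finset.sum_ite_eq,
        Finset.mem_univ, if_true, neg_smul]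
      rw [sub_eq_add_neg])
  rw [Matrix.det_one, mul_one, norm_one, one_pow, one_mul] at h1
  have hperp : ∀ a, ∑ k, q k * conj (f a k) = 0 := by
    intro a
    have h2 : ∀ k, q k * conj (f a k) = q k * conj (e a k) -
        conj (S⁻¹ * ∑ k, e a k * conj (q k)) * (q k * conj (q k)) := by
      intro k
      simp only [hf, Pi.sub_apply, Pi.smul_apply, smul_eq_mul, map_sub, map_mul]
      ring
    rw [Finset.sum_congr rfl fun k _ => h2 k, Finset.sum_sub_distrib, ← Finset.mul_sum,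
      ← nsq_cast, ← hS]
    have h3 : conj S = S := by rw [hS]; exact Complex.conj_ofReal _
    rw [map_mul, map_inv₀, h3, map_sum, mul_comm (S⁻¹), mul_assoc, inv_mul_cancel₀ hS0, mul_one]
    rw [sub_eq_zero]
    refine Finset.sum_congr rfl fun k _ => ?_
    rw [map_mul, Complex.conj_conj]
    ring
  have hg : (gram (Fin.cons q f : Fin (n + 1) → EE N)).det = S * (gram f).det := by
    rw [det_row_zero]
    · congr 1
      show ∑ k, q k * conj (q k) = S
      rw [hS, nsq_cast]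
    · intro j
      exact hperp j
  have hM : gram f = S • (Matrix.of fun a b : Fin n => S⁻¹ * (∑ k, e a k * conj (e b k)) -
      (S⁻¹) ^ 2 * ((∑ k, e a k * conj (q k)) * (∑ k, q k * conj (e b k)))) := by
    ext a b
    have h4 : ∑ k, f a k * conj (f b k) = ∑ k, e a k * conj (f b k) := by
      have h5 : ∀ k, f a k * conj (f b k) = e a k * conj (f b k) -
          (S⁻¹ * ∑ k, e a k * conj (q k)) * (q k * conj (f b k)) := by
        intro k
        simp only [hf, Pi.sub_apply, Pi.smul_apply, smul_eq_mul]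
        ring
      rw [Finset.sum_congr rfl fun k _ => h5 k, Finset.sum_sub_distrib, ← Finset.mul_sum, hperp b,
        mul_zero, sub_zero]
    have h6 : ∑ k, e a k * conj (f b k) = ∑ k, e a k * conj (e b k) -
        S⁻¹ * ((∑ k, e a k * conj (q k)) * (∑ k, q k * conj (e b k))) := by
      have h7 : ∀ k, e a k * conj (f b k) = e a k * conj (e b k) -
          conj (S⁻¹ * ∑ k, e b k * conj (q k)) * (e a k * conj (q k)) := by
        intro k
        simp only [hf, Pi.sub_apply, Pi.smul_apply, smul_eq_mul, map_sub, map_mul]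
        ring
      have h3 : conj S = S := by rw [hS]; exact Complex.conj_ofReal _
      have h8 : conj (∑ k, e b k * conj (q k)) = ∑ k, q k * conj (e b k) := by
        rw [map_sum]
        refine Finset.sum_congr rfl fun k _ => ?_
        rw [map_mul, Complex.conj_conj]
        ring
      rw [Finset.sum_congr rfl fun k _ => h7 k, Finset.sum_sub_distrib, ← Finset.mul_sum, map_mul,
        map_inv₀, h3, h8]
      ring
    show ∑ k, f a k * conj (f b k) = _
    rw [h4, h6]
    simp only [Matrix.smul_apply, Matrix.of_apply, smul_eq_mul]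
    field_simp
  have h9 : (wedgeSq (Fin.cons q e : Fin (n + 1) → EE N) : ℂ) = S ^ (n + 1) *
      (Matrix.of fun a b : Fin n => S⁻¹ * (∑ k, e a k * conj (e b k)) -
      (S⁻¹) ^ 2 * ((∑ k, e a k * conj (q k)) * (∑ k, q k * conj (e b k)))).det := by
    rw [← h1, ← det_gram, hg, hM, Matrix.det_smul, Fintype.card_fin]
    ring
  have h10 : ((DD q e : ℝ) : ℂ) = (Matrix.of fun a b : Fin n => S⁻¹ * (∑ k, e a k * conj (e b k)) -
      (S⁻¹) ^ 2 * ((∑ k, e a k * conj (q k)) * (∑ k, q k * conj (e b k)))).det := by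
    unfold DD
    push_cast
    rw [h9, ← hS, mul_div_cancel_left₀ _ (pow_ne_zero _ hS0)]
  rw [← h10, Complex.ofReal_re]

/-! ### the dictionary at a cone point -/

/-- the captain's `lev` is helper653's `lev` -/
theorem lev58_eq {ι : Type} [Fintype ι] (u : (ι → ℂ) → ℝ) (p v : ι → ℂ) :
    Defs_58.lev u p v = LevC_653.lev u p v := by
  unfold Defs_58.lev LevC_653.lev
  rw [iteratedFDeriv_two_apply, iteratedFDeriv_two_apply]
  rfl

theorem lv_eq_lev (u : Cn n → ℝ) (z v : Cn n) : lv u z v / 4 = LevC_653.lev u z v := rfl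

section Dict

variable {I : Ideal (HomCoordRing N)} {A : Atl n (XX I)} (CA : CAtl I A)

theorem σ_analyticAt {i : A.ι} {z : Cn n} (hz : z ∈ (A.e i).target) : AnalyticAt ℂ (CA.σ i) z :=
  Crest.Agent.R266.SCV.analyticOnNhd_of_differentiableOn (A.e i).open_target (CA.F_hol i) z hz

/-- a line in the chart -/
def lin (z w : Cn n) (t : Fin 1 → ℂ) : Cn n := z + t 0 • w

theorem lin_analyticAt (z w : Cn n) (t : Fin 1 → ℂ) : AnalyticAt ℂ (lin z w) t := by
  unfold lin
  have h1 : AnalyticAt ℂ (fun t : Fin 1 → ℂ => t 0) t :=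
    (ContinuousLinearMap.proj (R := ℂ) (φ := fun _ : Fin 1 => ℂ) 0).analyticAt t
  exact analyticAt_const.add (h1.smul analyticAt_const)

theorem lin_hasFDerivAt (z w : Cn n) (t : Fin 1 → ℂ) :
    HasFDerivAt (lin z w) ((ContinuousLinearMap.proj (R := ℂ) (φ := fun _ : Fin 1 => ℂ) 0).smulRight w) t := by
  have h1 : HasFDerivAt (fun t : Fin 1 → ℂ => t 0)
      (ContinuousLinearMap.proj (R := ℂ) (φ := fun _ : Fin 1 => ℂ) 0) t :=
    (ContinuousLinearMap.proj (R := ℂ) (φ := fun _ : Fin 1 => ℂ) 0).hasFDerivAt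
  exact (h1.smul_const w).const_add z

theorem lin_zero (z w : Cn n) : lin z w 0 = z := by simp [lin]

/-- the Levi form along a line -/
theorem lev_lin {g : Cn n → ℝ} {z : Cn n} (hg : ContDiffAt ℝ 2 g z) (w : Cn n) :
    LevC_653.lev (fun t => g (lin z w t)) 0 (fun _ => 1) = LevC_653.lev g z w := by
  have h := Lev_901.lev_comp_hol (u := g) (F := lin z w) (x := 0) (by rwa [lin_zero])
    (lin_analyticAt z w 0) (fun _ => 1)
  rw [lin_zero, (lin_hasFDerivAt z w 0).fderiv] at h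
  simpa using h

/-- the test curve through `c • σ z` with velocity `c • dσ w + s • σ z` -/
def crv (i : A.ι) (c s : ℂ) (z w : Cn n) (t : Fin 1 → ℂ) : EE N :=
  (c + t 0 * s) • CA.σ i (lin z w t)

theorem crv_zero (i : A.ι) (c s : ℂ) (z w : Cn n) : crv CA i c s z w 0 = c • CA.σ i z := by
  simp [crv, lin_zero]

theorem scal_hasFDerivAt (c s : ℂ) (t : Fin 1 → ℂ) : HasFDerivAt (fun t : Fin 1 → ℂ => c + t 0 * s)
    (s • ContinuousLinearMap.proj (R := ℂ) (φ := fun _ : Fin 1 => ℂ) 0) t := by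
  have h1 : HasFDerivAt (fun t : Fin 1 → ℂ => t 0)
      (ContinuousLinearMap.proj (R := ℂ) (φ := fun _ : Fin 1 => ℂ) 0) t :=
    (ContinuousLinearMap.proj (R := ℂ) (φ := fun _ : Fin 1 => ℂ) 0).hasFDerivAt
  exact (h1.mul_const s).const_add c

theorem scal_analyticAt (c s : ℂ) (t : Fin 1 → ℂ) :
    AnalyticAt ℂ (fun t : Fin 1 → ℂ => c + t 0 * s) t := by
  have h1 : AnalyticAt ℂ (fun t : Fin 1 → ℂ => t 0) t :=
    (ContinuousLinearMap.proj (R := ℂ) (φ := fun _ : Fin 1 => ℂ) 0).analyticAt t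
  exact analyticAt_const.add (h1.mul analyticAt_const)

theorem crv_analyticAt {i : A.ι} (c s : ℂ) {z : Cn n} (hz : z ∈ (A.e i).target) (w : Cn n) :
    AnalyticAt ℂ (crv CA i c s z w) 0 := by
  refine (scal_analyticAt c s 0).smul ?_
  refine AnalyticAt.fun_comp ?_ (lin_analyticAt z w 0)
  rw [lin_zero]
  exact σ_analyticAt CA hz

theorem crv_fderiv {i : A.ι} (c s : ℂ) {z : Cn n} (hz : z ∈ (A.e i).target) (w : Cn n) :
    fderiv ℂ (crv CA i c s z w) 0 (fun _ => 1) = c • fderiv ℂ (CA.σ i) z w + s • CA.σ i z := by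
  have h1 : HasFDerivAt (fun t => CA.σ i (lin z w t)) ((fderiv ℂ (CA.σ i) z).comp
      ((ContinuousLinearMap.proj (R := ℂ) (φ := fun _ : Fin 1 => ℂ) 0).smulRight w)) 0 := by
    refine HasFDerivAt.comp (g := CA.σ i) 0 ?_ (lin_hasFDerivAt z w 0)
    rw [lin_zero]
    exact (σ_analyticAt CA hz).differentiableAt.hasFDerivAt
  have h2 := (scal_hasFDerivAt c s 0).smul h1
  have h3 : fderiv ℂ (crv CA i c s z w) 0 = _ := h2.fderiv
  rw [h3]
  simp [lin_zero]

theorem lin_tendsto (z w : Cn n) : Tendsto (lin z w) (𝓝 0) (𝓝 z) := by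
  have h := (lin_analyticAt z w 0).continuousAt.tendsto
  rwa [lin_zero] at h

theorem crv_eventually {i : A.ι} {c : ℂ} (hc : c ≠ 0) (s : ℂ) {z : Cn n} (hz : z ∈ (A.e i).target)
    (w : Cn n) : ∀ᶠ t in 𝓝 (0 : Fin 1 → ℂ), c + t 0 * s ≠ 0 ∧ lin z w t ∈ (A.e i).target := by
  have h1 : ∀ᶠ t in 𝓝 (0 : Fin 1 → ℂ), c + t 0 * s ≠ 0 := by
    apply (scal_analyticAt c s 0).continuousAt.eventually_ne
    simpa using hc
  have h2 : ∀ᶠ t in 𝓝 (0 : Fin 1 → ℂ), lin z w t ∈ (A.e i).target :=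
    lin_tendsto z w ((A.e i).open_target.mem_nhds hz)
  exact h1.and h2

theorem smul_cone (hX : IsSmoothProjective I n) {p : EE N} (hp : p ∈ Cone I) {c : ℂ} (hc : c ≠ 0) :
    c • p ∈ Cone I :=
  ⟨Geo0_632.smul_mem_cone hX hp.1 c, smul_ne_zero hc hp.2⟩

/-- `v = c • dσ w + r • p` -/
structure Vec (i : A.ι) (c : ℂ) (z : Cn n) (p v : EE N) (w : Cn n) (r : ℂ) : Prop where
  hc : c ≠ 0
  hz : z ∈ (A.e i).target
  hp : p = c • CA.σ i z
  hv : v = c • fderiv ℂ (CA.σ i) z w + r • p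

theorem fs_wt (i : A.ι) : (fs CA.projD).wt i = fun y => Real.log (sq (CA.σ i) y) := by
  funext y
  simp only [Crest.Agent.R273.Defs_333.HM.wt, fs, Real.log_inv, neg_neg]
  rfl

variable {CA}

theorem Vec.vel {i : A.ι} {c : ℂ} {z : Cn n} {p v : EE N} {w : Cn n} {r : ℂ}
    (h : Vec CA i c z p v w r) : fderiv ℂ (crv CA i c (r * c) z w) 0 (fun _ => 1) = v := by
  rw [crv_fderiv CA c (r * c) h.hz w, h.hv, h.hp, smul_smul]

theorem Vec.zero {i : A.ι} {c : ℂ} {z : Cn n} {p v : EE N} {w : Cn n} {r : ℂ}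
    (h : Vec CA i c z p v w r) : crv CA i c (r * c) z w 0 = p := by
  rw [crv_zero, h.hp]

/-- Levi form of an ambient function along the test curve -/
theorem Vec.lev_crv {i : A.ι} {c : ℂ} {z : Cn n} {p v : EE N} {w : Cn n} {r : ℂ}
    (h : Vec CA i c z p v w r) {u : EE N → ℝ} (hu : ContDiffAt ℝ 2 u p) :
    LevC_653.lev (fun t => u (crv CA i c (r * c) z w t)) 0 (fun _ => 1) = LevC_653.lev u p v := by
  have h1 := Lev_901.lev_comp_hol (u := u) (F := crv CA i c (r * c) z w) (x := 0)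
    (by rwa [h.zero]) (crv_analyticAt CA c (r * c) h.hz w) (fun _ => 1)
  rw [h1, h.vel, h.zero]

theorem contDiffAt_two' {E : Type*} [NormedAddCommGroup E] [NormedSpace ℝ E] {u : E → ℝ} {z : E}
    (h : ContDiffAt ℝ ∞ u z) : ContDiffAt ℝ 2 u z :=
  h.of_le (WithTop.coe_le_coe.2 le_top)

/-- (D1) Levi forms of functions -/
theorem Vec.lev_dict {i : A.ι} {c : ℂ} {z : Cn n} {p v : EE N} {w : Cn n} {r : ℂ}
    (h : Vec CA i c z p v w r) {u : EE N → ℝ} (hu : SmX I u) (hp : p ∈ Cone I) {φ : XX I → ℝ}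
    (hφ : ∀ q (hq : q ∈ Cone I), u q = φ (pt q hq)) :
    Defs_58.lev u p v = lv (fun y => φ ((A.e i).symm y)) z w / 4 := by
  have hs : ContDiffAt ℝ 2 (fun y => u (CA.σ i y)) z := by
    refine contDiffAt_two' ((hu.1 _ (CA.σ_cone h.hz)).comp z (CA.σ_contDiffAt h.hz))
  rw [lev58_eq, ← h.lev_crv (contDiffAt_two' (hu.1 p hp)), lv_eq_lev]
  have h1 : (fun t => u (crv CA i c (r * c) z w t)) =ᶠ[𝓝 0] fun t => u (CA.σ i (lin z w t)) := by
    filter_upwards [crv_eventually (A := A) h.hc (r * c) h.hz w] with t ht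
    exact hu.2 _ (CA.σ_cone ht.2) _ ht.1
  have h2 : (fun y => φ ((A.e i).symm y)) =ᶠ[𝓝 z] fun y => u (CA.σ i y) := by
    filter_upwards [(A.e i).open_target.mem_nhds h.hz] with y hy
    rw [hφ _ (CA.σ_cone hy), CA.pt_σ hy]
  rw [LevC_653.lev_congr h1, LevC_653.lev_congr h2]
  exact lev_lin hs w

/-- (D2) the Fubini-Study form -/
theorem Vec.omg_dict {i : A.ι} {c : ℂ} {z : Cn n} {p v : EE N} {w : Cn n} {r : ℂ}
    (h : Vec CA i c z p v w r) : omg p v = om (fsKah CA.projD) i z w := by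
  have hσ0 : CA.σ i z ≠ 0 := (CA.σ_cone h.hz).2
  have hp0 : p ≠ 0 := by rw [h.hp]; exact smul_ne_zero h.hc hσ0
  have e1 : LevC_653.lev (fun p : EE N => Real.log (∑ i, ‖p i‖ ^ 2)) p v = omg p v :=
    Lev_901.lev_log_sum_nsq hp0 v
  have hl : ∀ {q : EE N}, q ≠ 0 → ContDiffAt ℝ 2 (fun p : EE N => Real.log (∑ i, ‖p i‖ ^ 2)) q := by
    intro q hq
    exact contDiffAt_two' (((contDiffOn_nsq univ).contDiffAt univ_mem).log (nsq_pos hq).ne')
  rw [← e1, ← h.lev_crv (hl hp0)]
  have h1 : (fun t => Real.log (∑ k, ‖crv CA i c (r * c) z w t k‖ ^ 2)) =ᶠ[𝓝 0] fun t =>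
      Real.log (‖c + t 0 * (r * c)‖ ^ 2) + Real.log (∑ k, ‖CA.σ i (lin z w t) k‖ ^ 2) := by
    filter_upwards [crv_eventually (A := A) h.hc (r * c) h.hz w] with t ht
    have h2 : nsq (crv CA i c (r * c) z w t) = ‖c + t 0 * (r * c)‖ ^ 2 * nsq (CA.σ i (lin z w t)) :=
      CAtl_886.nsq_smul _ _
    have h3 : ‖c + t 0 * (r * c)‖ ^ 2 ≠ 0 := by
      have := norm_ne_zero_iff.2 ht.1
      positivity
    have h4 := Real.log_mul h3 (nsq_pos (CA.σ_cone ht.2).2).ne'
    rw [← h2] at h4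
    exact h4
  have hs : ContDiffAt ℝ 2 (fun y => Real.log (∑ k, ‖CA.σ i y k‖ ^ 2)) z :=
    ContDiffAt.comp (g := fun p : EE N => Real.log (∑ i, ‖p i‖ ^ 2)) z (hl hσ0)
      (CA.σ_contDiffAt h.hz |>.of_le (WithTop.coe_le_coe.2 le_top))
  have hs' : ContDiffAt ℝ 2 (fun t => Real.log (∑ k, ‖CA.σ i (lin z w t) k‖ ^ 2)) 0 := by
    refine ContDiffAt.comp (g := fun y => Real.log (∑ k, ‖CA.σ i y k‖ ^ 2)) 0 ?_
      (((lin_analyticAt z w 0).contDiffAt (n := 2)).restrict_scalars ℝ)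
    rw [lin_zero]
    exact hs
  have ha : AnalyticAt ℂ (fun t : Fin 1 → ℂ => c + t 0 * (r * c)) 0 := scal_analyticAt c (r * c) 0
  have ha0 : (fun t : Fin 1 → ℂ => c + t 0 * (r * c)) 0 ≠ 0 := by simpa using h.hc
  have hl2 : ContDiffAt ℝ 2 (fun t : Fin 1 → ℂ => Real.log (‖c + t 0 * (r * c)‖ ^ 2)) 0 := by
    have h5 : ContDiffAt ℝ 2 (fun t : Fin 1 → ℂ => c + t 0 * (r * c)) 0 :=
      (ha.contDiffAt (n := 2)).restrict_scalars ℝ
    refine (h5.norm_sq ℝ).log ?_
    have := norm_ne_zero_iff.2 ha0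
    positivity
  rw [LevC_653.lev_congr h1, LevC_653.lev_add hl2 hs', Lev_901.lev_log_nsq_hol ha ha0, zero_add,
    lev_lin hs w, ← lv_eq_lev]
  have h6 : om (fsKah CA.projD) i z w = lv ((fs CA.projD).wt i) z w / 4 := by
    rw [om_eq_qf, ← Pot.ofHM_w (fs CA.projD) i, Pot.lv_eq _ h.hz, Pot.mat_ofHM]
    rfl
  rw [h6, fs_wt]
  rfl

/-- `DD` of the coordinate frame -/
theorem DD_σ {i : A.ι} {z : Cn n} (hz : z ∈ (A.e i).target) :
    DD (CA.σ i z) (fun a => fderiv ℂ (CA.σ i) z (EuclideanSpace.single a 1)) =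
      dg (fsKah CA.projD) i z := by
  rw [DD_eq_det (CA.σ_cone hz).2]
  unfold dg
  congr 2
  ext a b
  have hF : ∀ k, DifferentiableOn ℂ (fun z => CA.σ i z k) (A.e i).target := fun k =>
    differentiableOn_pi.1 (CA.F_hol i) k
  have hs : ContDiffAt ℝ ∞ (sq (CA.σ i)) z := by
    refine ContDiffAt.sum fun k _ => ?_
    exact (contDiffAt_of_hol (A.e i).open_target (hF k) hz).norm_sq ℝ
  have hp : 0 < sq (CA.σ i) z := sq_pos (CA.σ_cone hz).2
  have hd : ∀ (k : Fin (N + 1)) (v : Cn n), fderiv ℂ (fun z => CA.σ i z k) z v =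
      fderiv ℂ (CA.σ i) z v k := by
    intro k v
    have h1 := hasFDerivAt_pi'.1 (CA.σ_differentiableAt hz).hasFDerivAt k
    rw [h1.fderiv]
    rfl
  show _ = Crest.Agent.R273.Hess_333.hess ((fs CA.projD).wt i) (A.e i ((A.e i).symm z)) a b
  rw [(A.e i).right_inv hz, fs_wt, hess_log hs hp, hess_sq (A.e i).open_target hF hz,
    wd_sq' (A.e i).open_target hF hz, wd_sq (A.e i).open_target hF hz]
  simp only [Matrix.of_apply, hd]
  rfl

/-- (D4) determinants -/
theorem Vec.DD_dict {i : A.ι} {c : ℂ} {z : Cn n} {p : EE N} {b : Fin n → EE N} {w : Fin n → Cn n}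
    {r : Fin n → ℂ} (hc : c ≠ 0) (hz : z ∈ (A.e i).target) (hp : p = c • CA.σ i z)
    (h : ∀ k, Vec CA i c z p (b k) (w k) (r k)) :
    DD p b = ‖(Matrix.of fun a k => w k a : Matrix (Fin n) (Fin n) ℂ).det‖ ^ 2 *
      dg (fsKah CA.projD) i z := by
  rw [← DD_σ hz]
  refine DD_frame hc hp _ r fun k => ?_
  rw [(h k).hv]
  congr 2
  have hv : w k = ∑ a, w k a • (EuclideanSpace.single a (1 : ℂ) : Cn n) := by
    ext d
    simp [Finset.sum_apply, Pi.single_apply]
  conv_lhs => rw [hv, map_sum]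
  simp

/-- (D3) the curvature of the canonical bundle -/
theorem Vec.alpha_dict (hα : AlphaFamStmt) (hI : I.IsPrime) (hX : IsSmoothProjective I n)
    {i : A.ι} {c : ℂ} {z : Cn n} {p v : EE N} {w : Cn n} {r : ℂ}
    (h : Vec CA i c z p v w r) :
    alpha I n p v = lv ((Pot.can (fsKah CA.projD)).w i) z w / 4 := by
  set K := fsKah CA.projD with hK
  have hσa : ∀ a : Fin n, AnalyticAt ℂ (fun y => fderiv ℂ (CA.σ i) y (EuclideanSpace.single a 1)) z :=
    fun a => ((ContinuousLinearMap.apply ℂ (EE N)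
      (EuclideanSpace.single a (1 : ℂ) : Cn n)).analyticAt _).comp (σ_analyticAt CA h.hz).fderiv
  have h1 := hα N n I hI hX 1 (crv CA i c (r * c) z w)
    (fun a t => (c + t 0 * (r * c)) • fderiv ℂ (CA.σ i) (lin z w t) (EuclideanSpace.single a 1))
    0 (fun _ => 1)
    ⟨crv_analyticAt CA c (r * c) h.hz w, by
      filter_upwards [crv_eventually (A := A) h.hc (r * c) h.hz w] with t ht
      exact smul_cone hX (CA.σ_cone ht.2) ht.1⟩
    (fun a => by
      refine (scal_analyticAt c (r * c) 0).smul ?_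
      refine AnalyticAt.fun_comp (g := fun y => fderiv ℂ (CA.σ i) y (EuclideanSpace.single a 1)) ?_
        (lin_analyticAt z w 0)
      rw [lin_zero]
      exact hσa a)
    (by
      filter_upwards [crv_eventually (A := A) h.hc (r * c) h.hz w] with t ht
      intro a
      have h2 : fderiv ℂ (CA.σ i) (lin z w t) (EuclideanSpace.single a 1) ∈
          Tan I (CA.σ i (lin z w t)) :=
        (CA.F_tan i _ ht.2 _).2 ⟨0, EuclideanSpace.single a 1, by rw [zero_smul, zero_add]; rfl⟩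
      have h3 := (tanStmt N n I hI hX _ (CA.σ_cone ht.2)).2.2 _ ht.1
      show (c + t 0 * (r * c)) • _ ∈ Tan I ((c + t 0 * (r * c)) • CA.σ i (lin z w t))
      rw [h3]
      exact Submodule.smul_mem _ _ h2)
    (by
      have h4 := Vec.DD_dict (CA := CA) (i := i) (c := c) (z := z) (p := p)
        (b := fun a => c • fderiv ℂ (CA.σ i) z (EuclideanSpace.single a 1) + (0 : ℂ) • p)
        (w := fun a => EuclideanSpace.single a 1) (r := 0) h.hc h.hz h.hp
        (fun k => ⟨h.hc, h.hz, h.hp, rfl⟩)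
      have h5 : (Matrix.of fun a k => (EuclideanSpace.single k (1 : ℂ) : Cn n) a :
          Matrix (Fin n) (Fin n) ℂ) = 1 := by
        ext a k
        simp [Matrix.one_apply]
      rw [h5, Matrix.det_one, norm_one, one_pow, one_mul] at h4
      have h6 : (fun a => c • fderiv ℂ (CA.σ i) z (EuclideanSpace.single a 1) + (0 : ℂ) • p) =
          fun a => (c + (0 : Fin 1 → ℂ) 0 * (r * c)) •
            fderiv ℂ (CA.σ i) (lin z w 0) (EuclideanSpace.single a 1) := by
        funext a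
        rw [zero_smul, add_zero, lin_zero, Pi.zero_apply, zero_mul, add_zero]
      rw [h6] at h4
      have h7 := dg_pos K h.hz
      rw [← h4] at h7
      have h8 : crv CA i c (r * c) z w 0 = p := h.zero
      rw [h8]
      exact h7)
  have h9 : crv CA i c (r * c) z w 0 = p := h.zero
  rw [h.vel, h9, lev58_eq] at h1
  rw [← h1]
  have h10 : (fun t => Real.log (DD (crv CA i c (r * c) z w t) fun a =>
      (c + t 0 * (r * c)) • fderiv ℂ (CA.σ i) (lin z w t) (EuclideanSpace.single a 1))) =ᶠ[𝓝 0]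
      fun t => (Pot.can K).w i (lin z w t) := by
    filter_upwards [crv_eventually (A := A) h.hc (r * c) h.hz w] with t ht
    have h11 := DD_frame (n := n) (p := crv CA i c (r * c) z w t) (q := CA.σ i (lin z w t)) ht.1 rfl
      1 0 (e := fun a => fderiv ℂ (CA.σ i) (lin z w t) (EuclideanSpace.single a 1))
      (b := fun a => (c + t 0 * (r * c)) •
        fderiv ℂ (CA.σ i) (lin z w t) (EuclideanSpace.single a 1)) (fun k => by
          simp [Matrix.one_apply])
    rw [Matrix.det_one, norm_one, one_pow, one_mul, DD_σ ht.2] at h11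
    rw [h11, Pot.can_w]
  rw [LevC_653.lev_congr h10, lv_eq_lev]
  exact lev_lin (contDiffAt_two' ((Pot.can K).contDiffAt h.hz)) w

/-! ### `Smooth` in ambient form -/

/-- every tangent vector at a cone point is of the form `Vec` -/
theorem exists_vec (hI : I.IsPrime) (hX : IsSmoothProjective I n) {i : A.ι} {p v : EE N}
    (hp : p ∈ Cone I) (hx : pt p hp ∈ (A.e i).source) (hv : v ∈ Tan I p) {c : ℂ} (hc : c ≠ 0)
    (hpc : p = c • CA.σ i (A.e i (pt p hp))) :
    ∃ (w : Cn n) (r : ℂ), Vec CA i c (A.e i (pt p hp)) p v w r := by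
  set z := A.e i (pt p hp) with hz'
  have hz : z ∈ (A.e i).target := (A.e i).map_source hx
  have h3 := (tanStmt N n I hI hX _ (CA.σ_cone hz)).2.2 _ hc
  rw [← hpc] at h3
  rw [h3] at hv
  obtain ⟨c1, w1, h4⟩ := (CA.F_tan i z hz v).1 hv
  refine ⟨c⁻¹ • w1, c1 * c⁻¹, hc, hz, hpc, ?_⟩
  rw [map_smul, smul_smul, mul_inv_cancel₀ hc, one_smul, h4, hpc, smul_smul, mul_assoc,
    inv_mul_cancel₀ hc, mul_one, add_comm]
  rfl

variable (CA) in
/-- `Smooth` (atlas) gives the ambient inequality and the ambient positivity, for the form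
`r · K_X + s · ω` -/
theorem amb_of_smooth [Finite A.ι] (P : Part A) (hα : AlphaFamStmt) (hI : I.IsPrime)
    (hX : IsSmoothProjective I n) {r s c e : ℝ} {φ : XX I → ℝ}
    (h : Smooth (fsKah CA.projD) (((Pot.can (fsKah CA.projD)).smul r).add
      ((Pot.ofHM (fs CA.projD)).smul s)) c e φ) :
    ∃ u, SmX I u ∧ (∀ p (hp : p ∈ Cone I), u p = φ (pt p hp)) ∧
      (∀ p ∈ Cone I, ∀ b : Fin n → EE N, TanFam I p b → n * c * DD p b ^ ((n : ℝ)⁻¹) ≤
        ∑ i, (r * alpha I n p (b i) + (s + e) * omg p (b i) + Defs_58.lev u p (b i))) ∧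
      ∀ p ∈ Cone I, ∀ v ∈ Tan I p, (∀ c : ℂ, v ≠ c • p) →
        0 < r * alpha I n p v + (s + e) * omg p v + Defs_58.lev u p v := by
  set K := fsKah CA.projD with hK
  obtain ⟨u, hu1, hu2, hu3⟩ := exists_up CA P h.sm
  have hu : SmX I u := ⟨hu1, fun p _ c hc => hu2 c hc p⟩
  -- the potential of `r K_X + s ω + dd^c φ`
  have hlv : ∀ i, ∀ z ∈ (A.e i).target, ∀ w : Cn n,
      lv (fun y => (((Pot.can K).smul r).add ((Pot.ofHM (fs CA.projD)).smul s)).w i y +
        φ ((A.e i).symm y)) z w / 4 =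
      r * (lv ((Pot.can K).w i) z w / 4) + s * om K i z w +
        lv (fun y => φ ((A.e i).symm y)) z w / 4 := by
    intro i z hz w
    have h1 : ContDiffAt ℝ 2 ((Pot.can K).w i) z := contDiffAt_two' ((Pot.can K).contDiffAt hz)
    have h2 : ContDiffAt ℝ 2 ((Pot.ofHM (fs CA.projD)).w i) z :=
      contDiffAt_two' ((Pot.ofHM (fs CA.projD)).contDiffAt hz)
    have h3 : ContDiffAt ℝ 2 (fun y => φ ((A.e i).symm y)) z :=
      contDiffAt_two' ((h.sm i).contDiffAt ((A.e i).open_target.mem_nhds hz))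
    have h4 : om K i z w = lv ((Pot.ofHM (fs CA.projD)).w i) z w / 4 := by
      rw [om_eq_qf, Pot.lv_eq _ hz, Pot.mat_ofHM]
      rfl
    have e1 : ContDiffAt ℝ 2 (fun y => r * (Pot.can K).w i y) z := contDiffAt_const.mul h1
    have e2 : ContDiffAt ℝ 2 (fun y => s * (Pot.ofHM (fs CA.projD)).w i y) z :=
      contDiffAt_const.mul h2
    rw [h4]
    simp only [Pot.add_w, Pot.smul_w]
    rw [GlueB_390.lv_add (e1.add e2) h3, GlueB_390.lv_add e1 e2, GlueB_390.lv_const_mul h1,
      GlueB_390.lv_const_mul h2]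
    ring
  refine ⟨u, hu, hu3, ?_, ?_⟩
  · intro p hp b hb
    obtain ⟨i, hx⟩ := A.cover (pt p hp)
    obtain ⟨c0, hc0, hpc⟩ := CA.eq_smul_F hp hx
    rw [← CA.σ_e hx] at hpc
    have hz := (A.e i).map_source hx
    choose w r' hw using fun k => exists_vec hI hX hp hx (hb k) hc0 hpc
    have h1 := h.ma i _ hz (Matrix.of fun a k => w k a)
    rw [Vec.DD_dict hc0 hz hpc hw]
    rw [one_div] at h1
    refine h1.trans (le_of_eq ?_)
    unfold trb
    rw [Finset.mul_sum, ← Finset.sum_add_distrib]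
    refine Finset.sum_congr rfl fun k _ => ?_
    have h2 : col (Matrix.of fun a k => w k a) k = w k := rfl
    rw [h2, hlv i _ hz, (hw k).alpha_dict hα hI hX, (hw k).omg_dict, (hw k).lev_dict hu hp hu3]
    ring
  · intro p hp v hv hvp
    obtain ⟨i, hx⟩ := A.cover (pt p hp)
    obtain ⟨c0, hc0, hpc⟩ := CA.eq_smul_F hp hx
    rw [← CA.σ_e hx] at hpc
    have hz := (A.e i).map_source hx
    obtain ⟨w, r', hw⟩ := exists_vec hI hX hp hx hv hc0 hpc
    have hw0 : w ≠ 0 := by
      rintro rfl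
      have h1 := hw.hv
      rw [map_zero, smul_zero, zero_add] at h1
      exact hvp _ h1
    have h1 := h.pos i _ hz w hw0
    rw [hlv i _ hz] at h1
    rw [hw.alpha_dict hα hI hX, hw.omg_dict, hw.lev_dict hu hp hu3]
    linarith

theorem omg_nonneg {p : EE N} (v : EE N) : 0 ≤ omg p v := by
  unfold omg
  refine div_nonneg ?_ (sq_nonneg _)
  rcases lagrange (N := N + 1) p v with h | h
  · rw [h]
    exact div_nonneg (Finset.sum_nonneg fun _ _ => by positivity)
      (Finset.sum_nonneg fun _ _ => by positivity)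
  · have h1 : ∀ k, p k = 0 := by
      intro k
      have h2 := (Finset.sum_eq_zero_iff_of_nonneg fun k _ => by positivity).1 h k (Finset.mem_univ k)
      simpa using h2
    simp [h1]

open scoped ComplexOrder in
theorem DD_nonneg (p : EE N) (b : Fin n → EE N) : 0 ≤ DD p b := by
  unfold DD
  refine div_nonneg ?_ (pow_nonneg (Finset.sum_nonneg fun _ _ => by positivity) _)
  have h := (Matrix.posSemidef_self_mul_conjTranspose
    (Matrix.of (Fin.cons p b : Fin (n + 1) → EE N) : Matrix (Fin (n + 1)) (Fin (N + 1)) ℂ)).det_nonneg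
  rw [← gram_eq, det_gram] at h
  exact_mod_cast h

variable (CA) in
/-- the output of Part 9 for `K_X + s ω` (all small `s`) gives `MAP` -/
theorem map_of_smooth [Finite A.ι] (P : Part A) (hα : AlphaFamStmt) (hI : I.IsPrime)
    (hX : IsSmoothProjective I n) {c : ℝ} (hc : 0 < c)
    (h : ∀ s e : ℝ, 0 < s → 0 < e → ∃ φ, Smooth (fsKah CA.projD)
      ((Pot.can (fsKah CA.projD)).add ((Pot.ofHM (fs CA.projD)).smul s)) (c - e) e φ) :
    MAP I n := by
  refine ⟨c / 2, by positivity, fun e he => ?_⟩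
  obtain ⟨φ, hφ⟩ := h (e / 2) (min (e / 2) (c / 2)) (by positivity) (by positivity)
  have hφ' : Smooth (fsKah CA.projD) (((Pot.can (fsKah CA.projD)).smul 1).add
      ((Pot.ofHM (fs CA.projD)).smul (e / 2))) (c - min (e / 2) (c / 2)) (min (e / 2) (c / 2)) φ := by
    refine ⟨hφ.sm, fun i z hz b => ?_, fun i z hz v hv => ?_⟩
    · have h1 := hφ.ma i z hz b
      simp only [Pot.add_w, Pot.smul_w, one_mul] at h1 ⊢
      exact h1
    · have h1 := hφ.pos i z hz v hv
      simp only [Pot.add_w, Pot.smul_w, one_mul] at h1 ⊢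
      exact h1
  obtain ⟨u, hu, -, hma, -⟩ := amb_of_smooth CA P hα hI hX hφ'
  refine ⟨u, hu, fun p hp b hb => ?_⟩
  refine le_trans ?_ ((hma p hp b hb).trans ?_)
  · refine mul_le_mul_of_nonneg_right ?_ (Real.rpow_nonneg (DD_nonneg p b) _)
    refine mul_le_mul_of_nonneg_left ?_ (by positivity)
    have := min_le_right (e / 2) (c / 2)
    linarith
  · refine Finset.sum_le_sum fun k _ => ?_
    have h1 := omg_nonneg (p := p) (b k)
    have h2 : (e / 2 + min (e / 2) (c / 2)) * omg p (b k) ≤ e * omg p (b k) := by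
      refine mul_le_mul_of_nonneg_right ?_ h1
      have := min_le_left (e / 2) (c / 2)
      linarith
    linarith

variable (CA) in
/-- the output of Part 9 for `t K_X - δ ω` with an error `e < δ` gives `PosP` -/
theorem pos_of_smooth [Finite A.ι] (P : Part A) (hα : AlphaFamStmt) (hI : I.IsPrime)
    (hX : IsSmoothProjective I n) {t δ c e : ℝ} (ht : 0 < t) (he : e ≤ δ) {φ : XX I → ℝ}
    (h : Smooth (fsKah CA.projD) (((Pot.can (fsKah CA.projD)).smul t).add
      ((Pot.ofHM (fs CA.projD)).smul (-δ))) c e φ) : PosP I n := by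
  obtain ⟨u, hu, -, -, hpos⟩ := amb_of_smooth CA P hα hI hX h
  refine ⟨fun q => t⁻¹ * u q, ⟨fun p hp => contDiffAt_const.mul (hu.1 p hp), fun p hp c hc => ?_⟩,
    fun p hp v hv hvp => ?_⟩
  · show t⁻¹ * u (c • p) = t⁻¹ * u p
    rw [hu.2 p hp c hc]
  · have h1 := hpos p hp v hv hvp
    have h2 := omg_nonneg (p := p) v
    have h3 : Defs_58.lev (fun q => t⁻¹ * u q) p v = t⁻¹ * Defs_58.lev u p v := by
      rw [lev58_eq, lev58_eq]
      exact LevC_653.lev_const_mul _ (contDiffAt_two' (hu.1 p hp)) v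
    rw [h3]
    have h4 : (-δ + e) * omg p v ≤ 0 := mul_nonpos_of_nonpos_of_nonneg (by linarith) h2
    have h5 : 0 < t * alpha I n p v + Defs_58.lev u p v := by linarith
    have h6 : alpha I n p v + t⁻¹ * Defs_58.lev u p v =
        t⁻¹ * (t * alpha I n p v + Defs_58.lev u p v) := by
      field_simp
    rw [h6]
    positivity

end Dict

end

end Crest.Agent.R269.RegAmb_848
end

-- ▼ part R269/Weak_411
section

/-!
# R269 (S0411), task WEAK84 (helper411): (8.4) of Blueprint_646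

From the dual measure of Parts 8 / 12 (inequality for all positive smooth fields) to the weak
inequality `RegStmt_848.Weak` in charts.

* `mp_cc`          : `cc : (RI n → ℝ) → Cn n` preserves the volume;
* `integral_vmK`   : integrals over a chart domain for `vm (volK K)`;
* `mat_tn`         : the matrix of a potential form is a covariant field of matrices;
* `psd_of_pos`     : from positive definite to positive semidefinite fields (`s + δ g⁻¹`);
* `weak_of_psd`    : (8.4) from the inequality for semidefinite fields, by the chart fields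
  `χ b bᴴ / det g` (`exists_chF`, from `AdjLoc_851.chF`);
* **`weak_of_pos`** : (8.4) from the inequality for positive definite fields.
-/

set_option autoImplicit false
set_option linter.unusedSectionVars false

open Set Filter Topology Complex MeasureTheory
open scoped ContDiff Matrix ComplexConjugate ComplexOrder

namespace Crest.Agent.R269.Weak_411

open Crest.Agent.R275 Crest.Agent.R275.Geo Crest.Agent.R275.Core144 Crest.Agent.R275.EDR890
open Crest.Agent.R275.C1d194
open Crest.Agent.R273.Defs_333 Crest.Agent.R273.Hess_333 Crest.Agent.R273.HessB_333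
open Crest.Agent.R273.HM_333 Crest.Agent.R273.Kah_333 Crest.Agent.R273.Vol_333
open Crest.Agent.R273.Vm_333 Crest.Agent.R269.Fld_851 Crest.Agent.R269.RegStmt_848
open Crest.Agent.R269.Adj_851
open Crest.Agent.R273.C0d_390 (lv)
open Crest.Agent.R273.GreenM_5 (mem_ci ci)

noncomputable section

/-! ### real coordinates preserve the volume -/

/-- `cc` as a linear isometry from the Euclidean space of real coordinates -/
def ccI (n : ℕ) : EuclideanSpace ℝ (RI n) ≃ₗᵢ[ℝ] Cn n where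
  toFun x := cc (WithLp.ofLp x)
  invFun z := WithLp.toLp 2 (rc z)
  left_inv x := by
    apply (WithLp.ofLp_injective 2)
    exact rc_cc _
  right_inv z := by
    exact cc_rc z
  map_add' x y := by
    ext a
    simp only [cc_apply, WithLp.ofLp_add, Pi.add_apply, PiLp.add_apply]
    push_cast
    ring
  map_smul' c x := by
    ext a
    simp only [cc_apply, WithLp.ofLp_smul, Pi.smul_apply, PiLp.smul_apply, smul_eq_mul,
      RingHom.id_apply, Complex.real_smul]
    push_cast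
    ring
  norm_map' x := by
    change ‖cc (WithLp.ofLp x)‖ = ‖x‖
    rw [EuclideanSpace.norm_eq, EuclideanSpace.norm_eq]
    congr 1
    rw [Fintype.sum_prod_type]
    refine Finset.sum_congr rfl fun a _ => ?_
    rw [Fin.sum_univ_two, cc_apply, ← Complex.normSq_eq_norm_sq, Complex.normSq_apply]
    simp
    ring

theorem mp_cc (n : ℕ) : MeasurePreserving (cc : (RI n → ℝ) → Cn n) volume volume := by
  have h1 := (ccI n).measurePreserving
  have h2 := h1.comp (PiLp.volume_preserving_toLp (RI n))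
  exact h2

theorem me_cc (n : ℕ) : MeasurableEmbedding (cc : (RI n → ℝ) → Cn n) := by
  let e : (RI n → ℝ) ≃ₜ Cn n :=
    { toFun := cc
      invFun := rc
      left_inv := rc_cc
      right_inv := cc_rc
      continuous_toFun := continuous_cc
      continuous_invFun := by
        rw [rc_eq]
        exact (rcL n).continuous }
  exact e.measurableEmbedding

variable {n : ℕ} {M : Type} [TopologicalSpace M] {A : Atl n M}

theorem setIntegral_cc (S : Set (Cn n)) (f : Cn n → ℝ) :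
    ∫ y in (cc : (RI n → ℝ) → Cn n) ⁻¹' S, f (cc y) = ∫ z in S, f z :=
  (mp_cc n).setIntegral_preimage_emb (me_cc n) f S

theorem setIntegral_Ui (i : A.ι) (f : Cn n → ℝ) :
    ∫ y in Ui A i, f (cc y) = ∫ z in (A.e i).target, f z :=
  setIntegral_cc (A.e i).target f

/-! ### the matrix of a potential form -/

/-- polarisation -/
theorem eq_zero_of_qf {H : Matrix (Fin n) (Fin n) ℂ} (h : ∀ v, qf H v = 0) : H = 0 := by
  have hs : ∀ (a b : Fin n) (s : ℂ), qf H (EuclideanSpace.single a 1 + s • EuclideanSpace.single b 1)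
      = H a a + conj s * H a b + s * H b a + s * conj s * H b b := by
    intro a b s
    have h1 : ∀ v : Cn n, qf H v = (fun a => v a) ⬝ᵥ (H *ᵥ fun b => conj (v b)) := qf_eq_dot H
    rw [h1]
    have e1 : (fun c => (EuclideanSpace.single a (1 : ℂ) + s • EuclideanSpace.single b (1 : ℂ) :
        Cn n) c) = Pi.single a 1 + s • Pi.single b 1 := by
      funext c
      simp [Pi.single_apply]
    have e2 : (fun c => conj ((EuclideanSpace.single a (1 : ℂ) + s • EuclideanSpace.single b (1 : ℂ) :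
        Cn n) c)) = Pi.single a 1 + conj s • Pi.single b 1 := by
      funext c
      simp [Pi.single_apply, apply_ite conj]
    rw [e1, e2]
    simp only [Matrix.mulVec_add, Matrix.mulVec_smul, Matrix.mulVec_single_one, dotProduct_add,
      add_dotProduct, smul_dotProduct, dotProduct_smul, single_one_dotProduct, smul_eq_mul,
      Matrix.col_apply]
    ring
  have hd : ∀ a, H a a = 0 := by
    intro a
    have := hs a a 0
    rw [h] at this
    simpa using this.symm
  ext a b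
  have h1 := hs a b 1
  have h2 := hs a b I
  rw [h] at h1 h2
  simp only [map_one, one_mul, hd, Complex.conj_I] at h1 h2
  have h3 : H b a = - H a b := by linear_combination -h1
  rw [h3] at h2
  have h4 : I * H a b = 0 := by linear_combination (1 / 2) * h2
  have h5 := (mul_eq_zero.1 h4).resolve_left Complex.I_ne_zero
  simpa using h5

/-- a Hermitian matrix is determined by the real part of its quadratic form -/
theorem eq_of_qf_re {H H' : Matrix (Fin n) (Fin n) ℂ} (hH : H.IsHermitian) (hH' : H'.IsHermitian)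
    (h : ∀ v, (qf H v).re = (qf H' v).re) : H = H' := by
  have hr : ∀ (G : Matrix (Fin n) (Fin n) ℂ), G.IsHermitian → ∀ v, (qf G v).im = 0 := by
    intro G hG v
    have h1 : conj (qf G v) = qf G v := by
      unfold qf
      simp only [map_sum, map_mul, Complex.conj_conj]
      rw [Finset.sum_comm]
      refine Finset.sum_congr rfl fun a _ => Finset.sum_congr rfl fun b _ => ?_
      have h2 : conj (G b a) = G a b := hG.apply a b
      rw [h2]
      ring
    have h2 := congrArg Complex.im h1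
    rw [Complex.conj_im] at h2
    linarith
  have h1 : H - H' = 0 := by
    refine eq_zero_of_qf fun v => ?_
    have h2 : qf (H - H') v = qf H v - qf H' v := by
      unfold qf
      rw [← Finset.sum_sub_distrib]
      refine Finset.sum_congr rfl fun a _ => ?_
      rw [← Finset.sum_sub_distrib]
      refine Finset.sum_congr rfl fun b _ => ?_
      rw [Matrix.sub_apply]
      ring
    rw [h2]
    apply Complex.ext
    · simp [h v]
    · simp [hr H hH v, hr H' hH' v]
  exact sub_eq_zero.1 h1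

theorem mat_herm (γ : Pot A) {i : A.ι} {x : M} (hx : x ∈ (A.e i).source) :
    (γ.mat i x).IsHermitian := hess_herm (γ.contDiffAt ((A.e i).map_source hx))

theorem mat_tn (γ : Pot A) : Crest.Agent.R273.GreenM_5.Tn A γ.mat := by
  intro i j x hx
  have hz : A.e i x ∈ A.ov i j := mem_ov hx
  have hxe : (A.e i).symm (A.e i x) = x := (A.e i).left_inv hx.1
  have hh : ((Jm A i j x)ᵀ * γ.mat j x * (Jm A i j x).map conj).IsHermitian := by
    have h1 : (Jm A i j x).map conj = ((Jm A i j x)ᵀ)ᴴ := rfl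
    rw [h1]
    exact Matrix.isHermitian_mul_mul_conjTranspose _ (mat_herm γ hx.2)
  refine eq_of_qf_re (mat_herm γ hx.1) hh fun v => ?_
  have h1 := γ.lv_eq hz.1 v
  have h2 := γ.lv_eq (mem_target_of_ov hz) (fderiv ℂ (fun y => A.e j ((A.e i).symm y)) (A.e i x) v)
  have h3 := γ.tr i j (A.e i x) hz v
  have h4 := qf_tr (γ.mat j x) (Jm A i j x) (v := v)
    (w := fderiv ℂ (fun y => A.e j ((A.e i).symm y)) (A.e i x) v)
    (by
      intro b
      have h5 := fderiv_trans i j hz v b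
      rw [hxe] at h5
      exact h5)
  rw [hxe] at h1
  rw [hxe, (A.e j).left_inv hx.2] at h2
  rw [hxe] at h3
  rw [h4, ← h1, ← h2, h3]

theorem mat_smAt (γ : Pot A) (i : A.ι) (a b : Fin n) : A.SmAt i (fun x => γ.mat i x a b) := by
  refine (contDiffOn_hess (A.e i).open_target (γ.sm i) a b).congr fun z hz => ?_
  simp only [Pot.mat, (A.e i).right_inv hz]

variable [MeasurableSpace M] [BorelSpace M]

/-- integral over a chart domain -/
theorem setIntegral_vmK [Countable A.ι] (K : Kah A) (i : A.ι) {f : M → ℝ}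
    (hf : AEStronglyMeasurable f (vm (volK K))) :
    ∫ x in (A.e i).source, f x ∂(vm (volK K)) =
      ∫ z in (A.e i).target, dg K i z * f ((A.e i).symm z) := by
  rw [setIntegral_vm (volK K) i hf, ← setIntegral_Ui i]
  rfl

/-- integral of a function which vanishes off a chart domain -/
theorem integral_vmK [Countable A.ι] (K : Kah A) (i : A.ι) {f : M → ℝ}
    (hf : AEStronglyMeasurable f (vm (volK K))) (h0 : ∀ x ∉ (A.e i).source, f x = 0) :
    ∫ x, f x ∂(vm (volK K)) = ∫ z in (A.e i).target, dg K i z * f ((A.e i).symm z) := by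
  rw [← setIntegral_vmK K i hf]
  exact (setIntegral_eq_integral_of_forall_compl_eq_zero h0).symm

/-! ### chart fields -/

/-- `s` is the chart field `χ b bᴴ / det g` of the chart `i` -/
structure ChF (K : Kah A) (i : A.ι) (χ : Cn n → ℝ) (b : Matrix (Fin n) (Fin n) ℂ) (s : Fld A) :
    Prop where
  on : ∀ x ∈ (A.e i).source, s.1 i x = (χ (A.e i x) / dg K i (A.e i x)) • (b * bᴴ)
  off : ∀ j, ∀ x ∈ (A.e j).source, x ∉ (A.e i).source → s.1 j x = 0

section ChF

variable {K : Kah A} {i : A.ι} {χ : Cn n → ℝ} {b : Matrix (Fin n) (Fin n) ℂ} {s : Fld A}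

theorem ChF.psd (h : ChF K i χ b s) (hχ : ∀ z, 0 ≤ χ z) :
    ∀ j, ∀ x ∈ (A.e j).source, (s.1 j x).PosSemidef := by
  intro j x hx
  by_cases hi : x ∈ (A.e i).source
  · rw [s.2.tc i j x ⟨hi, hx⟩, h.on x hi]
    have h1 : 0 ≤ χ (A.e i x) / dg K i (A.e i x) :=
      div_nonneg (hχ _) (dg_pos K ((A.e i).map_source hi)).le
    have h2 : ((χ (A.e i x) / dg K i (A.e i x)) • (b * bᴴ)).PosSemidef :=
      (Matrix.posSemidef_self_mul_conjTranspose b).smul h1
    exact h2.mul_mul_conjTranspose_same _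
  · rw [h.off j x hx hi]
    exact Matrix.PosSemidef.zero

theorem prF_bb (t : ℝ) (b β : Matrix (Fin n) (Fin n) ℂ) :
    (∑ a, ∑ c, (t • (b * bᴴ)) a c * β a c) = t * ∑ k, qf β (col b k) := by
  have h1 : ∀ a c, (t • (b * bᴴ)) a c * β a c =
      ∑ k, (t : ℂ) * (β a c * (col b k) a * conj ((col b k) c)) := by
    intro a c
    rw [Matrix.smul_apply, Matrix.mul_apply, Complex.real_smul, Finset.mul_sum, Finset.sum_mul]
    refine Finset.sum_congr rfl fun k _ => ?_
    simp only [col, Matrix.conjTranspose_apply, RCLike.star_def]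
    ring
  simp only [h1]
  rw [Finset.sum_congr rfl fun a _ => Finset.sum_comm, Finset.sum_comm]
  rw [Finset.mul_sum]
  refine Finset.sum_congr rfl fun k _ => ?_
  unfold qf
  rw [Finset.mul_sum]
  refine Finset.sum_congr rfl fun a _ => ?_
  rw [Finset.mul_sum]

theorem ChF.tr_on (h : ChF K i χ b s) (γ : Pot A) {x : M} (hx : x ∈ (A.e i).source) :
    dg K i (A.e i x) * trF s.1 γ.mat x = χ (A.e i x) * trb (γ.w i) (A.e i x) b := by
  rw [trF_eq s.2.tc (mat_tn γ) hx]
  have h1 : prF s.1 γ.mat i x = ((χ (A.e i x) / dg K i (A.e i x) : ℝ) : ℂ) *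
      ∑ k, qf (γ.mat i x) (col b k) := by
    unfold prF
    rw [h.on x hx]
    exact prF_bb _ b (γ.mat i x)
  rw [h1, Complex.re_ofReal_mul, Complex.re_sum]
  have h2 : ∀ k, (qf (γ.mat i x) (col b k)).re = lv (γ.w i) (A.e i x) (col b k) / 4 := by
    intro k
    have h3 := γ.lv_eq ((A.e i).map_source hx) (col b k)
    rw [(A.e i).left_inv hx] at h3
    exact h3.symm
  simp only [h2]
  have h3 := dg_pos K ((A.e i).map_source hx)
  unfold trb
  field_simp

theorem ChF.tr_off (h : ChF K i χ b s) (γ : Pot A) {x : M} (hx : x ∉ (A.e i).source) :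
    trF s.1 γ.mat x = 0 := by
  unfold trF prF
  rw [h.off _ x (mem_ci x) hx]
  simp

theorem ChF.rt_on [NeZero n] (h : ChF K i χ b s) (hχ : ∀ z, 0 ≤ χ z) {x : M}
    (hx : x ∈ (A.e i).source) :
    dg K i (A.e i x) * rtF K s.1 x =
      χ (A.e i x) * (‖b.det‖ ^ 2 * dg K i (A.e i x)) ^ ((1 : ℝ) / n) := by
  have h3 := dg_pos K ((A.e i).map_source hx)
  have h0 := hχ (A.e i x)
  unfold rtF
  rw [dtF_mul K s.2.tc hx (s.2.herm i x), h.on x hx]
  have h1 : ((χ (A.e i x) / dg K i (A.e i x)) • (b * bᴴ)).det.re =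
      (χ (A.e i x) / dg K i (A.e i x)) ^ n * ‖b.det‖ ^ 2 := by
    have h2 : ((χ (A.e i x) / dg K i (A.e i x)) • (b * bᴴ)) =
        ((χ (A.e i x) / dg K i (A.e i x) : ℝ) : ℂ) • (b * bᴴ) := by
      ext a c
      simp only [Matrix.smul_apply, Complex.real_smul, smul_eq_mul]
    rw [h2, Matrix.det_smul, Matrix.det_mul, Matrix.det_conjTranspose, Fintype.card_fin,
      RCLike.star_def, Complex.mul_conj, Complex.normSq_eq_norm_sq, ← Complex.ofReal_pow,
      ← Complex.ofReal_mul, Complex.ofReal_re]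
  have h4 : (K.g i x).det.re = dg K i (A.e i x) := by
    unfold dg
    rw [(A.e i).left_inv hx]
  rw [h1, h4, mul_assoc, Real.mul_rpow (by positivity) (by positivity)]
  have h5 : ((χ (A.e i x) / dg K i (A.e i x)) ^ n) ^ ((1 : ℝ) / n) =
      χ (A.e i x) / dg K i (A.e i x) := by
    rw [one_div]
    exact Real.pow_rpow_inv_natCast (div_nonneg h0 h3.le) (NeZero.ne n)
  rw [h5]
  field_simp

theorem ChF.rt_off [NeZero n] (h : ChF K i χ b s) {x : M} (hx : x ∉ (A.e i).source) :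
    rtF K s.1 x = 0 := by
  unfold rtF dtF
  rw [h.off _ x (mem_ci x) hx]
  have : Nonempty (Fin n) := ⟨0⟩
  have h1 : (0 : Matrix (Fin n) (Fin n) ℂ).det = 0 := Matrix.det_zero
  rw [h1, zero_mul, Complex.zero_re, Real.zero_rpow]
  have : (n : ℝ) ≠ 0 := by exact_mod_cast NeZero.ne n
  positivity

end ChF

/-! ### from positive definite to positive semidefinite fields -/

section Meas

variable [T2Space M] [CompactSpace M] [Finite A.ι]

theorem continuous_trF {s : Fld A} (γ : Pot A) : Continuous (trF s.1 γ.mat) :=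
  sm_continuous (sm_trF s.2.tc (mat_tn γ) s.2.sm (mat_smAt γ))

theorem continuous_dtF (K : Kah A) {s : Fld A} : Continuous (dtF K s.1) :=
  sm_continuous (sm_dtF K s.2.tc s.2.sm)

theorem continuous_rtF (K : Kah A) {s : Fld A} : Continuous (rtF K s.1) := by
  unfold rtF
  exact (continuous_dtF K).rpow_const fun x => Or.inr (by positivity)

theorem det_mono {S G : Matrix (Fin n) (Fin n) ℂ} (hS : S.PosSemidef) (hG : G.PosSemidef) :
    S.det.re ≤ (S + G).det.re := by
  rcases n.eq_zero_or_pos with hn | hn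
  · subst hn
    simp
  have hne : Nonempty (Fin n) := ⟨⟨0, hn⟩⟩
  have h1 := Crest.Agent.R269.DetIneq271.dn_mono hS (by rw [add_sub_cancel_left]; exact hG :
    (S + G - S).PosSemidef)
  have h2 : 0 ≤ S.det.re := (Complex.le_def.1 hS.det_nonneg).1
  have h3 : 0 ≤ (S + G).det.re := (Complex.le_def.1 (hS.add hG).det_nonneg).1
  unfold Crest.Agent.R269.DetIneq271.dn at h1
  exact (Real.rpow_le_rpow_iff h2 h3 (by positivity)).1 h1

theorem posDef_add_gI (K : Kah A) {s : Fld A}
    (hs : ∀ i, ∀ x ∈ (A.e i).source, (s.1 i x).PosSemidef) {δ : ℝ} (hδ : 0 < δ) :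
    ∀ i, ∀ x ∈ (A.e i).source, ((s + δ • gIF K).1 i x).PosDef := by
  intro i x hx
  have h1 : (δ • gI K i x).PosDef := (gI_posDef K hx).smul hδ
  exact Matrix.PosDef.posSemidef_add (hs i x hx) h1

theorem rtF_mono (K : Kah A) {s : Fld A}
    (hs : ∀ i, ∀ x ∈ (A.e i).source, (s.1 i x).PosSemidef) {δ : ℝ} (hδ : 0 < δ) (x : M) :
    rtF K s.1 x ≤ rtF K (s + δ • gIF K).1 x := by
  have hx := mem_ci (A := A) x
  have h1 := dtF_nonneg K s.2.tc hx (hs _ x hx)
  unfold rtF
  refine Real.rpow_le_rpow h1 ?_ (by positivity)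
  rw [dtF_mul K s.2.tc hx (s.2.herm _ x), dtF_mul K (s + δ • gIF K).2.tc hx
    ((s + δ • gIF K).2.herm _ x)]
  refine mul_le_mul_of_nonneg_right ?_ (det_re_pos (K.pos _ x hx)).le
  exact det_mono (hs _ x hx) ((gI_posDef K hx).smul hδ).posSemidef

/-- the inequality for positive definite fields implies the one for semidefinite fields -/
theorem psd_of_pos (K : Kah A) (P : Part A) (γ : Pot A) {c : ℝ} (hc : 0 ≤ c) (μ : Measure M)
    [IsFiniteMeasure μ]
    (hU : ∀ s : Fld A, (∀ i, ∀ x ∈ (A.e i).source, (s.1 i x).PosDef) →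
      c * ∫ x, rtF K s.1 x ∂(vm (volK K)) ≤
        ∫ x, trF s.1 γ.mat x ∂(vm (volK K)) + ∫ x, rho K P s.1 x ∂μ)
    (s : Fld A) (hs : ∀ i, ∀ x ∈ (A.e i).source, (s.1 i x).PosSemidef) :
    c * ∫ x, rtF K s.1 x ∂(vm (volK K)) ≤
        ∫ x, trF s.1 γ.mat x ∂(vm (volK K)) + ∫ x, rho K P s.1 x ∂μ := by
  have hint : ∀ {F : M → ℝ}, Continuous F → Integrable F (vm (volK K)) :=
    fun hF => integrable_cont _ hF
  refine le_of_forall_pos_le_add fun e he => ?_
  set T : ℝ := ∫ x, trF (gIF K).1 γ.mat x ∂(vm (volK K)) with hT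
  set δ : ℝ := e / (|T| + 1) with hδ
  have hδ0 : 0 < δ := by positivity
  have h1 := hU (s + δ • gIF K) (posDef_add_gI K hs hδ0)
  have h2 : ∫ x, rtF K s.1 x ∂(vm (volK K)) ≤ ∫ x, rtF K (s + δ • gIF K).1 x ∂(vm (volK K)) :=
    integral_mono (hint (continuous_rtF K)) (hint (continuous_rtF K)) (rtF_mono K hs hδ0)
  have h3 : ∫ x, trF (s + δ • gIF K).1 γ.mat x ∂(vm (volK K)) =
      ∫ x, trF s.1 γ.mat x ∂(vm (volK K)) + δ * T := by
    rw [hT, ← integral_const_mul, ← integral_add (hint (continuous_trF γ))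
      ((hint (continuous_trF γ)).const_mul δ)]
    refine integral_congr_ae (Eventually.of_forall fun x => ?_)
    change trF (s.1 + δ • (gIF K).1) γ.mat x = _
    rw [trF_add_left, trF_smul_left]
  have h4 : ∀ x, rho K P (s + δ • gIF K).1 x = rho K P s.1 x := by
    intro x
    have e1 : rho K P (s.1 + δ • (gIF K).1) x = rho K P s.1 x + rho K P (δ • (gIF K).1) x :=
      rho_add K P s.2 (δ • gIF K).2 x
    have e2 : rho K P (δ • (gIF K).1) x = δ * rho K P (gIF K).1 x := rho_smul K P δ (gIF K).2 x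
    have e3 : rho K P (gIF K).1 x = 0 := rho_gI K P x
    change rho K P (s.1 + δ • (gIF K).1) x = _
    rw [e1, e2, e3, mul_zero, add_zero]
  simp only [h3, h4] at h1
  have h5 : δ * T ≤ e := by
    have h6 : T ≤ |T| + 1 := by linarith [le_abs_self T]
    calc δ * T ≤ δ * (|T| + 1) := mul_le_mul_of_nonneg_left h6 hδ0.le
      _ = e := by rw [hδ]; field_simp
  have h6 := mul_le_mul_of_nonneg_left h2 hc
  linarith

/-- **(8.4)**, from the inequality for semidefinite fields -/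
theorem weak_of_psd [NeZero n] (K : Kah A) (P : Part A) (γ : Pot A) (c : ℝ) (μ : Measure M)
    [IsFiniteMeasure μ]
    (hU : ∀ s : Fld A, (∀ i, ∀ x ∈ (A.e i).source, (s.1 i x).PosSemidef) →
      n * c * ∫ x, rtF K s.1 x ∂(vm (volK K)) ≤
        ∫ x, trF s.1 γ.mat x ∂(vm (volK K)) + ∫ x, rho K P s.1 x ∂μ)
    (hcf : ∀ (i : A.ι) (χ : Cn n → ℝ), ContDiff ℝ ∞ χ → HasCompactSupport χ →
      tsupport χ ⊆ (A.e i).target → ∀ b : Matrix (Fin n) (Fin n) ℂ, ∃ s : Fld A, ChF K i χ b s ∧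
        (∀ x ∈ (A.e i).source, rho K P s.1 x = trb χ (A.e i x) b / dg K i (A.e i x)) ∧
        ∀ x ∉ (A.e i).source, rho K P s.1 x = 0) :
    Weak K γ c μ := by
  intro i χ hχ hχc hχs hχ0 b
  obtain ⟨s, hs, hρ, hρ0⟩ := hcf i χ hχ hχc hχs b
  have h1 := hU s (hs.psd hχ0)
  have hout : ∀ z ∉ (A.e i).target, χ z = 0 := fun z hz =>
    image_eq_zero_of_notMem_tsupport fun h => hz (hχs h)
  have e1 : ∫ x, rtF K s.1 x ∂(vm (volK K)) =
      ∫ z, χ z * (‖b.det‖ ^ 2 * dg K i z) ^ ((1 : ℝ) / n) := by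
    have hR : ∫ z in (A.e i).target, χ z * (‖b.det‖ ^ 2 * dg K i z) ^ ((1 : ℝ) / n) =
        ∫ z, χ z * (‖b.det‖ ^ 2 * dg K i z) ^ ((1 : ℝ) / n) :=
      setIntegral_eq_integral_of_forall_compl_eq_zero fun z hz => by rw [hout z hz, zero_mul]
    rw [integral_vmK K i (continuous_rtF K).aestronglyMeasurable fun x hx => hs.rt_off hx, ← hR]
    refine setIntegral_congr_fun (A.e i).open_target.measurableSet fun z hz => ?_
    have h2 := hs.rt_on hχ0 ((A.e i).map_target hz)
    rw [(A.e i).right_inv hz] at h2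
    exact h2
  have e2 : ∫ x, trF s.1 γ.mat x ∂(vm (volK K)) = ∫ z, χ z * trb (γ.w i) z b := by
    have hR : ∫ z in (A.e i).target, χ z * trb (γ.w i) z b = ∫ z, χ z * trb (γ.w i) z b :=
      setIntegral_eq_integral_of_forall_compl_eq_zero fun z hz => by rw [hout z hz, zero_mul]
    rw [integral_vmK K i (continuous_trF γ).aestronglyMeasurable fun x hx => hs.tr_off γ hx, ← hR]
    refine setIntegral_congr_fun (A.e i).open_target.measurableSet fun z hz => ?_
    have h2 := hs.tr_on γ ((A.e i).map_target hz)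
    rw [(A.e i).right_inv hz] at h2
    exact h2
  have e3 : ∫ x, rho K P s.1 x ∂μ =
      ∫ x in (A.e i).source, trb χ (A.e i x) b / dg K i (A.e i x) ∂μ := by
    rw [← setIntegral_eq_integral_of_forall_compl_eq_zero (s := (A.e i).source) hρ0]
    exact setIntegral_congr_fun (A.e i).open_source.measurableSet fun x hx => hρ x hx
  rw [e1, e2, e3] at h1
  linarith

theorem exists_chF (K : Kah A) (P : Part A) (i : A.ι) {χ : Cn n → ℝ} (hχ : ContDiff ℝ ∞ χ)
    (hc : HasCompactSupport χ) (ht : tsupport χ ⊆ (A.e i).target)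
    (b : Matrix (Fin n) (Fin n) ℂ) : ∃ s : Fld A, ChF K i χ b s ∧
      (∀ x ∈ (A.e i).source, rho K P s.1 x = trb χ (A.e i x) b / dg K i (A.e i x)) ∧
      ∀ x ∉ (A.e i).source, rho K P s.1 x = 0 := by
  have hB : (b * bᴴ).IsHermitian := Matrix.isHermitian_mul_conjTranspose_self b
  have hd : ∀ x ∈ (A.e i).source, dg K i (A.e i x) = (K.g i x).det.re := by
    intro x hx
    unfold dg
    rw [(A.e i).left_inv hx]
  refine ⟨⟨AdjLoc_851.chF K i χ (b * bᴴ), AdjLoc_851.isFld_chF K hχ hc ht hB⟩, ⟨?_, ?_⟩, ?_, ?_⟩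
  · intro x hx
    change AdjLoc_851.chF K i χ (b * bᴴ) i x = _
    rw [AdjLoc_851.chF_self K χ _ hx, hd x hx]
    ext a c
    simp only [Matrix.smul_apply, Complex.real_smul, smul_eq_mul]
  · intro j x _ hx
    exact AdjLoc_851.chF_off K _ fun h => hx (AdjLoc_851.cs_sub ht h)
  · intro x hx
    change rho K P (AdjLoc_851.chF K i χ (b * bᴴ)) x = _
    rw [AdjLoc_851.rho_chF K P hχ hc ht hB hx, hd x hx]
    congr 1
    have h1 := prF_bb 1 b (hess χ (A.e i x))
    rw [one_smul, Complex.ofReal_one, one_mul] at h1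
    rw [h1, Complex.re_sum]
    unfold trb
    exact Finset.sum_congr rfl fun k _ => (lv_eq_qf hχ.contDiffAt (col b k)).symm
  · intro x hx
    exact AdjLoc_851.rho_chF_not K P hc ht _ hx

/-- **(8.4)**, from the inequality for positive definite fields -/
theorem weak_of_pos [NeZero n] (K : Kah A) (P : Part A) (γ : Pot A) {c : ℝ} (hc : 0 ≤ c)
    (μ : Measure M) [IsFiniteMeasure μ]
    (hU : ∀ s : Fld A, (∀ i, ∀ x ∈ (A.e i).source, (s.1 i x).PosDef) →
      n * c * ∫ x, rtF K s.1 x ∂(vm (volK K)) ≤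
        ∫ x, trF s.1 γ.mat x ∂(vm (volK K)) + ∫ x, rho K P s.1 x ∂μ) :
    Weak K γ c μ :=
  weak_of_psd K P γ c μ (psd_of_pos K P γ (by positivity) μ hU)
    fun i _ hχ hχc hχs b => exists_chF K P i hχ hχc hχs b

end Meas

end

end Crest.Agent.R269.Weak_411
end

-- ▼ part R269/DictB_886
section

/-!
# R269 (S0411), leaf DICT-FLD, file B (helper886): tangent coordinates and the Levi dictionary

`CA.cd i p v : Cn n` = `D(ζ i)(p) v`, the coordinates of a tangent vector `v` at the cone point `p`.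

* `cd_self`      : `cd i p p = 0`;           `cd_smul` : `cd i (c•p) (c•v) = cd i p v`;
* `cd_dσ`        : `cd i (σ z) (dσ_z w) = w`;
* `tan_decomp`   : `v ∈ Tan I p` ⇒ `v = r • p + c • dσ (cd i p v)` if `p = c • σ (ζ p)`;
* `cd_chg`       : `cd j p v = J_{ij}(x) · cd i p v`;
* `lev_eq_lev`   : `lev u p v = lev (u ∘ σ i) (ζ i p) (cd i p v)` for `v ∈ Tan I p`;
* `lev_eq_hess`  : `= Re ∑ hess f_{ab} w_a conj w_b`, `f = dn u`, `w = cd i p v`.
-/

set_option autoImplicit false
set_option linter.unusedSectionVars false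

open MvPolynomial Crest.AlgGeometry.ProjEmb Set Filter Topology
open scoped ContDiff ComplexConjugate

namespace Crest.Agent.R269.DictB_886

open Crest.Agent.R269.Geo_328 Crest.Agent.R275.Geo Crest.Agent.R269.CAtl_886
open Crest.Agent.R269.DictA_886 Crest.Agent.R275.Core144
open Crest.Agent.R273.Defs_333 (ProjD HM)
open Crest.Agent.R273.Hess_333 Crest.Agent.R273.HessB_333 Crest.Agent.R273.Kah_333

noncomputable section

variable {N n : ℕ} {I : Ideal (HomCoordRing N)}

theorem two_le_infty : (2 : WithTop ℕ∞) ≤ ∞ := WithTop.coe_le_coe.2 le_top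

theorem analyticAt_of_diff {E F : Type*} [NormedAddCommGroup E] [NormedSpace ℂ E]
    [FiniteDimensional ℂ E] [NormedAddCommGroup F] [NormedSpace ℂ F] [CompleteSpace F]
    {f : E → F} {U : Set E} (hU : IsOpen U) (hf : DifferentiableOn ℂ f U) {z : E} (hz : z ∈ U) :
    AnalyticAt ℂ f z :=
  Crest.Agent.R266.SCV.analyticOnNhd_of_differentiableOn hU hf z hz

variable {A : Atl n (XX I)} (CA : CAtl I A)

/-- coordinates of a tangent vector -/
def cd (i : A.ι) (p v : EE N) : Cn n := fderiv ℂ (CA.ζ i) p v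

theorem σ_analyticAt {i : A.ι} {z : Cn n} (hz : z ∈ (A.e i).target) : AnalyticAt ℂ (CA.σ i) z :=
  analyticAt_of_diff (A.e i).open_target (CA.F_hol i) hz

theorem ζ_analyticAt {i : A.ι} {q : EE N} (hq : q ∈ CA.W i) : AnalyticAt ℂ (CA.ζ i) q :=
  analyticAt_of_diff (CA.W_open i) (CA.ζ_hol i) hq

theorem cd_add (i : A.ι) (p v w : EE N) : cd CA i p (v + w) = cd CA i p v + cd CA i p w := by
  unfold cd; rw [map_add]

theorem cd_csmul (i : A.ι) (p : EE N) (c : ℂ) (v : EE N) : cd CA i p (c • v) = c • cd CA i p v := by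
  unfold cd; rw [map_smul]

theorem cd_self {i : A.ι} {p : EE N} (hp : p ∈ CA.W i) : cd CA i p p = 0 := by
  have h1 : HasDerivAt (fun t : ℂ => (1 + t) • p) p 0 := by
    have h2 : HasDerivAt (fun t : ℂ => 1 + t) 1 0 := (hasDerivAt_id (0 : ℂ)).const_add 1
    simpa using h2.smul_const p
  have h2 : HasDerivAt (fun t : ℂ => CA.ζ i ((1 + t) • p)) (cd CA i p p) 0 := by
    have h3 : HasFDerivAt (CA.ζ i) (fderiv ℂ (CA.ζ i) p) ((1 + (0 : ℂ)) • p) := by
      rw [add_zero, one_smul]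
      exact (CA.ζ_differentiableAt hp).hasFDerivAt
    exact h3.comp_hasDerivAt (0 : ℂ) h1
  have h3 : (fun t : ℂ => CA.ζ i ((1 + t) • p)) =ᶠ[𝓝 0] fun _ => CA.ζ i p := by
    have h4 : ∀ᶠ t : ℂ in 𝓝 0, 1 + t ≠ 0 := by
      have h5 : ContinuousAt (fun t : ℂ => 1 + t) 0 := by fun_prop
      exact h5.eventually_ne (by simp)
    filter_upwards [h4] with t ht
    exact CA.ζ_smul i _ ht p hp
  have h4 := (hasDerivAt_const (0 : ℂ) (CA.ζ i p)).congr_of_eventuallyEq h3
  exact h2.unique h4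

theorem cd_smul {i : A.ι} {p : EE N} (hp : p ∈ CA.W i) {c : ℂ} (hc : c ≠ 0) (v : EE N) :
    cd CA i (c • p) (c • v) = cd CA i p v := by
  have hcp := CA.W_smul i c hc p hp
  have h1 : HasFDerivAt (fun q : EE N => CA.ζ i (c • q))
      ((fderiv ℂ (CA.ζ i) (c • p)).comp (c • ContinuousLinearMap.id ℂ (EE N))) p :=
    (CA.ζ_differentiableAt hcp).hasFDerivAt.comp p ((hasFDerivAt_id p).const_smul c)
  have h2 : (fun q : EE N => CA.ζ i (c • q)) =ᶠ[𝓝 p] CA.ζ i := by
    filter_upwards [(CA.W_open i).mem_nhds hp] with q hq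
    exact CA.ζ_smul i c hc q hq
  have h3 := (CA.ζ_differentiableAt hp).hasFDerivAt.congr_of_eventuallyEq h2
  have h4 := h1.unique h3
  have h5 := DFunLike.congr_fun h4 v
  simpa [cd] using h5

theorem cd_dσ {i : A.ι} {z : Cn n} (hz : z ∈ (A.e i).target) (w : Cn n) :
    cd CA i (CA.σ i z) (fderiv ℂ (CA.σ i) z w) = w := by
  have h1 : HasFDerivAt (fun z => CA.ζ i (CA.σ i z))
      ((fderiv ℂ (CA.ζ i) (CA.σ i z)).comp (fderiv ℂ (CA.σ i) z)) z :=
    (CA.ζ_differentiableAt (CA.σ_mem_W hz)).hasFDerivAt.comp z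
      (CA.σ_differentiableAt hz).hasFDerivAt
  have h2 : (fun z => CA.ζ i (CA.σ i z)) =ᶠ[𝓝 z] id := by
    filter_upwards [(A.e i).open_target.mem_nhds hz] with y hy
    exact CA.ζ_σ hy
  have h3 := (hasFDerivAt_id (𝕜 := ℂ) z).congr_of_eventuallyEq h2
  have h5 := DFunLike.congr_fun (h1.unique h3) w
  simpa [cd] using h5

theorem dσ_mem_Tan {i : A.ι} {z : Cn n} (hz : z ∈ (A.e i).target) (w : Cn n) :
    fderiv ℂ (CA.σ i) z w ∈ Tan I (CA.σ i z) :=
  (CA.F_tan i z hz _).2 ⟨0, w, by rw [zero_smul, zero_add]; rfl⟩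

/-- decomposition of a tangent vector -/
theorem tan_decomp (hX : IsSmoothProjective I n) {i : A.ι} {p v : EE N} (hW : p ∈ CA.W i)
    {c : ℂ} (hc : c ≠ 0) (hpc : p = c • CA.σ i (CA.ζ i p)) (hv : v ∈ Tan I p) :
    ∃ r : ℂ, v = r • p + c • fderiv ℂ (CA.σ i) (CA.ζ i p) (cd CA i p v) := by
  set z := CA.ζ i p with hz
  have hzt : z ∈ (A.e i).target := CA.ζ_mem i p hW
  have hv' : c⁻¹ • v ∈ Tan I (CA.σ i z) := by
    have h1 : Tan I p = Tan I (CA.σ i z) := by
      conv_lhs => rw [hpc]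
      exact Geo_328.Tan_smul hX _ hc
    exact Submodule.smul_mem _ _ (h1 ▸ hv)
  obtain ⟨r, w, hrw⟩ := (CA.F_tan i z hzt _).1 hv'
  change c⁻¹ • v = r • CA.σ i z + fderiv ℂ (CA.σ i) z w at hrw
  have hcd : cd CA i p v = w := by
    have h1 : cd CA i (c • CA.σ i z) (c • (c⁻¹ • v)) = cd CA i (CA.σ i z) (c⁻¹ • v) :=
      cd_smul CA (CA.σ_mem_W hzt) hc _
    rw [← hpc, smul_smul, mul_inv_cancel₀ hc, one_smul] at h1
    rw [h1, hrw, cd_add, cd_csmul, cd_self CA (CA.σ_mem_W hzt), smul_zero, zero_add,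
      cd_dσ CA hzt]
  refine ⟨r, ?_⟩
  rw [hcd]
  have h2 : v = c • (c⁻¹ • v) := by rw [smul_smul, mul_inv_cancel₀ hc, one_smul]
  rw [h2, hrw, smul_add, smul_smul, mul_comm c r, ← smul_smul, ← hpc]

theorem tan_eq_zero (hX : IsSmoothProjective I n) {i : A.ι} {p v : EE N} (hp : p ∈ Cone I)
    (hW : p ∈ CA.W i) (hv : v ∈ Tan I p) (h0 : cd CA i p v = 0) : ∃ r : ℂ, v = r • p := by
  obtain ⟨c, hc, hpc⟩ := CA.eq_smul hp hW
  obtain ⟨r, hr⟩ := tan_decomp CA hX hW hc hpc hv
  exact ⟨r, by rw [hr, h0, map_zero, smul_zero, add_zero]⟩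

/-- change of chart -/
theorem cd_chg (hX : IsSmoothProjective I n) {i j : A.ι} {p v : EE N} (hp : p ∈ Cone I)
    (hi : p ∈ CA.W i) (hj : p ∈ CA.W j) (hv : v ∈ Tan I p) :
    (cd CA j p v : Fin n → ℂ) = (Jm A i j (pt p hp)).mulVec (cd CA i p v) := by
  obtain ⟨c, hc, hpc⟩ := CA.eq_smul hp hi
  obtain ⟨r, hr⟩ := tan_decomp CA hX hi hc hpc hv
  set z := CA.ζ i p with hz
  have hzt : z ∈ (A.e i).target := CA.ζ_mem i p hi
  have hzp : (A.e i).symm z = pt p hp := CA.symm_ζ hp hi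
  have hez : A.e i (pt p hp) = z := CA.ζ_e i p hp hi
  have hov : z ∈ A.ov i j := ⟨hzt, by rw [hzp]; exact (CA.mem_W j p hp).1 hj⟩
  have hσj : CA.σ i z ∈ CA.W j := by
    rw [CA.mem_W j _ (CA.σ_cone hzt), CA.pt_σ hzt]
    exact hov.2
  set w := cd CA i p v with hw
  have h1 : cd CA j p v = cd CA j (CA.σ i z) (fderiv ℂ (CA.σ i) z w) := by
    have h2 : cd CA j p v = c • cd CA j p (fderiv ℂ (CA.σ i) z w) := by
      conv_lhs => rw [hr]
      rw [cd_add, cd_csmul, cd_self CA hj, smul_zero, zero_add, cd_csmul]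
    rw [h2, ← cd_csmul]
    conv_lhs => rw [hpc]
    exact cd_smul CA hσj hc _
  have h2 : HasFDerivAt (fun z => CA.ζ j (CA.σ i z))
      ((fderiv ℂ (CA.ζ j) (CA.σ i z)).comp (fderiv ℂ (CA.σ i) z)) z :=
    (CA.ζ_differentiableAt hσj).hasFDerivAt.comp z (CA.σ_differentiableAt hzt).hasFDerivAt
  have h3 : (fun z => A.e j ((A.e i).symm z)) =ᶠ[𝓝 z] fun z => CA.ζ j (CA.σ i z) := by
    have ho : IsOpen (A.ov i j) := isOpen_ov i j
    filter_upwards [ho.mem_nhds hov] with y hy
    rw [← CA.ζ_e j _ (CA.σ_cone hy.1) ((CA.mem_W j _ (CA.σ_cone hy.1)).2 (by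
      rw [CA.pt_σ hy.1]; exact hy.2)), CA.pt_σ hy.1]
  have h4 := h2.congr_of_eventuallyEq h3
  funext b
  rw [h1]
  have h5 : w = ∑ a, w a • (EuclideanSpace.single a (1 : ℂ) : Cn n) := by
    ext d
    simp [Finset.sum_apply, Pi.single_apply]
  have h6 : cd CA j (CA.σ i z) (fderiv ℂ (CA.σ i) z w) =
      fderiv ℂ (fun z => A.e j ((A.e i).symm z)) z w := by
    rw [h4.fderiv]; rfl
  rw [h6]
  conv_lhs => rw [h5, map_sum]
  simp only [Matrix.mulVec, dotProduct, Jm, Matrix.of_apply, Atl.J, hez]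
  simp [mul_comm]

/-! ### the Levi dictionary -/

theorem lev_eq_levC {u : Cn n → ℝ} (z v : Cn n) :
    Crest.Agent.R273.Defs_333.lev u z v = 4 * Crest.Agent.R269.LevC_653.lev u z v := by
  unfold Crest.Agent.R273.Defs_333.lev Crest.Agent.R269.LevC_653.lev
  rw [iteratedFDeriv_two_apply, iteratedFDeriv_two_apply]
  simp
  ring

open Crest.Agent.R269.LevC_653 (lev)

/-- Levi form on the cone = Levi form in the chart -/
theorem lev_eq_lev (hX : IsSmoothProjective I n) {u : EE N → ℝ}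
    (hs : ∀ p ∈ Cone I, ContDiffAt ℝ ∞ u p)
    (hu : ∀ c : ℂ, c ≠ 0 → ∀ p ∈ Cone I, u (c • p) = u p)
    {i : A.ι} {p v : EE N} (hp : p ∈ Cone I) (hi : p ∈ CA.W i) (hv : v ∈ Tan I p) :
    lev u p v = lev (fun z => u (CA.σ i z)) (CA.ζ i p) (cd CA i p v) := by
  obtain ⟨c, hc, hpc⟩ := CA.eq_smul hp hi
  obtain ⟨r, hr⟩ := tan_decomp CA hX hi hc hpc hv
  set z := CA.ζ i p with hz
  have hzt : z ∈ (A.e i).target := CA.ζ_mem i p hi
  set w := cd CA i p v with hw
  -- a holomorphic curve in the cone with derivative `v`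
  set γ : ℂ → EE N := fun t => (c * Complex.exp (r * t)) • CA.σ i (z + t • w) with hγ
  set δ : ℂ → Cn n := fun t => z + t • w with hδ
  have hδa : AnalyticAt ℂ δ 0 := analyticAt_const.add (analyticAt_id.smul analyticAt_const)
  have hδ0 : δ 0 = z := by simp [hδ]
  have hσa : AnalyticAt ℂ (CA.σ i) (δ 0) := by rw [hδ0]; exact σ_analyticAt CA hzt
  have hσδ : AnalyticAt ℂ (fun t => CA.σ i (δ t)) 0 := hσa.comp hδa
  have hexp : AnalyticAt ℂ (fun t : ℂ => c * Complex.exp (r * t)) 0 := by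
    have : Differentiable ℂ (fun t : ℂ => c * Complex.exp (r * t)) := by fun_prop
    exact this.analyticAt 0
  have hγa : AnalyticAt ℂ γ 0 := hexp.smul hσδ
  have hγ0 : γ 0 = p := by
    simp only [hγ]
    rw [mul_zero, Complex.exp_zero, mul_one, zero_smul, add_zero, ← hpc]
  have hδd : HasDerivAt δ w 0 := by
    have := ((hasDerivAt_id (0 : ℂ)).smul_const w).const_add z
    simpa [hδ] using this
  have hσd : HasDerivAt (fun t => CA.σ i (δ t)) (fderiv ℂ (CA.σ i) z w) 0 := by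
    have h1 : HasFDerivAt (CA.σ i) (fderiv ℂ (CA.σ i) z) (δ 0) := by
      rw [hδ0]; exact (CA.σ_differentiableAt hzt).hasFDerivAt
    exact h1.comp_hasDerivAt (0 : ℂ) hδd
  have hed : HasDerivAt (fun t : ℂ => c * Complex.exp (r * t)) (c * r) 0 := by
    have h1 : HasDerivAt (fun t : ℂ => r * t) r 0 := by
      simpa using (hasDerivAt_id (0 : ℂ)).const_mul r
    have h2 := h1.cexp.const_mul c
    simpa using h2
  have hγd : deriv γ 0 = v := by
    have h1 := hed.smul hσd
    have h2 : deriv γ 0 = _ := h1.deriv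
    rw [h2]
    rw [mul_zero, Complex.exp_zero, mul_one, hδ0]
    conv_rhs => rw [hr]
    rw [add_comm, mul_comm c r, mul_smul, ← hpc]
  have h1 : lev (fun t => u (γ t)) 0 1 = lev u p v := by
    rw [Lev_901.lev_comp_curve (by rw [hγ0]; exact (hs p hp).of_le two_le_infty) hγa,
      hγ0, hγd, one_smul]
  have h2 : (fun t => u (γ t)) =ᶠ[𝓝 0] fun t => (fun z => u (CA.σ i z)) (δ t) := by
    have h3 : ∀ᶠ t in 𝓝 (0 : ℂ), δ t ∈ (A.e i).target := by
      have := hδa.continuousAt
      exact this.eventually ((A.e i).open_target.mem_nhds (by rw [hδ0]; exact hzt))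
    filter_upwards [h3] with t ht
    exact hu _ (mul_ne_zero hc (Complex.exp_ne_zero _)) _ (CA.σ_cone ht)
  have h3 : lev (fun t => u (γ t)) 0 1 = lev (fun t => (fun z => u (CA.σ i z)) (δ t)) 0 1 := by
    unfold lev
    have h4 := h2.fderiv (𝕜 := ℝ)
    rw [h4.fderiv_eq]
  have hc2 : ContDiffAt ℝ 2 (fun z => u (CA.σ i z)) (δ 0) := by
    rw [hδ0]
    exact ((hs _ (CA.σ_cone hzt)).comp z (CA.σ_contDiffAt hzt)).of_le two_le_infty
  rw [← h1, h3, Lev_901.lev_comp_curve hc2 hδa, hδ0, hδd.deriv, one_smul]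

/-- Levi form on the cone = complex Hessian in the chart -/
theorem lev_eq_hess (hX : IsSmoothProjective I n) {u : EE N → ℝ}
    (hs : ∀ p ∈ Cone I, ContDiffAt ℝ ∞ u p)
    (hu : ∀ c : ℂ, c ≠ 0 → ∀ p ∈ Cone I, u (c • p) = u p)
    {i : A.ι} {p v : EE N} (hp : p ∈ Cone I) (hi : p ∈ CA.W i) (hv : v ∈ Tan I p) :
    ((lev u p v : ℝ) : ℂ) = ∑ a, ∑ b, hsf A (dn u) i (pt p hp) a b * cd CA i p v a *
      conj (cd CA i p v b) := by
  have hzt := CA.ζ_mem i p hi
  have hf := dn_sm CA hs hu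
  have h1 : ContDiffAt ℝ ∞ (fun z => dn u ((A.e i).symm z)) (CA.ζ i p) := sm_contDiffAt hf i hzt
  have h2 : (fun z => u (CA.σ i z)) =ᶠ[𝓝 (CA.ζ i p)] fun z => dn u ((A.e i).symm z) := by
    filter_upwards [(A.e i).open_target.mem_nhds hzt] with z hz
    exact (dn_σ CA hu hz).symm
  have h3 : lev (fun z => u (CA.σ i z)) (CA.ζ i p) (cd CA i p v) =
      lev (fun z => dn u ((A.e i).symm z)) (CA.ζ i p) (cd CA i p v) := by
    unfold lev
    rw [(h2.fderiv (𝕜 := ℝ)).fderiv_eq]
  have h4 := lev_eq h1 (cd CA i p v)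
  rw [lev_eq_levC] at h4
  rw [lev_eq_lev CA hX hs hu hp hi hv, h3]
  have h5 : (4 : ℂ) * ((lev (fun z => dn u ((A.e i).symm z)) (CA.ζ i p) (cd CA i p v) : ℝ) : ℂ) =
      4 * hq (fun z => dn u ((A.e i).symm z)) (CA.ζ i p) (cd CA i p v) := by
    rw [← h4]; push_cast; ring
  have h6 := mul_left_cancel₀ (by norm_num : (4 : ℂ) ≠ 0) h5
  rw [h6]
  unfold hq hsf
  rw [CA.ζ_e i p hp hi]

end

end Crest.Agent.R269.DictB_886
end

-- ▼ part R269/DictC_886
section

/-!
# R269 (S0411), leaf DICT-FLD, file C (helper886): metric, horizontal lifts, representing frames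

* `hip v w = ∑ v_k conj w_k`, `omB p v w = (|p|² ⟨v,w⟩ - ⟨v,p⟩⟨p,w⟩) / |p|⁴` (Fubini-Study, sesquilinear);
* `K_eq`        : `(fsKah CA.projD).g i x a b = omB (σ z) (∂_a σ) (∂_b σ)`;
* `omB_eq_K`    : `omB p v w = ∑ K_ab (cd v)_a conj (cd w)_b` for `v w ∈ Tan I p`;
* `hl i p w`    : the horizontal lift, `hl ∈ Tan I p`, `⟨hl, p⟩ = 0`, `cd i p (hl i p w) = w`, unique;
* `Rp s i p b`  : the frame `b` represents the chart field `s` at `p`;
* `sum_lev_eq_trF`, `sum_eq_prF`, `det_omB_eq_dtF`.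
-/

set_option autoImplicit false
set_option linter.unusedSectionVars false

open MvPolynomial Crest.AlgGeometry.ProjEmb Set Filter Topology
open scoped ContDiff ComplexConjugate Matrix

namespace Crest.Agent.R269.DictC_886

open Crest.Agent.R269.Geo_328 Crest.Agent.R275.Geo Crest.Agent.R269.CAtl_886
open Crest.Agent.R269.DictA_886 Crest.Agent.R269.DictB_886 Crest.Agent.R275.Core144
open Crest.Agent.R273.Hess_333 Crest.Agent.R273.HessB_333 Crest.Agent.R273.Kah_333
open Crest.Agent.R273.FS_333 (fsKah sq)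
open Crest.Agent.R269.Fld_851
open Crest.Agent.R273.GreenM_5 (Tn)

noncomputable section

variable {N n : ℕ} {I : Ideal (HomCoordRing N)}

/-! ### the Hermitian product and the Fubini-Study form -/

/-- Hermitian product, linear in the first variable -/
def hip (v w : EE N) : ℂ := ∑ k, v k * conj (w k)

theorem hip_add_left (v v' w : EE N) : hip (v + v') w = hip v w + hip v' w := by
  simp [hip, add_mul, Finset.sum_add_distrib]

theorem hip_smul_left (c : ℂ) (v w : EE N) : hip (c • v) w = c * hip v w := by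
  simp [hip, Finset.mul_sum, mul_assoc]

theorem hip_conj (v w : EE N) : conj (hip v w) = hip w v := by
  simp only [hip, map_sum, map_mul, Complex.conj_conj]
  exact Finset.sum_congr rfl fun k _ => mul_comm _ _


theorem hip_smul_right (c : ℂ) (v w : EE N) : hip v (c • w) = conj c * hip v w := by
  rw [← hip_conj, hip_smul_left, map_mul, hip_conj]

theorem hip_sum_left {ι : Type*} (s : Finset ι) (v : ι → EE N) (w : EE N) :
    hip (∑ i ∈ s, v i) w = ∑ i ∈ s, hip (v i) w := by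
  simp only [hip, Finset.sum_apply, Finset.sum_mul]
  exact Finset.sum_comm


theorem hip_self (v : EE N) : hip v v = (nsq v : ℂ) := by
  simp only [hip, nsq, Complex.ofReal_sum]
  exact Finset.sum_congr rfl fun k _ => by rw [Complex.mul_conj, Complex.normSq_eq_norm_sq]

/-- the Fubini-Study form at `p` (sesquilinear, linear in the first variable) -/
def omB (p v w : EE N) : ℂ := (nsq p * hip v w - hip v p * hip p w) / (nsq p : ℂ) ^ 2

theorem omB_add_left (p v v' w : EE N) : omB p (v + v') w = omB p v w + omB p v' w := by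
  unfold omB
  rw [hip_add_left, hip_add_left, ← add_div]
  ring

theorem omB_smul_left (c : ℂ) (p v w : EE N) : omB p (c • v) w = c * omB p v w := by
  unfold omB
  rw [hip_smul_left, hip_smul_left]
  ring

theorem omB_conj (p v w : EE N) : conj (omB p v w) = omB p w v := by
  unfold omB
  rw [map_div₀, map_sub, map_mul, map_mul, hip_conj, hip_conj, hip_conj, map_pow,
    Complex.conj_ofReal]
  ring

theorem omB_add_right (p v w w' : EE N) : omB p v (w + w') = omB p v w + omB p v w' := by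
  rw [← omB_conj, omB_add_left, map_add, omB_conj, omB_conj]

theorem omB_smul_right (c : ℂ) (p v w : EE N) : omB p v (c • w) = conj c * omB p v w := by
  rw [← omB_conj, omB_smul_left, map_mul, omB_conj]

theorem omB_self_left (p w : EE N) : omB p p w = 0 := by
  unfold omB
  rw [hip_self, sub_self, zero_div]

theorem omB_self_right (p v : EE N) : omB p v p = 0 := by
  rw [← omB_conj, omB_self_left, map_zero]

theorem omB_smul {c : ℂ} (hc : c ≠ 0) (p v w : EE N) : omB (c • p) (c • v) (c • w) = omB p v w := by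
  unfold omB
  rw [nsq_smul, hip_smul_left, hip_smul_right, hip_smul_left, hip_smul_right, hip_smul_left,
    hip_smul_right]
  have h : (((‖c‖ ^ 2 * nsq p : ℝ)) : ℂ) = (c * conj c) * nsq p := by
    rw [Complex.mul_conj, Complex.normSq_eq_norm_sq]; push_cast; ring
  rw [h]
  have h0 : c * conj c ≠ 0 := mul_ne_zero hc (by simpa using hc)
  have e : (c * conj c * (nsq p : ℂ) * (c * (conj c * hip v w)) -
      c * (conj c * hip v p) * (c * (conj c * hip p w))) =
      (c * conj c) ^ 2 * ((nsq p : ℂ) * hip v w - hip v p * hip p w) := by ring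
  rw [e, mul_pow (c * conj c) (nsq p : ℂ) 2, mul_div_mul_left _ _ (pow_ne_zero 2 h0)]

theorem omB_sum_left {ι : Type*} (s : Finset ι) (p : EE N) (v : ι → EE N) (w : EE N) :
    omB p (∑ i ∈ s, v i) w = ∑ i ∈ s, omB p (v i) w := by
  unfold omB
  rw [hip_sum_left, hip_sum_left, ← Finset.sum_div, Finset.mul_sum, Finset.sum_mul,
    ← Finset.sum_sub_distrib]

theorem omB_sum_right {ι : Type*} (s : Finset ι) (p v : EE N) (w : ι → EE N) :
    omB p v (∑ i ∈ s, w i) = ∑ i ∈ s, omB p v (w i) := by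
  rw [← omB_conj, omB_sum_left, map_sum]
  exact Finset.sum_congr rfl fun i _ => omB_conj _ _ _

variable {A : Atl n (XX I)} (CA : CAtl I A)

/-! ### partial derivatives of the section -/

/-- `∂_a σ` -/
def dσ (i : A.ι) (z : Cn n) (a : Fin n) : EE N :=
  fderiv ℂ (CA.σ i) z (EuclideanSpace.single a 1)

theorem fderiv_σ_eq (i : A.ι) (z w : Cn n) :
    fderiv ℂ (CA.σ i) z w = ∑ a, w a • dσ CA i z a := by
  have h5 : w = ∑ a, w a • (EuclideanSpace.single a (1 : ℂ) : Cn n) := by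
    ext d
    simp [Finset.sum_apply, Pi.single_apply]
  conv_lhs => rw [h5, map_sum]
  simp [dσ]

theorem dσ_apply {i : A.ι} {z : Cn n} (hz : z ∈ (A.e i).target) (a : Fin n) (k : Fin (N + 1)) :
    dσ CA i z a k = fderiv ℂ (fun z => CA.σ i z k) z (EuclideanSpace.single a 1) := by
  have h := fderiv_pi (𝕜 := ℂ) (φ := fun k z => CA.σ i z k) (x := z)
    (fun k => differentiableAt_pi.1 (CA.σ_differentiableAt hz) k)
  unfold dσ
  have h2 : (fun x i_1 => CA.σ i x i_1) = CA.σ i := rfl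
  rw [h2] at h
  rw [h]
  rfl

/-- the Kaehler metric of the embedding, in the chart -/
theorem K_eq {i : A.ι} {x : XX I} (hx : x ∈ (A.e i).source) (a b : Fin n) :
    (fsKah CA.projD).g i x a b =
      omB (CA.F i x) (dσ CA i (A.e i x) a) (dσ CA i (A.e i x) b) := by
  set z := A.e i x with hz
  have hzt : z ∈ (A.e i).target := (A.e i).map_source hx
  have hF : ∀ k, DifferentiableOn ℂ (fun z => CA.σ i z k) (A.e i).target := fun k z hz =>
    differentiableWithinAt_pi.1 (CA.F_hol i z hz) k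
  have h0 : CA.σ i z ≠ 0 := (CA.σ_cone hzt).2
  have hw : (Crest.Agent.R273.FS_333.fs CA.projD).wt i =
      fun w => Real.log (sq (fun w => CA.σ i w) w) := by
    funext w
    change -Real.log ((∑ k, ‖CA.F i ((A.e i).symm w) k‖ ^ 2)⁻¹) = _
    rw [Real.log_inv, neg_neg]
    rfl
  have h1 : (fsKah CA.projD).g i x a b =
      hess (fun w => Real.log (sq (fun w => CA.σ i w) w)) z a b := by
    change cur (Crest.Agent.R273.FS_333.fs CA.projD) i x a b = _
    unfold cur
    rw [hw]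
  have hs : ContDiffAt ℝ ∞ (sq (fun w => CA.σ i w)) z := by
    refine ContDiffAt.sum fun k _ => ?_
    exact (Crest.Agent.R273.FS_333.contDiffAt_of_hol (A.e i).open_target (hF k) hzt).norm_sq ℝ
  have hp : 0 < sq (fun w => CA.σ i w) z := Crest.Agent.R273.FS_333.sq_pos h0
  rw [h1, Crest.Agent.R273.FS_333.hess_log hs hp,
    Crest.Agent.R273.FS_333.hess_sq (A.e i).open_target hF hzt,
    Crest.Agent.R273.FS_333.wd_sq (A.e i).open_target hF hzt,
    Crest.Agent.R273.FS_333.wd_sq' (A.e i).open_target hF hzt]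
  have e1 : (∑ k, fderiv ℂ (fun z => CA.σ i z k) z (EuclideanSpace.single a 1) *
      conj (fderiv ℂ (fun z => CA.σ i z k) z (EuclideanSpace.single b 1))) =
      hip (dσ CA i z a) (dσ CA i z b) := by
    unfold hip
    exact Finset.sum_congr rfl fun k _ => by rw [dσ_apply CA hzt, dσ_apply CA hzt]
  have e2 : (∑ k, fderiv ℂ (fun z => CA.σ i z k) z (EuclideanSpace.single a 1) *
      conj (CA.σ i z k)) = hip (dσ CA i z a) (CA.σ i z) := by
    unfold hip
    exact Finset.sum_congr rfl fun k _ => by rw [dσ_apply CA hzt]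
  have e3 : (∑ k, CA.σ i z k * conj (fderiv ℂ (fun z => CA.σ i z k) z
      (EuclideanSpace.single b 1))) = hip (CA.σ i z) (dσ CA i z b) := by
    unfold hip
    exact Finset.sum_congr rfl fun k _ => by rw [dσ_apply CA hzt]
  rw [e1, e2, e3]
  have e4 : sq (fun w => CA.σ i w) z = nsq (CA.F i x) := by
    rw [← CA.σ_e hx]; rfl
  rw [← CA.σ_e hx, ← hz]
  rw [← CA.σ_e hx, ← hz] at e4
  rw [e4]
  unfold omB
  have h3 : (nsq (CA.σ i z) : ℂ) ≠ 0 := by exact_mod_cast (nsq_pos h0).ne'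
  field_simp

/-- the Fubini-Study form of two tangent vectors in the chart -/
theorem omB_eq_K (hX : IsSmoothProjective I n) {i : A.ι} {p v w : EE N} (hp : p ∈ Cone I)
    (hi : p ∈ CA.W i) (hv : v ∈ Tan I p) (hw : w ∈ Tan I p) :
    omB p v w = ∑ a, ∑ b, (fsKah CA.projD).g i (pt p hp) a b * cd CA i p v a *
      conj (cd CA i p w b) := by
  obtain ⟨c, hc, hpc⟩ := CA.eq_smul hp hi
  obtain ⟨r, hr⟩ := tan_decomp CA hX hi hc hpc hv
  obtain ⟨r', hr'⟩ := tan_decomp CA hX hi hc hpc hw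
  have hx := (CA.mem_W i p hp).1 hi
  have hzt : CA.ζ i p ∈ (A.e i).target := CA.ζ_mem i p hi
  have h1 : omB p v w = omB (CA.σ i (CA.ζ i p)) (fderiv ℂ (CA.σ i) (CA.ζ i p) (cd CA i p v))
      (fderiv ℂ (CA.σ i) (CA.ζ i p) (cd CA i p w)) := by
    conv_lhs => rw [hr, hr']
    rw [omB_add_left, omB_smul_left, omB_self_left, mul_zero, zero_add,
      omB_add_right, omB_smul_right, omB_self_right, mul_zero, zero_add]
    have key : ∀ (q v' w' : EE N), p = c • q → omB p (c • v') (c • w') = omB q v' w' := by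
      intro q v' w' h
      rw [h, omB_smul hc]
    exact key _ _ _ hpc
  have h2 : CA.F i (pt p hp) = CA.σ i (CA.ζ i p) := by
    rw [← CA.ζ_e i p hp hi, CA.σ_e hx]
  rw [h1, fderiv_σ_eq, fderiv_σ_eq, omB_sum_left]
  refine Finset.sum_congr rfl fun a _ => ?_
  rw [omB_sum_right]
  refine Finset.sum_congr rfl fun b _ => ?_
  rw [omB_smul_left, omB_smul_right, K_eq CA hx, h2, CA.ζ_e i p hp hi]
  ring

/-! ### horizontal lifts -/

/-- the scalar `c` with `p = c • σ (ζ p)` on the cone -/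
def sc (i : A.ι) (p : EE N) : ℂ := hip p (CA.σ i (CA.ζ i p)) / nsq (CA.σ i (CA.ζ i p))

theorem sc_eq {i : A.ι} {p : EE N} {c : ℂ} (hW : p ∈ CA.W i)
    (hpc : p = c • CA.σ i (CA.ζ i p)) : sc CA i p = c := by
  have h0 : CA.σ i (CA.ζ i p) ≠ 0 := (CA.σ_cone (CA.ζ_mem i p hW)).2
  have h3 : (nsq (CA.σ i (CA.ζ i p)) : ℂ) ≠ 0 := by exact_mod_cast (nsq_pos h0).ne'
  unfold sc
  have key : ∀ q : EE N, p = c • q → hip p q = c * nsq q := by
    intro q h
    rw [h, hip_smul_left, hip_self]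
  rw [key _ hpc, mul_div_assoc, div_self h3, mul_one]

theorem eq_sc_smul {i : A.ι} {p : EE N} (hp : p ∈ Cone I) (hW : p ∈ CA.W i) :
    p = sc CA i p • CA.σ i (CA.ζ i p) := by
  obtain ⟨c, hc, hpc⟩ := CA.eq_smul hp hW
  rw [sc_eq CA hW hpc]
  exact hpc

theorem sc_ne {i : A.ι} {p : EE N} (hp : p ∈ Cone I) (hW : p ∈ CA.W i) : sc CA i p ≠ 0 := by
  obtain ⟨c, hc, hpc⟩ := CA.eq_smul hp hW
  rwa [sc_eq CA hW hpc]


/-- the part of `v` orthogonal to `p` -/
def hor (p v : EE N) : EE N := v - (hip v p / nsq p) • p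

theorem hor_orth {p : EE N} (hp : p ≠ 0) (v : EE N) : hip (hor p v) p = 0 := by
  have h3 : (nsq p : ℂ) ≠ 0 := by exact_mod_cast (nsq_pos hp).ne'
  unfold hor
  rw [sub_eq_add_neg, ← neg_smul, hip_add_left, hip_smul_left, hip_self]
  field_simp
  ring

theorem hor_mem {p v : EE N} (hpT : p ∈ Tan I p) (hv : v ∈ Tan I p) : hor p v ∈ Tan I p :=
  (Tan I p).sub_mem hv ((Tan I p).smul_mem _ hpT)

/-- horizontal lift of `w` at `p` -/
def hl (i : A.ι) (p : EE N) (w : Cn n) : EE N :=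
  sc CA i p • hor (CA.σ i (CA.ζ i p)) (fderiv ℂ (CA.σ i) (CA.ζ i p) w)

theorem hor_smul_right (p : EE N) (c : ℂ) (v : EE N) : hor p (c • v) = c • hor p v := by
  unfold hor
  rw [hip_smul_left, smul_sub, smul_smul, mul_div_assoc]

theorem hor_add (p v w : EE N) : hor p (v + w) = hor p v + hor p w := by
  unfold hor
  rw [hip_add_left, add_div, add_smul]
  abel

theorem hl_add (i : A.ι) (p : EE N) (v w : Cn n) : hl CA i p (v + w) = hl CA i p v + hl CA i p w := by
  unfold hl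
  rw [map_add, hor_add, smul_add]

theorem hl_csmul (i : A.ι) (p : EE N) (c : ℂ) (w : Cn n) : hl CA i p (c • w) = c • hl CA i p w := by
  unfold hl
  rw [map_smul, hor_smul_right, smul_comm]

theorem hl_sum (i : A.ι) (p : EE N) {ι : Type*} (s : Finset ι) (w : ι → Cn n) :
    hl CA i p (∑ j ∈ s, w j) = ∑ j ∈ s, hl CA i p (w j) := by
  classical
  induction s using Finset.induction_on with
  | empty =>
    have h := hl_csmul CA i p 0 (0 : Cn n)
    simpa using h
  | insert a s ha ih => rw [Finset.sum_insert ha, Finset.sum_insert ha, hl_add, ih]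


theorem self_mem_Tan' (hX : IsSmoothProjective I n) {p : EE N} (hp : p ∈ Cone I) : p ∈ Tan I p :=
  Geo_328.self_mem_Tan hX hp.1

theorem hl_mem (hX : IsSmoothProjective I n) {i : A.ι} {p : EE N} (hp : p ∈ Cone I)
    (hW : p ∈ CA.W i) (w : Cn n) : hl CA i p w ∈ Tan I p := by
  have h1 : Tan I p = Tan I (CA.σ i (CA.ζ i p)) := by
    conv_lhs => rw [eq_sc_smul CA hp hW]
    exact Geo_328.Tan_smul hX _ (sc_ne CA hp hW)
  rw [h1]
  refine Submodule.smul_mem _ _ (hor_mem ?_ (dσ_mem_Tan CA (CA.ζ_mem i p hW) w))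
  exact self_mem_Tan' hX (CA.σ_cone (CA.ζ_mem i p hW))

theorem hl_orth {i : A.ι} {p : EE N} (hp : p ∈ Cone I) (hW : p ∈ CA.W i) (w : Cn n) :
    hip (hl CA i p w) p = 0 := by
  have key : ∀ (c : ℂ) (p' q : EE N), q ≠ 0 → ∀ v, p' = c • q → hip (c • hor q v) p' = 0 := by
    intro c p' q hq v h
    rw [h, hip_smul_left, hip_smul_right, hor_orth hq, mul_zero, mul_zero]
  exact key _ _ _ (CA.σ_cone (CA.ζ_mem i p hW)).2 _ (eq_sc_smul CA hp hW)

theorem cd_hl {i : A.ι} {p : EE N} (hp : p ∈ Cone I) (hW : p ∈ CA.W i) (w : Cn n) :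
    cd CA i p (hl CA i p w) = w := by
  have hzt := CA.ζ_mem i p hW
  have key : ∀ q v : EE N, q ∈ CA.W i → p = sc CA i p • q →
      cd CA i p (sc CA i p • v) = cd CA i q v := by
    intro q v hq h
    have h2 := cd_smul CA hq (sc_ne CA hp hW) v
    rwa [← h] at h2
  unfold hl
  rw [key _ _ (CA.σ_mem_W hzt) (eq_sc_smul CA hp hW)]
  unfold hor
  rw [sub_eq_add_neg, ← neg_smul, cd_add, cd_csmul, cd_self CA (CA.σ_mem_W hzt), smul_zero,
    add_zero, cd_dσ CA hzt]

theorem eq_hl (hX : IsSmoothProjective I n) {i : A.ι} {p v : EE N} (hp : p ∈ Cone I)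
    (hW : p ∈ CA.W i) (hv : v ∈ Tan I p) (ho : hip v p = 0) : v = hl CA i p (cd CA i p v) := by
  have h1 : v - hl CA i p (cd CA i p v) ∈ Tan I p := (Tan I p).sub_mem hv (hl_mem CA hX hp hW _)
  have h2 : cd CA i p (v - hl CA i p (cd CA i p v)) = 0 := by
    have h3 := cd_hl CA hp hW (cd CA i p v)
    unfold cd at h3 ⊢
    rw [map_sub, h3, sub_self]
  obtain ⟨r, hr⟩ := tan_eq_zero CA hX hp hW h1 h2
  have h3 : hip (v - hl CA i p (cd CA i p v)) p = 0 := by
    rw [sub_eq_add_neg, ← neg_one_smul ℂ (hl CA i p (cd CA i p v)), hip_add_left, hip_smul_left,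
      ho, hl_orth CA hp hW, mul_zero, add_zero]
  rw [hr, hip_smul_left, hip_self] at h3
  have h4 : (nsq p : ℂ) ≠ 0 := by exact_mod_cast (nsq_pos hp.2).ne'
  have h5 : r = 0 := (mul_eq_zero.1 h3).resolve_right h4
  rw [h5, zero_smul] at hr
  exact sub_eq_zero.1 hr

theorem hl_chg (hX : IsSmoothProjective I n) {i j : A.ι} {p : EE N} (hp : p ∈ Cone I)
    (hi : p ∈ CA.W i) (hj : p ∈ CA.W j) (w w' : Cn n)
    (h : (w' : Fin n → ℂ) = (Jm A i j (pt p hp)).mulVec w) : hl CA i p w = hl CA j p w' := by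
  have h1 := eq_hl CA hX hp hj (hl_mem CA hX hp hi w) (hl_orth CA hp hi w)
  have h2 := cd_chg CA hX hp hi hj (hl_mem CA hX hp hi w)
  rw [cd_hl CA hp hi] at h2
  have h3 : cd CA j p (hl CA i p w) = w' := by
    ext b
    rw [congrFun h2 b, ← congrFun h b]
  rw [h1, h3]

/-! ### frames representing a chart field -/

/-- the frame `b` represents the contravariant tensor `s` at `p` -/
def Rp {κ : Type*} [Fintype κ] (s : A.ι → XX I → Matrix (Fin n) (Fin n) ℂ) (p : EE N)
    (hp : p ∈ Cone I) (b : κ → EE N) : Prop :=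
  ∀ i, p ∈ CA.W i → ∀ a c, s i (pt p hp) a c = ∑ m, cd CA i p (b m) a * conj (cd CA i p (b m) c)

theorem sum_eq_prF {κ : Type*} [Fintype κ] {s : A.ι → XX I → Matrix (Fin n) (Fin n) ℂ} {p : EE N}
    {hp : p ∈ Cone I} {b : κ → EE N} (hb : Rp CA s p hp b) {i : A.ι} (hi : p ∈ CA.W i)
    (β : A.ι → XX I → Matrix (Fin n) (Fin n) ℂ) :
    ∑ m, ∑ a, ∑ c, β i (pt p hp) a c * cd CA i p (b m) a * conj (cd CA i p (b m) c) =
      prF s β i (pt p hp) := by
  unfold prF
  rw [Finset.sum_comm]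
  refine Finset.sum_congr rfl fun a _ => ?_
  rw [Finset.sum_comm]
  refine Finset.sum_congr rfl fun c _ => ?_
  rw [hb i hi, Finset.sum_mul]
  exact Finset.sum_congr rfl fun m _ => by ring

open Crest.Agent.R269.LevC_653 (lev)


/-- Gram determinant of a representing frame -/
theorem det_omB_eq (hX : IsSmoothProjective I n)
    {s : A.ι → XX I → Matrix (Fin n) (Fin n) ℂ} {p : EE N} {hp : p ∈ Cone I}
    {b : Fin n → EE N} (hb : Rp CA s p hp b) (hbT : ∀ m, b m ∈ Tan I p) {i : A.ι}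
    (hi : p ∈ CA.W i) :
    (Matrix.of fun l m => omB p (b l) (b m)).det =
      (s i (pt p hp)).det * ((fsKah CA.projD).g i (pt p hp)).det := by
  set V : Matrix (Fin n) (Fin n) ℂ := Matrix.of fun a m => cd CA i p (b m) a with hV
  have h1 : (Matrix.of fun l m => omB p (b l) (b m)) =
      Vᵀ * (fsKah CA.projD).g i (pt p hp) * V.map conj := by
    ext l m
    rw [Matrix.of_apply, omB_eq_K CA hX hp hi (hbT l) (hbT m)]
    simp only [Matrix.mul_apply, Matrix.transpose_apply, Matrix.map_apply, hV, Matrix.of_apply,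
      Finset.sum_mul]
    rw [Finset.sum_comm]
    exact Finset.sum_congr rfl fun a _ => Finset.sum_congr rfl fun c _ => by ring
  have h2 : s i (pt p hp) = V * Vᴴ := by
    ext a c
    rw [hb i hi]
    simp only [Matrix.mul_apply, Matrix.conjTranspose_apply, hV, Matrix.of_apply, RCLike.star_def]
  have h3 : (V.map conj).det = (Vᴴ).det := by
    rw [← Matrix.det_transpose (V.map conj)]
    rfl
  rw [h1, h2, Matrix.det_mul, Matrix.det_mul, Matrix.det_mul, Matrix.det_transpose, h3]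
  ring

theorem det_omB_eq_dtF (hX : IsSmoothProjective I n)
    {s : A.ι → XX I → Matrix (Fin n) (Fin n) ℂ} (hs : Tc A s) {p : EE N} {hp : p ∈ Cone I}
    {b : Fin n → EE N} (hb : Rp CA s p hp b) (hbT : ∀ m, b m ∈ Tan I p) :
    ((Matrix.of fun l m => omB p (b l) (b m)).det).re = dtF (fsKah CA.projD) s (pt p hp) := by
  obtain ⟨i, hi⟩ := CA.exists_mem_W hp
  rw [det_omB_eq CA hX hb hbT hi, dtF_eq _ hs ((CA.mem_W i p hp).1 hi)]

end

end Crest.Agent.R269.DictC_886
end

-- ▼ part R269/DictD_886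
section

/-!
# R269 (S0411), leaf DICT-FLD, file D (helper886): ambient fields and chart fields

* `DD_eq`      : `DD p b = det (omB p (b l) (b m))` for ALL frames;  `omB_self : omB p v v = omg p v`;
* `upM`, `dnM` : transport of a Hermitian tensor between the chart and the ambient space;
* `exists_up_field` : a positive chart field `s` comes from a `PosField`;
* `dnF`        : the chart field of a `PosField`; `dnF_isFld`, `dnF_posDef`, `dnF_rp`.
-/

set_option autoImplicit false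
set_option linter.unusedSectionVars false

open MvPolynomial Crest.AlgGeometry.ProjEmb Set Filter Topology
open scoped ContDiff ComplexConjugate Matrix ComplexOrder MatrixOrder

namespace Crest.Agent.R269.DictD_886

open Crest.Agent.R269.Geo_328 Crest.Agent.R275.Geo Crest.Agent.R269.CAtl_886
open Crest.Agent.R269.DictA_886 Crest.Agent.R269.DictB_886 Crest.Agent.R269.DictC_886
open Crest.Agent.R275.Core144
open Crest.Agent.R273.Hess_333 Crest.Agent.R273.HessB_333 Crest.Agent.R273.Kah_333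
open Crest.Agent.R273.FS_333 (fsKah sq)
open Crest.Agent.R269.Fld_851
open Crest.Agent.R273.GreenM_5 (Tn ci mem_ci)
open Crest.Agent.R269.Defs_58 (omg wedgeSq DD SmX TanFam Rep PosField)

noncomputable section

variable {N n : ℕ} {I : Ideal (HomCoordRing N)}

/-! ### `DD` and `omg` -/

theorem omB_self (p v : EE N) : omB p v v = ((omg p v : ℝ) : ℂ) := by
  unfold omB omg
  have h1 : hip v p * hip p v = ((‖∑ k, v k * conj (p k)‖ ^ 2 : ℝ) : ℂ) := by
    rw [← hip_conj v p, Complex.mul_conj, Complex.normSq_eq_norm_sq]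
    rfl
  rw [hip_self, h1]
  push_cast [nsq]
  rfl

/-- Gram determinant of `(p, b)` (Schur complement) -/
theorem gram_det {p : EE N} (hp : p ≠ 0) (b : Fin n → EE N) :
    (Matrix.of fun i j : Fin (n + 1) => hip ((Fin.cons p b : Fin (n + 1) → EE N) i)
      ((Fin.cons p b : Fin (n + 1) → EE N) j)).det =
      (nsq p : ℂ) ^ (n + 1) * (Matrix.of fun l m => omB p (b l) (b m)).det := by
  have h3 : (nsq p : ℂ) ≠ 0 := by exact_mod_cast (nsq_pos hp).ne'
  set e : Fin (n + 1) ≃ Fin n ⊕ PUnit.{1} :=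
    (finSuccEquiv n).trans (Equiv.optionEquivSumPUnit _) with he
  have he1 : ∀ l, e.symm (Sum.inl l) = l.succ := fun l => by simp [he]
  have he2 : ∀ u, e.symm (Sum.inr u) = 0 := fun u => by simp [he]
  set D : Matrix PUnit.{1} PUnit.{1} ℂ := Matrix.of fun _ _ => (nsq p : ℂ) with hDd
  have hD : D * (Matrix.of fun _ _ => (nsq p : ℂ)⁻¹) = 1 := by
    ext i j
    simp [hDd, Matrix.mul_apply, h3]
  let iD : Invertible D := invertibleOfRightInverse _ _ hD
  have hDi : ⅟D = Matrix.of fun _ _ => (nsq p : ℂ)⁻¹ := invOf_eq_right_inv hD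
  set Am : Matrix (Fin n) (Fin n) ℂ := Matrix.of fun l m => hip (b l) (b m) with hAm
  set Bm : Matrix (Fin n) PUnit.{1} ℂ := Matrix.of fun l _ => hip (b l) p with hBm
  set Cm : Matrix PUnit.{1} (Fin n) ℂ := Matrix.of fun _ m => hip p (b m) with hCm
  rw [← Matrix.det_submatrix_equiv_self e.symm]
  have h4 : ((Matrix.of fun i j : Fin (n + 1) => hip ((Fin.cons p b : Fin (n + 1) → EE N) i)
      ((Fin.cons p b : Fin (n + 1) → EE N) j)).submatrix e.symm e.symm) =
      Matrix.fromBlocks Am Bm Cm D := by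
    ext (l | l) (m | m)
    · simp [he1, hAm]
    · simp [he1, he2, hBm]
    · simp [he1, he2, hCm]
    · simp [he2, hDd, hip_self]
  rw [h4, Matrix.det_fromBlocks₂₂]
  have h5 : Am - Bm * ⅟D * Cm = (nsq p : ℂ) • Matrix.of fun l m => omB p (b l) (b m) := by
    rw [hDi]
    ext l m
    simp only [Matrix.sub_apply, Matrix.of_apply, Matrix.mul_apply, Matrix.smul_apply,
      Finset.univ_unique, Finset.sum_singleton, smul_eq_mul, omB, hAm, hBm, hCm]
    field_simp
  have h6 : D.det = (nsq p : ℂ) := by rw [Matrix.det_unique]; rfl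
  rw [h5, Matrix.det_smul, Fintype.card_fin, h6]
  ring

theorem DD_eq {p : EE N} (hp : p ≠ 0) (b : Fin n → EE N) :
    DD p b = ((Matrix.of fun l m => omB p (b l) (b m)).det).re := by
  unfold DD wedgeSq
  have h1 : (Matrix.of fun i j : Fin (n + 1) => ∑ k, (Fin.cons p b : Fin (n + 1) → EE N) i k *
      conj ((Fin.cons p b : Fin (n + 1) → EE N) j k)) =
      (Matrix.of fun i j : Fin (n + 1) => hip ((Fin.cons p b : Fin (n + 1) → EE N) i)
      ((Fin.cons p b : Fin (n + 1) → EE N) j)) := rfl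
  rw [h1, gram_det hp]
  have h2 := nsq_pos hp
  have h3 : ((nsq p : ℂ) ^ (n + 1) * (Matrix.of fun l m => omB p (b l) (b m)).det).re =
      nsq p ^ (n + 1) * ((Matrix.of fun l m => omB p (b l) (b m)).det).re := by
    rw [← Complex.ofReal_pow, Complex.re_ofReal_mul]
  rw [h3]
  field_simp

/-! ### transport of tensors -/

variable {A : Atl n (XX I)} (CA : CAtl I A)

/-- basis vector of the chart -/
abbrev ee (a : Fin n) : Cn n := EuclideanSpace.single a (1 : ℂ)

/-- basis vector of the ambient space -/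
abbrev es (k : Fin (N + 1)) : EE N := Pi.single k (1 : ℂ)

/-- `D T D^*`, `D = Dζ_i(p)` -/
def dnM (i : A.ι) (p : EE N) (T : VV N) : Matrix (Fin n) (Fin n) ℂ :=
  Matrix.of fun a c => ∑ k, ∑ l, cd CA i p (es k) a * T k l * conj (cd CA i p (es l) c)

theorem cd_eq_sum (i : A.ι) (p v : EE N) (a : Fin n) :
    cd CA i p v a = ∑ k, v k * cd CA i p (es k) a := by
  have h1 : v = ∑ k, v k • (es k : EE N) := by
    ext l
    simp [Finset.sum_apply, Pi.single_apply]
  conv_lhs => rw [h1]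
  unfold cd
  rw [map_sum]
  simp

theorem dnM_sum {κ : Type*} [Fintype κ] (i : A.ι) (p : EE N) (r : κ → ℂ) (b b' : κ → EE N)
    (T : VV N) (hT : ∀ k l, T k l = ∑ m, r m * (b m k * conj (b' m l))) (a c : Fin n) :
    dnM CA i p T a c = ∑ m, r m * (cd CA i p (b m) a * conj (cd CA i p (b' m) c)) := by
  have h1 : dnM CA i p T a c = ∑ k, ∑ l, ∑ m, cd CA i p (es k) a * (r m * (b m k * conj (b' m l))) *
      conj (cd CA i p (es l) c) := by
    simp only [dnM, Matrix.of_apply, hT, Finset.mul_sum, Finset.sum_mul]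
  have h2 : (∑ m, r m * (cd CA i p (b m) a * conj (cd CA i p (b' m) c))) =
      ∑ m, ∑ k, ∑ l, cd CA i p (es k) a * (r m * (b m k * conj (b' m l))) *
      conj (cd CA i p (es l) c) := by
    refine Finset.sum_congr rfl fun m _ => ?_
    rw [cd_eq_sum CA i p (b m) a, cd_eq_sum CA i p (b' m) c, map_sum, Finset.sum_mul_sum,
      Finset.mul_sum]
    refine Finset.sum_congr rfl fun k _ => ?_
    rw [Finset.mul_sum]
    refine Finset.sum_congr rfl fun l _ => ?_
    rw [map_mul]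
    ring
  rw [h1, h2]
  calc (∑ k, ∑ l, ∑ m, cd CA i p (es k) a * (r m * (b m k * conj (b' m l))) *
      conj (cd CA i p (es l) c)) = ∑ k, ∑ m, ∑ l, cd CA i p (es k) a *
        (r m * (b m k * conj (b' m l))) * conj (cd CA i p (es l) c) :=
        Finset.sum_congr rfl fun k _ => Finset.sum_comm
    _ = _ := Finset.sum_comm

theorem dnM_rank {κ : Type*} [Fintype κ] (i : A.ι) (p : EE N) (b : κ → EE N)
    (T : VV N) (hT : ∀ k l, T k l = ∑ m, b m k * conj (b m l)) (a c : Fin n) :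
    dnM CA i p T a c = ∑ m, cd CA i p (b m) a * conj (cd CA i p (b m) c) := by
  rw [dnM_sum CA i p (fun _ => 1) b b T fun k l => by rw [hT]; simp]
  simp

theorem dnM_smul {i : A.ι} {p : EE N} (hW : p ∈ CA.W i) {c : ℂ} (hc : c ≠ 0) (T : VV N) :
    dnM CA i (c • p) (((‖c‖ ^ 2 : ℝ) : ℂ) • T) = dnM CA i p T := by
  have h1 : ∀ v, cd CA i (c • p) v = c⁻¹ • cd CA i p v := by
    intro v
    have h2 := cd_smul CA hW hc (c⁻¹ • v)
    rwa [smul_smul, mul_inv_cancel₀ hc, one_smul, cd_csmul] at h2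
  ext a d
  simp only [dnM, Matrix.of_apply, h1, Pi.smul_apply, smul_eq_mul, PiLp.smul_apply, map_mul]
  refine Finset.sum_congr rfl fun k _ => Finset.sum_congr rfl fun l _ => ?_
  have h3 : ((‖c‖ ^ 2 : ℝ) : ℂ) = c * conj c := by
    rw [Complex.mul_conj, Complex.normSq_eq_norm_sq]
  have h4 : conj c ≠ 0 := by simpa using hc
  rw [h3, map_inv₀]
  field_simp

/-- the horizontal lift of a contravariant tensor -/
def upM (i : A.ι) (p : EE N) (S : Matrix (Fin n) (Fin n) ℂ) : VV N := fun k l =>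
  ∑ a, ∑ b, S a b * (hl CA i p (ee a) k * conj (hl CA i p (ee b) l))

/-- the same on the section -/
def upE (i : A.ι) (z : Cn n) (S : Matrix (Fin n) (Fin n) ℂ) : VV N := fun k l =>
  ∑ a, ∑ b, S a b * (hor (CA.σ i z) (dσ CA i z a) k * conj (hor (CA.σ i z) (dσ CA i z b) l))

theorem upM_eq (i : A.ι) (p : EE N) (S : Matrix (Fin n) (Fin n) ℂ) :
    upM CA i p S = (‖sc CA i p‖ ^ 2 : ℝ) • upE CA i (CA.ζ i p) S := by
  funext k l
  simp only [upM, upE, Pi.smul_apply, hl, smul_eq_mul, map_mul, Complex.real_smul, Finset.mul_sum]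
  refine Finset.sum_congr rfl fun a _ => Finset.sum_congr rfl fun b _ => ?_
  have h3 : ((‖sc CA i p‖ ^ 2 : ℝ) : ℂ) = sc CA i p * conj (sc CA i p) := by
    rw [Complex.mul_conj, Complex.normSq_eq_norm_sq]
  rw [h3]
  simp only [dσ]
  ring

theorem upM_eq' {i : A.ι} {p : EE N} (hp : p ∈ Cone I) (hW : p ∈ CA.W i)
    (S : Matrix (Fin n) (Fin n) ℂ) :
    (nsq p)⁻¹ • upM CA i p S = (nsq (CA.σ i (CA.ζ i p)))⁻¹ • upE CA i (CA.ζ i p) S := by
  have h0 := nsq_pos (CA.σ_cone (CA.ζ_mem i p hW)).2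
  have h1 : nsq p = ‖sc CA i p‖ ^ 2 * nsq (CA.σ i (CA.ζ i p)) := by
    conv_lhs => rw [eq_sc_smul CA hp hW]
    exact nsq_smul _ _
  have h2 : ‖sc CA i p‖ ≠ 0 := norm_ne_zero_iff.2 (sc_ne CA hp hW)
  rw [h1, upM_eq, smul_smul]
  congr 1
  field_simp

/-- sum form of `upM` over pairs -/
theorem upM_apply (i : A.ι) (p : EE N) (S : Matrix (Fin n) (Fin n) ℂ) (k l : Fin (N + 1)) :
    upM CA i p S k l = ∑ m : Fin n × Fin n, S m.1 m.2 * (hl CA i p (ee m.1) k *
      conj (hl CA i p (ee m.2) l)) := by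
  rw [Fintype.sum_prod_type]
  rfl

theorem dnM_upM {i : A.ι} {p : EE N} (hp : p ∈ Cone I) (hW : p ∈ CA.W i)
    (S : Matrix (Fin n) (Fin n) ℂ) : dnM CA i p (upM CA i p S) = S := by
  ext a c
  rw [dnM_sum CA i p (fun m : Fin n × Fin n => S m.1 m.2) (fun m => hl CA i p (ee m.1))
    (fun m => hl CA i p (ee m.2)) _ (upM_apply CA i p S)]
  rw [Fintype.sum_prod_type]
  simp only [cd_hl CA hp hW]
  simp

/-- `upM` of `V Vᴴ` -/
theorem upM_mul (i : A.ι) (p : EE N) {κ : Type*} [Fintype κ] (V : Matrix (Fin n) κ ℂ)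
    (k l : Fin (N + 1)) : upM CA i p (V * Vᴴ) k l =
      ∑ m, hl CA i p (WithLp.toLp 2 fun a => V a m) k *
        conj (hl CA i p (WithLp.toLp 2 fun a => V a m) l) := by
  have h1 : ∀ m, hl CA i p (WithLp.toLp 2 fun a => V a m) = ∑ a, V a m • hl CA i p (ee a) := by
    intro m
    have h2 : (WithLp.toLp 2 fun a => V a m : Cn n) = ∑ a, V a m • ee a := by
      ext d
      simp [Pi.single_apply]
    rw [h2, hl_sum]
    exact Finset.sum_congr rfl fun a _ => hl_csmul CA i p _ _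
  have h3 : (∑ m, hl CA i p (WithLp.toLp 2 fun a => V a m) k *
        conj (hl CA i p (WithLp.toLp 2 fun a => V a m) l)) = ∑ m, ∑ a, ∑ b, (V a m * conj (V b m)) *
          (hl CA i p (ee a) k * conj (hl CA i p (ee b) l)) := by
    refine Finset.sum_congr rfl fun m _ => ?_
    rw [h1]
    simp only [Finset.sum_apply, Pi.smul_apply, smul_eq_mul, map_sum, map_mul]
    rw [Finset.sum_mul_sum]
    exact Finset.sum_congr rfl fun a _ => Finset.sum_congr rfl fun b _ => by ring
  rw [h3, Finset.sum_comm]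
  unfold upM
  refine Finset.sum_congr rfl fun a _ => ?_
  rw [Finset.sum_comm]
  refine Finset.sum_congr rfl fun b _ => ?_
  rw [Matrix.mul_apply, Finset.sum_mul]
  rfl

/-- the lift of a contravariant field does not depend on the chart -/
theorem upM_chg (hX : IsSmoothProjective I n) {s : A.ι → XX I → Matrix (Fin n) (Fin n) ℂ}
    (hs : Tc A s) {i j : A.ι} {p : EE N} (hp : p ∈ Cone I) (hi : p ∈ CA.W i) (hj : p ∈ CA.W j) :
    upM CA i p (s i (pt p hp)) = upM CA j p (s j (pt p hp)) := by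
  have hxi := (CA.mem_W i p hp).1 hi
  have hxj := (CA.mem_W j p hp).1 hj
  set J := Jm A i j (pt p hp) with hJ
  have h1 : ∀ a, hl CA i p (ee a) = ∑ c, J c a • hl CA j p (ee c) := by
    intro a
    have h2 : hl CA i p (ee a) = hl CA j p (∑ c, J c a • ee c) := by
      refine hl_chg CA hX hp hi hj _ _ ?_
      ext d
      rw [← hJ]
      simp [Matrix.mulVec, dotProduct, Pi.single_apply]
    rw [h2, hl_sum]
    exact Finset.sum_congr rfl fun c _ => hl_csmul CA j p _ _
  rw [hs i j _ ⟨hxi, hxj⟩, ← hJ]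
  funext k l
  unfold upM
  have h3 : ∀ c d, (J * s i (pt p hp) * Jᴴ) c d =
      ∑ a, ∑ b, J c a * s i (pt p hp) a b * conj (J d b) := by
    intro c d
    rw [Matrix.mul_apply, Finset.sum_comm]
    refine Finset.sum_congr rfl fun b _ => ?_
    rw [Matrix.mul_apply, Finset.sum_mul]
    rfl
  have e1 : (∑ a, ∑ b, s i (pt p hp) a b * (hl CA i p (ee a) k * conj (hl CA i p (ee b) l))) =
      ∑ a, ∑ b, ∑ c, ∑ d, (J c a * s i (pt p hp) a b * conj (J d b)) *
        (hl CA j p (ee c) k * conj (hl CA j p (ee d) l)) := by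
    refine Finset.sum_congr rfl fun a _ => Finset.sum_congr rfl fun b _ => ?_
    rw [h1 a, h1 b]
    simp only [Finset.sum_apply, Pi.smul_apply, smul_eq_mul, map_sum, map_mul]
    rw [Finset.sum_mul_sum, Finset.mul_sum]
    refine Finset.sum_congr rfl fun c _ => ?_
    rw [Finset.mul_sum]
    exact Finset.sum_congr rfl fun d _ => by ring
  have e2 : (∑ c, ∑ d, (J * s i (pt p hp) * Jᴴ) c d *
      (hl CA j p (ee c) k * conj (hl CA j p (ee d) l))) =
      ∑ c, ∑ d, ∑ a, ∑ b, (J c a * s i (pt p hp) a b * conj (J d b)) *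
        (hl CA j p (ee c) k * conj (hl CA j p (ee d) l)) := by
    refine Finset.sum_congr rfl fun c _ => Finset.sum_congr rfl fun d _ => ?_
    rw [h3, Finset.sum_mul]
    exact Finset.sum_congr rfl fun a _ => Finset.sum_mul _ _ _
  rw [e1, e2]
  calc (∑ a, ∑ b, ∑ c, ∑ d, (J c a * s i (pt p hp) a b * conj (J d b)) *
        (hl CA j p (ee c) k * conj (hl CA j p (ee d) l))) =
      ∑ a, ∑ c, ∑ b, ∑ d, (J c a * s i (pt p hp) a b * conj (J d b)) *
        (hl CA j p (ee c) k * conj (hl CA j p (ee d) l)) :=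
        Finset.sum_congr rfl fun a _ => Finset.sum_comm
    _ = ∑ c, ∑ a, ∑ b, ∑ d, (J c a * s i (pt p hp) a b * conj (J d b)) *
        (hl CA j p (ee c) k * conj (hl CA j p (ee d) l)) := Finset.sum_comm
    _ = ∑ c, ∑ a, ∑ d, ∑ b, (J c a * s i (pt p hp) a b * conj (J d b)) *
        (hl CA j p (ee c) k * conj (hl CA j p (ee d) l)) :=
        Finset.sum_congr rfl fun c _ => Finset.sum_congr rfl fun a _ => Finset.sum_comm
    _ = ∑ c, ∑ d, ∑ a, ∑ b, (J c a * s i (pt p hp) a b * conj (J d b)) *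
        (hl CA j p (ee c) k * conj (hl CA j p (ee d) l)) :=
        Finset.sum_congr rfl fun c _ => Finset.sum_comm

/-! ### smoothness -/

theorem coe_smooth {F : Type*} [NormedAddCommGroup F] [NormedSpace ℂ F] [NormedSpace ℝ F]
    [IsScalarTower ℝ ℂ F] [CompleteSpace F] {f : Cn n → F} {z : Cn n} (h : AnalyticAt ℂ f z) :
    ContDiffAt ℝ ∞ f z :=
  (h.contDiffAt (n := ∞)).restrict_scalars ℝ

theorem contDiffAt_conj {f : Cn n → ℂ} {z : Cn n} (h : ContDiffAt ℝ ∞ f z) :
    ContDiffAt ℝ ∞ (fun z => conj (f z)) z :=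
  Complex.conjCLE.contDiff.contDiffAt.comp z h

theorem contDiffAt_σ {i : A.ι} {z : Cn n} (hz : z ∈ (A.e i).target) (k : Fin (N + 1)) :
    ContDiffAt ℝ ∞ (fun z => CA.σ i z k) z :=
  contDiffAt_pi.1 (CA.σ_contDiffAt hz) k

theorem contDiffAt_dσ {i : A.ι} {z : Cn n} (hz : z ∈ (A.e i).target) (a : Fin n)
    (k : Fin (N + 1)) : ContDiffAt ℝ ∞ (fun z => dσ CA i z a k) z := by
  have h1 : AnalyticAt ℂ (fun z => dσ CA i z a) z := by
    have h2 := (σ_analyticAt CA hz).fderiv
    exact ((ContinuousLinearMap.apply ℂ (EE N) (EuclideanSpace.single a (1 : ℂ) : Cn n)).analyticAt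
      _).comp h2
  exact contDiffAt_pi.1 (coe_smooth h1) k

theorem contDiffAt_hip {f g : Cn n → EE N} {z : Cn n} (hf : ∀ k, ContDiffAt ℝ ∞ (fun z => f z k) z)
    (hg : ∀ k, ContDiffAt ℝ ∞ (fun z => g z k) z) :
    ContDiffAt ℝ ∞ (fun z => hip (f z) (g z)) z :=
  ContDiffAt.sum fun k _ => (hf k).mul (contDiffAt_conj (hg k))

theorem contDiffAt_nsqσ {i : A.ι} {z : Cn n} (hz : z ∈ (A.e i).target) :
    ContDiffAt ℝ ∞ (fun z => nsq (CA.σ i z)) z :=
  ((contDiffOn_nsq univ).contDiffAt univ_mem).comp z (CA.σ_contDiffAt hz)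

theorem contDiffAt_hor {i : A.ι} {z : Cn n} (hz : z ∈ (A.e i).target) (a : Fin n)
    (k : Fin (N + 1)) :
    ContDiffAt ℝ ∞ (fun z => hor (CA.σ i z) (dσ CA i z a) k) z := by
  have h1 := contDiffAt_dσ CA hz a
  have h2 := contDiffAt_σ CA hz
  have h3 : ContDiffAt ℝ ∞ (fun z => (nsq (CA.σ i z) : ℂ)) z :=
    Complex.ofRealCLM.contDiff.contDiffAt.comp z (contDiffAt_nsqσ CA hz)
  have h0 : (nsq (CA.σ i z) : ℂ) ≠ 0 := by exact_mod_cast (nsq_pos (CA.σ_cone hz).2).ne'
  have h4 := (h1 k).sub (((contDiffAt_hip h1 h2).mul (h3.inv h0)).mul (h2 k))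
  exact h4

theorem contDiffAt_upE {i : A.ι} {z : Cn n} (hz : z ∈ (A.e i).target)
    {S : Cn n → Matrix (Fin n) (Fin n) ℂ} (hS : ∀ a b, ContDiffAt ℝ ∞ (fun z => S z a b) z) :
    ContDiffAt ℝ ∞ (fun z => upE CA i z (S z)) z := by
  refine contDiffAt_pi.2 fun k => contDiffAt_pi.2 fun l => ?_
  exact ContDiffAt.sum fun a _ => ContDiffAt.sum fun b _ =>
    (hS a b).mul ((contDiffAt_hor CA hz a k).mul (contDiffAt_conj (contDiffAt_hor CA hz b l)))

theorem contDiffAt_cd {i : A.ι} {z : Cn n} (hz : z ∈ (A.e i).target) (v : EE N) (a : Fin n) :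
    ContDiffAt ℝ ∞ (fun z => cd CA i (CA.σ i z) v a) z := by
  have h2 : AnalyticAt ℂ (fun z => fderiv ℂ (CA.ζ i) (CA.σ i z)) z :=
    ((ζ_analyticAt CA (CA.σ_mem_W hz)).fderiv).comp (σ_analyticAt CA hz)
  have h3 : AnalyticAt ℂ (fun z => cd CA i (CA.σ i z) v) z :=
    ((ContinuousLinearMap.apply ℂ (Cn n) v).analyticAt _).comp h2
  have h4 : AnalyticAt ℂ (fun z => cd CA i (CA.σ i z) v a) z :=
    ((EuclideanSpace.proj (𝕜 := ℂ) a).analyticAt _).comp h3
  exact coe_smooth h4

/-! ### from chart fields to ambient fields -/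

/-- the lift of the field, divided by `|p|²`, as a function on `X^` -/
def gx (s : A.ι → XX I → Matrix (Fin n) (Fin n) ℂ) (x : XX I) : VV N :=
  (nsq (lift x))⁻¹ • upM CA (ci A x) (lift x) (s (ci A x) x)

theorem gx_eq (hX : IsSmoothProjective I n) {s : A.ι → XX I → Matrix (Fin n) (Fin n) ℂ}
    (hs : Tc A s) {i : A.ι} {x : XX I} (hx : x ∈ (A.e i).source) :
    gx CA s x = (nsq (CA.σ i (A.e i x)))⁻¹ • upE CA i (A.e i x) (s i x) := by
  have hp := lift_cone x
  have hi : lift x ∈ CA.W i := (CA.mem_W i _ hp).2 (by rw [pt_lift]; exact hx)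
  have hc : lift x ∈ CA.W (ci A x) := (CA.mem_W _ _ hp).2 (by rw [pt_lift]; exact mem_ci x)
  have h1 := upM_chg CA hX hs hp hc hi
  rw [pt_lift] at h1
  have h2 := CA.ζ_e i _ hp hi
  rw [pt_lift] at h2
  unfold gx
  rw [h1, upM_eq' CA hp hi, h2]

theorem gx_sm (hX : IsSmoothProjective I n) {s : A.ι → XX I → Matrix (Fin n) (Fin n) ℂ}
    (hs : IsFld A s) : A.Sm (gx CA s) := by
  intro i
  have h1 : ContDiffOn ℝ ∞ (fun z => (nsq (CA.σ i z))⁻¹ • upE CA i z (s i ((A.e i).symm z)))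
      (A.e i).target := by
    intro z hz
    have h0 : nsq (CA.σ i z) ≠ 0 := (nsq_pos (CA.σ_cone hz).2).ne'
    refine (((contDiffAt_nsqσ CA hz).inv h0).smul (contDiffAt_upE CA hz fun a b => ?_)
      ).contDiffWithinAt
    exact (hs.sm i a b z hz).contDiffAt ((A.e i).open_target.mem_nhds hz)
  refine h1.congr fun z hz => ?_
  rw [gx_eq CA hX hs.tc ((A.e i).map_target hz), (A.e i).right_inv hz]

theorem gx_pt (hX : IsSmoothProjective I n) {s : A.ι → XX I → Matrix (Fin n) (Fin n) ℂ}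
    (hs : Tc A s) {i : A.ι} {p : EE N} (hp : p ∈ Cone I) (hi : p ∈ CA.W i) :
    gx CA s (pt p hp) = (nsq p)⁻¹ • upM CA i p (s i (pt p hp)) := by
  rw [gx_eq CA hX hs ((CA.mem_W i p hp).1 hi), upM_eq' CA hp hi, CA.ζ_e i p hp hi]

theorem exists_mul_conjTranspose {S : Matrix (Fin n) (Fin n) ℂ} (hS : S.PosDef) :
    ∃ V : Matrix (Fin n) (Fin n) ℂ, S = V * Vᴴ := by
  obtain ⟨B, hB⟩ := CStarAlgebra.nonneg_iff_eq_star_mul_self.mp hS.posSemidef.nonneg
  exact ⟨Bᴴ, by rw [Matrix.conjTranspose_conjTranspose]; exact hB⟩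

include CA in
/-- every positive chart field is the chart field of an ambient `PosField` -/
theorem exists_up_field [Finite A.ι] (P : Part A) (hX : IsSmoothProjective I n)
    {s : A.ι → XX I → Matrix (Fin n) (Fin n) ℂ} (hs : IsFld A s)
    (hpos : ∀ i, ∀ x ∈ (A.e i).source, (s i x).PosDef) :
    ∃ a : EE N → VV N, PosField I n a ∧
      (∀ p (hp : p ∈ Cone I) i, p ∈ CA.W i → a p = upM CA i p (s i (pt p hp))) ∧
      ∀ (κ : Type) [Fintype κ] p (hp : p ∈ Cone I) (b : κ → EE N),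
        (∀ j k, a p j k = ∑ m, b m j * conj (b m k)) → Rp CA s p hp b := by
  obtain ⟨u, hu1, hu2, hu3⟩ := exists_up CA P (gx_sm CA hX hs)
  have key : ∀ p (hp : p ∈ Cone I) i, p ∈ CA.W i →
      (nsq p) • u p = upM CA i p (s i (pt p hp)) := by
    intro p hp i hi
    rw [hu3 p hp, gx_pt CA hX hs.tc hp hi, smul_smul, mul_inv_cancel₀ (nsq_pos hp.2).ne',
      one_smul]
  have hRp : ∀ (κ : Type) [Fintype κ] p (hp : p ∈ Cone I) (b : κ → EE N),
      (∀ j k, ((nsq p) • u p) j k = ∑ m, b m j * conj (b m k)) → Rp CA s p hp b := by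
    intro κ _ p hp b hb i hi a c
    have h1 : s i (pt p hp) = dnM CA i p ((nsq p) • u p) := by
      rw [key p hp i hi, dnM_upM CA hp hi]
    conv_lhs => rw [h1]
    exact dnM_rank CA i p b _ hb a c
  refine ⟨fun p => (nsq p) • u p, ⟨fun p hp => ?_, fun p hp c hc => ?_, fun p hp => ?_⟩, key, hRp⟩
  · exact (((contDiffOn_nsq univ).contDiffAt univ_mem)).smul (hu1 p hp)
  · beta_reduce
    rw [hu2 c hc p, nsq_smul, mul_smul]
    funext k l
    simp [Pi.smul_apply]
  · obtain ⟨i, hi⟩ := CA.exists_mem_W hp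
    have hx := (CA.mem_W i p hp).1 hi
    obtain ⟨V, hV⟩ := exists_mul_conjTranspose (hpos i _ hx)
    set b : Fin n → EE N := fun m => hl CA i p (WithLp.toLp 2 fun a => V a m) with hb
    have hbT : ∀ m, b m ∈ Tan I p := fun m => hl_mem CA hX hp hi _
    have hrep : ∀ j k, ((nsq p) • u p) j k = ∑ m, b m j * conj (b m k) := by
      intro j k
      rw [key p hp i hi, hV, upM_mul]
    refine ⟨b, ⟨hbT, fun m => hl_orth CA hp hi _, hrep⟩, ?_⟩
    rw [DD_eq hp.2, det_omB_eq_dtF CA hX hs.tc (hRp _ p hp b hrep) hbT]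
    exact dtF_pos _ hs.tc hx (hpos i _ hx)

/-! ### from ambient fields to chart fields -/

open Classical in
/-- the chart field of an ambient field -/
def dnF (a : EE N → VV N) (i : A.ι) (x : XX I) : Matrix (Fin n) (Fin n) ℂ :=
  if x ∈ (A.e i).source then dnM CA i (CA.F i x) (a (CA.F i x)) else 0

theorem dnF_of (a : EE N → VV N) {i : A.ι} {x : XX I} (hx : x ∈ (A.e i).source) :
    dnF CA a i x = dnM CA i (CA.F i x) (a (CA.F i x)) := if_pos hx

theorem dnF_pt {a : EE N → VV N}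
    (ha : ∀ p ∈ Cone I, ∀ c : ℂ, c ≠ 0 → a (c • p) = ((‖c‖ ^ 2 : ℝ) : ℂ) • a p)
    {i : A.ι} {p : EE N} (hp : p ∈ Cone I) (hi : p ∈ CA.W i) :
    dnF CA a i (pt p hp) = dnM CA i p (a p) := by
  have hx := (CA.mem_W i p hp).1 hi
  obtain ⟨c, hc, hpc⟩ := CA.eq_smul_F hp hx
  unfold dnF
  rw [if_pos hx]
  have key : ∀ q ∈ Cone I, q ∈ CA.W i → p = c • q → dnM CA i q (a q) = dnM CA i p (a p) := by
    intro q hq hqW h
    rw [h, ha q hq c hc, dnM_smul CA hqW hc]
  exact key _ (CA.F_cone i _ hx) (CA.F_mem_W hx) hpc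

theorem dnF_rp {a : EE N → VV N}
    (ha : ∀ p ∈ Cone I, ∀ c : ℂ, c ≠ 0 → a (c • p) = ((‖c‖ ^ 2 : ℝ) : ℂ) • a p)
    {κ : Type*} [Fintype κ] {p : EE N} (hp : p ∈ Cone I) {b : κ → EE N}
    (hb : ∀ j k, a p j k = ∑ m, b m j * conj (b m k)) : Rp CA (dnF CA a) p hp b := by
  intro i hi a' c
  rw [dnF_pt CA ha hp hi]
  exact dnM_rank CA i p b _ hb a' c

theorem dnF_isFld (hX : IsSmoothProjective I n) {a : EE N → VV N} (ha : PosField I n a) :
    IsFld A (dnF CA a) where
  sm i c d := by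
    have h1 : ContDiffOn ℝ ∞ (fun z => dnM CA i (CA.σ i z) (a (CA.σ i z)) c d)
        (A.e i).target := by
      intro z hz
      refine ContDiffAt.contDiffWithinAt ?_
      have h2 : ContDiffAt ℝ ∞ (fun z => a (CA.σ i z)) z :=
        (ha.smooth _ (CA.σ_cone hz)).comp z (CA.σ_contDiffAt hz)
      have h3 : ∀ k l, ContDiffAt ℝ ∞ (fun z => a (CA.σ i z) k l) z := fun k l =>
        contDiffAt_pi.1 (contDiffAt_pi.1 h2 k) l
      exact ContDiffAt.sum (s := Finset.univ) fun k _ => ContDiffAt.sum (s := Finset.univ) fun l _ =>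
        ((contDiffAt_cd CA hz (es k) c).mul (h3 k l)).mul
          (contDiffAt_conj (contDiffAt_cd CA hz (es l) d))
    refine h1.congr fun z hz => ?_
    change dnF CA a i ((A.e i).symm z) c d = _
    rw [dnF_of CA a ((A.e i).map_target hz)]
    rfl
  herm i x := by
    by_cases hx : x ∈ (A.e i).source
    · obtain ⟨b, ⟨-, -, hb⟩, -⟩ := ha.rep _ (CA.F_cone i x hx)
      rw [dnF_of CA a hx]
      ext c d
      rw [Matrix.conjTranspose_apply, dnM_rank CA i _ b _ hb, dnM_rank CA i _ b _ hb,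
        RCLike.star_def, map_sum]
      refine Finset.sum_congr rfl fun m _ => ?_
      rw [map_mul, Complex.conj_conj, mul_comm]
    · rw [dnF, if_neg hx]
      exact Matrix.isHermitian_zero
  tc i j x hx := by
    have hp := CA.F_cone i x hx.1
    have hpt : pt (CA.F i x) hp = x := CA.pt_F hx.1
    have hi : CA.F i x ∈ CA.W i := CA.F_mem_W hx.1
    have hj : CA.F i x ∈ CA.W j := (CA.mem_W j _ hp).2 (by rw [hpt]; exact hx.2)
    obtain ⟨b, ⟨hbT, -, hb⟩, -⟩ := ha.rep _ hp
    have h1 := dnF_rp CA ha.hom hp hb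
    have h2 := h1 i hi
    have h3 := h1 j hj
    have h4 : ∀ m c, cd CA j (CA.F i x) (b m) c =
        ∑ d, Jm A i j x c d * cd CA i (CA.F i x) (b m) d := by
      intro m c
      have h5 := congrFun (cd_chg CA hX hp hi hj (hbT m)) c
      rw [hpt] at h5
      exact h5
    rw [hpt] at h2 h3
    ext c d
    rw [h3, Matrix.mul_apply]
    have h6 : ∀ e, (Jm A i j x * dnF CA a i x) c e * (Jm A i j x)ᴴ e d =
        ∑ m, (∑ f, Jm A i j x c f * cd CA i (CA.F i x) (b m) f) *
          (conj (Jm A i j x d e) * conj (cd CA i (CA.F i x) (b m) e)) := by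
      intro e
      rw [Matrix.mul_apply, Finset.sum_mul]
      simp only [h2, Finset.mul_sum, Finset.sum_mul]
      rw [Finset.sum_comm]
      refine Finset.sum_congr rfl fun m _ => Finset.sum_congr rfl fun f _ => ?_
      rw [Matrix.conjTranspose_apply, RCLike.star_def]
      ring
    simp only [h6]
    rw [Finset.sum_comm]
    refine Finset.sum_congr rfl fun m _ => ?_
    rw [← Finset.mul_sum, h4 m c, h4 m d, map_sum]
    congr 1
    exact Finset.sum_congr rfl fun e _ => by rw [map_mul]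
  off i x hx := by
    unfold dnF
    rw [if_neg hx]


end

end Crest.Agent.R269.DictD_886
end

-- ▼ part R269/DictE_886

/-!
# R269 (S0411), leaf DICT-FLD, file E (helper886): the identities (F1)

`K = fsKah CA.projD`.
* `sum_eq_trF`    : `∑ q (b m) = tr (s β)` for any covariant form `β` with `q v = β(cd v)`;
* `Ids CA s p hp b` : the four identities of (F1) for the frame `b` and the chart field `s`;
* `ids_of_rp`     : they hold for every tangent frame representing `s`;
* `F1_up`         : positive chart field ⇒ `PosField` with `Ids` for ALL representing frames;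
* `F1_dn`         : `PosField` ⇒ positive chart field `dnF CA a` with `Ids`.
-/

set_option autoImplicit false
set_option linter.unusedSectionVars false

open MvPolynomial Crest.AlgGeometry.ProjEmb Set Filter Topology
open scoped ContDiff ComplexConjugate Matrix ComplexOrder

namespace Crest.Agent.R269.DictE_886

open Crest.Agent.R269.Geo_328 Crest.Agent.R275.Geo Crest.Agent.R269.CAtl_886
open Crest.Agent.R269.DictA_886 Crest.Agent.R269.DictB_886 Crest.Agent.R269.DictC_886
open Crest.Agent.R269.DictD_886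
open Crest.Agent.R275.Core144
open Crest.Agent.R273.Hess_333 Crest.Agent.R273.HessB_333 Crest.Agent.R273.Kah_333
open Crest.Agent.R273.FS_333 (fsKah sq fs)
open Crest.Agent.R269.Fld_851
open Crest.Agent.R269.Adj_851 (Lop)
open Crest.Agent.R273.GreenM_5 (Tn ci mem_ci)
open Crest.Agent.R269.Defs_58 (omg wedgeSq DD SmX TanFam Rep PosField alpha)
open Crest.Agent.R269.RegStmt_848

noncomputable section

variable {N n : ℕ} {I : Ideal (HomCoordRing N)} {A : Atl n (XX I)} (CA : CAtl I A)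

/-- sum of a Hermitian form over a representing frame -/
theorem sum_eq_trF {κ : Type*} [Fintype κ] {s β : A.ι → XX I → Matrix (Fin n) (Fin n) ℂ}
    (hs : Tc A s) (hβ : Tn A β) {p : EE N} {hp : p ∈ Cone I} {b : κ → EE N}
    (hb : Rp CA s p hp b) {i : A.ι} (hi : p ∈ CA.W i) {q : EE N → ℝ}
    (hq : ∀ m, q (b m) = (qf (β i (pt p hp)) (cd CA i p (b m))).re) :
    ∑ m, q (b m) = trF s β (pt p hp) := by
  rw [trF_eq hs hβ ((CA.mem_W i p hp).1 hi), ← sum_eq_prF CA hb hi, Complex.re_sum]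
  exact Finset.sum_congr rfl fun m _ => hq m

theorem omg_eq_qf (hX : IsSmoothProjective I n) {i : A.ι} {p v : EE N} (hp : p ∈ Cone I)
    (hi : p ∈ CA.W i) (hv : v ∈ Tan I p) :
    omg p v = (qf ((fsKah CA.projD).g i (pt p hp)) (cd CA i p v)).re := by
  have h1 := omB_eq_K CA hX hp hi hv hv
  rw [omB_self] at h1
  have h2 := congrArg Complex.re h1
  rw [Complex.ofReal_re] at h2
  exact h2

/-- the vector `v` in the chart: 848's `Vec` with `w = cd CA i p v` -/
theorem vec_cd (hX : IsSmoothProjective I n) {i : A.ι} {p v : EE N} (hp : p ∈ Cone I)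
    (hi : p ∈ CA.W i) (hv : v ∈ Tan I p) :
    ∃ c r : ℂ, RegAmb_848.Vec CA i c (CA.ζ i p) p v (cd CA i p v) r := by
  obtain ⟨c, hc, hpc⟩ := CA.eq_smul hp hi
  obtain ⟨r, hr⟩ := tan_decomp CA hX hi hc hpc hv
  refine ⟨c, r, hc, CA.ζ_mem i p hi, hpc, ?_⟩
  conv_lhs => rw [hr]
  rw [add_comm]

theorem alpha_eq_qf (hI : I.IsPrime) (hX : IsSmoothProjective I n) {i : A.ι} {p v : EE N}
    (hp : p ∈ Cone I) (hi : p ∈ CA.W i) (hv : v ∈ Tan I p) :
    alpha I n p v = (qf ((Pot.can (fsKah CA.projD)).mat i (pt p hp)) (cd CA i p v)).re := by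
  obtain ⟨c, r, h⟩ := vec_cd CA hX hp hi hv
  have hx := (CA.mem_W i p hp).1 hi
  rw [h.alpha_dict Alp_927.alphaFamStmt hI hX, Pot.lv_eq _ (CA.ζ_mem i p hi)]
  rw [← CA.ζ_e i p hp hi, (A.e i).left_inv hx]

theorem lev_eq_qf (hX : IsSmoothProjective I n) {u : EE N → ℝ} (hu : SmX I u)
    {i : A.ι} {p v : EE N} (hp : p ∈ Cone I) (hi : p ∈ CA.W i) (hv : v ∈ Tan I p) :
    Defs_58.lev u p v = (qf (hsf A (dn u) i (pt p hp)) (cd CA i p v)).re := by
  have h1 := lev_eq_hess CA hX hu.1 (fun c hc p hp => hu.2 p hp c hc) hp hi hv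
  have h2 := congrArg Complex.re h1
  rw [Complex.ofReal_re] at h2
  rw [RegAmb_848.lev58_eq]
  exact h2

/-- the identities of (F1) -/
structure Ids (s : A.ι → XX I → Matrix (Fin n) (Fin n) ℂ) (p : EE N) (hp : p ∈ Cone I)
    (b : Fin n → EE N) : Prop where
  dd : DD p b = dtF (fsKah CA.projD) s (pt p hp)
  rt : DD p b ^ ((n : ℝ)⁻¹) = rtF (fsKah CA.projD) s (pt p hp)
  lev : ∀ u, SmX I u → ∑ m, Defs_58.lev u p (b m) = Lop s (dn u) (pt p hp)
  omg : ∑ m, omg p (b m) = trF s (fsKah CA.projD).g (pt p hp)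
  alpha : ∑ m, alpha I n p (b m) = trF s (Pot.can (fsKah CA.projD)).mat (pt p hp)

theorem ids_of_rp (hI : I.IsPrime) (hX : IsSmoothProjective I n)
    {s : A.ι → XX I → Matrix (Fin n) (Fin n) ℂ} (hs : Tc A s) {p : EE N} {hp : p ∈ Cone I}
    {b : Fin n → EE N} (hb : Rp CA s p hp b) (hbT : ∀ m, b m ∈ Tan I p) : Ids CA s p hp b := by
  obtain ⟨i, hi⟩ := CA.exists_mem_W hp
  have hdd : DD p b = dtF (fsKah CA.projD) s (pt p hp) := by
    rw [DictD_886.DD_eq hp.2, det_omB_eq_dtF CA hX hs hb hbT]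
  refine ⟨hdd, ?_, fun u hu => ?_, ?_, ?_⟩
  · rw [hdd, rtF, one_div]
  · have hβ : Tn A (hsf A (dn (I := I) u)) := fun i j x hx =>
      hsf_tr (dn_sm CA hu.1 fun c hc p hp => hu.2 p hp c hc) hx
    exact sum_eq_trF CA hs hβ hb hi fun m => lev_eq_qf CA hX hu hp hi (hbT m)
  · exact sum_eq_trF CA hs (fun i j x hx => (fsKah CA.projD).tr i j x hx) hb hi
      fun m => omg_eq_qf CA hX hp hi (hbT m)
  · exact sum_eq_trF CA hs (Weak_411.mat_tn _) hb hi fun m => alpha_eq_qf CA hI hX hp hi (hbT m)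

include CA in
/-- (F1), from the charts to the ambient space -/
theorem F1_up [Finite A.ι] (P : Part A) (hI : I.IsPrime) (hX : IsSmoothProjective I n)
    {s : A.ι → XX I → Matrix (Fin n) (Fin n) ℂ} (hs : IsFld A s)
    (hpos : ∀ i, ∀ x ∈ (A.e i).source, (s i x).PosDef) :
    ∃ a : EE N → VV N, PosField I n a ∧
      (∀ p (hp : p ∈ Cone I) (b : Fin n → EE N), Rep I a p b → Ids CA s p hp b) ∧
      (∀ p (hp : p ∈ Cone I) i, p ∈ CA.W i → a p = upM CA i p (s i (pt p hp))) ∧
      dnF CA a = s := by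
  obtain ⟨a, ha, h1, h2⟩ := exists_up_field CA P hX hs hpos
  refine ⟨a, ha, fun p hp b hb => ids_of_rp CA hI hX hs.tc (h2 _ p hp b hb.2.2) hb.1, h1, ?_⟩
  funext i x
  by_cases hx : x ∈ (A.e i).source
  · have hp := CA.F_cone i x hx
    have hpt : pt (CA.F i x) hp = x := CA.pt_F hx
    rw [dnF_of CA a hx, h1 _ hp i (CA.F_mem_W hx), dnM_upM CA hp (CA.F_mem_W hx), hpt]
  · rw [hs.off i x hx, (dnF_isFld CA hX ha).off i x hx]




end

end Crest.Agent.R269.DictE_886
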