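import Mathlib
import Crest.Agent.R271.UfdF_243
import Crest.Prelude.Def_ProjPluricanonical
import Crest.Agent.R269.DictB_795
import Crest.Agent.R269.DictE_795
import Crest.Agent.R269.DictF_795

-- ▼ part R269/DictG1_795
section

/-!
Row 269, DICT, part G1: if `g : ℂ[z_1..z_n] → A` is étale and `φ : A → L` is a homomorphism to a field
`L` with derivations dual to `φ (g z_s)`, then the image of `φ` is étale over `ℂ[z]`.
-/

set_option autoImplicit false

open MvPolynomial

noncomputable section

namespace Crest.Agent.R269.DictG1_795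

/-- uniqueness of derivations over a formally unramified algebra -/
theorem der_unique {P A S : Type*} [CommRing P] [CommRing A] [CommRing S] [Algebra P A]
    [Algebra.FormallyUnramified P A] (φ : A →+* S) (δ : A → S)
    (hadd : ∀ u v, δ (u + v) = δ u + δ v) (hmul : ∀ u v, δ (u * v) = φ u * δ v + φ v * δ u)
    (h0 : ∀ p : P, δ (algebraMap P A p) = 0) (u : A) : δ u = 0 := by
  let _ : Module A S := Module.compHom S φ
  let _ : Module P S := Module.compHom S (algebraMap P A)
  have hsm : ∀ (a : A) (b : S), a • b = φ a * b := fun _ _ => rfl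
  have hsm' : ∀ (a : P) (b : S), a • b = algebraMap P A a • b := fun _ _ => rfl
  have : IsScalarTower P A S := ⟨fun c a b => by
    rw [hsm', smul_smul, Algebra.smul_def]⟩
  let L : A →ₗ[P] S :=
    { toFun := δ
      map_add' := hadd
      map_smul' := fun c u => by
        rw [Algebra.smul_def, hmul, h0, mul_zero, add_zero, RingHom.id_apply, hsm', hsm] }
  let D : Derivation P A S := Derivation.mk' L (fun a b => by rw [hsm, hsm]; exact hmul a b)
  have h1 : D u = D.liftKaehlerDifferential (KaehlerDifferential.D P A u) :=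
    (Derivation.liftKaehlerDifferential_comp_D D u).symm
  have h2 : KaehlerDifferential.D P A u = 0 := Subsingleton.elim _ _
  rw [h2, map_zero] at h1
  exact h1

/-- two derivations along the same homomorphism of an étale algebra over a polynomial ring agree if
they agree on the variables -/
theorem der_eq {k A S : Type*} [Field k] [CommRing A] [Algebra k A] [CommRing S] [Algebra k S] {n : ℕ}
    (g : MvPolynomial (Fin n) k →ₐ[k] A) (hg : g.toRingHom.Etale) (φ : A →+* S)
    (δ δ' : A → S)
    (hadd : ∀ u v, δ (u + v) = δ u + δ v) (hmul : ∀ u v, δ (u * v) = φ u * δ v + φ v * δ u)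
    (halg : ∀ a : k, δ (algebraMap k A a) = 0)
    (hadd' : ∀ u v, δ' (u + v) = δ' u + δ' v) (hmul' : ∀ u v, δ' (u * v) = φ u * δ' v + φ v * δ' u)
    (halg' : ∀ a : k, δ' (algebraMap k A a) = 0)
    (hX : ∀ s, δ (g (X s)) = δ' (g (X s))) (u : A) : δ u = δ' u := by
  algebraize [g.toRingHom]
  have hgeq : ∀ p, algebraMap (MvPolynomial (Fin n) k) A p = g p := fun _ => rfl
  have h1 : ∀ p : MvPolynomial (Fin n) k, δ (g p) = δ' (g p) := by
    intro p
    induction p using MvPolynomial.induction_on with
    | C a =>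
      have : g (C a) = algebraMap k A a := by
        rw [← MvPolynomial.algebraMap_eq, AlgHom.commutes]
      rw [this, halg, halg']
    | add p q hp hq => rw [map_add, hadd, hadd', hp, hq]
    | mul_X p i hp => rw [map_mul, hmul, hmul', hp, hX]
  have h2 := der_unique (P := MvPolynomial (Fin n) k) φ (fun u => δ u - δ' u)
    (fun u v => by rw [hadd, hadd']; ring) (fun u v => by rw [hmul, hmul']; ring)
    (fun p => by rw [hgeq, h1, sub_self]) u
  exact sub_eq_zero.1 h2

/-- existence of the dual derivations on an étale algebra over a polynomial ring -/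
theorem exists_dual {k A : Type*} [Field k] [CommRing A] [Algebra k A] {n : ℕ}
    (g : MvPolynomial (Fin n) k →ₐ[k] A) (hg : g.toRingHom.Etale) (s : Fin n) :
    ∃ D : Derivation k A A, ∀ t, D (g (X t)) = if s = t then 1 else 0 := by
  algebraize [g.toRingHom]
  have hst : IsScalarTower k (MvPolynomial (Fin n) k) A := by
    refine IsScalarTower.of_algebraMap_eq' ?_
    ext c
    exact (g.commutes c).symm
  let P := MvPolynomial (Fin n) k
  let D₁ : Derivation k P A := (Algebra.linearMap P A).compDer (pderiv s)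
  have hb := KaehlerDifferential.isBaseChange_of_formallyEtale k P A
  let L : Ω[A⁄k] →ₗ[A] A := hb.lift D₁.liftKaehlerDifferential
  refine ⟨L.compDer (KaehlerDifferential.D k A), fun t => ?_⟩
  change L (KaehlerDifferential.D k A (algebraMap P A (X t))) = _
  have h1 : KaehlerDifferential.D k A (algebraMap P A (X t)) =
      KaehlerDifferential.map k k P A (KaehlerDifferential.D k P (X t)) := by
    rw [KaehlerDifferential.map_D]
  rw [h1]
  have h2 : L (KaehlerDifferential.map k k P A (KaehlerDifferential.D k P (X t))) =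
      D₁.liftKaehlerDifferential (KaehlerDifferential.D k P (X t)) := hb.lift_eq _ _
  rw [h2, Derivation.liftKaehlerDifferential_comp_D]
  change algebraMap P A (pderiv s (X t)) = _
  rw [pderiv_X]
  by_cases hst' : t = s
  · subst hst'; simp
  · simp [hst', Ne.symm hst']

/-- a power series all of whose iterated derivatives have zero constant coefficient is zero -/
theorem powerSeries_eq_zero {n : ℕ} (T : Set (MvPowerSeries (Fin n) ℂ))
    (h0 : ∀ f ∈ T, MvPowerSeries.constantCoeff f = 0)
    (hd : ∀ f ∈ T, ∀ s, MvPowerSeries.pderiv ℂ s f ∈ T) {f : MvPowerSeries (Fin n) ℂ} (hf : f ∈ T) :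
    f = 0 := by
  have key : ∀ (k : ℕ) (d : Fin n →₀ ℕ), d.degree = k → ∀ f ∈ T, MvPowerSeries.coeff d f = 0 := by
    intro k
    induction k with
    | zero =>
      intro d hd0 f hf
      have : d = 0 := by
        rwa [Finsupp.degree_eq_zero_iff] at hd0
      rw [this]
      exact h0 f hf
    | succ k ih =>
      intro d hdk f hf
      have h1 : d ≠ 0 := by
        intro h; rw [h, map_zero] at hdk; omega
      obtain ⟨s, hs⟩ := Finsupp.ne_iff.1 h1
      have hs' : 1 ≤ d s := Nat.one_le_iff_ne_zero.2 (by simpa using hs)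
      have h2 : d = (d - Finsupp.single s 1) + Finsupp.single s 1 := by
        rw [tsub_add_cancel_of_le]
        rw [Finsupp.single_le_iff]; exact hs'
      have h3 : (d - Finsupp.single s 1).degree = k := by
        have := congrArg Finsupp.degree h2
        rw [map_add, Finsupp.degree_single, hdk] at this
        omega
      have h4 := ih _ h3 _ (hd f hf s)
      rw [MvPowerSeries.coeff_pderiv, ← h2] at h4
      rcases mul_eq_zero.1 h4 with h5 | h5
      · exact h5
      · exfalso
        exact Nat.cast_add_one_ne_zero _ h5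
  ext d
  rw [key _ d rfl f hf]; rfl

section main

variable {n : ℕ} {A : Type} [CommRing A] [Algebra ℂ A] (g : MvPolynomial (Fin n) ℂ →ₐ[ℂ] A)
  (hg : g.toRingHom.Etale) {L : Type} [Field L] [Algebra ℂ L] (φ : A →ₐ[ℂ] L)
  (Dl : Fin n → Derivation ℂ L L)
  (hDl : ∀ s t, Dl s (φ (g (X t))) = if s = t then 1 else 0)

include hg hDl in
/-- the dual derivations preserve the kernel of `φ` -/
theorem ker_stable {s : Fin n} {D : Derivation ℂ A A}
    (hD : ∀ t, D (g (X t)) = if s = t then 1 else 0) (b : A) : φ (D b) = Dl s (φ b) := by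
  refine der_eq g hg φ.toRingHom (fun b => φ (D b)) (fun b => Dl s (φ b)) ?_ ?_ ?_ ?_ ?_ ?_ ?_ b
  · intro u v; rw [map_add, map_add]
  · intro u v
    rw [D.leibniz, map_add, smul_eq_mul, smul_eq_mul, map_mul, map_mul]; rfl
  · intro a; rw [D.map_algebraMap, map_zero]
  · intro u v; rw [map_add, map_add]
  · intro u v
    rw [map_mul, (Dl s).leibniz, smul_eq_mul, smul_eq_mul]; rfl
  · intro a; rw [AlgHom.commutes, (Dl s).map_algebraMap]
  · intro t
    rw [hD, hDl]
    split_ifs <;> simp

include hg hDl in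
/-- locally at a maximal ideal containing it, the kernel of `φ` is zero -/
theorem ker_local_zero (m : Ideal A) [m.IsMaximal] (hm : RingHom.ker φ ≤ m) {b : A}
    (hb : b ∈ RingHom.ker φ) : ∃ t ∉ m, t * b = 0 := by
  have hft : Algebra.FiniteType ℂ A := by
    algebraize [g.toRingHom]
    have : IsScalarTower ℂ (MvPolynomial (Fin n) ℂ) A := by
      refine IsScalarTower.of_algebraMap_eq' ?_
      ext c
      exact (g.commutes c).symm
    exact Algebra.FiniteType.trans (S := MvPolynomial (Fin n) ℂ) inferInstance inferInstance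
  obtain ⟨ev, hev⟩ := Crest.Agent.R271.UFD243.exists_ev A m
  let R := Localization.AtPrime m
  obtain ⟨h, h1, h2, h3, h4, -⟩ := Crest.Agent.R271.UFD243.exists_expansion_pow g hg ev m hev R
  choose D hD using fun s => exists_dual g hg s
  -- compatibility of the expansion with the derivations
  have h5 : ∀ s (a : A), h (algebraMap A R (D s a)) = MvPowerSeries.pderiv ℂ s (h (algebraMap A R a)) := by
    intro s a
    refine der_eq g hg (h.comp (algebraMap A R)) (fun a => h (algebraMap A R (D s a)))
      (fun a => MvPowerSeries.pderiv ℂ s (h (algebraMap A R a))) ?_ ?_ ?_ ?_ ?_ ?_ ?_ a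
    · intro u v; simp only [map_add]
    · intro u v
      simp only [Derivation.leibniz, map_add, smul_eq_mul, map_mul, RingHom.comp_apply]
    · intro c
      simp only [Derivation.map_algebraMap, map_zero]
    · intro u v; simp only [map_add]
    · intro u v
      simp only [map_mul, Derivation.leibniz, smul_eq_mul, RingHom.comp_apply]
    · intro c
      rw [h2, MvPowerSeries.pderiv_C]
    · intro t
      rw [hD, h1, map_add, MvPowerSeries.pderiv_C, zero_add, MvPowerSeries.pderiv_X]
      by_cases hst : s = t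
      · subst hst; simp
      · rw [if_neg hst, map_zero, map_zero]
        simp [Ne.symm hst]
  have h6 : h (algebraMap A R b) = 0 := by
    refine powerSeries_eq_zero {f | ∃ a ∈ RingHom.ker φ, h (algebraMap A R a) = f} ?_ ?_ ⟨b, hb, rfl⟩
    · rintro f ⟨a, ha, rfl⟩
      rw [h3]
      have : a ∈ RingHom.ker ev := by rw [hev]; exact hm ha
      exact this
    · rintro f ⟨a, ha, rfl⟩ s
      refine ⟨D s a, ?_, h5 s a⟩
      rw [RingHom.mem_ker] at ha ⊢
      rw [ker_stable g hg φ Dl hDl (hD s) a, ha, map_zero]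
  have h7 : algebraMap A R b = 0 := h4 (by rw [h6, map_zero])
  rw [IsLocalization.map_eq_zero_iff m.primeCompl] at h7
  obtain ⟨t, ht⟩ := h7
  exact ⟨t, t.2, ht⟩

include hg hDl in
theorem ker_idem : IsIdempotentElem (RingHom.ker φ) := by
  have hle : RingHom.ker φ * RingHom.ker φ ≤ RingHom.ker φ := Ideal.mul_le_right
  refine le_antisymm hle ?_
  intro b hb
  let J : Ideal A := (RingHom.ker φ * RingHom.ker φ).colon {b}
  have hJ : ∀ a, a ∈ J ↔ a * b ∈ RingHom.ker φ * RingHom.ker φ := by
    intro a
    rw [Submodule.mem_colon_singleton]; rfl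
  have htop : J = ⊤ := by
    by_contra hne
    obtain ⟨m, hm, hle'⟩ := Ideal.exists_le_maximal J hne
    by_cases h1 : RingHom.ker φ ≤ m
    · obtain ⟨t, ht, htb⟩ := ker_local_zero g hg φ Dl hDl m h1 hb
      apply ht
      apply hle'
      rw [hJ, htb]; exact Submodule.zero_mem _
    · apply h1
      intro p hp
      apply hle'
      rw [hJ]
      exact Ideal.mul_mem_mul hp hb
  have : (1 : A) ∈ J := by rw [htop]; trivial
  rw [hJ, one_mul] at this
  exact this

include hg hDl in
/-- **the image is étale over the polynomial ring** -/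
theorem etale_range : (φ.rangeRestrict.comp g).toRingHom.Etale := by
  have hft : Algebra.FiniteType ℂ A := by
    algebraize [g.toRingHom]
    have : IsScalarTower ℂ (MvPolynomial (Fin n) ℂ) A := by
      refine IsScalarTower.of_algebraMap_eq' ?_
      ext c
      exact (g.commutes c).symm
    exact Algebra.FiniteType.trans (S := MvPolynomial (Fin n) ℂ) inferInstance inferInstance
  have hN : IsNoetherianRing A := Algebra.FiniteType.isNoetherianRing ℂ A
  obtain ⟨e, he, hker⟩ := (Ideal.isIdempotentElem_iff_of_fg (RingHom.ker φ)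
    (IsNoetherian.noetherian _)).1 (ker_idem g hg φ Dl hDl)
  let B := φ.range
  let _ : Algebra A B := φ.rangeRestrict.toRingHom.toAlgebra
  have hsurj : Function.Surjective (algebraMap A B) := φ.rangeRestrict_surjective
  have hker' : RingHom.ker (algebraMap A B) = Ideal.span {1 - (1 - e)} := by
    have h0 : (1 - (1 - e)) = e := sub_sub_cancel 1 e
    rw [h0]
    have h1 : RingHom.ker (algebraMap A B) = RingHom.ker φ := by
      ext a
      rw [RingHom.mem_ker, RingHom.mem_ker]
      constructor
      · intro h; exact congrArg Subtype.val h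
      · intro h; exact Subtype.ext h
    rw [h1, hker]
  have hloc : IsLocalization.Away (1 - e) B :=
    IsLocalization.away_of_isIdempotentElem he.one_sub hker' hsurj
  have het : Algebra.Etale A B := Algebra.Etale.of_isLocalizationAway (1 - e)
  have h2 : (algebraMap A B).Etale := by
    rw [RingHom.etale_algebraMap]; exact het
  exact RingHom.Etale.stableUnderComposition g.toRingHom (algebraMap A B) hg h2

end main

end Crest.Agent.R269.DictG1_795
end
end

-- ▼ part R269/DictG_795
section

/-!
Row 269, DICT, part G: the étale affine charts `B c = chartRing [1/δ]` inside the function field.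
-/

set_option autoImplicit false
set_option linter.unusedSectionVars false

open MvPolynomial Crest.AlgGeometry.ProjEmb Matrix
open Crest.Agent.R269.DictA_795 Crest.Agent.R269.DictB_795 Crest.Agent.R269.DictC_795
open Crest.Agent.R269.DictD_795 Crest.Agent.R269.DictE_795 Crest.Agent.R269.DictG1_795

noncomputable section

namespace Crest.Agent.R269.DictC_795.CD

variable {N n : ℕ} {I : Ideal (HomCoordRing N)} [I.IsPrime] (c : CD I n) {q : Fin (N + 1) → ℂ}

/-! ### Dual derivations of the function field -/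

theorem linearIndependent_D {c : CD I n} (h : c.Dom q) (hX : IsSmoothProjective I n) :
    LinearIndependent (FnField I) (fun s => KaehlerDifferential.D ℂ (FnField I) (c.wL s)) := by
  by_contra hne
  have h1 := (exteriorPower.ιMulti (FnField I) n (M := Ω[FnField I⁄ℂ])).map_linearDependent
    (fun s => KaehlerDifferential.D ℂ (FnField I) (c.wL s)) hne
  exact h.ω_ne_zero hX h1

/-- dual derivations `∂/∂w_s` of the function field -/
theorem exists_dualL {c : CD I n} (h : c.Dom q) (hX : IsSmoothProjective I n) :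
    ∃ Dl : Fin n → Derivation ℂ (FnField I) (FnField I),
      ∀ s t, Dl s (c.wL t) = if s = t then 1 else 0 := by
  have hli := linearIndependent_D h hX
  let b : Module.Basis (Fin n) (FnField I) (Ω[FnField I⁄ℂ]) :=
    Module.Basis.mk hli (span_DL h hX.homogeneous).ge
  refine ⟨fun s => (b.coord s).compDer (KaehlerDifferential.D ℂ (FnField I)), fun s t => ?_⟩
  change b.coord s (KaehlerDifferential.D ℂ (FnField I) (c.wL t)) = _
  have h1 : KaehlerDifferential.D ℂ (FnField I) (c.wL t) = b t := by
    rw [Module.Basis.mk_apply]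
  rw [h1, Module.Basis.coord_apply, Module.Basis.repr_self, Finsupp.single_apply]
  simp only [eq_comm]

/-! ### The standard étale algebra -/

/-- index type of the extra variables -/
abbrev Sg (N n : ℕ) : Type := Fin (N - n) ⊕ Unit

/-- polynomials in the dependent variables and `T = 1/δ` over `ℂ[w]` -/
abbrev CC (N n : ℕ) : Type := MvPolynomial (Sg N n) (MvPolynomial (Fin n) ℂ)

/-- the images of the homogeneous coordinates -/
def yC (j : Fin (N + 1)) : CC N n :=
  Sum.elim (fun _ => 1) (Sum.elim (fun s => C (X s)) (fun b => X (Sum.inl b))) (c.eqv.symm j)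

theorem yC_i : c.yC c.i = 1 := by
  unfold yC
  have : c.eqv.symm c.i = Sum.inl () := by rw [← c.eqv_i, Equiv.symm_apply_apply]
  rw [this]; rfl

theorem yC_S (s : Fin n) : c.yC (c.S s) = C (X s) := by
  unfold yC
  have : c.eqv.symm (c.S s) = Sum.inr (Sum.inl s) := by rw [← c.eqv_S s, Equiv.symm_apply_apply]
  rw [this]; rfl

theorem yC_J (b : Fin (N - n)) : c.yC (c.J b) = X (Sum.inl b) := by
  unfold yC
  have : c.eqv.symm (c.J b) = Sum.inr (Sum.inr b) := by rw [← c.eqv_J b, Equiv.symm_apply_apply]
  rw [this]; rfl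

/-- dehomogenisation into `CC` -/
def ρ : HomCoordRing N →ₐ[ℂ] CC N n := aeval c.yC

/-- relations of the standard étale algebra -/
def v : Sg N n → CC N n := Sum.elim (fun a => c.ρ (c.F a)) (fun _ => c.ρ c.δ * X (Sum.inr ()) - 1)

/-- the standard étale algebra, as a quotient -/
abbrev B₀ : Type := CC N n ⧸ Ideal.span (Set.range c.v)

/-- the standard étale algebra -/
def B' : Type := CC N n ⧸ Ideal.span (Set.range c.v)

instance instCommRingB' : CommRing c.B' := inferInstanceAs (CommRing (CC N n ⧸ Ideal.span (Set.range c.v)))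

instance instAlgebraPB' : Algebra (MvPolynomial (Fin n) ℂ) c.B' :=
  inferInstanceAs (Algebra (MvPolynomial (Fin n) ℂ) (CC N n ⧸ Ideal.span (Set.range c.v)))

instance instAlgebraB' : Algebra ℂ c.B' :=
  inferInstanceAs (Algebra ℂ (CC N n ⧸ Ideal.span (Set.range c.v)))

instance instTowerB' : IsScalarTower ℂ (MvPolynomial (Fin n) ℂ) c.B' :=
  inferInstanceAs (IsScalarTower ℂ (MvPolynomial (Fin n) ℂ) (CC N n ⧸ Ideal.span (Set.range c.v)))

theorem pderiv_ρ (b : Fin (N - n)) (G : HomCoordRing N) :
    pderiv (Sum.inl b) (c.ρ G) = c.ρ (pderiv (c.J b) G) := by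
  let D : Derivation ℂ (CC N n) (CC N n) := (pderiv (R := MvPolynomial (Fin n) ℂ) (Sum.inl b)).restrictScalars ℂ
  have h1 := der_aeval D c.yC G
  change D (aeval c.yC G) = _
  rw [h1, Finset.sum_eq_single (c.J b)]
  · have : D (c.yC (c.J b)) = 1 := by
      rw [yC_J]; exact pderiv_X_self _
    rw [this, smul_eq_mul, mul_one]; rfl
  · intro j _ hj
    have : D (c.yC j) = 0 := by
      rcases hj' : c.eqv.symm j with (u | s | b')
      · have h2 : j = c.i := by rw [← c.eqv_i, ← hj'.trans rfl, Equiv.apply_symm_apply]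
        rw [h2, yC_i]; exact D.map_one_eq_zero
      · have h2 : j = c.S s := by rw [← c.eqv_S, ← hj', Equiv.apply_symm_apply]
        rw [h2, yC_S]; exact pderiv_C
      · have h2 : j = c.J b' := by rw [← c.eqv_J, ← hj', Equiv.apply_symm_apply]
        have h3 : b' ≠ b := by
          rintro rfl; exact hj h2
        rw [h2, yC_J]
        exact pderiv_X_of_ne (fun h => h3 (Sum.inl.inj h))
    rw [this, smul_zero]
  · simp

theorem pderiv_ρ' (G : HomCoordRing N) : pderiv (Sum.inr ()) (c.ρ G) = 0 := by
  let D : Derivation ℂ (CC N n) (CC N n) := (pderiv (R := MvPolynomial (Fin n) ℂ) (Sum.inr ())).restrictScalars ℂ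
  have h1 := der_aeval D c.yC G
  change D (aeval c.yC G) = _
  rw [h1]
  refine Finset.sum_eq_zero fun j _ => ?_
  have : D (c.yC j) = 0 := by
    rcases hj' : c.eqv.symm j with (u | s | b')
    · have h2 : j = c.i := by rw [← c.eqv_i, ← hj'.trans rfl, Equiv.apply_symm_apply]
      rw [h2, yC_i]; exact D.map_one_eq_zero
    · have h2 : j = c.S s := by rw [← c.eqv_S, ← hj', Equiv.apply_symm_apply]
      rw [h2, yC_S]; exact pderiv_C
    · have h2 : j = c.J b' := by rw [← c.eqv_J, ← hj', Equiv.apply_symm_apply]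
      rw [h2, yC_J]
      exact pderiv_X_of_ne (by simp)
  rw [this, smul_zero]

theorem mk_δ_T : Ideal.Quotient.mk (Ideal.span (Set.range c.v)) (c.ρ c.δ) *
    Ideal.Quotient.mk _ (X (Sum.inr ())) = 1 := by
  have h1 : c.v (Sum.inr ()) ∈ Ideal.span (Set.range c.v) := Ideal.subset_span ⟨_, rfl⟩
  rw [← Ideal.Quotient.eq_zero_iff_mem] at h1
  change Ideal.Quotient.mk _ (c.ρ c.δ * X (Sum.inr ()) - 1) = 0 at h1
  rw [map_sub, map_mul, map_one, sub_eq_zero] at h1
  exact h1

theorem isUnit_mk_δ : IsUnit (Ideal.Quotient.mk (Ideal.span (Set.range c.v)) (c.ρ c.δ)) :=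
  IsUnit.of_mul_eq_one _ c.mk_δ_T

/-- the presentation -/
def pres : Algebra.PreSubmersivePresentation (MvPolynomial (Fin n) ℂ) c.B₀ (Sg N n) (Sg N n) :=
  Algebra.PreSubmersivePresentation.naive (v := c.v) id Function.injective_id

theorem det_jac : (c.pres.jacobiMatrix).det = c.ρ c.δ * c.ρ c.δ := by
  have h1 : c.pres.jacobiMatrix = Matrix.fromBlocks
      (Matrix.of fun b a => c.ρ (pderiv (c.J b) (c.F a)))
      (Matrix.of fun b _ => pderiv (Sum.inl b) (c.v (Sum.inr ()))) 0
      (Matrix.of fun _ _ => c.ρ c.δ) := by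
    funext i j
    unfold pres
    rw [Algebra.PreSubmersivePresentation.jacobiMatrix_naive]
    rcases i with (b | u) <;> rcases j with (a | u')
    · change pderiv (Sum.inl b) (c.ρ (c.F a)) = _
      rw [pderiv_ρ]; rfl
    · rfl
    · change pderiv (Sum.inr ()) (c.ρ (c.F a)) = 0
      rw [pderiv_ρ']
    · change pderiv (Sum.inr ()) (c.ρ c.δ * X (Sum.inr ()) - 1) = c.ρ c.δ
      rw [map_sub, pderiv_mul, pderiv_ρ', pderiv_X_self, pderiv_one]; ring
  rw [h1, Matrix.det_fromBlocks_zero₂₁]
  congr 1
  · have h2 : (Matrix.of fun b a => c.ρ (pderiv (c.J b) (c.F a))) = (c.jac.map c.ρ)ᵀ := rfl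
    rw [h2, Matrix.det_transpose]
    unfold δ
    rw [AlgHom.map_det]; rfl
  · exact Matrix.det_unique _

theorem etale_B₀ : Algebra.Etale (MvPolynomial (Fin n) ℂ) c.B₀ := by
  let P : Algebra.SubmersivePresentation (MvPolynomial (Fin n) ℂ) c.B₀ (Sg N n) (Sg N n) :=
    { c.pres with
      jacobian_isUnit := by
        rw [Algebra.PreSubmersivePresentation.jacobian_eq_jacobiMatrix_det, det_jac, map_mul]
        have := c.isUnit_mk_δ
        exact this.mul this }
  have : Algebra.IsStandardSmoothOfRelativeDimension 0 (MvPolynomial (Fin n) ℂ) c.B₀ :=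
    P.isStandardSmoothOfRelativeDimension (by
      rw [Algebra.Presentation.dimension]
      simp)
  infer_instance

theorem etale_B' : Algebra.Etale (MvPolynomial (Fin n) ℂ) c.B' := c.etale_B₀

/-- the structure map `ℂ[w] → B'` -/
def gB' : MvPolynomial (Fin n) ℂ →ₐ[ℂ] c.B' :=
  IsScalarTower.toAlgHom ℂ (MvPolynomial (Fin n) ℂ) c.B'

theorem gB'_etale : c.gB'.toRingHom.Etale := by
  have h1 : c.gB'.toRingHom = algebraMap (MvPolynomial (Fin n) ℂ) c.B' := rfl
  rw [h1, RingHom.etale_algebraMap]
  exact c.etale_B'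

/-! ### The chart algebra in the function field -/

/-- `δ` as a rational function: `δ(x/x_i)` -/
def δL : FnField I := dh I c.i c.δ

/-- **the chart algebra** `B c = chartRing[1/δ]` -/
def B : Subalgebra ℂ (FnField I) :=
  Algebra.adjoin ℂ (Set.range (fnRatio I c.i) ∪ {(c.δL)⁻¹})

theorem δL_ne (hi : (X c.i : HomCoordRing N) ∉ I) (hδ : c.δ ∉ I) : c.δL ≠ 0 := by
  intro h0
  have h1 := rep_dh hi c.δ_hom
  unfold δL at h0
  unfold IsRep at h1
  rw [h0, map_zero, zero_mul] at h1
  exact hδ (coneHom_eq_zero_iff.1 h1.symm)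

theorem Dom.δL_ne {c : CD I n} (h : c.Dom q) : c.δL ≠ 0 := CD.δL_ne c h.not_mem_i h.not_mem_δ

/-- the map `CC → FnField` -/
def φ₀ : CC N n →ₐ[ℂ] FnField I :=
  aevalTower (aeval c.wL) (Sum.elim (fun b => fnRatio I c.i (c.J b)) (fun _ => (c.δL)⁻¹))

theorem φ₀_ρ {c : CD I n} (h : c.Dom q) (G : HomCoordRing N) : c.φ₀ (c.ρ G) = dh I c.i G := by
  have : c.φ₀.comp c.ρ = dh I c.i := by
    apply MvPolynomial.algHom_ext
    intro j
    change c.φ₀ (aeval c.yC (X j)) = aeval (fnRatio I c.i) (X j)
    rw [aeval_X, aeval_X]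
    rcases hj' : c.eqv.symm j with (u | s | b')
    · have h2 : j = c.i := by rw [← c.eqv_i, ← hj'.trans rfl, Equiv.apply_symm_apply]
      rw [h2, yC_i, map_one, fnRatio_self h.not_mem_i]
    · have h2 : j = c.S s := by rw [← c.eqv_S, ← hj', Equiv.apply_symm_apply]
      rw [h2, yC_S]
      unfold φ₀
      rw [aevalTower_C, aeval_X]; rfl
    · have h2 : j = c.J b' := by rw [← c.eqv_J, ← hj', Equiv.apply_symm_apply]
      rw [h2, yC_J]
      unfold φ₀
      rw [aevalTower_X]; rfl
  exact congrArg (fun f => f G) this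

theorem φ₀_v {c : CD I n} (h : c.Dom q) (hI : Hom I) (x : Sg N n) : c.φ₀ (c.v x) = 0 := by
  rcases x with (a | u)
  · change c.φ₀ (c.ρ (c.F a)) = 0
    rw [φ₀_ρ h, dh_eq_zero_of_mem hI h.not_mem_i (c.F_mem a)]
  · change c.φ₀ (c.ρ c.δ * X (Sum.inr ()) - 1) = 0
    rw [map_sub, map_mul, φ₀_ρ h, map_one]
    have : c.φ₀ (X (Sum.inr ())) = (c.δL)⁻¹ := by
      unfold φ₀; rw [aevalTower_X]; rfl
    rw [this]
    change c.δL * (c.δL)⁻¹ - 1 = 0
    rw [mul_inv_cancel₀ h.δL_ne, sub_self]

/-- the map `B' → FnField` -/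
def φ {c : CD I n} (h : c.Dom q) (hI : Hom I) : c.B' →ₐ[ℂ] FnField I :=
  Ideal.Quotient.liftₐ _ c.φ₀ (by
    intro a ha
    have h1 : Ideal.span (Set.range c.v) ≤ RingHom.ker c.φ₀ := by
      rw [Ideal.span_le]
      rintro _ ⟨x, rfl⟩
      exact φ₀_v h hI x
    exact h1 ha)


theorem range_φ {c : CD I n} (h : c.Dom q) (hI : Hom I) : (φ h hI).range = c.B := by
  apply le_antisymm
  · rintro _ ⟨b, rfl⟩
    obtain ⟨x, rfl⟩ := Ideal.Quotient.mk_surjective b
    change c.φ₀ x ∈ c.B
    have hr : ∀ j, fnRatio I c.i j ∈ c.B := fun j => Algebra.subset_adjoin (Or.inl ⟨j, rfl⟩)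
    have hinv : (c.δL)⁻¹ ∈ c.B := Algebra.subset_adjoin (Or.inr rfl)
    induction x using MvPolynomial.induction_on with
    | C a =>
      unfold φ₀
      rw [aevalTower_C]
      induction a using MvPolynomial.induction_on with
      | C a =>
        rw [← MvPolynomial.algebraMap_eq, AlgHom.commutes]
        exact c.B.algebraMap_mem a
      | add p q hp hq => rw [map_add]; exact c.B.add_mem hp hq
      | mul_X p s hp => rw [map_mul, aeval_X]; exact c.B.mul_mem hp (hr _)
    | add p q hp hq => rw [map_add]; exact c.B.add_mem hp hq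
    | mul_X p s hp =>
      rw [map_mul]
      refine c.B.mul_mem hp ?_
      unfold φ₀
      rw [aevalTower_X]
      rcases s with (b | u)
      · exact hr _
      · exact hinv
  · unfold B
    apply Algebra.adjoin_le
    rintro u (⟨j, rfl⟩ | hu)
    · refine ⟨Ideal.Quotient.mk _ (c.ρ (X j)), ?_⟩
      change c.φ₀ (c.ρ (X j)) = _
      rw [φ₀_ρ h]
      unfold dh; rw [aeval_X]
    · rw [Set.mem_singleton_iff] at hu
      subst hu
      refine ⟨Ideal.Quotient.mk _ (X (Sum.inr ())), ?_⟩
      change c.φ₀ (X (Sum.inr ())) = _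
      unfold φ₀; rw [aevalTower_X]; rfl

theorem fnRatio_mem_B (j : Fin (N + 1)) : fnRatio I c.i j ∈ c.B :=
  Algebra.subset_adjoin (Or.inl ⟨j, rfl⟩)


theorem dh_mem_B (G : HomCoordRing N) : dh I c.i G ∈ c.B := by
  have h1 : chartRing I c.i ≤ c.B := by
    unfold chartRing B
    exact Algebra.adjoin_mono (fun x hx => Or.inl hx)
  exact h1 (dh_mem_chartRing c.i G)

/-- the ratios as elements of `B c` -/
def yB (j : Fin (N + 1)) : c.B := ⟨fnRatio I c.i j, c.fnRatio_mem_B j⟩

/-- the étale coordinates `w_s` as elements of `B c` -/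
def zB (s : Fin n) : c.B := c.yB (c.S s)

/-- **`B c` is étale over `ℂ[w_1, …, w_n]`.** -/
theorem Dom.etale {c : CD I n} (h : c.Dom q) (hX : IsSmoothProjective I n) :
    ((aeval c.zB : MvPolynomial (Fin n) ℂ →ₐ[ℂ] c.B) : MvPolynomial (Fin n) ℂ →+* c.B).Etale := by
  have hI : Hom I := hX.homogeneous
  obtain ⟨Dl, hDl⟩ := exists_dualL h hX
  have hX' : ∀ s : Fin n, φ h hI (c.gB' (X s)) = c.wL s := by
    intro s
    change c.φ₀ (C (X s)) = _
    unfold φ₀
    rw [aevalTower_C, aeval_X]
  have h1 := etale_range c.gB' c.gB'_etale (φ h hI) Dl (fun s t => by rw [hX']; exact hDl s t)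
  -- transport along the equality of subalgebras
  let e : (φ h hI).range ≃ₐ[ℂ] c.B := Subalgebra.equivOfEq _ _ (range_φ h hI)
  have h2 : (e.toRingEquiv.toRingHom).Etale := RingHom.Etale.of_bijective e.bijective
  have h3 := RingHom.Etale.stableUnderComposition _ _ h1 h2
  have h4 : ((aeval c.zB : MvPolynomial (Fin n) ℂ →ₐ[ℂ] c.B) : MvPolynomial (Fin n) ℂ →+* c.B) =
      e.toRingEquiv.toRingHom.comp (((φ h hI).rangeRestrict.comp c.gB').toRingHom) := by
    have h5 : (aeval c.zB : MvPolynomial (Fin n) ℂ →ₐ[ℂ] c.B) =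
        e.toAlgHom.comp ((φ h hI).rangeRestrict.comp c.gB') := by
      apply MvPolynomial.algHom_ext
      intro s
      rw [aeval_X]
      apply Subtype.ext
      exact (hX' s).symm
    rw [h5]; rfl
  rw [h4]; exact h3

end Crest.Agent.R269.DictC_795.CD
end
end

-- ▼ part R269/DictG2_795

/-!
Row 269, DICT, part G2: points of the étale chart `B c`, its elements, finite type.
-/

set_option autoImplicit false
set_option linter.unusedSectionVars false

open MvPolynomial Crest.AlgGeometry.ProjEmb
open Crest.Agent.R269.DictA_795 Crest.Agent.R269.DictB_795 Crest.Agent.R269.DictC_795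
open Crest.Agent.R269.DictD_795 Crest.Agent.R269.DictE_795 Crest.Agent.R269.DictF_795

noncomputable section

namespace Crest.Agent.R269.DictC_795.CD

variable {N n : ℕ} {I : Ideal (HomCoordRing N)} [I.IsPrime] (c : CD I n) {q : Fin (N + 1) → ℂ}

theorem chartRing_le_B : chartRing I c.i ≤ c.B := by
  unfold chartRing B
  exact Algebra.adjoin_mono (fun _ hx => Or.inl hx)

theorem B_finiteType : Algebra.FiniteType ℂ c.B := by
  rw [← Subalgebra.fg_iff_finiteType]
  have hfin : (Set.range (fnRatio I c.i) ∪ {(c.δL)⁻¹}).Finite :=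
    (Set.finite_range _).union (Set.finite_singleton _)
  exact ⟨hfin.toFinset, by rw [Set.Finite.coe_toFinset]; rfl⟩


theorem ev_δ {c : CD I n} (h : c.Dom q) : ev h.cone (dhA h.cone h.i c.δ) ≠ 0 := by
  rw [ev_dhA h.cone h.i c.δ_hom]
  exact div_ne_zero h.δ (pow_ne_zero _ h.i)

/-- the chart algebra is contained in the local rings of its points -/
theorem Dom.B_le {c : CD I n} (h : c.Dom q) : c.B ≤ stalk I q := by
  unfold B
  apply Algebra.adjoin_le
  rintro u (⟨j, rfl⟩ | hu)
  · exact fnRatio_mem_stalk h.cone h.i j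
  · rw [Set.mem_singleton_iff] at hu
    subst hu
    obtain ⟨v, hv⟩ := isUnit_of_ev_ne h.cone _ (ev_δ h)
    have h1 : ((v⁻¹ : (stalk I q)ˣ) : stalk I q) * dhA h.cone h.i c.δ = 1 := by
      rw [← hv]; exact v.inv_mul
    have h2 : (((v⁻¹ : (stalk I q)ˣ) : stalk I q) : FnField I) * c.δL = 1 := by
      have h3 := congrArg Subtype.val h1
      have h4 : ((dhA h.cone h.i c.δ : stalk I q) : FnField I) = c.δL := coe_dhA h.cone h.i c.δ
      change (((v⁻¹ : (stalk I q)ˣ) : stalk I q) : FnField I) * (dhA h.cone h.i c.δ : FnField I) = 1 at h3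
      rw [h4] at h3
      exact h3
    rw [← eq_inv_of_mul_eq_one_left h2]
    exact (v⁻¹ : (stalk I q)ˣ).1.2

/-- inclusion of the chart algebra in the local ring -/
def Dom.toStalk {c : CD I n} (h : c.Dom q) : c.B →ₐ[ℂ] stalk I q := Subalgebra.inclusion h.B_le

/-- the point of `Hom(B c, ℂ)` defined by the cone point `q` -/
def Dom.pt {c : CD I n} (h : c.Dom q) : c.B →ₐ[ℂ] ℂ := (ev h.cone).comp h.toStalk

theorem Dom.pt_yB {c : CD I n} (h : c.Dom q) (j : Fin (N + 1)) : h.pt (c.yB j) = q j / q c.i :=
  ev_yA h.cone h.i j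








end Crest.Agent.R269.DictC_795.CD
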