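import Mathlib
import Crest.Agent.R269.GeoT_328
import Crest.Agent.R269.DefsS_731
import Crest.Agent.R269.Defs_58

/-!
# R269 (S0411), Line B, WOLD-INST: the fibres `Tan I p ∧ p` (helper402)

`FF N` : Hilbert space of `(N+1) × (N+1)` matrices; `wE V p = V ∧ p`; `hor v p` = horizontal representative
of `v = V ∧ p`; `Fib I p = {V ∧ p | V ∈ Tan I p}`.
-/

set_option autoImplicit false

open MvPolynomial Crest.AlgGeometry.ProjEmb Crest.Agent.R269.Geo_328 Crest.Agent.R269.DefsS_731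
open Crest.Agent.R269.Defs_58 Filter
open scoped ContDiff Topology ComplexConjugate

namespace Crest.Agent.R269.Fib_402

noncomputable section

variable {N n : ℕ} {I : Ideal (HomCoordRing N)}

/-- Hilbert space of matrices -/
abbrev FF (N : ℕ) : Type := EuclideanSpace ℂ (Fin (N + 1) × Fin (N + 1))

/-- `V ∧ p` in the Hilbert space of matrices -/
def wE (V p : EE N) : FF N := WithLp.toLp 2 (fun ij => wdg V p ij.1 ij.2)

@[simp] theorem wE_apply (V p : EE N) (ij : Fin (N + 1) × Fin (N + 1)) :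
    wE V p ij = V ij.1 * p ij.2 - V ij.2 * p ij.1 := rfl

/-- horizontal representative of `v = V ∧ p` -/
def hor (v : FF N) (p : EE N) : EE N := fun i => (∑ j, v (i, j) * conj (p j)) / (nsq p : ℂ)

theorem nsq_pos {p : EE N} (hp : p ≠ 0) : 0 < nsq p := by
  obtain ⟨i, hi⟩ : ∃ i, p i ≠ 0 := by
    by_contra h
    push Not at h
    exact hp (funext h)
  refine Finset.sum_pos' (fun j _ => by positivity) ⟨i, Finset.mem_univ i, ?_⟩
  have : 0 < ‖p i‖ := norm_pos_iff.mpr hi
  positivity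

theorem nsq_eq_sum_mul_conj (p : EE N) : (nsq p : ℂ) = ∑ j, p j * conj (p j) := by
  simp only [nsq, Complex.ofReal_sum, Complex.ofReal_pow]
  refine Finset.sum_congr rfl fun j _ => ?_
  rw [Complex.mul_conj, Complex.normSq_eq_norm_sq]
  push_cast
  rfl

theorem hor_wE {p : EE N} (hp : p ≠ 0) (V : EE N) :
    hor (wE V p) p = V - ((∑ j, V j * conj (p j)) / (nsq p : ℂ)) • p := by
  have h0 : (nsq p : ℂ) ≠ 0 := by exact_mod_cast (nsq_pos hp).ne'
  funext i
  simp only [hor, wE_apply, Pi.sub_apply, Pi.smul_apply, smul_eq_mul]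
  have : ∑ j, (V i * p j - V j * p i) * conj (p j)
      = V i * (nsq p : ℂ) - (∑ j, V j * conj (p j)) * p i := by
    rw [nsq_eq_sum_mul_conj, Finset.mul_sum, Finset.sum_mul, ← Finset.sum_sub_distrib]
    refine Finset.sum_congr rfl fun j _ => ?_
    ring
  rw [this, sub_div, mul_div_cancel_right₀ _ h0]
  ring

/-- `V ↦ V ∧ p` as a linear map -/
def wL (p : EE N) : EE N →ₗ[ℂ] FF N where
  toFun V := wE V p
  map_add' V W := by
    ext ij
    simp only [wE_apply, PiLp.add_apply, Pi.add_apply]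
    ring
  map_smul' c V := by
    ext ij
    simp only [wE_apply, PiLp.smul_apply, Pi.smul_apply, smul_eq_mul, RingHom.id_apply]
    ring

@[simp] theorem wL_apply (p V : EE N) : wL p V = wE V p := rfl

theorem wE_self (p : EE N) : wE p p = 0 := by
  ext ij
  simp only [wE_apply, PiLp.zero_apply]
  ring

theorem wE_smul_self (c : ℂ) (p : EE N) : wE (c • p) p = 0 := by
  have := (wL p).map_smul c p
  rw [wL_apply, wL_apply, wE_self, smul_zero] at this
  exact this

theorem wE_hor_wE {p : EE N} (hp : p ≠ 0) (V : EE N) : wE (hor (wE V p) p) p = wE V p := by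
  rw [hor_wE hp]
  have := (wL p).map_sub V (((∑ j, V j * conj (p j)) / (nsq p : ℂ)) • p)
  simp only [wL_apply, wE_smul_self, sub_zero] at this
  exact this

theorem wE_eq_zero_iff {p : EE N} (hp : p ≠ 0) {V : EE N} :
    wE V p = 0 ↔ ∃ c : ℂ, V = c • p := by
  constructor
  · intro h
    have h1 := hor_wE hp V
    rw [h] at h1
    refine ⟨(∑ j, V j * conj (p j)) / (nsq p : ℂ), ?_⟩
    have h2 : hor (0 : FF N) p = 0 := by
      funext i
      simp [hor]
    rw [h2] at h1
    exact (sub_eq_zero.mp h1.symm)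
  · rintro ⟨c, rfl⟩
    exact wE_smul_self c p

/-- `|V ∧ p|² = 2 |p|⁴ ω_p(V)` -/
theorem norm_sq_wE {p : EE N} (hp : p ≠ 0) (V : EE N) :
    ‖wE V p‖ ^ 2 = 2 * nsq p ^ 2 * omg p V := by
  have h0 : (nsq p) ≠ 0 := (nsq_pos hp).ne'
  have h1 : ‖wE V p‖ ^ 2 = 2 * (nsq p * nsq V - ‖∑ i, V i * conj (p i)‖ ^ 2) := by
    rw [EuclideanSpace.norm_sq_eq]
    have h2 : ((∑ ij : Fin (N + 1) × Fin (N + 1), ‖wE V p ij‖ ^ 2 : ℝ) : ℂ)
        = ((2 * (nsq p * nsq V - ‖∑ i, V i * conj (p i)‖ ^ 2) : ℝ) : ℂ) := by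
      push_cast
      have h3 : ∀ z : ℂ, ((‖z‖ : ℂ)) ^ 2 = z * conj z := by
        intro z
        rw [Complex.mul_conj, Complex.normSq_eq_norm_sq]
        push_cast
        rfl
      rw [nsq_eq_sum_mul_conj, nsq_eq_sum_mul_conj, h3, Fintype.sum_prod_type]
      simp only [h3, wE_apply, map_sub, map_mul, map_sum, Complex.conj_conj]
      have e1 : ∀ i j : Fin (N + 1), (V i * p j - V j * p i) * (conj (V i) * conj (p j)
          - conj (V j) * conj (p i)) = (V i * conj (V i)) * (p j * conj (p j))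
          + (p i * conj (p i)) * (V j * conj (V j))
          - (V i * conj (p i)) * (conj (V j) * p j) - (conj (V i) * p i) * (V j * conj (p j)) := by
        intro i j
        ring
      simp only [e1, Finset.sum_sub_distrib, Finset.sum_add_distrib]
      simp only [← Finset.mul_sum, ← Finset.sum_mul]
      ring
    exact_mod_cast h2
  rw [h1, omg]
  change _ = 2 * nsq p ^ 2 * ((nsq p * nsq V - _) / nsq p ^ 2)
  field_simp

/-- the fibre `Tan I p ∧ p` -/
def Fib (I : Ideal (HomCoordRing N)) (p : EE N) : Submodule ℂ (FF N) := (Tan I p).map (wL p)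

theorem mem_Fib_iff {p : EE N} {v : FF N} : v ∈ Fib I p ↔ ∃ V ∈ Tan I p, wE V p = v := by
  simp [Fib, Submodule.mem_map]

theorem mem_Fib (hX : IsSmoothProjective I n) {p : EE N} (hp : p ∈ Cone I) {v : FF N} :
    v ∈ Fib I p ↔ hor v p ∈ Tan I p ∧ wE (hor v p) p = v := by
  rw [mem_Fib_iff]
  constructor
  · rintro ⟨V, hV, rfl⟩
    refine ⟨?_, wE_hor_wE hp.2 V⟩
    rw [hor_wE hp.2]
    exact (Tan I p).sub_mem hV ((Tan I p).smul_mem _ (self_mem_Tan hX hp.1))
  · rintro ⟨h1, h2⟩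
    exact ⟨_, h1, h2⟩

theorem hor_perp {p : EE N} (hp : p ≠ 0) (V : EE N) :
    ∑ j, hor (wE V p) p j * conj (p j) = 0 := by
  have h0 : (nsq p : ℂ) ≠ 0 := by exact_mod_cast (nsq_pos hp).ne'
  rw [hor_wE hp]
  simp only [Pi.sub_apply, Pi.smul_apply, smul_eq_mul, sub_mul, Finset.sum_sub_distrib, mul_assoc]
  rw [← Finset.mul_sum, ← nsq_eq_sum_mul_conj, div_mul_cancel₀ _ h0, sub_self]


theorem tendsto_wE {α : Type*} {l : Filter α} {V p : α → EE N} {V₀ p₀ : EE N}
    (h1 : Tendsto V l (𝓝 V₀)) (h2 : Tendsto p l (𝓝 p₀)) :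
    Tendsto (fun x => wE (V x) (p x)) l (𝓝 (wE V₀ p₀)) := by
  have h3 : Tendsto (fun x => (fun ij : Fin (N + 1) × Fin (N + 1) =>
      V x ij.1 * p x ij.2 - V x ij.2 * p x ij.1)) l
      (𝓝 (fun ij => V₀ ij.1 * p₀ ij.2 - V₀ ij.2 * p₀ ij.1)) := by
    rw [tendsto_pi_nhds]
    intro ij
    exact ((tendsto_pi_nhds.mp h1 ij.1).mul (tendsto_pi_nhds.mp h2 ij.2)).sub
      ((tendsto_pi_nhds.mp h1 ij.2).mul (tendsto_pi_nhds.mp h2 ij.1))
  have h4 := ((PiLp.continuous_toLp 2 (fun _ : Fin (N + 1) × Fin (N + 1) => ℂ)).tendsto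
    (fun ij => V₀ ij.1 * p₀ ij.2 - V₀ ij.2 * p₀ ij.1)).comp h3
  exact h4

/-- the fibre condition is closed -/
theorem mem_Fib_of_tendsto (hX : IsSmoothProjective I n) {α : Type*} {l : Filter α} [l.NeBot]
    {p : α → EE N} {v : α → FF N} {p₀ : EE N} {v₀ : FF N}
    (hp : ∀ᶠ x in l, p x ∈ Cone I) (hv : ∀ᶠ x in l, v x ∈ Fib I (p x)) (hp₀ : p₀ ∈ Cone I)
    (h1 : Tendsto p l (𝓝 p₀)) (h2 : Tendsto v l (𝓝 v₀)) : v₀ ∈ Fib I p₀ := by
  have h0 : (nsq p₀ : ℂ) ≠ 0 := by exact_mod_cast (nsq_pos hp₀.2).ne'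
  have hcn : Continuous (nsq : EE N → ℝ) := by
    unfold nsq
    fun_prop
  have h3 : Tendsto (fun x => hor (v x) (p x)) l (𝓝 (hor v₀ p₀)) := by
    rw [tendsto_pi_nhds]
    intro i
    simp only [hor]
    have hn : Tendsto (fun x => (nsq (p x) : ℂ)) l (𝓝 (nsq p₀ : ℂ)) :=
      (Complex.continuous_ofReal.comp hcn).continuousAt.tendsto.comp h1
    refine Tendsto.div (tendsto_finsetSum _ fun j _ => ?_) hn h0
    refine Tendsto.mul ?_ ?_
    · exact ((PiLp.continuous_apply 2 _ (i, j)).tendsto v₀).comp h2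
    · exact (Complex.continuous_conj.tendsto _).comp ((tendsto_pi_nhds.mp h1) j)
  have hev : ∀ᶠ x in l, hor (v x) (p x) ∈ Tan I (p x) ∧ wE (hor (v x) (p x)) (p x) = v x := by
    filter_upwards [hp, hv] with x hx1 hx2
    exact (mem_Fib hX hx1).mp hx2
  rw [mem_Fib hX hp₀]
  constructor
  · intro F hF
    have h4 : Tendsto (fun x => dP F (p x) (hor (v x) (p x))) l (𝓝 (dP F p₀ (hor v₀ p₀))) := by
      simp only [dP_eq]
      refine tendsto_finsetSum _ fun j _ => ?_
      refine Tendsto.mul ?_ ((tendsto_pi_nhds.mp h3) j)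
      exact ((MvPolynomial.continuous_eval (pderiv j F)).tendsto p₀).comp h1
    have h5 : Tendsto (fun x => dP F (p x) (hor (v x) (p x))) l (𝓝 0) := by
      refine tendsto_const_nhds.congr' ?_
      filter_upwards [hev] with x hx
      exact (hx.1 F hF).symm
    exact tendsto_nhds_unique h4 h5
  · have h4 : Tendsto (fun x => wE (hor (v x) (p x)) (p x)) l (𝓝 (wE (hor v₀ p₀) p₀)) :=
      tendsto_wE h3 h1
    have h5 : Tendsto (fun x => wE (hor (v x) (p x)) (p x)) l (𝓝 v₀) := by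
      refine h2.congr' ?_
      filter_upwards [hev] with x hx
      exact hx.2.symm
    exact tendsto_nhds_unique h4 h5

theorem finrank_Fib (hX : IsSmoothProjective I n) {p : EE N} (hp : p ∈ Cone I) :
    Module.finrank ℂ (Fib I p) = n := by
  have h1 := LinearMap.finrank_range_add_finrank_ker ((wL p).domRestrict (Tan I p))
  rw [finrank_Tan hX hp] at h1
  have h2 : LinearMap.range ((wL p).domRestrict (Tan I p)) = Fib I p := by
    rw [LinearMap.range_domRestrict]
    rfl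
  have h3 : Module.finrank ℂ (LinearMap.ker ((wL p).domRestrict (Tan I p))) = 1 := by
    have hps : p ∈ Tan I p := self_mem_Tan hX hp.1
    refine finrank_eq_one (⟨⟨p, hps⟩, by simp [wE_self]⟩ :
      LinearMap.ker ((wL p).domRestrict (Tan I p))) ?_ ?_
    · intro h
      apply hp.2
      have := congrArg (fun x => ((x : LinearMap.ker ((wL p).domRestrict (Tan I p))) : Tan I p).1) h
      simpa using this
    · rintro ⟨⟨V, hV⟩, hk⟩
      have hk' : wE V p = 0 := by simpa using hk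
      obtain ⟨c, hc⟩ := (wE_eq_zero_iff hp.2).mp hk'
      refine ⟨c, ?_⟩
      apply Subtype.ext
      apply Subtype.ext
      simp [hc]
  rw [h2, h3] at h1
  omega


end

end Crest.Agent.R269.Fib_402
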