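import Mathlib
import Crest.Agent.R269.DetIneq_271

-- ▼ part R269/Frm_290
section

/-!
# Row 269, leaf FRAMES (helper290), Part 3 of Blueprint_646, bundle version

Spectral factorisation on a sub-bundle `im Q` of the trivial bundle over the closed disc, reduced
to the spectral factorisation on the trivial bundle (leaf L1).
-/

set_option autoImplicit false
open Matrix Complex Metric
open scoped ComplexConjugate ComplexOrder

noncomputable section
namespace Crest.Agent.R269.Frm290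

/-! ## Functions continuous on the closed disc and holomorphic inside -/







/-! ## Matrices with entries in a class of functions -/

/-- all entries of the matrix function `M` belong to `A` -/
def MA {S : Type*} [SetLike S (ℂ → ℂ)] (A : S) {m n : Type*} (M : ℂ → Matrix m n ℂ) : Prop :=
  ∀ i j, (fun z => M z i j) ∈ A

section MA
variable {S : Type*} [SetLike S (ℂ → ℂ)] {A : S} {m n p : Type*}

lemma MA.mul [SubsemiringClass S (ℂ → ℂ)] [Fintype n] {M : ℂ → Matrix m n ℂ}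
    {N : ℂ → Matrix n p ℂ} (hM : MA A M) (hN : MA A N) : MA A (fun z => M z * N z) := by
  intro i j
  have : (fun z => (M z * N z) i j) = ∑ k, (fun z => M z i k) * (fun z => N z k j) := by
    ext z; simp [Matrix.mul_apply]
  rw [this]
  exact sum_mem fun k _ => mul_mem (hM i k) (hN k j)

lemma MA.add [SubsemiringClass S (ℂ → ℂ)] {M N : ℂ → Matrix m n ℂ}
    (hM : MA A M) (hN : MA A N) : MA A (fun z => M z + N z) := by
  intro i j
  have : (fun z => (M z + N z) i j) = (fun z => M z i j) + (fun z => N z i j) := by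
    ext z; simp
  rw [this]; exact add_mem (hM i j) (hN i j)

lemma MA.sub [SubringClass S (ℂ → ℂ)] {M N : ℂ → Matrix m n ℂ}
    (hM : MA A M) (hN : MA A N) : MA A (fun z => M z - N z) := by
  intro i j
  have : (fun z => (M z - N z) i j) = (fun z => M z i j) - (fun z => N z i j) := by
    ext z; simp
  rw [this]; exact sub_mem (hM i j) (hN i j)

end MA

lemma MA.const (A : Subalgebra ℂ (ℂ → ℂ)) {m n : Type*} (M : Matrix m n ℂ) :
    MA A (fun _ => M) := by
  intro i j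
  have : (fun _ : ℂ => M i j) = algebraMap ℂ (ℂ → ℂ) (M i j) := by
    ext z; simp
  rw [this]; exact A.algebraMap_mem _

lemma MA.one (A : Subalgebra ℂ (ℂ → ℂ)) {m : Type*} [DecidableEq m] :
    MA A (fun _ => (1 : Matrix m m ℂ)) := MA.const A 1

lemma MB.one (B : StarSubalgebra ℂ (ℂ → ℂ)) {m : Type*} [DecidableEq m] :
    MA B (fun _ => (1 : Matrix m m ℂ)) := MA.const B.toSubalgebra 1

lemma MB.conjT {B : StarSubalgebra ℂ (ℂ → ℂ)} {m n : Type*} {M : ℂ → Matrix m n ℂ}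
    (hM : MA B M) : MA B (fun z => (M z)ᴴ) := by
  intro i j
  have : (fun z => (M z)ᴴ i j) = star (fun z => M z j i) := by
    ext z; simp
  rw [this]; exact star_mem (hM j i)





end Crest.Agent.R269.Frm290
end
end

-- ▼ part R269/Frm2_290

/-!
# Row 269, leaf FRAMES (helper290), second file: the Gram determinant `D(p,b)`, frames of `f*TX`,
the functionals `k(f)`, `T(f)`.
-/

set_option autoImplicit false
set_option linter.unusedSectionVars false
open Matrix Complex Metric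
open scoped ComplexConjugate ComplexOrder

noncomputable section
namespace Crest.Agent.R269.Frm290

variable {ι : Type*} [Fintype ι] [DecidableEq ι] {κ : Type*} [Fintype κ] [DecidableEq κ]

/-! ## The Fubini-Study Gram matrix -/

/-- `|p|²` -/
def nsq (p : ι → ℂ) : ℝ := ∑ i, ‖p i‖ ^ 2

lemma nsq_nonneg (p : ι → ℂ) : 0 ≤ nsq p := Finset.sum_nonneg fun i _ => by positivity

lemma nsq_pos {p : ι → ℂ} (hp : p ≠ 0) : 0 < nsq p := by
  obtain ⟨i, hi⟩ := Function.ne_iff.1 hp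
  have hi' : p i ≠ 0 := hi
  exact Finset.sum_pos' (fun i _ => by positivity) ⟨i, Finset.mem_univ _, by positivity⟩

lemma nsq_eq_zero {p : ι → ℂ} : nsq p = 0 ↔ p = 0 := by
  constructor
  · intro h
    by_contra hp
    exact (nsq_pos hp).ne' h
  · rintro rfl; simp [nsq]

lemma star_dot_self (p : ι → ℂ) : star p ⬝ᵥ p = (nsq p : ℂ) := by
  simp only [nsq, dotProduct, Pi.star_apply, RCLike.star_def]
  push_cast
  exact Finset.sum_congr rfl fun i _ => Complex.conj_mul' (p i)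

lemma nsq_smul (c : ℂ) (p : ι → ℂ) : nsq (c • p) = ‖c‖ ^ 2 * nsq p := by
  simp only [nsq, Pi.smul_apply, smul_eq_mul, norm_mul, mul_pow, Finset.mul_sum]

/-- orthogonal projection onto the orthogonal complement of `p` -/
def prj (p : ι → ℂ) : Matrix ι ι ℂ := 1 - ((nsq p : ℂ))⁻¹ • vecMulVec p (star p)

/-- Gram matrix of the Fubini-Study form `ω` at `p` : `v* g v = (|v|²|p|² - |<v,p>|²)/|p|⁴`. -/
def gmat (p : ι → ℂ) : Matrix ι ι ℂ := ((nsq p : ℂ))⁻¹ • prj p

lemma prj_isHermitian (p : ι → ℂ) : (prj p).IsHermitian := by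
  unfold prj
  refine Matrix.isHermitian_one.sub ?_
  rw [Matrix.IsHermitian, Matrix.conjTranspose_smul, Matrix.conjTranspose_vecMulVec]
  simp

lemma prj_mulVec (p v : ι → ℂ) : prj p *ᵥ v = v - (((nsq p : ℂ))⁻¹ * (star p ⬝ᵥ v)) • p := by
  rw [prj, Matrix.sub_mulVec, Matrix.one_mulVec, Matrix.smul_mulVec, Matrix.vecMulVec_mulVec]
  congr 1
  ext i
  simp [mul_comm, mul_left_comm]

lemma prj_mulVec_self {p : ι → ℂ} (hp : p ≠ 0) : prj p *ᵥ p = 0 := by
  have h : (nsq p : ℂ) ≠ 0 := by exact_mod_cast (nsq_pos hp).ne'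
  rw [prj_mulVec, star_dot_self, inv_mul_cancel₀ h, one_smul, sub_self]

lemma star_vecMul_prj {p : ι → ℂ} (hp : p ≠ 0) : star p ᵥ* prj p = 0 := by
  have h := congrArg star (prj_mulVec_self hp)
  rw [Matrix.star_mulVec, (prj_isHermitian p).eq] at h
  simpa using h

lemma prj_mul_prj {p : ι → ℂ} (hp : p ≠ 0) : prj p * prj p = prj p := by
  conv_lhs => arg 1; rw [prj]
  rw [Matrix.sub_mul, Matrix.one_mul, Matrix.smul_mul, Matrix.vecMulVec_mul, star_vecMul_prj hp]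
  simp

lemma gmat_isHermitian (p : ι → ℂ) : (gmat p).IsHermitian := by
  unfold gmat
  rw [Matrix.IsHermitian, Matrix.conjTranspose_smul, (prj_isHermitian p).eq]
  simp

lemma gmat_mulVec_self {p : ι → ℂ} (hp : p ≠ 0) : gmat p *ᵥ p = 0 := by
  rw [gmat, Matrix.smul_mulVec, prj_mulVec_self hp, smul_zero]


lemma gmat_eq {p : ι → ℂ} (hp : p ≠ 0) :
    gmat p = ((nsq p : ℂ))⁻¹ • ((prj p)ᴴ * prj p) := by
  rw [(prj_isHermitian p).eq, prj_mul_prj hp, gmat]

lemma inv_nsq_nonneg (p : ι → ℂ) : (0 : ℂ) ≤ ((nsq p : ℂ))⁻¹ := by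
  rw [← Complex.ofReal_inv, Complex.zero_le_real]
  exact inv_nonneg.2 (nsq_nonneg p)

lemma gmat_posSemidef {p : ι → ℂ} (hp : p ≠ 0) : (gmat p).PosSemidef := by
  rw [gmat_eq hp]
  exact (Matrix.posSemidef_conjTranspose_mul_self _).smul (inv_nsq_nonneg p)

lemma gmat_dot {p : ι → ℂ} (hp : p ≠ 0) (v : ι → ℂ) :
    star v ⬝ᵥ (gmat p *ᵥ v) = ((nsq p)⁻¹ * nsq (prj p *ᵥ v) : ℝ) := by
  rw [gmat_eq hp, Matrix.smul_mulVec, dotProduct_smul, ← Matrix.mulVec_mulVec,
    Matrix.dotProduct_mulVec, ← Matrix.star_mulVec, star_dot_self]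
  push_cast; rfl

/-- `|v|_g² = (|v|²|p|² - |<v,p>|²)/|p|⁴` -/
lemma gmat_dot' {p : ι → ℂ} (hp : p ≠ 0) (v : ι → ℂ) :
    star v ⬝ᵥ (gmat p *ᵥ v) = ((nsq v * nsq p - ‖star p ⬝ᵥ v‖ ^ 2) / nsq p ^ 2 : ℝ) := by
  have h : (nsq p : ℂ) ≠ 0 := by exact_mod_cast (nsq_pos hp).ne'
  have e : star v ⬝ᵥ p = conj (star p ⬝ᵥ v) := by
    rw [← RCLike.star_def, ← Matrix.star_dotProduct_star, star_star]
  rw [gmat, Matrix.smul_mulVec, dotProduct_smul, prj_mulVec, dotProduct_sub, dotProduct_smul,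
    star_dot_self, e]
  simp only [smul_eq_mul]
  push_cast
  rw [← Complex.mul_conj' (star p ⬝ᵥ v)]
  field_simp

lemma gmat_smul {c : ℂ} (hc : c ≠ 0) (p : ι → ℂ) : gmat (c • p) = ((‖c‖ ^ 2 : ℝ) : ℂ)⁻¹ • gmat p := by
  have hc' : ((‖c‖ : ℂ)) ≠ 0 := by exact_mod_cast (norm_ne_zero_iff.2 hc)
  have hp : prj (c • p) = prj p := by
    unfold prj
    congr 1
    rw [nsq_smul]
    ext i j
    simp only [Matrix.smul_apply, Matrix.vecMulVec_apply, Pi.smul_apply, Pi.star_apply,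
      smul_eq_mul, star_mul', RCLike.star_def]
    push_cast
    rw [← Complex.mul_conj' c]
    by_cases h0 : (nsq p : ℂ) = 0
    · simp [h0]
    · have hcc : (starRingEnd ℂ) c ≠ 0 := by simpa using hc
      field_simp
  rw [gmat, gmat, hp, nsq_smul, smul_smul]
  congr 1
  push_cast
  rw [mul_inv]

/-! ## Gram determinants -/

/-- the columns of `M` are linearly independent modulo `p` -/
def Indep (p : ι → ℂ) (M : Matrix ι κ ℂ) : Prop :=
  ∀ (c : κ → ℂ) (l : ℂ), M *ᵥ c = l • p → c = 0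

/-- Gram matrix -/
def gram (p : ι → ℂ) (M : Matrix ι κ ℂ) : Matrix κ κ ℂ := Mᴴ * gmat p * M

/-- `D(p,b) = det (g(b_i,b_j))` -/
def D (p : ι → ℂ) (M : Matrix ι κ ℂ) : ℝ := (gram p M).det.re

lemma gram_posSemidef {p : ι → ℂ} (hp : p ≠ 0) (M : Matrix ι κ ℂ) : (gram p M).PosSemidef :=
  (gmat_posSemidef hp).conjTranspose_mul_mul_same M


lemma gram_dot {p : ι → ℂ} (hp : p ≠ 0) (M : Matrix ι κ ℂ) (c : κ → ℂ) :
    star c ⬝ᵥ (gram p M *ᵥ c) = ((nsq p)⁻¹ * nsq (prj p *ᵥ (M *ᵥ c)) : ℝ) := by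
  rw [← gmat_dot hp, gram, ← Matrix.mulVec_mulVec, ← Matrix.mulVec_mulVec, Matrix.dotProduct_mulVec,
    ← Matrix.star_mulVec]


lemma D_nonneg {p : ι → ℂ} (hp : p ≠ 0) (M : Matrix ι κ ℂ) : 0 ≤ D p M :=
  DetIneq271.det_re_nonneg (gram_posSemidef hp M)


lemma gram_det_eq {p : ι → ℂ} (hp : p ≠ 0) (M : Matrix ι κ ℂ) : (gram p M).det = (D p M : ℂ) :=
  DetIneq271.det_eq_re (gram_posSemidef hp M)

lemma indep_of_D_ne {p : ι → ℂ} (hp : p ≠ 0) {M : Matrix ι κ ℂ} (h : D p M ≠ 0) : Indep p M := by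
  intro c l hc
  by_contra hc0
  have h1 : gram p M *ᵥ c = 0 := by
    rw [gram, ← Matrix.mulVec_mulVec, hc, ← Matrix.mulVec_mulVec, Matrix.mulVec_smul,
      gmat_mulVec_self hp]
    simp
  have h2 : (gram p M).det = 0 := by
    by_contra h3
    exact hc0 (Matrix.eq_zero_of_mulVec_eq_zero h3 h1)
  apply h
  rw [D, h2]; simp

lemma D_mul {p : ι → ℂ} (hp : p ≠ 0) (M : Matrix ι κ ℂ) (C : Matrix κ κ ℂ) :
    D p (M * C) = ‖C.det‖ ^ 2 * D p M := by
  have h1 : gram p (M * C) = Cᴴ * gram p M * C := by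
    simp only [gram, Matrix.conjTranspose_mul, Matrix.mul_assoc]
  have h2 : (gram p (M * C)).det = ((‖C.det‖ ^ 2 * D p M : ℝ) : ℂ) := by
    rw [h1, Matrix.det_mul, Matrix.det_mul, Matrix.det_conjTranspose, gram_det_eq hp]
    push_cast
    rw [← Complex.mul_conj' C.det, RCLike.star_def]
    ring
  rw [D, h2, Complex.ofReal_re]

lemma gram_add {p : ι → ℂ} (hp : p ≠ 0) (M : Matrix ι κ ℂ) (r : κ → ℂ) :
    gram p (M + vecMulVec p r) = gram p M := by
  have e1 : gmat p * vecMulVec p r = 0 := by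
    rw [Matrix.mul_vecMulVec, gmat_mulVec_self hp, Matrix.zero_vecMulVec]
  have e2 : (vecMulVec p r)ᴴ * gmat p = 0 := by
    have := congrArg Matrix.conjTranspose e1
    rwa [Matrix.conjTranspose_mul, (gmat_isHermitian p).eq, Matrix.conjTranspose_zero] at this
  rw [gram, Matrix.conjTranspose_add, Matrix.add_mul, e2, add_zero, Matrix.mul_add,
    Matrix.mul_assoc _ _ (vecMulVec p r), e1, Matrix.mul_zero, add_zero, gram]

lemma D_add {p : ι → ℂ} (hp : p ≠ 0) (M : Matrix ι κ ℂ) (r : κ → ℂ) :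
    D p (M + vecMulVec p r) = D p M := by rw [D, gram_add hp, D]

lemma gram_smul {c : ℂ} (hc : c ≠ 0) (p : ι → ℂ) (M : Matrix ι κ ℂ) :
    gram (c • p) (c • M) = gram p M := by
  have hc1 : (starRingEnd ℂ) c ≠ 0 := by simpa using hc
  have h1 : c * (((‖c‖ ^ 2 : ℝ) : ℂ)⁻¹ * (starRingEnd ℂ) c) = 1 := by
    push_cast
    rw [← Complex.mul_conj' c]
    field_simp
  rw [gram, gmat_smul hc, Matrix.conjTranspose_smul, Matrix.smul_mul, Matrix.mul_smul,
    Matrix.mul_smul, Matrix.smul_mul, Matrix.smul_mul, smul_smul, smul_smul, RCLike.star_def, gram]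
  have h2 : c * (starRingEnd ℂ) c * ((‖c‖ ^ 2 : ℝ) : ℂ)⁻¹ = 1 := by
    rw [← h1]; ring
  rw [h2, one_smul]

lemma D_smul {c : ℂ} (hc : c ≠ 0) (p : ι → ℂ) (M : Matrix ι κ ℂ) : D (c • p) (c • M) = D p M := by
  rw [D, gram_smul hc, D]

/-- AM-GM: `∑ |b_i|_g² ≥ n D(p,b)^{1/n}`. -/
lemma card_mul_le_trace [Nonempty κ] {p : ι → ℂ} (hp : p ≠ 0) (M : Matrix ι κ ℂ) :
    (Fintype.card κ : ℝ) * (D p M) ^ ((Fintype.card κ : ℝ)⁻¹) ≤ (gram p M).trace.re :=
  DetIneq271.card_mul_dn_le_trace (gram_posSemidef hp M)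



/-! ## Averages of log |f| -/




end Crest.Agent.R269.Frm290
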