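import Crest.Agent.R269.GeoP_328

-- ▼ part R269/GeoF_328
section

/-! # R269, leaf GEO: choice of equations and free coordinates; minors lie in the ideal (helper328) -/

set_option autoImplicit false

open MvPolynomial Crest.AlgGeometry.ProjEmb
open scoped ContDiff Topology ComplexConjugate

namespace Crest.Agent.R269.Geo_328

noncomputable section

variable {N n : ℕ} {I : Ideal (HomCoordRing N)}

/-- coordinates restricted to a subspace span its dual -/
theorem span_coord_restrict (K : Submodule ℂ (EE N)) :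
    Submodule.span ℂ (Set.range fun j : Fin (N + 1) =>
      (LinearMap.proj (R := ℂ) (φ := fun _ : Fin (N + 1) => ℂ) j).comp K.subtype) = ⊤ := by
  rw [eq_top_iff]
  rintro φ -
  obtain ⟨g, hg⟩ := LinearMap.exists_extend φ
  have h1 : φ = ∑ j, g (Pi.single j 1) •
      (LinearMap.proj (R := ℂ) (φ := fun _ : Fin (N + 1) => ℂ) j).comp K.subtype := by
    rw [← hg]
    ext v
    simp only [LinearMap.comp_apply, Submodule.subtype_apply, LinearMap.sum_apply,
      LinearMap.smul_apply, LinearMap.proj_apply, smul_eq_mul]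
    conv_lhs => rw [show (v : EE N) = ∑ j, (v : EE N) j • (Pi.single j (1 : ℂ) : EE N) from by
      ext k; simp [Finset.sum_apply, Pi.single_apply]]
    rw [map_sum]
    exact Finset.sum_congr rfl fun j _ => by rw [map_smul, smul_eq_mul, mul_comm]
  rw [h1]
  exact Submodule.sum_mem _ fun j _ => Submodule.smul_mem _ _ (Submodule.subset_span ⟨j, rfl⟩)

/-- equations `F` with independent gradients at `q₀` and free coordinates `J` -/
theorem exists_frame (hX : IsSmoothProjective I n) {q₀ : EE N} (hq₀ : q₀ ∈ Cone I)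
    {i : Fin (N + 1)} (hi : q₀ i ≠ 0) :
    ∃ (F : Fin (N - n) → HomCoordRing N) (J : Fin n → Fin (N + 1)), (∀ s, F s ∈ I) ∧
      Function.Injective J ∧ (∀ k, J k ≠ i) ∧
      (∀ v : EE N, (∀ s, dP (F s) q₀ v = 0) → v ∈ Tan I q₀) ∧
      ∀ v : EE N, v i = 0 → (∀ k, v (J k) = 0) → (∀ s, dP (F s) q₀ v = 0) → v = 0 := by
  classical
  -- the equations
  set S : Set (EE N) := {v : Fin (N + 1) → ℂ |
    ∃ F ∈ I, v = fun j => MvPolynomial.eval q₀ (MvPolynomial.pderiv j F)} with hS
  have hr : Module.finrank ℂ (Submodule.span ℂ S) = N - n := hX.jacobian q₀ hq₀.1 hq₀.2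
  obtain ⟨f, hfS, hfspan, -⟩ := Submodule.exists_fun_fin_finrank_span_eq ℂ S
  choose G hGI hG using hfS
  have hker : ∀ v : EE N, (∀ s : Fin (N - n), dP (G (Fin.cast hr.symm s)) q₀ v = 0) →
      v ∈ Tan I q₀ := by
    intro v hv F hF
    have h1 : gradP F q₀ ∈ Submodule.span ℂ (Set.range f) := by
      rw [hfspan]; exact Submodule.subset_span ⟨F, hF, rfl⟩
    have h2 : ∀ g ∈ Submodule.span ℂ (Set.range f), g ⬝ᵥ v = 0 := by
      intro g hg
      refine Submodule.span_induction (p := fun g _ => g ⬝ᵥ v = 0) ?_ ?_ ?_ ?_ hg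
      · rintro _ ⟨s, rfl⟩
        have := hv (Fin.cast hr s)
        rw [show Fin.cast hr.symm (Fin.cast hr s) = s from by ext; rfl] at this
        rw [hG s]
        exact this
      · simp
      · intro x y _ _ hx hy
        rw [add_dotProduct, hx, hy, add_zero]
      · intro a x _ hx
        rw [smul_dotProduct, hx, smul_zero]
    exact h2 _ h1
  -- the free coordinates
  set K : Submodule ℂ (EE N) := Tan I q₀ ⊓
    LinearMap.ker (LinearMap.proj (R := ℂ) (φ := fun _ : Fin (N + 1) => ℂ) i) with hK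
  have hKn : Module.finrank ℂ K = n := by
    set φ : Tan I q₀ →ₗ[ℂ] ℂ := (LinearMap.proj (R := ℂ) (φ := fun _ : Fin (N + 1) => ℂ) i).comp
      (Tan I q₀).subtype with hφ
    have hsurj : LinearMap.range φ = ⊤ := by
      rw [LinearMap.range_eq_top]
      intro c
      refine ⟨(c / q₀ i) • ⟨q₀, self_mem_Tan hX hq₀.1⟩, ?_⟩
      simp [hφ, div_mul_cancel₀ _ hi]
    have h1 := LinearMap.finrank_range_add_finrank_ker φ
    rw [hsurj, finrank_top, finrank_Tan hX hq₀, Module.finrank_self] at h1
    have h2 : Module.finrank ℂ (LinearMap.ker φ) = Module.finrank ℂ K := by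
      have h3 : (LinearMap.ker φ).map (Tan I q₀).subtype = K := by
        ext v
        simp only [Submodule.mem_map, LinearMap.mem_ker, Submodule.subtype_apply, hK, hφ,
          Submodule.mem_inf, LinearMap.comp_apply, LinearMap.proj_apply]
        constructor
        · rintro ⟨y, hy, rfl⟩
          exact ⟨y.2, hy⟩
        · rintro ⟨hv, hv2⟩
          exact ⟨⟨v, hv⟩, hv2, rfl⟩
      rw [← h3]
      exact (Submodule.equivMapOfInjective (Tan I q₀).subtype (Submodule.injective_subtype _)
        (LinearMap.ker φ)).finrank_eq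
    omega
  obtain ⟨g, hgS, hgspan, hgli⟩ := Submodule.exists_fun_fin_finrank_span_eq ℂ
    (Set.range fun j : Fin (N + 1) =>
      (LinearMap.proj (R := ℂ) (φ := fun _ : Fin (N + 1) => ℂ) j).comp K.subtype)
  have hgn : Module.finrank ℂ (Submodule.span ℂ (Set.range fun j : Fin (N + 1) =>
      (LinearMap.proj (R := ℂ) (φ := fun _ : Fin (N + 1) => ℂ) j).comp K.subtype)) = n := by
    rw [span_coord_restrict, finrank_top]
    rw [← hKn]
    exact Subspace.dual_finrank_eq
  have hgspan' := hgspan.trans (span_coord_restrict K)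
  choose j hj using hgS
  refine ⟨fun s => G (Fin.cast hr.symm s), fun k => j (Fin.cast hgn.symm k), fun s => hGI _, ?_,
    ?_, hker, ?_⟩
  · intro a b hab
    have h1 : g (Fin.cast hgn.symm a) = g (Fin.cast hgn.symm b) := by
      rw [← hj, ← hj]; simp only at hab; rw [hab]
    have h2 := hgli.injective h1
    exact Fin.cast_injective _ h2
  · intro k hk
    have h1 : g (Fin.cast hgn.symm k) = 0 := by
      rw [← hj]
      ext v
      have := v.2.2
      simp only [LinearMap.comp_apply, Submodule.subtype_apply, LinearMap.proj_apply,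
        LinearMap.zero_apply]
      have hk' : j (Fin.cast hgn.symm k) = i := hk
      rw [hk']
      exact this
    exact hgli.ne_zero _ h1
  · intro v hvi hvJ hvF
    have hvK : v ∈ K := ⟨hker v hvF, hvi⟩
    have h1 : ∀ φ ∈ Submodule.span ℂ (Set.range g), φ ⟨v, hvK⟩ = 0 := by
      intro φ hφ
      refine Submodule.span_induction (p := fun φ _ => φ ⟨v, hvK⟩ = 0) ?_ ?_ ?_ ?_ hφ
      · rintro _ ⟨s, rfl⟩
        rw [← hj]
        have : v (j (Fin.cast hgn.symm (Fin.cast hgn s))) = 0 := hvJ (Fin.cast hgn s)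
        rw [show Fin.cast hgn.symm (Fin.cast hgn s) = s from by ext; rfl] at this
        exact this
      · simp
      · intro x y _ _ hx hy
        rw [LinearMap.add_apply, hx, hy, add_zero]
      · intro a x _ hx
        rw [LinearMap.smul_apply, hx, smul_zero]
    have h2 : (⟨v, hvK⟩ : K) = 0 := by
      rw [← Module.forall_dual_apply_eq_zero_iff ℂ]
      intro φ
      exact h1 φ (by rw [hgspan']; trivial)
    exact congrArg Subtype.val h2

end

end Crest.Agent.R269.Geo_328
end

-- ▼ part R269/GeoM_328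
section

/-! # R269, leaf GEO: minors lie in the ideal, Cramer formula (helper328) -/

set_option autoImplicit false

open MvPolynomial Crest.AlgGeometry.ProjEmb
open scoped ContDiff Topology ComplexConjugate

namespace Crest.Agent.R269.Geo_328

noncomputable section

variable {N n : ℕ} {I : Ideal (HomCoordRing N)}

/-- index type of the rows -/
abbrev RI (N n : ℕ) : Type := Option (Fin n ⊕ Fin (N - n))

theorem card_RI (h : n ≤ N) : Fintype.card (RI N n) = N + 1 := by
  simp; omega

/-- a bijection between rows and columns -/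
def eRI (h : n ≤ N) : RI N n ≃ Fin (N + 1) := Fintype.equivFinOfCardEq (card_RI h)

/-- rows: coordinate `i`, coordinates `J k`, gradients of `F s` -/
def rowP (i : Fin (N + 1)) (J : Fin n → Fin (N + 1)) (F : Fin (N - n) → HomCoordRing N) :
    RI N n → Fin (N + 1) → HomCoordRing N
  | none => Pi.single i 1
  | some (Sum.inl k) => Pi.single (J k) 1
  | some (Sum.inr s) => fun j => pderiv j (F s)

/-- the matrix -/
def AM (h : n ≤ N) (i : Fin (N + 1)) (J : Fin n → Fin (N + 1)) (F : Fin (N - n) → HomCoordRing N) :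
    Matrix (RI N n) (RI N n) (HomCoordRing N) :=
  Matrix.of fun a b => rowP i J F a (eRI h b)

/-- the tangent vector field `θ_k` applied to `G` -/
def theta (h : n ≤ N) (i : Fin (N + 1)) (J : Fin n → Fin (N + 1)) (F : Fin (N - n) → HomCoordRing N)
    (k : Fin n) (G : HomCoordRing N) : HomCoordRing N :=
  ((AM h i J F).updateRow (some (Sum.inl k)) (fun b => pderiv (eRI h b) G)).det

theorem theta_mem [hI : I.IsPrime] (hX : IsSmoothProjective I n) (h : n ≤ N) (i : Fin (N + 1))
    (J : Fin n → Fin (N + 1)) {F : Fin (N - n) → HomCoordRing N} (hF : ∀ s, F s ∈ I) (k : Fin n)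
    {G : HomCoordRing N} (hG : G ∈ I) : theta h i J F k G ∈ I := by
  refine mem_of_vanish_Cone hX fun q hq => ?_
  rw [theta, RingHom.map_det]
  set M := (MvPolynomial.eval q).mapMatrix
    ((AM h i J F).updateRow (some (Sum.inl k)) (fun b => pderiv (eRI h b) G)) with hM
  by_contra hdet
  have hU : IsUnit M := (Matrix.isUnit_iff_isUnit_det M).2 (isUnit_iff_ne_zero.2 hdet)
  have hli := Matrix.linearIndependent_rows_iff_isUnit.2 hU
  -- the sub-family of gradients
  let c : Option (Fin (N - n)) → RI N n := fun a => match a with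
    | none => some (Sum.inl k)
    | some s => some (Sum.inr s)
  have hc : Function.Injective c := by
    intro a b hab
    cases a <;> cases b <;> simp_all [c]
  have hli2 := hli.comp c hc
  let w : Option (Fin (N - n)) → gradSpan I q := fun a => match a with
    | none => ⟨gradP G q, gradP_mem_gradSpan hG q⟩
    | some s => ⟨gradP (F s) q, gradP_mem_gradSpan (hF s) q⟩
  have hw : LinearIndependent ℂ w := by
    refine LinearIndependent.of_comp
      ((LinearMap.funLeft ℂ ℂ (eRI h)).comp (gradSpan I q).subtype) ?_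
    have : (⇑((LinearMap.funLeft ℂ ℂ (eRI h)).comp (gradSpan I q).subtype) ∘ w) = M.row ∘ c := by
      funext a
      cases a with
      | none =>
        funext b
        change gradP G q (eRI h b) = M (some (Sum.inl k)) b
        simp [hM, gradP]
      | some s =>
        funext b
        change gradP (F s) q (eRI h b) = M (some (Sum.inr s)) b
        simp [hM, gradP, AM, rowP, Matrix.updateRow_apply]
    rw [this]
    exact hli2
  have h1 := hw.fintype_card_le_finrank
  have h2 : Module.finrank ℂ (gradSpan I q) = N - n := hX.jacobian q hq.1 hq.2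
  rw [h2] at h1
  simp at h1

theorem det_updateRow_eq {ι R : Type*} [Fintype ι] [DecidableEq ι] [CommRing R]
    (A : Matrix ι ι R) (a : ι) (g : ι → R) :
    (A.updateRow a g).det = ∑ b, g b * A.adjugate b a := by
  rw [Matrix.det_eq_sum_mul_adjugate_row (A.updateRow a g) a]
  refine Finset.sum_congr rfl fun b _ => ?_
  rw [Matrix.updateRow_self, Matrix.adjugate_apply, Matrix.adjugate_apply, Matrix.updateRow_idem]

/-- evaluated matrix -/
def Aq (h : n ≤ N) (i : Fin (N + 1)) (J : Fin n → Fin (N + 1)) (F : Fin (N - n) → HomCoordRing N)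
    (q : EE N) : Matrix (RI N n) (RI N n) ℂ := (MvPolynomial.eval q).mapMatrix (AM h i J F)

/-- the components of the local coordinate system (derivative) -/
def compL (i : Fin (N + 1)) (J : Fin n → Fin (N + 1)) (F : Fin (N - n) → HomCoordRing N)
    (q v : EE N) : RI N n → ℂ
  | none => v i
  | some (Sum.inl k) => v (J k)
  | some (Sum.inr s) => dP (F s) q v

theorem Aq_mulVec (h : n ≤ N) (i : Fin (N + 1)) (J : Fin n → Fin (N + 1))
    (F : Fin (N - n) → HomCoordRing N) (q v : EE N) :
    (Aq h i J F q).mulVec (fun b => v (eRI h b)) = compL i J F q v := by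
  funext a
  have h1 : (Aq h i J F q).mulVec (fun b => v (eRI h b)) a =
      ∑ j, MvPolynomial.eval q (rowP i J F a j) * v j := by
    rw [Matrix.mulVec, dotProduct, ← Equiv.sum_comp (eRI h)]
    rfl
  rw [h1]
  rcases a with _ | (k | s)
  · simp [rowP, compL, Pi.single_apply, apply_ite (MvPolynomial.eval q)]
  · simp [rowP, compL, Pi.single_apply, apply_ite (MvPolynomial.eval q)]
  · simp [rowP, compL, dP_eq]

/-- the determinant polynomial -/
def DelP (h : n ≤ N) (i : Fin (N + 1)) (J : Fin n → Fin (N + 1))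
    (F : Fin (N - n) → HomCoordRing N) : HomCoordRing N := (AM h i J F).det

theorem eval_DelP (h : n ≤ N) (i : Fin (N + 1)) (J : Fin n → Fin (N + 1))
    (F : Fin (N - n) → HomCoordRing N) (q : EE N) :
    MvPolynomial.eval q (DelP h i J F) = (Aq h i J F q).det := by
  rw [DelP, RingHom.map_det]; rfl

theorem eval_theta (h : n ≤ N) (i : Fin (N + 1)) (J : Fin n → Fin (N + 1))
    (F : Fin (N - n) → HomCoordRing N) (k : Fin n) (G : HomCoordRing N) (q : EE N) :
    MvPolynomial.eval q (theta h i J F k G) =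
      ∑ b, gradP G q (eRI h b) * (Aq h i J F q).adjugate b (some (Sum.inl k)) := by
  rw [theta, RingHom.map_det, ← det_updateRow_eq]
  congr 1
  ext a b
  by_cases hak : a = some (Sum.inl k)
  · subst hak
    simp [gradP]
  · simp [Matrix.updateRow_apply, hak, Aq]

/-- CRAMER: derivative of `G` along a vector with `v i = 0`, `dF v = 0` -/
theorem cramer_dP (h : n ≤ N) (i : Fin (N + 1)) (J : Fin n → Fin (N + 1))
    (F : Fin (N - n) → HomCoordRing N) (G : HomCoordRing N) (q v : EE N) (hi : v i = 0)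
    (hF : ∀ s, dP (F s) q v = 0) :
    MvPolynomial.eval q (DelP h i J F) * dP G q v =
      ∑ k, v (J k) * MvPolynomial.eval q (theta h i J F k G) := by
  have h1 : (Aq h i J F q).det • (fun b => v (eRI h b)) =
      (Aq h i J F q).adjugate.mulVec (compL i J F q v) := by
    rw [← Aq_mulVec h, Matrix.mulVec_mulVec, Matrix.adjugate_mul, Matrix.smul_mulVec,
      Matrix.one_mulVec]
  have h2 : ∀ b, (Aq h i J F q).det * v (eRI h b) =
      ∑ k, (Aq h i J F q).adjugate b (some (Sum.inl k)) * v (J k) := by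
    intro b
    have := congrFun h1 b
    simp only [Pi.smul_apply, smul_eq_mul] at this
    rw [this, Matrix.mulVec, dotProduct, Fintype.sum_option, Fintype.sum_sum_type]
    simp [compL, hi, hF]
  rw [eval_DelP, dP, Finset.mul_sum, ← Equiv.sum_comp (eRI h)]
  simp only [eval_theta, Finset.mul_sum]
  rw [Finset.sum_comm]
  refine Finset.sum_congr rfl fun b _ => ?_
  calc (Aq h i J F q).det * (gradP G q (eRI h b) * v (eRI h b))
      = gradP G q (eRI h b) * ((Aq h i J F q).det * v (eRI h b)) := by ring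
    _ = _ := by
      rw [h2, Finset.mul_sum]
      exact Finset.sum_congr rfl fun k _ => by ring

/-- nonvanishing at the base point -/
theorem DelP_ne_zero (h : n ≤ N) {i : Fin (N + 1)} {J : Fin n → Fin (N + 1)}
    {F : Fin (N - n) → HomCoordRing N} {q : EE N}
    (hq : ∀ v : EE N, v i = 0 → (∀ k, v (J k) = 0) → (∀ s, dP (F s) q v = 0) → v = 0) :
    MvPolynomial.eval q (DelP h i J F) ≠ 0 := by
  rw [eval_DelP]
  intro hdet
  obtain ⟨w, hw0, hw⟩ := Matrix.exists_mulVec_eq_zero_iff.2 hdet
  apply hw0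
  have h1 : (fun b => (fun j => w ((eRI h).symm j)) (eRI h b)) = w := by
    funext b; simp
  have h2 := Aq_mulVec h i J F q (fun j => w ((eRI h).symm j))
  rw [h1, hw] at h2
  have h3 : (fun j => w ((eRI h).symm j)) = (0 : EE N) := by
    apply hq
    · exact (congrFun h2 none).symm
    · intro k
      exact (congrFun h2 (some (Sum.inl k))).symm
    · intro s
      exact (congrFun h2 (some (Sum.inr s))).symm
  rw [← h1, h3]
  rfl

end

end Crest.Agent.R269.Geo_328
private theorem rz_0b1cd37393 : type_of% @_root_.Crest.Agent.R269.Geo_328.compL.eq_1 := @_root_.Crest.Agent.R269.Geo_328.compL.eq_1 -- L96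
private theorem rz_04e3631dd8 : type_of% @_root_.Crest.Agent.R269.Geo_328.rowP.eq_1 := @_root_.Crest.Agent.R269.Geo_328.rowP.eq_1 -- L26
end

-- ▼ part R269/GeoC_328
section

/-! # R269, leaf GEO: the local chart theorem (helper328) -/

set_option autoImplicit false

open MvPolynomial Crest.AlgGeometry.ProjEmb
open scoped ContDiff Topology ComplexConjugate

namespace Crest.Agent.R269.Geo_328

noncomputable section

variable {N n : ℕ} {I : Ideal (HomCoordRing N)}

/-- components of the coordinate map -/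
def PhiC (i : Fin (N + 1)) (J : Fin n → Fin (N + 1)) (F : Fin (N - n) → HomCoordRing N)
    (q : EE N) : RI N n → ℂ
  | none => q i
  | some (Sum.inl k) => q (J k)
  | some (Sum.inr s) => MvPolynomial.eval q (F s)

/-- derivative of the coordinate map as a continuous linear map -/
def PhiL (i : Fin (N + 1)) (J : Fin n → Fin (N + 1)) (F : Fin (N - n) → HomCoordRing N)
    (q : EE N) : EE N →L[ℂ] (RI N n → ℂ) :=
  ContinuousLinearMap.pi fun a => match a with
  | none => ContinuousLinearMap.proj (R := ℂ) (φ := fun _ : Fin (N + 1) => ℂ) i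
  | some (Sum.inl k) => ContinuousLinearMap.proj (R := ℂ) (φ := fun _ : Fin (N + 1) => ℂ) (J k)
  | some (Sum.inr s) => dPL (F s) q

theorem PhiL_apply (i : Fin (N + 1)) (J : Fin n → Fin (N + 1)) (F : Fin (N - n) → HomCoordRing N)
    (q v : EE N) : PhiL i J F q v = compL i J F q v := by
  funext a
  rcases a with _ | (k | s)
  · rfl
  · rfl
  · change dPL (F s) q v = dP (F s) q v
    simp

theorem hasFDerivAt_PhiC (i : Fin (N + 1)) (J : Fin n → Fin (N + 1))
    (F : Fin (N - n) → HomCoordRing N) (q : EE N) : HasFDerivAt (PhiC i J F) (PhiL i J F q) q := by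
  rw [PhiL, hasFDerivAt_pi]
  intro a
  rcases a with _ | (k | s)
  · exact (ContinuousLinearMap.proj (R := ℂ) (φ := fun _ : Fin (N + 1) => ℂ) i).hasFDerivAt
  · exact (ContinuousLinearMap.proj (R := ℂ) (φ := fun _ : Fin (N + 1) => ℂ) (J k)).hasFDerivAt
  · exact hasFDerivAt_eval (F s) q

theorem contDiff_PhiC (i : Fin (N + 1)) (J : Fin n → Fin (N + 1))
    (F : Fin (N - n) → HomCoordRing N) {m : WithTop ℕ∞} : ContDiff ℂ m (PhiC i J F) := by
  rw [contDiff_pi]
  intro a
  rcases a with _ | (k | s)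
  · exact (ContinuousLinearMap.proj (R := ℂ) (φ := fun _ : Fin (N + 1) => ℂ) i).contDiff
  · exact (ContinuousLinearMap.proj (R := ℂ) (φ := fun _ : Fin (N + 1) => ℂ) (J k)).contDiff
  · exact contDiff_eval (F s)

/-- embedding of the chart space -/
def embL (N n : ℕ) : CC n →L[ℂ] (RI N n → ℂ) :=
  ContinuousLinearMap.pi fun a => match a with
  | none => 0
  | some (Sum.inl k) => ContinuousLinearMap.proj (R := ℂ) (φ := fun _ : Fin n => ℂ) k
  | some (Sum.inr _) => 0

@[simp] theorem embL_none (z : CC n) : embL N n z none = 0 := rfl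
@[simp] theorem embL_inl (z : CC n) (k : Fin n) : embL N n z (some (Sum.inl k)) = z k := rfl
@[simp] theorem embL_inr (z : CC n) (s : Fin (N - n)) : embL N n z (some (Sum.inr s)) = 0 := rfl

/-- Gronwall argument: a path in `{F = 0}` starting in the cone stays in the cone -/
theorem path_in_cone [hI : I.IsPrime] (hX : IsSmoothProjective I n) (i : Fin (N + 1))
    (J : Fin n → Fin (N + 1)) {F : Fin (N - n) → HomCoordRing N} (hF : ∀ s, F s ∈ I)
    (c c' : ℝ → EE N) (hc : ∀ t ∈ Set.Icc (0 : ℝ) 1, HasDerivAt c (c' t) t)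
    (hc' : ContinuousOn c' (Set.Icc 0 1))
    (h0 : c 0 ∈ affineCone I) (hi : ∀ t ∈ Set.Icc (0 : ℝ) 1, c' t i = 0)
    (hFc : ∀ t ∈ Set.Icc (0 : ℝ) 1, ∀ s, dP (F s) (c t) (c' t) = 0)
    (hD : ∀ t ∈ Set.Icc (0 : ℝ) 1, MvPolynomial.eval (c t) (DelP hX.dim_le i J F) ≠ 0) :
    c 1 ∈ affineCone I := by
  classical
  obtain ⟨S, hS⟩ : I.FG := (isNoetherianRing_iff_ideal_fg _).1 inferInstance I
  have hSI : ∀ g ∈ S, g ∈ I := fun g hg => by rw [← hS]; exact Ideal.subset_span hg
  -- coefficients
  have hcoef : ∀ (g : S) (k : Fin n), ∃ a : HomCoordRing N → HomCoordRing N,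
      theta hX.dim_le i J F k g.1 = ∑ h ∈ S, a h * h := by
    intro g k
    have h1 := hS.ge (theta_mem hX hX.dim_le i J hF k (hSI g.1 g.2))
    obtain ⟨a, -, ha⟩ := Submodule.mem_span_finset.1 h1
    exact ⟨a, ha.symm⟩
  choose a ha using hcoef
  have hcc : ContinuousOn c (Set.Icc 0 1) := fun t ht => (hc t ht).continuousAt.continuousWithinAt
  set φ : ℝ → (S → ℂ) := fun t g => MvPolynomial.eval (c t) g.1 with hφ
  set φ' : ℝ → (S → ℂ) := fun t g => dP g.1 (c t) (c' t) with hφ'
  have hder : ∀ t ∈ Set.Icc (0 : ℝ) 1, HasDerivAt φ (φ' t) t := by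
    intro t ht
    rw [hasDerivAt_pi]
    intro g
    have h1 : HasDerivAt (fun x => φ x g) (((dPL g.1 (c t)).restrictScalars ℝ) (c' t)) t :=
      ((hasFDerivAt_eval g.1 (c t)).restrictScalars ℝ).comp_hasDerivAt t (hc t ht)
    have h2 : ((dPL g.1 (c t)).restrictScalars ℝ) (c' t) = φ' t g := by
      rw [ContinuousLinearMap.coe_restrictScalars', dPL_apply]
    rwa [h2] at h1
  -- bound
  set κ : ℝ → ℝ := fun t => ‖(MvPolynomial.eval (c t) (DelP hX.dim_le i J F))⁻¹‖ *
    ∑ g : S, ∑ k, ‖c' t (J k)‖ * ∑ h ∈ S, ‖MvPolynomial.eval (c t) (a g k h)‖ with hκ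
  have hκc : ContinuousOn κ (Set.Icc 0 1) := by
    refine ContinuousOn.mul ?_ ?_
    · refine (ContinuousOn.inv₀ ?_ hD).norm
      exact (continuous_eval _).comp_continuousOn hcc
    · refine continuousOn_finsetSum _ fun g _ => continuousOn_finsetSum _ fun k _ => ?_
      refine ContinuousOn.mul ?_ (continuousOn_finsetSum _ fun h _ => ?_)
      · exact ((continuous_apply (J k)).comp_continuousOn hc').norm
      · exact ((continuous_eval _).comp_continuousOn hcc).norm
  obtain ⟨K, hK⟩ := isCompact_Icc.exists_bound_of_continuousOn hκc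
  have hφz : ∀ h ∈ S, ∀ t, ‖MvPolynomial.eval (c t) h‖ ≤ ‖φ t‖ := by
    intro h hh t
    exact norm_le_pi_norm (φ t) ⟨h, hh⟩
  have hbound : ∀ t ∈ Set.Icc (0 : ℝ) 1, ‖φ' t‖ ≤ κ t * ‖φ t‖ := by
    intro t ht
    have hκ0 : 0 ≤ κ t := by
      rw [hκ]; positivity
    refine (pi_norm_le_iff_of_nonneg (by positivity)).2 fun g => ?_
    have h1 := cramer_dP hX.dim_le i J F g.1 (c t) (c' t) (hi t ht) (hFc t ht)
    have h2 : dP g.1 (c t) (c' t) = (MvPolynomial.eval (c t) (DelP hX.dim_le i J F))⁻¹ *
        ∑ k, c' t (J k) * MvPolynomial.eval (c t) (theta hX.dim_le i J F k g.1) := by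
      rw [← h1, ← mul_assoc, inv_mul_cancel₀ (hD t ht), one_mul]
    have h3 : ∀ k, ‖MvPolynomial.eval (c t) (theta hX.dim_le i J F k g.1)‖ ≤
        (∑ h ∈ S, ‖MvPolynomial.eval (c t) (a g k h)‖) * ‖φ t‖ := by
      intro k
      rw [ha g k, map_sum, Finset.sum_mul]
      refine (norm_sum_le _ _).trans (Finset.sum_le_sum fun h hh => ?_)
      rw [map_mul, norm_mul]
      exact mul_le_mul_of_nonneg_left (hφz h hh t) (norm_nonneg _)
    calc ‖φ' t g‖ = ‖(MvPolynomial.eval (c t) (DelP hX.dim_le i J F))⁻¹‖ *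
        ‖∑ k, c' t (J k) * MvPolynomial.eval (c t) (theta hX.dim_le i J F k g.1)‖ := by
          rw [hφ']; simp only; rw [h2, norm_mul]
      _ ≤ ‖(MvPolynomial.eval (c t) (DelP hX.dim_le i J F))⁻¹‖ *
        ((∑ k, ‖c' t (J k)‖ * ∑ h ∈ S, ‖MvPolynomial.eval (c t) (a g k h)‖) * ‖φ t‖) := by
          refine mul_le_mul_of_nonneg_left ?_ (norm_nonneg _)
          refine (norm_sum_le _ _).trans ?_
          rw [Finset.sum_mul]
          refine Finset.sum_le_sum fun k _ => ?_
          rw [norm_mul, mul_assoc]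
          exact mul_le_mul_of_nonneg_left (h3 k) (norm_nonneg _)
      _ ≤ κ t * ‖φ t‖ := by
          rw [hκ, ← mul_assoc]
          refine mul_le_mul_of_nonneg_right ?_ (norm_nonneg _)
          refine mul_le_mul_of_nonneg_left ?_ (norm_nonneg _)
          exact Finset.single_le_sum (f := fun g : S =>
            ∑ k, ‖c' t (J k)‖ * ∑ h ∈ S, ‖MvPolynomial.eval (c t) (a g k h)‖)
            (fun g _ => by positivity) (Finset.mem_univ g)
  have hfin := eq_zero_of_abs_deriv_le_mul_abs_self_of_eq_zero_right (f := φ) (f' := φ') (K := K)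
    (a := 0) (b := 1) (fun t ht => (hder t ht).continuousAt.continuousWithinAt)
    (fun t ht => (hder t (Set.Ico_subset_Icc_self ht)).hasDerivWithinAt)
    (by funext g; exact h0 _ (hSI g.1 g.2))
    (fun t ht => (hbound t (Set.Ico_subset_Icc_self ht)).trans
      (mul_le_mul_of_nonneg_right ((le_abs_self _).trans
        (hK t (Set.Ico_subset_Icc_self ht))) (norm_nonneg _))) 1 (by simp)
  intro G hG
  rw [← hS] at hG
  refine Submodule.span_induction (p := fun G _ => MvPolynomial.eval (c 1) G = 0) ?_ ?_ ?_ ?_ hG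
  · intro g hg
    exact congrFun hfin ⟨g, hg⟩
  · simp
  · intro x y _ _ hx hy
    rw [map_add, hx, hy, add_zero]
  · intro b x _ hx
    rw [smul_eq_mul, map_mul, hx, mul_zero]

end

end Crest.Agent.R269.Geo_328
private theorem rz_3fa814a0e5 : type_of% @_root_.Crest.Agent.R269.Geo_328.PhiC.eq_1 := @_root_.Crest.Agent.R269.Geo_328.PhiC.eq_1 -- L17
end

-- ▼ part R269/GeoChart_328

/-! # R269, leaf GEO: proof of `ChartStmt` (helper328) -/

set_option autoImplicit false

open MvPolynomial Crest.AlgGeometry.ProjEmb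
open scoped ContDiff Topology ComplexConjugate

namespace Crest.Agent.R269.Geo_328

noncomputable section

theorem chartStmt : ChartStmt := by
  intro N n I hI hX p₀ hp₀
  classical
  have := hI
  obtain ⟨i, hi⟩ : ∃ i, p₀ i ≠ 0 := by
    by_contra h; push Not at h; exact hp₀.2 (funext h)
  set q₀ : EE N := (p₀ i)⁻¹ • p₀ with hq₀
  have hq₀C : q₀ ∈ Cone I := smul_mem_Cone hX hp₀ (inv_ne_zero hi)
  have hq₀i : q₀ i = 1 := by simp [hq₀, hi]
  obtain ⟨F, J, hF, hJ, hJi, hker, hinj⟩ :=
    exists_frame hX hq₀C (i := i) (by rw [hq₀i]; exact one_ne_zero)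
  have hle := hX.dim_le
  -- the local homeomorphism
  have hinjL : Function.Injective (PhiL i J F q₀) := by
    rw [injective_iff_map_eq_zero]
    intro v hv
    rw [PhiL_apply] at hv
    exact hinj v (congrFun hv none) (fun k => congrFun hv (some (Sum.inl k)))
      (fun s => congrFun hv (some (Sum.inr s)))
  have hfr : Module.finrank ℂ (EE N) = Module.finrank ℂ (RI N n → ℂ) := by
    rw [Module.finrank_fintype_fun_eq_card, Module.finrank_fintype_fun_eq_card, card_RI hle,
      Fintype.card_fin]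
  set e : EE N ≃L[ℂ] (RI N n → ℂ) :=
    (LinearMap.linearEquivOfInjective (PhiL i J F q₀ : EE N →ₗ[ℂ] (RI N n → ℂ))
      hinjL hfr).toContinuousLinearEquiv with he0
  have he : (e : EE N →L[ℂ] (RI N n → ℂ)) = PhiL i J F q₀ := by
    ext v; rfl
  have hf' : HasFDerivAt (PhiC i J F) (e : EE N →L[ℂ] (RI N n → ℂ)) q₀ := by
    rw [he]; exact hasFDerivAt_PhiC i J F q₀
  have hcd : ContDiffAt ℂ ω (PhiC i J F) q₀ := (contDiff_PhiC i J F).contDiffAt
  have hω : (ω : WithTop ℕ∞) ≠ 0 := by simp
  set P := hcd.toOpenPartialHomeomorph (PhiC i J F) hf' hω with hP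
  have hPcoe : ∀ q, P q = PhiC i J F q := fun q => by
    rw [hP, ContDiffAt.toOpenPartialHomeomorph_coe]
  have hsrc : q₀ ∈ P.source := hcd.mem_toOpenPartialHomeomorph_source hf' hω
  set y₀ : RI N n → ℂ := PhiC i J F q₀ with hy₀
  have htgt : y₀ ∈ P.target := hcd.image_mem_toOpenPartialHomeomorph_target hf' hω
  have hsy : P.symm y₀ = q₀ := by
    have := P.left_inv hsrc
    rwa [hPcoe] at this
  have han0 : AnalyticAt ℂ P.symm y₀ := by
    have h1 : ContDiffAt ℂ ω P.symm y₀ := hcd.to_localInverse hf' hω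
    exact h1.analyticAt
  have hev : ∀ᶠ y in 𝓝 y₀, y ∈ P.target ∧ AnalyticAt ℂ P.symm y ∧
      MvPolynomial.eval (P.symm y) (DelP hle i J F) ≠ 0 := by
    refine Filter.Eventually.and (P.open_target.mem_nhds htgt)
      (han0.eventually_analyticAt.and ?_)
    have h1 : ContinuousAt (fun y => MvPolynomial.eval (P.symm y) (DelP hle i J F)) y₀ :=
      (continuous_eval _).continuousAt.comp han0.continuousAt
    refine h1.eventually_ne ?_
    rw [hsy]
    exact DelP_ne_zero hle hinj
  have hcont : Continuous fun z : CC n => y₀ + embL N n z := by fun_prop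
  have hev2 : ∀ᶠ z : CC n in 𝓝 0, y₀ + embL N n z ∈ P.target ∧
      AnalyticAt ℂ P.symm (y₀ + embL N n z) ∧
      MvPolynomial.eval (P.symm (y₀ + embL N n z)) (DelP hle i J F) ≠ 0 := by
    have h1 := hcont.tendsto 0
    simp only [map_zero, add_zero] at h1
    exact h1.eventually hev
  obtain ⟨R, hR, hball⟩ := Metric.eventually_nhds_iff_ball.1 hev2
  set σ : CC n → EE N := fun z => P.symm (y₀ + embL N n z) with hσ
  have hσan : ∀ z ∈ Metric.ball (0 : CC n) R, AnalyticAt ℂ σ z := by
    intro z hz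
    have h1 : AnalyticAt ℂ (fun z : CC n => y₀ + embL N n z) z :=
      analyticAt_const.add ((embL N n).analyticAt z)
    exact AnalyticAt.fun_comp (g := P.symm) (f := fun z : CC n => y₀ + embL N n z)
      (hball z hz).2.1 h1
  have hσΦ : ∀ z ∈ Metric.ball (0 : CC n) R, PhiC i J F (σ z) = y₀ + embL N n z := by
    intro z hz
    have := P.right_inv (hball z hz).1
    rwa [hPcoe] at this
  have hσD : ∀ z ∈ Metric.ball (0 : CC n) R, ∀ x : CC n,
      compL i J F (σ z) (fderiv ℂ σ z x) = embL N n x := by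
    intro z hz x
    have h1 : HasFDerivAt σ (fderiv ℂ σ z) z := (hσan z hz).differentiableAt.hasFDerivAt
    have h2 : HasFDerivAt (PhiC i J F ∘ σ) ((PhiL i J F (σ z)).comp (fderiv ℂ σ z)) z :=
      (hasFDerivAt_PhiC i J F (σ z)).comp z h1
    have h3 : HasFDerivAt (fun z : CC n => y₀ + embL N n z) (embL N n) z := by
      simpa using (embL N n).hasFDerivAt.const_add y₀
    have h4 : (PhiC i J F ∘ σ) =ᶠ[𝓝 z] fun z : CC n => y₀ + embL N n z := by
      filter_upwards [Metric.isOpen_ball.mem_nhds hz] with w hw using hσΦ w hw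
    have h5 := h2.unique (h3.congr_of_eventuallyEq h4)
    have h6 := congrArg (fun L => L x) h5
    simp only [ContinuousLinearMap.comp_apply, PhiL_apply] at h6
    exact h6
  have hσi : ∀ z ∈ Metric.ball (0 : CC n) R, σ z i = 1 := by
    intro z hz
    have := congrFun (hσΦ z hz) none
    simp only [PhiC, Pi.add_apply, embL_none, add_zero, hy₀, hq₀i] at this
    exact this
  have hσJ : ∀ z ∈ Metric.ball (0 : CC n) R, ∀ k, σ z (J k) = p₀ (J k) / p₀ i + z k := by
    intro z hz k
    have := congrFun (hσΦ z hz) (some (Sum.inl k))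
    simp only [PhiC, Pi.add_apply, embL_inl, hy₀] at this
    rw [this, hq₀]
    simp [div_eq_inv_mul]
  have hσaff : ∀ z ∈ Metric.ball (0 : CC n) R, σ z ∈ affineCone I := by
    intro z hz
    have hz' : ∀ t ∈ Set.Icc (0 : ℝ) 1, t • z ∈ Metric.ball (0 : CC n) R := by
      intro t ht
      rw [mem_ball_zero_iff] at hz ⊢
      calc ‖t • z‖ = |t| * ‖z‖ := by rw [norm_smul, Real.norm_eq_abs]
        _ ≤ 1 * ‖z‖ := by
          refine mul_le_mul_of_nonneg_right ?_ (norm_nonneg _)
          rw [abs_of_nonneg ht.1]; exact ht.2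
        _ < R := by rwa [one_mul]
    have h1 := path_in_cone hX i J hF (fun t => σ (t • z)) (fun t => fderiv ℂ σ (t • z) z)
      (fun t ht => ?_) (fun t ht => ?_) ?_ (fun t ht => ?_) (fun t ht s => ?_) (fun t ht => ?_)
    · simpa using h1
    · have h2 : HasDerivAt (fun t : ℝ => t • z) z t := by
        simpa using (hasDerivAt_id t).smul_const z
      have h3 : HasFDerivAt σ ((fderiv ℂ σ (t • z)).restrictScalars ℝ) (t • z) :=
        (hσan _ (hz' t ht)).differentiableAt.hasFDerivAt.restrictScalars ℝ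
      exact h3.comp_hasDerivAt t h2
    · have h2 : ContinuousAt (fun w => fderiv ℂ σ w z) (t • z) := by
        have := (hσan _ (hz' t ht)).fderiv.continuousAt
        exact this.clm_apply continuousAt_const
      have h3 : ContinuousAt (fun t : ℝ => t • z) t := by fun_prop
      exact (ContinuousAt.comp (f := fun t : ℝ => t • z) (g := fun w => fderiv ℂ σ w z) h2
        h3).continuousWithinAt
    · simp only [zero_smul, hσ, map_zero, add_zero, hsy]
      exact hq₀C.1
    · exact congrFun (hσD _ (hz' t ht) z) none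
    · exact congrFun (hσD _ (hz' t ht) z) (some (Sum.inr s))
    · exact (hball _ (hz' t ht)).2.2
  have hσcone : ∀ z ∈ Metric.ball (0 : CC n) R, σ z ∈ Cone I := by
    intro z hz
    refine ⟨hσaff z hz, fun h0 => ?_⟩
    have := hσi z hz
    rw [h0] at this
    simp at this
  have hσsrc : ∀ z ∈ Metric.ball (0 : CC n) R, σ z ∈ P.source := fun z hz =>
    P.map_target (hball z hz).1
  -- the domain `W`
  set U : Set (EE N) := P.source ∩ {x | ‖(fun k => x (J k) - p₀ (J k) / p₀ i : CC n)‖ < R}
    with hU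
  have hUo : IsOpen U := by
    refine P.open_source.inter (isOpen_lt ?_ continuous_const)
    fun_prop
  set W : Set (EE N) := {q | q i ≠ 0} ∩ (fun q : EE N => (q i)⁻¹ • q) ⁻¹' U with hW
  have hWo : IsOpen W := by
    have h1 : IsOpen {q : EE N | q i ≠ 0} := isOpen_ne_fun (by fun_prop) continuous_const
    refine ContinuousOn.isOpen_inter_preimage ?_ h1 hUo
    intro q hq
    have h2 : ContinuousAt (fun q : EE N => (q i)⁻¹ • q) q :=
      ((continuous_apply i).continuousAt.inv₀ hq).smul continuousAt_id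
    exact h2.continuousWithinAt
  have hratio : ∀ q : EE N, (fun k => ((q i)⁻¹ • q) (J k) - p₀ (J k) / p₀ i : CC n) =
      ratio i J p₀ q := by
    intro q
    funext k
    simp [ratio, div_eq_inv_mul]
  refine ⟨{ i := i, J := J, J_inj := hJ, J_ne := hJi, p₀_ne := hi, R := R, R_pos := hR, σ := σ,
            W := W, W_open := hWo, W_smul := ?_, W_ne := fun q hq => hq.1, mem_W := ?_,
            an := hσan, σ_cone := hσcone, σ_W := ?_, σ_zero := ?_, σ_i := hσi, σ_J := hσJ,
            surj := ?_, tan := ?_ }⟩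
  · intro c hc q hq
    refine ⟨mul_ne_zero hc hq.1, ?_⟩
    have : ((c • q) i)⁻¹ • (c • q) = (q i)⁻¹ • q := by
      rw [Pi.smul_apply, smul_eq_mul, mul_inv, smul_smul]
      congr 1
      field_simp
    change ((c • q) i)⁻¹ • (c • q) ∈ U
    rw [this]
    exact hq.2
  · refine ⟨hi, hsrc, ?_⟩
    change ‖(fun k => ((p₀ i)⁻¹ • p₀) (J k) - p₀ (J k) / p₀ i : CC n)‖ < R
    rw [hratio]
    have : ratio i J p₀ p₀ = 0 := by funext k; simp [ratio]
    rw [this, norm_zero]
    exact hR
  · intro z hz
    have h1 := hσi z hz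
    refine ⟨by rw [Set.mem_ofPred_eq, h1]; exact one_ne_zero, ?_⟩
    change ((σ z) i)⁻¹ • σ z ∈ U
    rw [h1, inv_one, one_smul]
    refine ⟨hσsrc z hz, ?_⟩
    have : (fun k => σ z (J k) - p₀ (J k) / p₀ i : CC n) = z := by
      funext k; rw [hσJ z hz k]; ring
    change ‖(fun k => σ z (J k) - p₀ (J k) / p₀ i : CC n)‖ < R
    rw [this]
    simpa using hz
  · simp only [hσ, map_zero, add_zero, hsy, hq₀]
  · intro q hqC hqW
    obtain ⟨hqi, hqs, hqn⟩ := hqW
    have hζ : ratio i J p₀ q ∈ Metric.ball (0 : CC n) R := by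
      rw [mem_ball_zero_iff, ← hratio]
      exact hqn
    refine ⟨hζ, ?_⟩
    have hq'C : (q i)⁻¹ • q ∈ affineCone I := smul_mem_affineCone hX hqC.1 _
    have h1 : PhiC i J F ((q i)⁻¹ • q) = y₀ + embL N n (ratio i J p₀ q) := by
      funext a
      rcases a with _ | (k | s)
      · simp only [PhiC, hy₀, Pi.add_apply, embL_none, hq₀i, add_zero, Pi.smul_apply, smul_eq_mul]
        exact inv_mul_cancel₀ hqi
      · simp only [PhiC, hy₀, Pi.add_apply, embL_inl, ratio, hq₀, Pi.smul_apply, smul_eq_mul]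
        ring
      · simp only [PhiC, hy₀, Pi.add_apply, embL_inr, add_zero]
        rw [hq'C _ (hF s), hq₀C.1 _ (hF s)]
    have h2 : σ (ratio i J p₀ q) = (q i)⁻¹ • q := by
      rw [hσ]
      simp only
      rw [← h1, ← hPcoe]
      exact P.left_inv hqs
    rw [h2, smul_smul, mul_inv_cancel₀ hqi, one_smul]
  · -- tangent spaces
    intro z hz
    have hD := hσD z hz
    have hTan1 : ∀ x : CC n, fderiv ℂ σ z x ∈ Tan I (σ z) := by
      intro x G hG
      have h1 : HasFDerivAt σ (fderiv ℂ σ z) z := (hσan z hz).differentiableAt.hasFDerivAt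
      have h2 : HasFDerivAt (fun w => MvPolynomial.eval (σ w) G)
          ((dPL G (σ z)).comp (fderiv ℂ σ z)) z := (hasFDerivAt_eval G (σ z)).comp z h1
      have h3 : (fun w => MvPolynomial.eval (σ w) G) =ᶠ[𝓝 z] fun _ => (0 : ℂ) := by
        filter_upwards [Metric.isOpen_ball.mem_nhds hz] with w hw using hσaff w hw G hG
      have h4 := h2.unique ((hasFDerivAt_const (0 : ℂ) z).congr_of_eventuallyEq h3)
      have h5 := congrArg (fun L => L x) h4
      simpa using h5
    have hTan0 : σ z ∈ Tan I (σ z) := self_mem_Tan hX (hσaff z hz)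
    -- the parametrisation
    set T : ℂ × CC n →ₗ[ℂ] EE N :=
      (LinearMap.toSpanSingleton ℂ (EE N) (σ z)).coprod (fderiv ℂ σ z : CC n →ₗ[ℂ] EE N) with hT
    have hTapp : ∀ c x, T (c, x) = c • σ z + fderiv ℂ σ z x := by
      intro c x; simp [hT]
    have hTinj : Function.Injective T := by
      rw [injective_iff_map_eq_zero]
      rintro ⟨c, x⟩ hcx
      rw [hTapp] at hcx
      have hc0 : c = 0 := by
        have h1 := congrFun hcx i
        have h2 : (fderiv ℂ σ z x) i = 0 := congrFun (hD x) none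
        simp only [Pi.add_apply, Pi.smul_apply, smul_eq_mul, hσi z hz, mul_one, h2, add_zero,
          Pi.zero_apply] at h1
        exact h1
      subst hc0
      have hx0 : x = 0 := by
        funext k
        have h1 := congrFun hcx (J k)
        have h2 : (fderiv ℂ σ z x) (J k) = x k := congrFun (hD x) (some (Sum.inl k))
        simp only [Pi.add_apply, Pi.smul_apply, smul_eq_mul, zero_mul, zero_add, h2,
          Pi.zero_apply] at h1
        exact h1
      rw [hx0]
      rfl
    have hrange : LinearMap.range T = Tan I (σ z) := by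
      refine Submodule.eq_of_le_of_finrank_eq ?_ ?_
      · rintro _ ⟨⟨c, x⟩, rfl⟩
        rw [hTapp]
        exact (Tan I (σ z)).add_mem ((Tan I (σ z)).smul_mem c hTan0) (hTan1 x)
      · rw [LinearMap.finrank_range_of_inj hTinj, finrank_Tan hX (hσcone z hz)]
        simp [Module.finrank_prod]
        ring
    intro v
    constructor
    · intro hv
      rw [← hrange] at hv
      obtain ⟨⟨c, x⟩, hcx⟩ := hv
      exact ⟨c, x, by rw [← hcx, hTapp]⟩
    · rintro ⟨c, x, rfl⟩
      exact (Tan I (σ z)).add_mem ((Tan I (σ z)).smul_mem c hTan0) (hTan1 x)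

end

end Crest.Agent.R269.Geo_328
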