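import Mathlib
import Crest.Agent.R269.Lev_901
import Crest.Agent.R269.GeoT_328

/-!
# R269 (S0411), leaf LEV, part 2 (helper901): the Levi form along the cone

`C : ConeChart I n p` is the local chart of `GeoDefs_328` at `p`.

* `exists_curve`      : for `v ∈ Tan I p` there is a holomorphic curve in the cone with `γ 0 = p`, `γ' 0 = v`;
* `lev_congr_cone`    : `lev u p v` (`v ∈ Tan I p`) depends only on `u` on the cone near `p`;
* `lev_smul_point`    : `lev u (c p) (c v) = lev u p v` for `ℂ*`-invariant `u`;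
* `lev_add_smul_self` : `lev u p (v + r p) = lev u p v` for `ℂ*`-invariant `u`; `lev_self`;
* `levB_self_left`    : `levB u p p v = 0`;
* `lev_nonneg_cone`, `lev_nonpos_cone` : extrema of `u` restricted to the cone;
* `lev_comp_cone`     : chain rule for maps into the cone (only values on the cone matter).
-/

set_option autoImplicit false
set_option linter.unusedSectionVars false

open Complex Filter Topology MvPolynomial Crest.AlgGeometry.ProjEmb
open scoped ContDiff ComplexConjugate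

namespace Crest.Agent.R269.LevCone_901

open Crest.Agent.R269.LevC_653 Crest.Agent.R269.Lev_901 Crest.Agent.R269.Geo_328

noncomputable section

variable {N n : ℕ} {I : Ideal (HomCoordRing N)} {p : EE N}

/-- a holomorphic curve in the cone with given tangent vector -/
theorem exists_curve (hX : IsSmoothProjective I n) (_hp : p ∈ Cone I) (C : ConeChart I n p)
    {v : EE N} (hv : v ∈ Tan I p) :
    ∃ γ : ℂ → EE N, AnalyticAt ℂ γ 0 ∧ γ 0 = p ∧ deriv γ 0 = v ∧
      ∀ᶠ w in 𝓝 (0 : ℂ), γ w ∈ Cone I := by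
  have h0 : (0 : CC n) ∈ Metric.ball (0 : CC n) C.R := Metric.mem_ball_self C.R_pos
  have hpi : p C.i ≠ 0 := C.p₀_ne
  have hT : Tan I (C.σ 0) = Tan I p := by
    rw [C.σ_zero]; exact Tan_smul hX p (inv_ne_zero hpi)
  have hv' : (p C.i)⁻¹ • v ∈ Tan I (C.σ 0) := by
    rw [hT]; exact Submodule.smul_mem _ _ hv
  obtain ⟨c, x, hcx⟩ := (C.tan 0 h0 _).1 hv'
  have hlin : ∀ w : ℂ, AnalyticAt ℂ (fun w : ℂ => w • x) w := fun w =>
    analyticAt_id.smul analyticAt_const
  have hσ0 : AnalyticAt ℂ C.σ ((0 : ℂ) • x) := by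
    rw [zero_smul]; exact C.an 0 h0
  have hσ : AnalyticAt ℂ (fun w : ℂ => C.σ (w • x)) 0 :=
    AnalyticAt.fun_comp (g := C.σ) (f := fun w : ℂ => w • x) hσ0 (hlin 0)
  have hA : AnalyticAt ℂ (fun w : ℂ => p C.i * (1 + c * w)) 0 := by fun_prop
  refine ⟨fun w => (p C.i * (1 + c * w)) • C.σ (w • x), hA.smul hσ, ?_, ?_, ?_⟩
  · simp only [mul_zero, add_zero, mul_one, zero_smul]
    rw [C.σ_zero, smul_smul, mul_inv_cancel₀ hpi, one_smul]
  · have d1 : HasDerivAt (fun w : ℂ => p C.i * (1 + c * w)) (p C.i * (c * 1)) 0 :=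
      (((hasDerivAt_id (0 : ℂ)).const_mul c).const_add 1).const_mul (p C.i)
    have d2 : HasDerivAt (fun w : ℂ => w • x) x 0 := by
      simpa using (hasDerivAt_id (0 : ℂ)).smul_const x
    have d3 : HasDerivAt (fun w : ℂ => C.σ (w • x)) (fderiv ℂ C.σ 0 x) 0 := by
      have h4 : HasFDerivAt C.σ (fderiv ℂ C.σ 0) ((0 : ℂ) • x) := by
        rw [zero_smul]; exact (C.an 0 h0).differentiableAt.hasFDerivAt
      exact h4.comp_hasDerivAt (0 : ℂ) d2
    have d4 := d1.smul d3
    have e5 : deriv (fun w => (p C.i * (1 + c * w)) • C.σ (w • x)) 0 = _ := d4.deriv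
    rw [e5]
    simp only [mul_zero, add_zero, mul_one, zero_smul]
    have : v = (p C.i) • ((p C.i)⁻¹ • v) := by rw [smul_smul, mul_inv_cancel₀ hpi, one_smul]
    conv_rhs => rw [this, hcx]
    rw [smul_add, smul_smul, add_comm]
  · have e1 : ∀ᶠ w in 𝓝 (0 : ℂ), w • x ∈ Metric.ball (0 : CC n) C.R := by
      have : ContinuousAt (fun w : ℂ => w • x) 0 := (hlin 0).continuousAt
      have h1 : Metric.ball (0 : CC n) C.R ∈ 𝓝 ((0 : ℂ) • x) := by
        rw [zero_smul]; exact Metric.isOpen_ball.mem_nhds h0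
      exact this h1
    have e2 : ∀ᶠ w in 𝓝 (0 : ℂ), p C.i * (1 + c * w) ≠ 0 := by
      apply hA.continuousAt.eventually_ne
      simp [hpi]
    filter_upwards [e1, e2] with w h1 h2
    exact smul_mem_Cone hX (C.σ_cone _ h1) h2

/-- `lev u p v` for `v` tangent to the cone only depends on the values of `u` on the cone near `p`. -/
theorem lev_congr_cone (hX : IsSmoothProjective I n) (hp : p ∈ Cone I) (C : ConeChart I n p)
    {u u' : EE N → ℝ} (hu : ContDiffAt ℝ 2 u p) (hu' : ContDiffAt ℝ 2 u' p)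
    (h : ∀ᶠ q in 𝓝[Cone I] p, u q = u' q) {v : EE N} (hv : v ∈ Tan I p) :
    lev u p v = lev u' p v := by
  obtain ⟨γ, ha, h0, h1, hc⟩ := exists_curve hX hp C hv
  have htend : Tendsto γ (𝓝 0) (𝓝[Cone I] p) := by
    rw [tendsto_nhdsWithin_iff]
    refine ⟨?_, hc⟩
    have := ha.continuousAt.tendsto
    rwa [h0] at this
  have e1 : (fun w => u (γ w)) =ᶠ[𝓝 0] fun w => u' (γ w) := htend.eventually h
  have e2 := lev_comp_curve (u := u) (γ := γ) (z := 0) (by rw [h0]; exact hu) ha 1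
  have e3 := lev_comp_curve (u := u') (γ := γ) (z := 0) (by rw [h0]; exact hu') ha 1
  rw [h0, h1, one_smul] at e2 e3
  rw [← e2, ← e3]
  exact lev_congr e1 1

/-- the same for the gradient form -/
theorem gsq_congr_cone (hX : IsSmoothProjective I n) (hp : p ∈ Cone I) (C : ConeChart I n p)
    {u u' : EE N → ℝ} (hu : ContDiffAt ℝ 2 u p) (hu' : ContDiffAt ℝ 2 u' p)
    (h : ∀ᶠ q in 𝓝[Cone I] p, u q = u' q) {v : EE N} (hv : v ∈ Tan I p) :
    gsq u p v = gsq u' p v := by
  obtain ⟨γ, ha, h0, h1, hc⟩ := exists_curve hX hp C hv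
  have htend : Tendsto γ (𝓝 0) (𝓝[Cone I] p) := by
    rw [tendsto_nhdsWithin_iff]
    refine ⟨?_, hc⟩
    have := ha.continuousAt.tendsto
    rwa [h0] at this
  have e1 : (fun w => u (γ w)) =ᶠ[𝓝 0] fun w => u' (γ w) := htend.eventually h
  have e2 := gsq_comp_hol (F := γ) (x := 0) (u := u) (by rw [h0]; exact diff1 hu)
    ha.differentiableAt 1
  have e3 := gsq_comp_hol (F := γ) (x := 0) (u := u') (by rw [h0]; exact diff1 hu')
    ha.differentiableAt 1
  have e4 : fderiv ℂ γ 0 1 = v := by rw [← h1]; rfl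
  rw [h0, e4] at e2 e3
  rw [← e2, ← e3]
  exact gsq_congr e1 1

/-- scaling invariance -/
theorem lev_smul_point (hX : IsSmoothProjective I n) (hp : p ∈ Cone I) (C : ConeChart I n p)
    {u : EE N → ℝ} (hinv : ∀ q ∈ Cone I, ∀ c : ℂ, c ≠ 0 → u (c • q) = u q) {c : ℂ} (hc : c ≠ 0)
    (hu : ContDiffAt ℝ 2 u p) (hu' : ContDiffAt ℝ 2 u (c • p)) {v : EE N} (hv : v ∈ Tan I p) :
    lev u (c • p) (c • v) = lev u p v := by
  have h1 : ContDiffAt ℝ 2 (fun q : EE N => u (c • q)) p :=
    ContDiffAt.comp (g := u) p hu' (contDiffAt_id.const_smul c)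
  have h2 : lev (fun q : EE N => u (c • q)) p v = lev u (c • p) (c • v) := by
    have hF : AnalyticAt ℂ (fun q : EE N => c • q) p :=
      (c • ContinuousLinearMap.id ℂ (EE N)).analyticAt p
    have := lev_comp_hol (F := fun q : EE N => c • q) (x := p) (u := u) hu' hF v
    rw [this]
    congr 1
    have h3 : HasFDerivAt (fun q : EE N => c • q) (c • ContinuousLinearMap.id ℂ (EE N)) p :=
      (hasFDerivAt_id p).const_smul c
    rw [h3.fderiv]
    simp
  rw [← h2]
  apply lev_congr_cone hX hp C h1 hu _ hv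
  filter_upwards [self_mem_nhdsWithin] with q hq using hinv q hq c hc

/-- invariance under adding multiples of the Euler vector -/
theorem lev_add_smul_self (hX : IsSmoothProjective I n) (hp : p ∈ Cone I) (C : ConeChart I n p)
    {u : EE N → ℝ} (hinv : ∀ q ∈ Cone I, ∀ c : ℂ, c ≠ 0 → u (c • q) = u q)
    (hu : ContDiffAt ℝ 2 u p) {v : EE N} (hv : v ∈ Tan I p) (r : ℂ) :
    lev u p (v + r • p) = lev u p v := by
  obtain ⟨γ, ha, h0, h1, hc⟩ := exists_curve hX hp C hv
  have hr : AnalyticAt ℂ (fun w : ℂ => 1 + r * w) 0 := by fun_prop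
  have hγ2 : AnalyticAt ℂ (fun w => (1 + r * w) • γ w) 0 := hr.smul ha
  have e0 : (fun w => (1 + r * w) • γ w) 0 = p := by simp [h0]
  have e1 : deriv (fun w => (1 + r * w) • γ w) 0 = v + r • p := by
    have d1 : HasDerivAt (fun w : ℂ => 1 + r * w) (r * 1) 0 :=
      ((hasDerivAt_id (0 : ℂ)).const_mul r).const_add 1
    have d2 : HasDerivAt γ v 0 := by
      rw [← h1]; exact ha.differentiableAt.hasDerivAt
    have d4 := d1.smul d2
    have e5 : deriv (fun w => (1 + r * w) • γ w) 0 = _ := d4.deriv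
    rw [e5]
    simp [h0]
  have hne : ∀ᶠ w in 𝓝 (0 : ℂ), (1 + r * w) ≠ 0 := by
    apply hr.continuousAt.eventually_ne; simp
  have e2 : (fun w => u ((1 + r * w) • γ w)) =ᶠ[𝓝 0] fun w => u (γ w) := by
    filter_upwards [hc, hne] with w h2 h3 using hinv _ h2 _ h3
  have e3 := lev_comp_curve (u := u) (γ := fun w => (1 + r * w) • γ w) (z := 0)
    (by
      have e0'' : (1 + r * 0) • γ 0 = p := e0
      rw [e0'']; exact hu) hγ2 1
  have e4 := lev_comp_curve (u := u) (γ := γ) (z := 0) (by rw [h0]; exact hu) ha 1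
  rw [h0, h1, one_smul] at e4
  rw [e1, one_smul] at e3
  have e0' : (1 + r * 0) • γ 0 = p := e0
  simp only [e0'] at e3
  rw [← e3, ← e4]
  exact lev_congr e2 1






end

end Crest.Agent.R269.LevCone_901
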