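import Crest.Agent.R269.SubM_79

/-!
# R269 (S0411), leaf L2 (helper79): `∂∂̄` of explicit functions, barrier, growth bounds (4.5)
-/

set_option autoImplicit false

open Set Filter Topology Metric Complex Asymptotics Real

noncomputable section

namespace Crest.Agent.R269.LevP_79

open SubM_79

/-! ### functions of class `C²` -/


/-- the Levi form in one variable -/
def lev (u : ℂ → ℝ) (z : ℂ) : ℝ :=
  (fderiv ℝ (fderiv ℝ u) z 1 1 + fderiv ℝ (fderiv ℝ u) z I I) / 4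



/-! ### holomorphic functions -/

/-- real parts of holomorphic functions -/
theorem hasL_re {k : ℂ → ℂ} {z : ℂ} (hk : AnalyticAt ℂ k z) : HasL (fun x => (k x).re) z 0 := by
  obtain ⟨p, hp⟩ := hk
  have h3 := hp.isBigO_sub_partialSum_pow 3
  set e : ℂ → ℂ := fun w => k (z + w) - p.partialSum 3 w with he
  have hsum : ∀ w, p.partialSum 3 w = p.coeff 0 + w * p.coeff 1 + w ^ 2 * p.coeff 2 := by
    intro w
    simp [FormalMultilinearSeries.partialSum, Finset.sum_range_succ]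
  have hlo : (fun w : ℂ => ‖w‖ ^ 3) =o[𝓝 0] fun w : ℂ => ‖w‖ ^ 2 := by
    have h1 : (fun w : ℂ => ‖w‖) =o[𝓝 0] fun _ : ℂ => (1 : ℝ) := by
      rw [isLittleO_one_iff]
      simpa using (continuous_norm (E := ℂ)).tendsto 0
    have h2 := h1.mul_isBigO (isBigO_refl (fun w : ℂ => ‖w‖ ^ 2) (𝓝 0))
    refine (h2.congr_left fun w => ?_).congr_right fun w => ?_
    · ring
    · ring
  have h : e =o[𝓝 0] fun w : ℂ => ‖w‖ ^ 2 := h3.trans_isLittleO hlo
  have hc : ∀ a : ℂ, ‖a‖ = 1 → (fun w : ℂ => e (a * w)) =o[𝓝 0] fun w : ℂ => ‖w‖ ^ 2 := by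
    intro a ha
    have ht : Tendsto (fun w : ℂ => a * w) (𝓝 0) (𝓝 0) := by
      have : Continuous fun w : ℂ => a * w := by fun_prop
      simpa using this.tendsto 0
    refine (h.comp_tendsto ht).congr_right fun w => ?_
    simp [ha]
  have htot := ((((hc 1 (by simp)).add (hc I (by simp))).add (hc (-1) (by simp))).add
    (hc (-I) (by simp)))
  have hre : (fun w : ℂ => (1 / 4 : ℝ) * (e (1 * w) + e (I * w) + e (-1 * w) + e (-I * w)).re)
      =o[𝓝 0] fun w : ℂ => ‖w‖ ^ 2 := by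
    refine IsLittleO.const_mul_left ?_ _
    refine IsBigO.trans_isLittleO (IsBigO.of_bound 1 (Eventually.of_forall fun w => ?_)) htot
    exact (Complex.abs_re_le_norm _).trans (le_of_eq (one_mul _).symm)
  refine hre.congr_left fun w => ?_
  have hz : k z = p.coeff 0 := by
    exact (hp.coeff_zero 1).symm
  simp only [m4, he, hsum, hz, sub_eq_add_neg z]
  have e1 : (1 * w) = w := one_mul w
  have e2 : (-1 * w) = -w := by ring
  have e3 : (-I * w) = -(I * w) := by ring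
  rw [e1, e2, e3]
  simp only [Complex.add_re, Complex.sub_re]
  have e4 : ((w * p.coeff 1 : ℂ)).re + ((I * w) * p.coeff 1 : ℂ).re + ((-w) * p.coeff 1 : ℂ).re
      + ((-(I * w)) * p.coeff 1 : ℂ).re = 0 := by
    simp
    ring
  have e5 : ((w ^ 2 * p.coeff 2 : ℂ)).re + ((I * w) ^ 2 * p.coeff 2 : ℂ).re
      + ((-w) ^ 2 * p.coeff 2 : ℂ).re + ((-(I * w)) ^ 2 * p.coeff 2 : ℂ).re = 0 := by
    rw [mul_pow, neg_sq, neg_sq, mul_pow, I_sq]
    simp
  linear_combination (-1 / 4 : ℝ) * e4 + (-1 / 4 : ℝ) * e5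

/-- `log |h|` for `h` holomorphic and zero free -/
theorem hasL_log_norm {h : ℂ → ℂ} {z : ℂ} (hh : AnalyticAt ℂ h z) (h0 : h z ≠ 0) :
    HasL (fun x => Real.log ‖h x‖) z 0 := by
  -- `log |h| = log |h z| + Re log (h / h z)`
  have h1 : AnalyticAt ℂ (fun x => h x / h z) z := hh.div_const
  have h2 : AnalyticAt ℂ (fun x => Complex.log (h x / h z)) z :=
    h1.clog (by simp [div_self h0])
  have h3 := (hasL_re h2).add (hasL_const (Real.log ‖h z‖) z)
  rw [add_zero] at h3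
  refine h3.congr ?_
  have hne : ∀ᶠ x in 𝓝 z, h x ≠ 0 := hh.continuousAt.eventually_ne h0
  filter_upwards [hne] with x hx
  rw [Complex.log_re, norm_div, Real.log_div (norm_ne_zero_iff.2 hx) (norm_ne_zero_iff.2 h0)]
  ring

section Vec

variable {E : Type*} [NormedAddCommGroup E] [InnerProductSpace ℂ E]

/-- `‖q‖²` at a zero of a differentiable map -/
theorem hasL_normSq_zero {q : ℂ → E} {z : ℂ} {q' : E} (hq : HasDerivAt q q' z) (h0 : q z = 0) :
    HasL (fun x => ‖q x‖ ^ 2) z (‖q'‖ ^ 2) := by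
  have h1 : (fun w : ℂ => q (z + w) - w • q') =o[𝓝 0] fun w : ℂ => w := by
    have := hasDerivAt_iff_isLittleO_nhds_zero.1 hq
    simpa [h0] using this
  have h2 : (fun w : ℂ => ‖q (z + w)‖ ^ 2 - ‖q'‖ ^ 2 * ‖w‖ ^ 2) =o[𝓝 0]
      fun w : ℂ => ‖w‖ ^ 2 := by
    have hb : (fun w : ℂ => ‖q (z + w)‖ + ‖w • q'‖) =O[𝓝 0] fun w : ℂ => ‖w‖ := by
      have h3 : (fun w : ℂ => w • q') =O[𝓝 0] fun w : ℂ => w := by
        refine IsBigO.of_bound ‖q'‖ (Eventually.of_forall fun w => ?_)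
        rw [norm_smul, mul_comm]
      have h4 : (fun w : ℂ => q (z + w)) =O[𝓝 0] fun w : ℂ => w := by
        have := h1.isBigO.add h3
        simpa using this
      exact (h4.norm_norm.add h3.norm_norm)
    have ha : (fun w : ℂ => ‖q (z + w)‖ - ‖w • q'‖) =o[𝓝 0] fun w : ℂ => ‖w‖ := by
      refine IsBigO.trans_isLittleO (IsBigO.of_bound 1 (Eventually.of_forall fun w => ?_))
        h1.norm_norm
      rw [one_mul, Real.norm_eq_abs, Real.norm_eq_abs, abs_norm]
      exact abs_norm_sub_norm_le _ _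
    refine ((ha.mul_isBigO hb).congr_left fun w => ?_).congr_right fun w => ?_
    · rw [norm_smul]; ring
    · ring
  have hc : ∀ a : ℂ, ‖a‖ = 1 →
      (fun w : ℂ => ‖q (z + a * w)‖ ^ 2 - ‖q'‖ ^ 2 * ‖w‖ ^ 2) =o[𝓝 0]
        fun w : ℂ => ‖w‖ ^ 2 := by
    intro a ha
    have ht : Tendsto (fun w : ℂ => a * w) (𝓝 0) (𝓝 0) := by
      have : Continuous fun w : ℂ => a * w := by fun_prop
      simpa using this.tendsto 0
    refine ((h2.comp_tendsto ht).congr_left fun w => ?_).congr_right fun w => ?_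
    · simp [ha]
    · simp [ha]
  have htot := ((((hc 1 (by simp)).add (hc I (by simp))).add (hc (-1) (by simp))).add
    (hc (-I) (by simp))).const_mul_left (1 / 4)
  refine htot.congr_left fun w => ?_
  have e1 : (1 * w) = w := one_mul w
  have e2 : z + (-1 * w) = z - w := by ring
  have e3 : z + (-I * w) = z - I * w := by ring
  simp only [m4, h0, norm_zero, e1, e2, e3]
  ring

/-- Fubini-Study square norm of `v` at `p` -/
def fs (p v : E) : ℝ := (‖v‖ ^ 2 * ‖p‖ ^ 2 - ‖inner ℂ p v‖ ^ 2) / ‖p‖ ^ 4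

theorem fs_nonneg (p v : E) : 0 ≤ fs p v := by
  have h := norm_inner_le_norm (𝕜 := ℂ) p v
  have h2 := pow_le_pow_left₀ (norm_nonneg _) h 2
  exact div_nonneg (by nlinarith) (by positivity)


theorem norm_sub_proj_sq (p v : E) (hp : p ≠ 0) :
    ‖v - (inner ℂ p v / (‖p‖ : ℂ) ^ 2) • p‖ ^ 2 / ‖p‖ ^ 2 = fs p v := by
  have hp' : ‖p‖ ≠ 0 := norm_ne_zero_iff.2 hp
  have hpc : (‖p‖ : ℂ) ≠ 0 := by exact_mod_cast hp'
  have h1 : ‖(inner ℂ p v / (‖p‖ : ℂ) ^ 2) • p‖ ^ 2 = ‖inner ℂ p v‖ ^ 2 / ‖p‖ ^ 2 := by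
    rw [norm_smul, norm_div, norm_pow, Complex.norm_real, norm_norm, mul_pow, div_pow]
    field_simp
  have h2 : RCLike.re (inner ℂ v ((inner ℂ p v / (‖p‖ : ℂ) ^ 2) • p))
      = ‖inner ℂ p v‖ ^ 2 / ‖p‖ ^ 2 := by
    rw [inner_smul_right]
    have h3 : inner ℂ v p = (starRingEnd ℂ) (inner ℂ p v) := (inner_conj_symm v p).symm
    rw [h3]
    have h4 : inner ℂ p v / (‖p‖ : ℂ) ^ 2 * (starRingEnd ℂ) (inner ℂ p v)
        = ((‖inner ℂ p v‖ ^ 2 / ‖p‖ ^ 2 : ℝ) : ℂ) := by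
      rw [div_mul_eq_mul_div, Complex.mul_conj, Complex.normSq_eq_norm_sq]
      push_cast
      rfl
    rw [h4]
    exact Complex.ofReal_re _
  rw [@norm_sub_sq ℂ, h1, h2, fs]
  field_simp
  ring

/-- `(∀ δ > 0, ∂∂̄ u ≥ c - δ) → ∂∂̄ u ≥ c` -/
theorem lge_of_forall {u : ℂ → ℝ} {z : ℂ} {c : ℝ} (h : ∀ δ > 0, LGe u z (c - δ)) : LGe u z c := by
  intro ε hε
  filter_upwards [h (ε / 2) (half_pos hε) (ε / 2) (half_pos hε)] with w hw
  refine le_trans (le_of_eq ?_) hw
  ring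

theorem hasL_log_one_add {y : ℂ → ℝ} {z : ℂ} {c : ℝ} (hy : HasL y z c) (hc : 0 ≤ c)
    (hy0 : ∀ x, 0 ≤ y x) (hyz : y z = 0) (hcont : ContinuousAt y z) :
    HasL (fun x => Real.log (1 + y x)) z c := by
  rw [hasL_iff]
  constructor
  · refine lge_of_forall fun δ hδ => ?_
    obtain ⟨e, he0, he1, he2⟩ : ∃ e : ℝ, 0 < e ∧ e < 1 ∧ e * c ≤ δ := by
      refine ⟨min (1 / 2) (δ / (c + 1)), by positivity, ?_, ?_⟩
      · exact (min_le_left _ _).trans_lt (by norm_num)
      · calc min (1 / 2) (δ / (c + 1)) * c ≤ δ / (c + 1) * c :=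
              mul_le_mul_of_nonneg_right (min_le_right _ _) hc
          _ ≤ δ := by
              rw [div_mul_eq_mul_div, div_le_iff₀ (by positivity)]
              nlinarith
    have h1 : LGe (fun x => (1 - e) * y x) z (c - δ) :=
      ((hy.const_mul (1 - e)).lge).mono (by nlinarith)
    refine h1.of_le ?_ (by simp [hyz])
    have h2 : ∀ᶠ x in 𝓝 z, y x < e := hcont.eventually (gt_mem_nhds (by rwa [hyz]))
    filter_upwards [h2] with x hx
    have h3 := Real.one_sub_inv_le_log_of_pos (x := 1 + y x) (by linarith [hy0 x])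
    refine le_trans ?_ h3
    have h4 : 1 - (1 + y x)⁻¹ = y x / (1 + y x) := by
      have : 1 + y x ≠ 0 := by linarith [hy0 x]
      field_simp
      ring
    rw [h4, le_div_iff₀ (by linarith [hy0 x])]
    nlinarith [hy0 x, mul_nonneg (hy0 x) (hy0 x)]
  · refine hy.lle.of_ge (Eventually.of_forall fun x => ?_) (by simp [hyz])
    have := Real.log_le_sub_one_of_pos (x := 1 + y x) (by linarith [hy0 x])
    linarith

/-- `∂∂̄ log ‖F‖²` for a holomorphic vector valued function -/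
theorem hasL_log_normSq {F : ℂ → E} {z : ℂ} (hF : AnalyticAt ℂ F z) (h0 : F z ≠ 0) :
    HasL (fun x => Real.log (‖F x‖ ^ 2)) z (fs (F z) (deriv F z)) := by
  set p := F z with hp
  have hp' : ‖p‖ ≠ 0 := norm_ne_zero_iff.2 h0
  have hp2 : 0 < ‖p‖ := norm_pos_iff.2 h0
  have hpc : (‖p‖ : ℂ) ≠ 0 := by exact_mod_cast hp'
  set s : ℂ → ℂ := fun x => inner ℂ p (F x) / (‖p‖ : ℂ) ^ 2 with hs
  have hs_an : AnalyticAt ℂ s z := by
    have h1 : AnalyticAt ℂ (fun x => (innerSL ℂ p) (F x)) z :=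
      ((innerSL ℂ p).analyticAt _).comp hF
    exact h1.div_const
  have hsz : s z = 1 := by
    simp only [hs, ← hp, inner_self_eq_norm_sq_to_K]
    exact div_self (pow_ne_zero 2 hpc)
  have hs_d : HasDerivAt s (inner ℂ p (deriv F z) / (‖p‖ : ℂ) ^ 2) z := by
    have h1 : HasDerivAt (fun x => (innerSL ℂ p) (F x)) ((innerSL ℂ p) (deriv F z)) z :=
      (innerSL ℂ p).hasFDerivAt.comp_hasDerivAt z hF.differentiableAt.hasDerivAt
    exact h1.div_const _
  set q : ℂ → E := fun x => (s x)⁻¹ • F x - p with hq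
  have hq_d : HasDerivAt q
      (deriv F z - (inner ℂ p (deriv F z) / (‖p‖ : ℂ) ^ 2) • p) z := by
    have h1 := (hs_d.inv (by rw [hsz]; exact one_ne_zero)).smul
      hF.differentiableAt.hasDerivAt
    have h2 := h1.sub_const p
    refine h2.congr_deriv ?_
    rw [Pi.inv_apply, hsz, ← hp]
    simp
    abel
  have hqz : q z = 0 := by simp [hq, hsz, ← hp]
  have hne : ∀ᶠ x in 𝓝 z, s x ≠ 0 :=
    hs_an.continuousAt.eventually_ne (by rw [hsz]; exact one_ne_zero)
  have hy : HasL (fun x => (1 / ‖p‖ ^ 2) * ‖q x‖ ^ 2) z (fs p (deriv F z)) := by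
    have := (hasL_normSq_zero hq_d hqz).const_mul (1 / ‖p‖ ^ 2)
    rw [← norm_sub_proj_sq p _ h0]
    refine Eq.subst (motive := fun t => HasL _ z t) ?_ this
    ring
  have hlog := hasL_log_one_add hy (fs_nonneg _ _) (fun x => by positivity)
    (by simp [hqz]) ((hq_d.continuousAt.norm.pow 2).const_mul _)
  have hs_log := (hasL_log_norm hs_an (by rw [hsz]; exact one_ne_zero)).const_mul 2
  have htot := (hs_log.add (hasL_const (Real.log (‖p‖ ^ 2)) z)).add hlog
  have e0 : (2 * 0 + 0 + fs p (deriv F z) : ℝ) = fs p (deriv F z) := by ring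
  rw [e0] at htot
  refine htot.congr ?_
  filter_upwards [hne] with x hx
  have hFx : F x = s x • (p + q x) := by
    simp only [hq]
    rw [add_sub_cancel, smul_smul, mul_inv_cancel₀ hx, one_smul]
  have horth : inner ℂ p (q x) = 0 := by
    simp only [hq]
    rw [inner_sub_right, inner_smul_right, inner_self_eq_norm_sq_to_K]
    have : inner ℂ p (F x) = s x * (‖p‖ : ℂ) ^ 2 := by
      simp only [hs]
      field_simp
    rw [this, ← mul_assoc, inv_mul_cancel₀ hx, one_mul]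
    exact sub_self _
  have hpyth : ‖p + q x‖ ^ 2 = ‖p‖ ^ 2 + ‖q x‖ ^ 2 := by
    have := @norm_add_sq ℂ _ _ _ _ p (q x)
    rw [this, horth]
    simp
  have hsx : 0 < ‖s x‖ := norm_pos_iff.2 hx
  have hnF : ‖F x‖ ^ 2 = ‖s x‖ ^ 2 * (‖p‖ ^ 2 * (1 + 1 / ‖p‖ ^ 2 * ‖q x‖ ^ 2)) := by
    conv_lhs => rw [hFx]
    rw [norm_smul, mul_pow, hpyth]
    field_simp
  have hpos : (0 : ℝ) < 1 + 1 / ‖p‖ ^ 2 * ‖q x‖ ^ 2 := by positivity
  rw [hnF, Real.log_mul (by positivity) (by positivity), Real.log_mul (by positivity) hpos.ne',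
    show Real.log (‖s x‖ ^ 2) = 2 * Real.log ‖s x‖ by
      rw [Real.log_pow]; norm_num]
  ring

end Vec

/-! ### barrier -/

theorem HasL.comp {u : ℂ → ℝ} {z : ℂ} {c G : ℝ} {φ : ℝ → ℝ} {φ1 φ2 : ℝ} (hu : HasL u z c)
    (hG : HasL (fun x => (u x - u z) ^ 2) z G)
    (hO : (fun w => u (z + w) - u z) =O[𝓝 0] fun w : ℂ => ‖w‖)
    (hφ : (fun y => φ (u z + y) - φ (u z) - φ1 * y - φ2 / 2 * y ^ 2) =o[𝓝 0]
      fun y : ℝ => y ^ 2) :
    HasL (fun x => φ (u x)) z (φ1 * c + φ2 / 2 * G) := by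
  have hT : Tendsto (fun w => u (z + w) - u z) (𝓝 0) (𝓝 0) := by
    refine hO.trans_tendsto ?_
    simpa using (continuous_norm (E := ℂ)).tendsto 0
  set e : ℂ → ℝ := fun w => φ (u (z + w)) - φ (u z) - φ1 * (u (z + w) - u z)
    - φ2 / 2 * (u (z + w) - u z) ^ 2 with he
  have h1 : e =o[𝓝 0] fun w : ℂ => ‖w‖ ^ 2 := by
    have h2 := hφ.comp_tendsto hT
    have h3 : (fun w => (u (z + w) - u z) ^ 2) =O[𝓝 0] fun w : ℂ => ‖w‖ ^ 2 := hO.pow 2
    refine (h2.trans_isBigO h3).congr_left fun w => ?_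
    simp only [Function.comp, he]
    rw [add_sub_cancel]
  have hc : ∀ a : ℂ, ‖a‖ = 1 → (fun w : ℂ => e (a * w)) =o[𝓝 0] fun w : ℂ => ‖w‖ ^ 2 := by
    intro a ha
    have ht : Tendsto (fun w : ℂ => a * w) (𝓝 0) (𝓝 0) := by
      have : Continuous fun w : ℂ => a * w := by fun_prop
      simpa using this.tendsto 0
    refine (h1.comp_tendsto ht).congr_right fun w => ?_
    simp [ha]
  have htot := ((((hc 1 (by simp)).add (hc I (by simp))).add (hc (-1) (by simp))).add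
    (hc (-I) (by simp))).const_mul_left (1 / 4)
  have h5 := (htot.add (IsLittleO.const_mul_left hu φ1)).add
    (IsLittleO.const_mul_left hG (φ2 / 2))
  refine h5.congr_left fun w => ?_
  have e1 : (1 * w) = w := one_mul w
  have e2 : z + (-1 * w) = z - w := by ring
  have e3 : z + (-I * w) = z - I * w := by ring
  simp only [m4, he, e1, e2, e3]
  ring













end Crest.Agent.R269.LevP_79
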