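import Mathlib
import Crest.Agent.R269.Defs_58
import Crest.Agent.R269.Alp5_927
import Crest.Agent.R269.GeoT_328
import Crest.Agent.R269.LevCone_901
import Crest.Agent.R269.Chart_632

/-!
# R269 (S0411): uniform bounds of forms on `T X` by compactness (helper632)

`Frm I f` : `f p v` (`p ∈ Cone I`, `v ∈ Tan I p`) is continuous, horizontal, `ℂ*`-invariant and
quadratic.
* `Frm.bdd`  : `|f p v| ≤ C ω(p; v)`;
* `Frm.pos`  : `f > 0` off the Euler direction ⟹ `c ω ≤ f` with `c > 0`;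
* `frm_alpha`, `frm_lev`, `frm_omg` : the three basic forms (and sums / multiples);
* `posC` : `PosP I n` ⟹ `∃ φ c, SmX I φ ∧ 0 < c ∧ c ω ≤ α + L φ`.
-/

set_option autoImplicit false

open Filter Topology MvPolynomial Crest.AlgGeometry.ProjEmb
open Crest.Agent.R269.Geo_328 Crest.Agent.R269.Defs_58
open scoped ContDiff ComplexConjugate

namespace Crest.Agent.R269.PosC_632

noncomputable section

variable {N n : ℕ} {I : Ideal (HomCoordRing N)}

/-- an invariant continuous quadratic form on `T X` in ambient form -/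
structure Frm (I : Ideal (HomCoordRing N)) (f : EE N → EE N → ℝ) : Prop where
  cont : ∀ p ∈ Cone I, ∀ v ∈ Tan I p,
    ContinuousWithinAt (fun x : EE N × EE N => f x.1 x.2) {x | x.1 ∈ Cone I ∧ x.2 ∈ Tan I x.1} (p, v)
  inv : ∀ p ∈ Cone I, ∀ v ∈ Tan I p, ∀ c : ℂ, c ≠ 0 → ∀ r : ℂ,
    f (c • p) (c • (v + r • p)) = f p v
  quad : ∀ p ∈ Cone I, ∀ v ∈ Tan I p, ∀ t : ℝ, f p ((t : ℂ) • v) = t ^ 2 * f p v

/-- the unit horizontal tangent vectors -/
def KK (I : Ideal (HomCoordRing N)) : Set (EE N × EE N) :=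
  {x | x.1 ∈ affineCone I ∧ nsq x.1 = 1 ∧ x.2 ∈ Tan I x.1 ∧ ∑ k, x.2 k * conj (x.1 k) = 0 ∧
    nsq x.2 = 1}

theorem norm_le_of_nsq {p : EE N} (h : nsq p = 1) : ‖p‖ ≤ 1 := by
  refine (pi_norm_le_iff_of_nonneg zero_le_one).2 fun i => ?_
  have h1 : ‖p i‖ ^ 2 ≤ nsq p :=
    Finset.single_le_sum (f := fun i => ‖p i‖ ^ 2) (fun j _ => by positivity) (Finset.mem_univ i)
  rw [h] at h1
  have := norm_nonneg (p i)
  nlinarith

theorem continuous_nsq : Continuous (fun p : EE N => nsq p) := by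
  unfold nsq
  fun_prop

theorem continuous_gradP (F : HomCoordRing N) (j : Fin (N + 1)) :
    Continuous (fun p : EE N => gradP F p j) := by
  unfold gradP
  exact MvPolynomial.continuous_eval _

theorem isClosed_KK (I : Ideal (HomCoordRing N)) : IsClosed (KK I) := by
  have h1 : IsClosed {x : EE N × EE N | x.1 ∈ affineCone I} := by
    have : {x : EE N × EE N | x.1 ∈ affineCone I} = ⋂ F ∈ I, {x | MvPolynomial.eval x.1 F = 0} := by
      ext x
      simp only [Set.mem_iInter, Set.mem_ofPred_eq]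
      exact Iff.rfl
    rw [this]
    refine isClosed_biInter fun F _ => ?_
    exact isClosed_eq ((MvPolynomial.continuous_eval F).comp continuous_fst) continuous_const
  have h2 : IsClosed {x : EE N × EE N | nsq x.1 = 1} :=
    isClosed_eq (continuous_nsq.comp continuous_fst) continuous_const
  have h3 : IsClosed {x : EE N × EE N | x.2 ∈ Tan I x.1} := by
    have : {x : EE N × EE N | x.2 ∈ Tan I x.1} = ⋂ F ∈ I, {x | dP F x.1 x.2 = 0} := by
      ext x
      simp only [Set.mem_iInter, Set.mem_ofPred_eq]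
      exact Iff.rfl
    rw [this]
    refine isClosed_biInter fun F _ => ?_
    refine isClosed_eq ?_ continuous_const
    unfold dP
    refine continuous_finsetSum _ fun j _ => ?_
    exact ((continuous_gradP F j).comp continuous_fst).mul ((continuous_apply j).comp continuous_snd)
  have h4 : IsClosed {x : EE N × EE N | ∑ k, x.2 k * conj (x.1 k) = 0} := by
    refine isClosed_eq (continuous_finsetSum _ fun k _ => ?_) continuous_const
    exact ((continuous_apply k).comp continuous_snd).mul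
      (Complex.continuous_conj.comp ((continuous_apply k).comp continuous_fst))
  have h5 : IsClosed {x : EE N × EE N | nsq x.2 = 1} :=
    isClosed_eq (continuous_nsq.comp continuous_snd) continuous_const
  exact h1.inter (h2.inter (h3.inter (h4.inter h5)))

theorem isCompact_KK (I : Ideal (HomCoordRing N)) : IsCompact (KK I) := by
  refine Metric.isCompact_of_isClosed_isBounded (isClosed_KK I) ?_
  refine (Metric.isBounded_iff_subset_closedBall (0 : EE N × EE N)).2 ⟨1, fun x hx => ?_⟩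
  rw [mem_closedBall_zero_iff, Prod.norm_def]
  exact max_le (norm_le_of_nsq hx.2.1) (norm_le_of_nsq hx.2.2.2.2)

theorem ne_zero_of_nsq {p : EE N} (h : nsq p = 1) : p ≠ 0 := by
  rintro rfl
  simp [nsq] at h

theorem KK_sub (I : Ideal (HomCoordRing N)) :
    KK I ⊆ {x | x.1 ∈ Cone I ∧ x.2 ∈ Tan I x.1} := fun _ hx =>
  ⟨⟨hx.1, ne_zero_of_nsq hx.2.1⟩, hx.2.2.1⟩

theorem nsq_pos {p : EE N} (hp : p ≠ 0) : 0 < nsq p := Alp_927.nsq_pos hp

theorem nsq_nonneg (p : EE N) : 0 ≤ nsq p := Finset.sum_nonneg fun _ _ => by positivity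


theorem nsq_smul (c : ℂ) (p : EE N) : nsq (c • p) = ‖c‖ ^ 2 * nsq p := by
  rw [Alp_927.nsq_smul, Complex.normSq_eq_norm_sq]

/-- normal form: every `(p, v)` with `v` not Euler is `(c p, t c (v + r p))` in `KK` -/
theorem exists_KK (hX : IsSmoothProjective I n) {p : EE N} (hp : p ∈ Cone I) {v : EE N}
    (hv : v ∈ Tan I p) (hne : ∀ c : ℂ, v ≠ c • p) :
    ∃ c : ℂ, c ≠ 0 ∧ ∃ r : ℂ, ∃ t : ℝ, t ≠ 0 ∧
      (c • p, (t : ℂ) • (c • (v + r • p))) ∈ KK I ∧ t ^ 2 * omg p v = 1 := by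
  have hn := nsq_pos hp.2
  set s : ℝ := Real.sqrt (nsq p) with hs
  have hs0 : 0 < s := Real.sqrt_pos.2 hn
  have hs2 : s ^ 2 = nsq p := Real.sq_sqrt hn.le
  set c : ℂ := ((s⁻¹ : ℝ) : ℂ) with hcdef
  have hc : c ≠ 0 := by
    rw [hcdef]; exact_mod_cast (inv_pos.2 hs0).ne'
  have hcn : ‖c‖ = s⁻¹ := by
    rw [hcdef, Complex.norm_real, Real.norm_of_nonneg (inv_pos.2 hs0).le]
  set r : ℂ := -(∑ k, v k * conj (p k)) / (nsq p : ℂ) with hr
  have hnC : (nsq p : ℂ) ≠ 0 := by exact_mod_cast hn.ne'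
  have hpp : ∑ k, p k * conj (p k) = (nsq p : ℂ) := by
    unfold nsq
    push_cast
    refine Finset.sum_congr rfl fun k _ => ?_
    rw [Complex.mul_conj, Complex.normSq_eq_norm_sq]; push_cast; rfl
  have horth : ∑ k, (v + r • p) k * conj (p k) = 0 := by
    have : ∑ k, (v + r • p) k * conj (p k) =
        ∑ k, v k * conj (p k) + r * ∑ k, p k * conj (p k) := by
      rw [Finset.mul_sum, ← Finset.sum_add_distrib]
      refine Finset.sum_congr rfl fun k _ => ?_
      simp only [Pi.add_apply, Pi.smul_apply, smul_eq_mul]; ring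
    rw [this, hpp, hr]
    field_simp
    ring
  have hw0 : v + r • p ≠ 0 := by
    intro h
    refine hne (-r) ?_
    rw [neg_smul]
    exact eq_neg_of_add_eq_zero_left h
  have hwn := nsq_pos hw0
  -- `omg p v = nsq (v + r p) / nsq p`
  have hom : omg p v = nsq (v + r • p) / nsq p := by
    have h1 : v = (v + r • p) + (-r) • p := by
      rw [neg_smul]; abel
    have hexp : nsq v = nsq (v + r • p) + ‖r‖ ^ 2 * nsq p := by
      have h2 : ∀ k, ‖v k‖ ^ 2 = ‖(v + r • p) k‖ ^ 2 + ‖r‖ ^ 2 * ‖p k‖ ^ 2 -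
          2 * (((v + r • p) k * conj (p k)) * conj r).re := by
        intro k
        have e1 : v k = (v + r • p) k - r * p k := by
          simp only [Pi.add_apply, Pi.smul_apply, smul_eq_mul]; ring
        have e2 : ∀ a b : ℂ, ‖a - b‖ ^ 2 = ‖a‖ ^ 2 + ‖b‖ ^ 2 - 2 * (a * conj b).re := by
          intro a b
          rw [← Complex.normSq_eq_norm_sq, ← Complex.normSq_eq_norm_sq, ← Complex.normSq_eq_norm_sq,
            Complex.normSq_sub]
        rw [e1, e2, norm_mul, mul_pow]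
        congr 3
        rw [map_mul]; ring
      unfold nsq
      rw [Finset.sum_congr rfl fun k _ => h2 k, Finset.sum_sub_distrib, Finset.sum_add_distrib,
        ← Finset.mul_sum, ← Finset.mul_sum, ← Complex.re_sum, ← Finset.sum_mul, horth]
      simp
    have hin : ‖∑ k, v k * conj (p k)‖ ^ 2 = ‖r‖ ^ 2 * nsq p ^ 2 := by
      rw [hr, norm_div, norm_neg, Complex.norm_real, Real.norm_of_nonneg hn.le]
      field_simp
    show (nsq p * nsq v - ‖∑ k, v k * conj (p k)‖ ^ 2) / nsq p ^ 2 = _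
    rw [hexp, hin]
    field_simp
    ring
  have homp : 0 < omg p v := by rw [hom]; positivity
  set t : ℝ := (Real.sqrt (omg p v))⁻¹ with ht
  have ht0 : 0 < t := by rw [ht]; positivity
  have ht2 : t ^ 2 * omg p v = 1 := by
    rw [ht, inv_pow, Real.sq_sqrt homp.le]
    exact inv_mul_cancel₀ homp.ne'
  refine ⟨c, hc, r, t, ht0.ne', ⟨?_, ?_, ?_, ?_, ?_⟩, ht2⟩
  · exact (Geo_328.smul_mem_Cone hX hp hc).1
  · show nsq (c • p) = 1
    rw [nsq_smul, hcn, inv_pow, hs2]
    exact inv_mul_cancel₀ hn.ne'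
  · show (t : ℂ) • (c • (v + r • p)) ∈ Tan I (c • p)
    rw [Geo_328.Tan_smul hX p hc]
    refine Submodule.smul_mem _ _ (Submodule.smul_mem _ _ (Submodule.add_mem _ hv ?_))
    exact Submodule.smul_mem _ _ (Geo_328.self_mem_Tan hX hp.1)
  · show ∑ k, ((t : ℂ) • (c • (v + r • p))) k * conj ((c • p) k) = 0
    have : ∑ k, ((t : ℂ) • (c • (v + r • p))) k * conj ((c • p) k) =
        (t * c * conj c) * ∑ k, (v + r • p) k * conj (p k) := by
      rw [Finset.mul_sum]
      refine Finset.sum_congr rfl fun k _ => ?_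
      simp only [Pi.smul_apply, smul_eq_mul, map_mul]; ring
    rw [this, horth, mul_zero]
  · show nsq ((t : ℂ) • (c • (v + r • p))) = 1
    have hs3 : (s⁻¹) ^ 2 = (nsq p)⁻¹ := by rw [inv_pow, hs2]
    rw [nsq_smul, nsq_smul, hcn, Complex.norm_real, Real.norm_of_nonneg ht0.le, hs3]
    rw [hom] at ht2
    rw [← ht2]; ring

theorem omg_euler {p : EE N} (hp : p ≠ 0) (c : ℂ) : omg p (c • p) = 0 := by
  have hn := nsq_pos hp
  have hpp : ∑ k, (c • p) k * conj (p k) = c * (nsq p : ℂ) := by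
    unfold nsq
    push_cast
    rw [Finset.mul_sum]
    refine Finset.sum_congr rfl fun k _ => ?_
    rw [Pi.smul_apply, smul_eq_mul, mul_assoc, Complex.mul_conj, Complex.normSq_eq_norm_sq]
    push_cast; rfl
  show (nsq p * nsq (c • p) - ‖∑ k, (c • p) k * conj (p k)‖ ^ 2) / nsq p ^ 2 = 0
  rw [nsq_smul, hpp, norm_mul, Complex.norm_real, Real.norm_of_nonneg hn.le]
  rw [show nsq p * (‖c‖ ^ 2 * nsq p) - (‖c‖ * nsq p) ^ 2 = 0 by ring, zero_div]

namespace Frm

variable {f g : EE N → EE N → ℝ}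

theorem zero (hf : Frm I f) {p : EE N} (hp : p ∈ Cone I) : f p 0 = 0 := by
  have := hf.quad p hp 0 (Submodule.zero_mem _) 0
  simpa using this

theorem euler (hf : Frm I f) {p : EE N} (hp : p ∈ Cone I) (c : ℂ) : f p (c • p) = 0 := by
  have := hf.inv p hp 0 (Submodule.zero_mem _) 1 one_ne_zero c
  rw [one_smul, one_smul, zero_add] at this
  rw [this, hf.zero hp]

theorem add (hf : Frm I f) (hg : Frm I g) : Frm I (fun p v => f p v + g p v) where
  cont p hp v hv := (hf.cont p hp v hv).add (hg.cont p hp v hv)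
  inv p hp v hv c hc r := by rw [hf.inv p hp v hv c hc r, hg.inv p hp v hv c hc r]
  quad p hp v hv t := by rw [hf.quad p hp v hv t, hg.quad p hp v hv t]; ring

theorem const_mul (hf : Frm I f) (e : ℝ) : Frm I (fun p v => e * f p v) where
  cont p hp v hv := (hf.cont p hp v hv).const_mul e
  inv p hp v hv c hc r := by rw [hf.inv p hp v hv c hc r]
  quad p hp v hv t := by rw [hf.quad p hp v hv t]; ring

theorem continuousOn (hf : Frm I f) : ContinuousOn (fun x : EE N × EE N => f x.1 x.2) (KK I) :=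
  fun x hx => (hf.cont x.1 (KK_sub I hx).1 x.2 (KK_sub I hx).2).mono (KK_sub I)

/-- transport to the unit bundle -/
theorem eq_KK (hf : Frm I f) (hX : IsSmoothProjective I n) {p : EE N} (hp : p ∈ Cone I) {v : EE N}
    (hv : v ∈ Tan I p) {c : ℂ} (hc : c ≠ 0) (r : ℂ) (t : ℝ) :
    f (c • p) ((t : ℂ) • (c • (v + r • p))) = t ^ 2 * f p v := by
  rw [hf.quad (c • p) (Geo_328.smul_mem_Cone hX hp hc) _ _ t, hf.inv p hp v hv c hc r]
  rw [Geo_328.Tan_smul hX p hc]
  exact Submodule.smul_mem _ _ (Submodule.add_mem _ hv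
    (Submodule.smul_mem _ _ (Geo_328.self_mem_Tan hX hp.1)))

/-- boundedness by `ω` -/
theorem bdd (hf : Frm I f) (hX : IsSmoothProjective I n) :
    ∃ C : ℝ, ∀ p ∈ Cone I, ∀ v ∈ Tan I p, |f p v| ≤ C * omg p v := by
  obtain ⟨C, hC⟩ := (isCompact_KK I).exists_bound_of_continuousOn hf.continuousOn
  refine ⟨C, fun p hp v hv => ?_⟩
  by_cases hne : ∀ c : ℂ, v ≠ c • p
  · obtain ⟨c, hc, r, t, ht, hK, h1⟩ := exists_KK hX hp hv hne
    have h2 := hC _ hK
    rw [Real.norm_eq_abs] at h2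
    simp only at h2
    rw [hf.eq_KK hX hp hv hc r t, abs_mul, abs_of_nonneg (sq_nonneg t)] at h2
    have ht2 : 0 < t ^ 2 := by positivity
    have h3 : t ^ 2 * |f p v| ≤ t ^ 2 * (C * omg p v) := by
      calc t ^ 2 * |f p v| ≤ C := h2
        _ = C * (t ^ 2 * omg p v) := by rw [h1, mul_one]
        _ = t ^ 2 * (C * omg p v) := by ring
    exact le_of_mul_le_mul_left h3 ht2
  · push Not at hne
    obtain ⟨c, rfl⟩ := hne
    rw [hf.euler hp, omg_euler hp.2]
    simp

/-- positivity, uniformly -/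
theorem pos (hf : Frm I f) (hX : IsSmoothProjective I n)
    (h : ∀ p ∈ Cone I, ∀ v ∈ Tan I p, (∀ c : ℂ, v ≠ c • p) → 0 < f p v) :
    ∃ c : ℝ, 0 < c ∧ ∀ p ∈ Cone I, ∀ v ∈ Tan I p, c * omg p v ≤ f p v := by
  have key : ∃ c : ℝ, 0 < c ∧ ∀ x ∈ KK I, c ≤ f x.1 x.2 := by
    rcases (KK I).eq_empty_or_nonempty with h0 | h0
    · exact ⟨1, one_pos, fun x hx => by rw [h0] at hx; exact hx.elim⟩
    · obtain ⟨x, hx, hmin⟩ := (isCompact_KK I).exists_isMinOn h0 hf.continuousOn
      refine ⟨f x.1 x.2, h x.1 (KK_sub I hx).1 x.2 (KK_sub I hx).2 ?_, fun y hy => hmin hy⟩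
      intro c hc
      have h1 := hx.2.2.2.1
      have h2 := hx.2.1
      have h3 := hx.2.2.2.2
      rw [hc] at h1 h3
      have hpp : ∑ k, (c • x.1) k * conj (x.1 k) = c * (nsq x.1 : ℂ) := by
        unfold nsq
        push_cast
        rw [Finset.mul_sum]
        refine Finset.sum_congr rfl fun k _ => ?_
        rw [Pi.smul_apply, smul_eq_mul, mul_assoc, Complex.mul_conj, Complex.normSq_eq_norm_sq]
        push_cast; rfl
      rw [hpp, h2] at h1
      have hc0 : c = 0 := by simpa using h1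
      rw [hc0, zero_smul] at h3
      simp [nsq] at h3
  obtain ⟨c₀, hc₀, hK⟩ := key
  refine ⟨c₀, hc₀, fun p hp v hv => ?_⟩
  by_cases hne : ∀ c : ℂ, v ≠ c • p
  · obtain ⟨c, hc, r, t, ht, hKm, h1⟩ := exists_KK hX hp hv hne
    have h2 := hK _ hKm
    simp only at h2
    rw [hf.eq_KK hX hp hv hc r t] at h2
    have ht2 : 0 < t ^ 2 := by positivity
    have h3 : t ^ 2 * (c₀ * omg p v) ≤ t ^ 2 * f p v := by
      calc t ^ 2 * (c₀ * omg p v) = c₀ * (t ^ 2 * omg p v) := by ring
        _ = c₀ := by rw [h1, mul_one]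
        _ ≤ _ := h2
    exact le_of_mul_le_mul_left h3 ht2
  · push Not at hne
    obtain ⟨c, rfl⟩ := hne
    rw [hf.euler hp, omg_euler hp.2, mul_zero]

end Frm

/-! ### the basic forms -/

/-- the Levi form of a smooth function on `X` -/
theorem frm_lev (hI : I.IsPrime) (hX : IsSmoothProjective I n) {u : EE N → ℝ} (hu : SmX I u) :
    Frm I (fun p v => lev u p v) where
  cont p hp v hv := by
    have h1 : ContinuousAt (fun q : EE N × EE N => LevC_653.lev u q.1 q.2) (p, v) :=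
      Lev_901.continuousAt_lev ((hu.1 p hp).of_le (WithTop.coe_le_coe.2 le_top)) v
    have h2 : (fun x : EE N × EE N => lev u x.1 x.2) =
        fun q : EE N × EE N => LevC_653.lev u q.1 q.2 := by
      funext q; exact Alp_927.lev_eq u q.1 q.2
    show ContinuousWithinAt (fun x : EE N × EE N => lev u x.1 x.2) _ _
    rw [h2]
    exact h1.continuousWithinAt
  inv p hp v hv c hc r := by
    obtain ⟨C⟩ := Chart_632.chartStmt N n I hI hX p hp
    have h2 : ∀ q ∈ Cone I, ContDiffAt ℝ 2 u q := fun q hq =>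
      (hu.1 q hq).of_le (WithTop.coe_le_coe.2 le_top)
    have hv' : v + r • p ∈ Tan I p := Submodule.add_mem _ hv
      (Submodule.smul_mem _ _ (Geo_328.self_mem_Tan hX hp.1))
    rw [Alp_927.lev_eq, Alp_927.lev_eq,
      LevCone_901.lev_smul_point hX hp C hu.2 hc (h2 p hp)
        (h2 _ (Geo_328.smul_mem_Cone hX hp hc)) hv',
      LevCone_901.lev_add_smul_self hX hp C hu.2 (h2 p hp) hv r]
  quad p hp v hv t := by
    rw [Alp_927.lev_eq, Alp_927.lev_eq, Lev_901.lev_smul]
    simp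

/-- the Fubini-Study form -/
theorem frm_omg (_hI : I.IsPrime) (_hX : IsSmoothProjective I n) : Frm I (fun p v => omg p v) where
  cont p hp v hv := by
    refine ContinuousAt.continuousWithinAt ?_
    unfold omg
    have hn : (∑ i, ‖p i‖ ^ 2) ^ 2 ≠ 0 := (pow_pos (nsq_pos hp.2) 2).ne'
    refine ContinuousAt.div ?_ ?_ hn
    · exact Continuous.continuousAt (by fun_prop)
    · exact Continuous.continuousAt (by fun_prop)
  inv p hp v hv c hc r := by
    have hn := nsq_pos hp.2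
    have hpp : ∑ k, p k * conj (p k) = (nsq p : ℂ) := by
      unfold nsq
      push_cast
      refine Finset.sum_congr rfl fun k _ => ?_
      rw [Complex.mul_conj, Complex.normSq_eq_norm_sq]; push_cast; rfl
    set s : ℂ := ∑ k, v k * conj (p k) with hs
    have e1 : ∑ k, (c • (v + r • p)) k * conj ((c • p) k) =
        ((‖c‖ ^ 2 : ℝ) : ℂ) * (s + r * (nsq p : ℂ)) := by
      rw [hs, ← hpp, Finset.mul_sum, ← Finset.sum_add_distrib, Finset.mul_sum]
      refine Finset.sum_congr rfl fun k _ => ?_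
      simp only [Pi.smul_apply, Pi.add_apply, smul_eq_mul, map_mul]
      have : ((‖c‖ ^ 2 : ℝ) : ℂ) = c * conj c := by
        rw [Complex.mul_conj, Complex.normSq_eq_norm_sq]
      rw [this]; ring
    have e2 : nsq (v + r • p) = nsq v + ‖r‖ ^ 2 * nsq p + 2 * (s * conj r).re := by
      have h2 : ∀ k, ‖(v + r • p) k‖ ^ 2 = ‖v k‖ ^ 2 + ‖r‖ ^ 2 * ‖p k‖ ^ 2 +
          2 * ((v k * conj (p k)) * conj r).re := by
        intro k
        have e2 : ∀ a b : ℂ, ‖a + b‖ ^ 2 = ‖a‖ ^ 2 + ‖b‖ ^ 2 + 2 * (a * conj b).re := by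
          intro a b
          rw [← Complex.normSq_eq_norm_sq, ← Complex.normSq_eq_norm_sq, ← Complex.normSq_eq_norm_sq,
            Complex.normSq_add]
        rw [Pi.add_apply, Pi.smul_apply, smul_eq_mul, e2, norm_mul, mul_pow]
        congr 3
        rw [map_mul]; ring
      unfold nsq
      rw [Finset.sum_congr rfl fun k _ => h2 k, Finset.sum_add_distrib, Finset.sum_add_distrib,
        ← Finset.mul_sum, ← Finset.mul_sum, ← Complex.re_sum, ← Finset.sum_mul, hs]
    have e3 : ‖s + r * (nsq p : ℂ)‖ ^ 2 = ‖s‖ ^ 2 + ‖r‖ ^ 2 * nsq p ^ 2 +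
        2 * nsq p * (s * conj r).re := by
      rw [← Complex.normSq_eq_norm_sq, Complex.normSq_add, Complex.normSq_eq_norm_sq,
        Complex.normSq_eq_norm_sq, norm_mul, mul_pow, Complex.norm_real,
        Real.norm_of_nonneg hn.le, map_mul, Complex.conj_ofReal]
      have : (s * (conj r * (nsq p : ℂ))).re = nsq p * (s * conj r).re := by
        rw [← mul_assoc, mul_comm _ (nsq p : ℂ), Complex.re_ofReal_mul]
      rw [this]; ring
    show (nsq (c • p) * nsq (c • (v + r • p)) -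
      ‖∑ k, (c • (v + r • p)) k * conj ((c • p) k)‖ ^ 2) / nsq (c • p) ^ 2 =
      (nsq p * nsq v - ‖s‖ ^ 2) / nsq p ^ 2
    rw [e1, norm_mul, mul_pow, Complex.norm_real, Real.norm_of_nonneg (by positivity), e3,
      nsq_smul, nsq_smul, e2]
    have hc2 : ‖c‖ ≠ 0 := norm_ne_zero_iff.2 hc
    field_simp
    ring
  quad p hp v hv t := by
    have e1 : ∑ k, ((t : ℂ) • v) k * conj (p k) = (t : ℂ) * ∑ k, v k * conj (p k) := by
      rw [Finset.mul_sum]
      refine Finset.sum_congr rfl fun k _ => ?_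
      rw [Pi.smul_apply, smul_eq_mul]; ring
    show (nsq p * nsq ((t : ℂ) • v) - ‖∑ k, ((t : ℂ) • v) k * conj (p k)‖ ^ 2) / nsq p ^ 2 =
      t ^ 2 * ((nsq p * nsq v - ‖∑ k, v k * conj (p k)‖ ^ 2) / nsq p ^ 2)
    rw [e1, nsq_smul, norm_mul, Complex.norm_real, Real.norm_eq_abs, mul_pow, sq_abs]
    ring

/-- the curvature form of `K_X` -/
theorem frm_alpha (hI : I.IsPrime) (hX : IsSmoothProjective I n) :
    Frm I (fun p v => alpha I n p v) where
  cont p hp v hv := by
    have := hI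
    obtain ⟨G, hG⟩ := Alp_927.exists_eqs hX hp
    have hW := hG.pos.ne'
    have h1 : ContinuousAt (fun q : EE N × EE N =>
        LevC_653.lev (Alp_927.lG G) q.1 q.2) (p, v) :=
      Lev_901.continuousAt_lev (Alp_927.contDiffAt_lG hW) v
    have h2 : ContinuousWithinAt (fun q : EE N × EE N =>
        LevC_653.lev (Alp_927.lG G) q.1 q.2 - (n + 1) * omg q.1 q.2)
        {x | x.1 ∈ Cone I ∧ x.2 ∈ Tan I x.1} (p, v) :=
      h1.continuousWithinAt.sub (((frm_omg hI hX).cont p hp v hv).const_mul _)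
    refine h2.congr_of_eventuallyEq ?_ ?_
    · have h3 : ∀ᶠ q in 𝓝 p, Alp_927.WS (Alp_927.gM G q) ≠ 0 := Alp_927.eventually_WS_ne hW
      have h4 : ∀ᶠ x : EE N × EE N in 𝓝 (p, v), Alp_927.WS (Alp_927.gM G x.1) ≠ 0 :=
        (continuous_fst.tendsto (p, v)).eventually h3
      filter_upwards [self_mem_nhdsWithin, nhdsWithin_le_nhds h4] with x hx hx4
      exact Alp_927.alpha_eq Chart_632.chartStmt hX hx.1 hx.2 (Alp_927.eqs_of_ne hG.mem hx4)
    · exact Alp_927.alpha_eq Chart_632.chartStmt hX hp hv hG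
  inv p hp v hv c hc r := by
    have := hI
    exact Alp_927.alpha_smul_add Chart_632.chartStmt hX hp hv hc r
  quad p hp v hv t := by
    have := hI
    obtain ⟨G, hG⟩ := Alp_927.exists_eqs hX hp
    rw [Alp_927.alpha_eq Chart_632.chartStmt hX hp hv hG,
      Alp_927.alpha_eq Chart_632.chartStmt hX hp (Submodule.smul_mem _ _ hv) hG,
      Lev_901.lev_smul, (frm_omg hI hX).quad p hp v hv t]
    simp only [Complex.norm_real, Real.norm_eq_abs, sq_abs]
    ring

/-- `|α| ≤ C ω` -/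
theorem alphaBddStmt : AlphaBddStmt := fun _ _ _ hI hX => (frm_alpha hI hX).bdd hX

/-- (I1) of helper243: the positive metric of `PosP` is uniformly positive -/
theorem posC (hI : I.IsPrime) (hX : IsSmoothProjective I n) (hP : PosP I n) :
    ∃ φ, SmX I φ ∧ ∃ c : ℝ, 0 < c ∧ ∀ p ∈ Cone I, ∀ v ∈ Tan I p,
      c * omg p v ≤ alpha I n p v + lev φ p v := by
  obtain ⟨φ, hφ, h⟩ := hP
  refine ⟨φ, hφ, ?_⟩
  exact ((frm_alpha hI hX).add (frm_lev hI hX hφ)).pos hX h

/-- `MAP`: the form `α + e ω + L φ` and all its companions are bounded -/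
theorem bdd_all (hI : I.IsPrime) (hX : IsSmoothProjective I n) {φ : EE N → ℝ} (hφ : SmX I φ)
    (s e : ℝ) : ∃ C : ℝ, ∀ p ∈ Cone I, ∀ v ∈ Tan I p,
      |s * alpha I n p v + e * omg p v + lev φ p v| ≤ C * omg p v :=
  ((((frm_alpha hI hX).const_mul s).add ((frm_omg hI hX).const_mul e)).add
    (frm_lev hI hX hφ)).bdd hX

end

end Crest.Agent.R269.PosC_632
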