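import Mathlib
import Crest.Agent.R269.Lev_901

/-!
# R269 (S0411), new STEP 3 (#1368): the `T`-functional in Green form (helper740)

`TG q s = 4 ∫₀ˢ r log(s/r) avg_{|z|=r} q dr  ( = (2/π) ∫_{|z|<s} log(s/|z|) q dA )`.

* `jensen` : `TG (lev u · 1) s = avg_{|z|=s} u - u 0` for `u` of class `C²` near the closed disc;
* additivity, monotonicity in `q` and in `s`, uniform continuity in `q`.
-/

set_option autoImplicit false

open MeasureTheory Set Filter Topology Real Metric
open Crest.Agent.R269.LevC_653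

noncomputable section

namespace Crest.Agent.R269.Green_740

/-! ### differentiation under the integral sign -/

theorem circleMap_cont2 : Continuous fun p : ℝ × ℝ => circleMap 0 p.1 p.2 := by
  unfold circleMap; fun_prop

theorem norm_exp_I (θ : ℝ) : ‖Complex.exp (θ * Complex.I)‖ = 1 := Complex.norm_exp_ofReal_mul_I θ

theorem hasDerivAt_integral {f f' : ℝ → ℝ → ℝ} {a b r : ℝ} (hr : r ∈ Ioo a b)
    (hf : ∀ x ∈ Ioo a b, Continuous (f x))
    (hf' : ContinuousOn (fun p : ℝ × ℝ => f' p.1 p.2) (Ioo a b ×ˢ univ))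
    (hd : ∀ x ∈ Ioo a b, ∀ θ, HasDerivAt (fun x => f x θ) (f' x θ) x) :
    HasDerivAt (fun x => ∫ θ in (0 : ℝ)..2 * π, f x θ) (∫ θ in (0 : ℝ)..2 * π, f' r θ) r := by
  obtain ⟨δ, hδ, hball⟩ := Metric.isOpen_iff.1 isOpen_Ioo r hr
  have hsub : closedBall r (δ / 2) ⊆ Ioo a b :=
    (closedBall_subset_ball (by linarith)).trans hball
  have hK : IsCompact (closedBall r (δ / 2) ×ˢ Icc (0 : ℝ) (2 * π)) :=
    (isCompact_closedBall _ _).prod isCompact_Icc
  obtain ⟨C, hC⟩ := hK.exists_bound_of_continuousOn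
    (hf'.mono (prod_mono hsub (subset_univ _)))
  have hcont' : Continuous (f' r) := by
    have h1 : ContinuousOn (fun θ : ℝ => f' r θ) univ :=
      hf'.comp (f := fun θ : ℝ => (r, θ)) (by fun_prop) (fun θ _ => ⟨hr, mem_univ _⟩)
    exact continuousOn_univ.1 h1
  refine (intervalIntegral.hasDerivAt_integral_of_dominated_loc_of_deriv_le
    (F := f) (F' := f') (s := closedBall r (δ / 2)) (bound := fun _ => C) (μ := volume)
    (closedBall_mem_nhds _ (by linarith)) ?_ ?_ ?_ ?_ ?_ ?_).2
  · filter_upwards [isOpen_Ioo.mem_nhds hr] with x hx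
    exact (hf x hx).aestronglyMeasurable
  · exact (hf r hr).intervalIntegrable _ _
  · exact hcont'.aestronglyMeasurable
  · refine ae_of_all _ fun θ hθ x hx => hC (x, θ) ⟨hx, ?_⟩
    rw [uIoc_of_le (by positivity)] at hθ
    exact ⟨hθ.1.le, hθ.2⟩
  · exact intervalIntegrable_const
  · exact ae_of_all _ fun θ _ x hx => hd x (hsub hx) θ

/-! ### circle averages of `C²` functions -/

section jensen

variable {u : ℂ → ℝ} {R : ℝ}

theorem mem_ball_circleMap {r θ : ℝ} (hr : r ∈ Ioo (-R) R) : circleMap 0 r θ ∈ ball (0 : ℂ) R := by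
  rw [mem_ball_zero_iff, norm_circleMap_zero, abs_lt]
  exact hr

theorem hasDerivAt_circleMap_radius (r θ : ℝ) :
    HasDerivAt (fun x : ℝ => circleMap 0 x θ) (Complex.exp (θ * Complex.I)) r := by
  have h : HasDerivAt (fun x : ℝ => (x : ℂ) * Complex.exp (θ * Complex.I))
      (1 * Complex.exp (θ * Complex.I)) r :=
    (Complex.ofRealCLM.hasDerivAt (x := r)).mul_const _
  simpa [circleMap] using h

/-- the first radial derivative of the circle integral -/
def m1 (u : ℂ → ℝ) (r : ℝ) : ℝ :=
  ∫ θ in (0 : ℝ)..2 * π, fderiv ℝ u (circleMap 0 r θ) (Complex.exp (θ * Complex.I))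

/-- the second radial derivative of the circle integral -/
def m2 (u : ℂ → ℝ) (r : ℝ) : ℝ :=
  ∫ θ in (0 : ℝ)..2 * π, fderiv ℝ (fderiv ℝ u) (circleMap 0 r θ) (Complex.exp (θ * Complex.I))
    (Complex.exp (θ * Complex.I))

theorem cont_fderiv (hu : ContDiffOn ℝ 2 u (ball 0 R)) : ContinuousOn (fderiv ℝ u) (ball 0 R) :=
  hu.continuousOn_fderiv_of_isOpen isOpen_ball (by norm_num)

theorem diff_fderiv (hu : ContDiffOn ℝ 2 u (ball 0 R)) {z : ℂ} (hz : z ∈ ball (0 : ℂ) R) :
    DifferentiableAt ℝ (fderiv ℝ u) z :=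
  ((hu.contDiffAt (isOpen_ball.mem_nhds hz)).fderiv_right (m := 1)
    (by norm_num)).differentiableAt (by norm_num)

theorem cont_fderiv2 (hu : ContDiffOn ℝ 2 u (ball 0 R)) :
    ContinuousOn (fderiv ℝ (fderiv ℝ u)) (ball 0 R) := by
  have h1 : ContDiffOn ℝ 1 (fderiv ℝ u) (ball 0 R) :=
    hu.fderiv_of_isOpen isOpen_ball (by norm_num)
  exact h1.continuousOn_fderiv_of_isOpen isOpen_ball (by norm_num)

theorem hasDerivAt_m0 (hu : ContDiffOn ℝ 2 u (ball 0 R)) {r : ℝ} (hr : r ∈ Ioo (-R) R) :
    HasDerivAt (fun x => ∫ θ in (0 : ℝ)..2 * π, u (circleMap 0 x θ)) (m1 u r) r := by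
  refine hasDerivAt_integral (f := fun x θ => u (circleMap 0 x θ))
    (f' := fun x θ => fderiv ℝ u (circleMap 0 x θ) (Complex.exp (θ * Complex.I))) hr ?_ ?_ ?_
  · intro x hx
    rw [← continuousOn_univ]
    exact hu.continuousOn.comp (continuous_circleMap 0 x).continuousOn
      (fun θ _ => mem_ball_circleMap hx)
  · refine ContinuousOn.clm_apply ?_ (by fun_prop)
    exact (cont_fderiv hu).comp circleMap_cont2.continuousOn
      (fun p hp => mem_ball_circleMap hp.1)
  · intro x hx θ
    have h1 : HasFDerivAt u (fderiv ℝ u (circleMap 0 x θ)) (circleMap 0 x θ) :=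
      ((hu.contDiffAt (isOpen_ball.mem_nhds (mem_ball_circleMap hx))).differentiableAt
        (by norm_num)).hasFDerivAt
    exact h1.comp_hasDerivAt x (hasDerivAt_circleMap_radius x θ)

theorem hasDerivAt_m1 (hu : ContDiffOn ℝ 2 u (ball 0 R)) {r : ℝ} (hr : r ∈ Ioo (-R) R) :
    HasDerivAt (m1 u) (m2 u r) r := by
  refine hasDerivAt_integral
    (f := fun x θ => fderiv ℝ u (circleMap 0 x θ) (Complex.exp (θ * Complex.I)))
    (f' := fun x θ => fderiv ℝ (fderiv ℝ u) (circleMap 0 x θ) (Complex.exp (θ * Complex.I))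
      (Complex.exp (θ * Complex.I))) hr ?_ ?_ ?_
  · intro x hx
    rw [← continuousOn_univ]
    refine ContinuousOn.clm_apply ?_ (by fun_prop)
    exact (cont_fderiv hu).comp (continuous_circleMap 0 x).continuousOn
      (fun θ _ => mem_ball_circleMap hx)
  · refine ContinuousOn.clm_apply (ContinuousOn.clm_apply ?_ (by fun_prop)) (by fun_prop)
    exact (cont_fderiv2 hu).comp circleMap_cont2.continuousOn
      (fun p hp => mem_ball_circleMap hp.1)
  · intro x hx θ
    have h1 : HasFDerivAt (fderiv ℝ u) (fderiv ℝ (fderiv ℝ u) (circleMap 0 x θ))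
        (circleMap 0 x θ) := (diff_fderiv hu (mem_ball_circleMap hx)).hasFDerivAt
    have h2 := h1.comp_hasDerivAt x (hasDerivAt_circleMap_radius x θ)
    exact h2.clm_apply (hasDerivAt_const x (Complex.exp (θ * Complex.I))) |>.congr_deriv (by simp)

/-- the angular part integrates to zero -/
theorem angular (hu : ContDiffOn ℝ 2 u (ball 0 R)) {r : ℝ} (hr : r ∈ Ioo (-R) R) :
    r * ∫ θ in (0 : ℝ)..2 * π, fderiv ℝ (fderiv ℝ u) (circleMap 0 r θ)
      (Complex.I * Complex.exp (θ * Complex.I)) (Complex.I * Complex.exp (θ * Complex.I))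
      = m1 u r := by
  set e : ℝ → ℂ := fun θ => Complex.exp (θ * Complex.I) with he
  have hde : ∀ θ : ℝ, HasDerivAt e (Complex.I * e θ) θ := by
    intro θ
    have h1 : HasDerivAt (fun x : ℝ => (x : ℂ) * Complex.I) (1 * Complex.I) θ :=
      (Complex.ofRealCLM.hasDerivAt (x := θ)).mul_const _
    have h2 := h1.cexp
    refine h2.congr_deriv ?_
    simp only [he]; ring
  have hde2 : ∀ θ : ℝ, HasDerivAt (fun θ => Complex.I * e θ) (-e θ) θ := by
    intro θ
    refine ((hde θ).const_mul Complex.I).congr_deriv ?_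
    rw [← mul_assoc, Complex.I_mul_I]; ring
  have hdc : ∀ θ : ℝ, HasDerivAt (fun θ => circleMap 0 r θ) (r • (Complex.I * e θ)) θ := by
    intro θ
    refine (hasDerivAt_circleMap 0 r θ).congr_deriv ?_
    simp only [he, circleMap, zero_add, Complex.real_smul]; ring
  set g : ℝ → ℝ := fun θ => fderiv ℝ u (circleMap 0 r θ) (Complex.I * e θ) with hg
  set g' : ℝ → ℝ := fun θ => r * fderiv ℝ (fderiv ℝ u) (circleMap 0 r θ) (Complex.I * e θ)
    (Complex.I * e θ) - fderiv ℝ u (circleMap 0 r θ) (e θ) with hg'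
  have hdg : ∀ θ, HasDerivAt g (g' θ) θ := by
    intro θ
    have h1 : HasFDerivAt (fderiv ℝ u) (fderiv ℝ (fderiv ℝ u) (circleMap 0 r θ))
        (circleMap 0 r θ) := (diff_fderiv hu (mem_ball_circleMap hr)).hasFDerivAt
    have h2 := h1.comp_hasDerivAt θ (hdc θ)
    have h3 := h2.clm_apply (hde2 θ)
    refine h3.congr_deriv ?_
    simp only [hg', map_smul, _root_.smul_apply, smul_eq_mul, map_neg,
      Function.comp]
    ring
  have hec : Continuous e := by simp only [he]; fun_prop
  have hc1 : Continuous fun θ => fderiv ℝ u (circleMap 0 r θ) (e θ) := by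
    rw [← continuousOn_univ]
    refine ContinuousOn.clm_apply ?_ hec.continuousOn
    exact (cont_fderiv hu).comp (continuous_circleMap 0 r).continuousOn
      (fun θ _ => mem_ball_circleMap hr)
  have hc2 : Continuous fun θ => fderiv ℝ (fderiv ℝ u) (circleMap 0 r θ) (Complex.I * e θ)
      (Complex.I * e θ) := by
    rw [← continuousOn_univ]
    refine ContinuousOn.clm_apply (ContinuousOn.clm_apply ?_ (by fun_prop)) (by fun_prop)
    exact (cont_fderiv2 hu).comp (continuous_circleMap 0 r).continuousOn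
      (fun θ _ => mem_ball_circleMap hr)
  have hint : ∫ θ in (0 : ℝ)..2 * π, g' θ = g (2 * π) - g 0 :=
    intervalIntegral.integral_eq_sub_of_hasDerivAt (fun θ _ => hdg θ)
      (((hc2.const_mul r).sub hc1).intervalIntegrable _ _)
  have hper : g (2 * π) = g 0 := by
    have h1 : e (2 * π) = e 0 := by
      simp only [he]
      push_cast
      rw [Complex.exp_two_pi_mul_I]; simp
    have h2 : circleMap 0 r (2 * π) = circleMap 0 r 0 := by
      simpa using periodic_circleMap 0 r 0
    simp only [hg, h1, h2]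
  rw [hper, sub_self] at hint
  have hsplit : ∫ θ in (0 : ℝ)..2 * π, g' θ
      = r * (∫ θ in (0 : ℝ)..2 * π, fderiv ℝ (fderiv ℝ u) (circleMap 0 r θ) (Complex.I * e θ)
        (Complex.I * e θ)) - m1 u r := by
    simp only [hg']
    rw [intervalIntegral.integral_sub ((hc2.const_mul r).intervalIntegrable _ _)
      (hc1.intervalIntegrable _ _), intervalIntegral.integral_const_mul]
    rfl
  rw [hint] at hsplit
  linarith

/-- `r ∫ Δu = r m'' + m'` -/
theorem radial (hu : ContDiffOn ℝ 2 u (ball 0 R)) {r : ℝ} (hr : r ∈ Ioo (-R) R) :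
    4 * (r * ∫ θ in (0 : ℝ)..2 * π, lev u (circleMap 0 r θ) 1) = r * m2 u r + m1 u r := by
  have hc : ∀ v : ℝ → ℂ, Continuous v → Continuous fun θ =>
      fderiv ℝ (fderiv ℝ u) (circleMap 0 r θ) (v θ) (v θ) := by
    intro v hv
    rw [← continuousOn_univ]
    refine ContinuousOn.clm_apply (ContinuousOn.clm_apply ?_ hv.continuousOn) hv.continuousOn
    exact (cont_fderiv2 hu).comp (continuous_circleMap 0 r).continuousOn
      (fun θ _ => mem_ball_circleMap hr)
  have h1 : ∀ θ : ℝ, 4 * lev u (circleMap 0 r θ) 1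
      = fderiv ℝ (fderiv ℝ u) (circleMap 0 r θ) (Complex.exp (θ * Complex.I))
        (Complex.exp (θ * Complex.I))
      + fderiv ℝ (fderiv ℝ u) (circleMap 0 r θ) (Complex.I * Complex.exp (θ * Complex.I))
        (Complex.I * Complex.exp (θ * Complex.I)) := by
    intro θ
    have h2 := Crest.Agent.R269.Lev_901.lev_smul (u := u) (x := circleMap 0 r θ)
      (Complex.exp (θ * Complex.I)) 1
    rw [norm_exp_I, one_pow, one_mul] at h2
    rw [← h2]
    unfold lev
    simp only [smul_eq_mul, mul_one]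
    ring
  rw [← intervalIntegral.integral_const_mul, ← intervalIntegral.integral_const_mul]
  have h3 : ∀ θ : ℝ, 4 * (r * lev u (circleMap 0 r θ) 1)
      = r * fderiv ℝ (fderiv ℝ u) (circleMap 0 r θ) (Complex.exp (θ * Complex.I))
        (Complex.exp (θ * Complex.I))
      + r * fderiv ℝ (fderiv ℝ u) (circleMap 0 r θ) (Complex.I * Complex.exp (θ * Complex.I))
        (Complex.I * Complex.exp (θ * Complex.I)) := by
    intro θ
    rw [← mul_add, ← h1]; ring
  rw [intervalIntegral.integral_congr (g := fun θ => r * fderiv ℝ (fderiv ℝ u) (circleMap 0 r θ)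
    (Complex.exp (θ * Complex.I)) (Complex.exp (θ * Complex.I))
      + r * fderiv ℝ (fderiv ℝ u) (circleMap 0 r θ) (Complex.I * Complex.exp (θ * Complex.I))
        (Complex.I * Complex.exp (θ * Complex.I))) (fun θ _ => h3 θ)]
  rw [intervalIntegral.integral_add (((hc _ (by fun_prop)).const_mul r).intervalIntegrable
    _ _) (((hc _ (by fun_prop)).const_mul r).intervalIntegrable _ _),
    intervalIntegral.integral_const_mul, intervalIntegral.integral_const_mul, angular hu hr]
  rfl

end jensen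

/-! ### the functional -/

/-- `T`-functional of a density `q` on the disc of radius `s`, in Green form -/
def TG (q : ℂ → ℝ) (s : ℝ) : ℝ :=
  4 * ∫ r in (0 : ℝ)..s, r * Real.log (s / r) * circleAverage q 0 r

/-- the radial kernel `r log (s/r)`, continuous -/
theorem kernel_eq {s : ℝ} (hs : s ≠ 0) (r : ℝ) :
    r * Real.log (s / r) = r * Real.log s - r * Real.log r := by
  rcases eq_or_ne r 0 with rfl | hr
  · simp
  · rw [Real.log_div hs hr]; ring

theorem kernel_cont (s : ℝ) (hs : s ≠ 0) : Continuous fun r : ℝ => r * Real.log (s / r) := by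
  have h : (fun r : ℝ => r * Real.log (s / r)) = fun r => r * Real.log s - r * Real.log r :=
    funext (kernel_eq hs)
  rw [h]
  exact (continuous_id.mul continuous_const).sub Real.continuous_mul_log

theorem kernel_nonneg {s r : ℝ} (hr0 : 0 ≤ r) (hrs : r ≤ s) : 0 ≤ r * Real.log (s / r) := by
  rcases hr0.eq_or_lt with rfl | hr
  · simp
  · exact mul_nonneg hr0 (Real.log_nonneg ((one_le_div hr).2 hrs))

theorem circleAverage_continuousOn {q : ℂ → ℝ} {s : ℝ} (hq : ContinuousOn q (closedBall 0 s)) :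
    ContinuousOn (fun r => circleAverage q 0 r) (Icc 0 s) := by
  have hc : ContinuousOn (fun r : ℝ => ∫ θ in (0 : ℝ)..2 * π, q (circleMap 0 r θ)) (Icc 0 s) := by
   rw [continuousOn_iff_continuous_domRestrict]
   have h : Continuous (Function.uncurry fun (x : Icc (0 : ℝ) s) (θ : ℝ) =>
       q (circleMap 0 (x : ℝ) θ)) := by
     refine hq.comp_continuous (f := fun p : (Icc (0 : ℝ) s) × ℝ => circleMap 0 (p.1 : ℝ) p.2) ?_ ?_
     · exact circleMap_cont2.comp (by fun_prop : Continuous fun p : (Icc (0 : ℝ) s) × ℝ =>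
         ((p.1 : ℝ), p.2))
     · intro p
       rw [mem_closedBall_zero_iff, norm_circleMap_zero, abs_of_nonneg p.1.2.1]
       exact p.1.2.2
   exact intervalIntegral.continuous_parametric_intervalIntegral_of_continuous' h 0 (2 * π)
  exact hc.const_smul ((2 * π)⁻¹ : ℝ)

theorem integrand_continuousOn {q : ℂ → ℝ} {s : ℝ} (hs : s ≠ 0)
    (hq : ContinuousOn q (closedBall 0 s)) :
    ContinuousOn (fun r => r * Real.log (s / r) * circleAverage q 0 r) (Icc 0 s) :=
  (kernel_cont s hs).continuousOn.mul (circleAverage_continuousOn hq)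

theorem integrand_intervalIntegrable {q : ℂ → ℝ} {s : ℝ} (hs : 0 ≤ s)
    (hq : ContinuousOn q (closedBall 0 s)) :
    IntervalIntegrable (fun r => r * Real.log (s / r) * circleAverage q 0 r) volume 0 s := by
  rcases hs.eq_or_lt with rfl | hs'
  · exact IntervalIntegrable.refl
  · exact (integrand_continuousOn hs'.ne' hq).intervalIntegrable_of_Icc hs

@[simp] theorem TG_zero (q : ℂ → ℝ) : TG q 0 = 0 := by simp [TG]

theorem cont_lev {u : ℂ → ℝ} {R : ℝ} (hu : ContDiffOn ℝ 2 u (ball 0 R)) :
    ContinuousOn (fun z => lev u z 1) (ball 0 R) := by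
  unfold lev
  refine ContinuousOn.div_const (ContinuousOn.add ?_ ?_) _
  · exact ((cont_fderiv2 hu).clm_apply continuousOn_const).clm_apply continuousOn_const
  · exact ((cont_fderiv2 hu).clm_apply continuousOn_const).clm_apply continuousOn_const

/-- JENSEN's formula in Green form -/
theorem jensen {u : ℂ → ℝ} {R s : ℝ} (hu : ContDiffOn ℝ 2 u (ball 0 R)) (hs : 0 ≤ s)
    (hsR : s < R) : TG (fun z => lev u z 1) s = circleAverage u 0 s - u 0 := by
  rcases hs.eq_or_lt with rfl | hs'
  · simp
  have hIoo : ∀ r ∈ Icc (0 : ℝ) s, r ∈ Ioo (-R) R := fun r hr =>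
    ⟨by linarith [hr.1, hr.2], by linarith [hr.2]⟩
  have hqc : ContinuousOn (fun z => lev u z 1) (closedBall 0 s) :=
    (cont_lev hu).mono (closedBall_subset_ball hsR)
  set G : ℝ → ℝ := fun r => (∫ θ in (0 : ℝ)..2 * π, u (circleMap 0 r θ)) +
    (r * Real.log (s / r)) * m1 u r with hG
  have hGc : ContinuousOn G (Icc 0 s) := by
    intro r hr
    refine ContinuousAt.continuousWithinAt ?_
    exact (hasDerivAt_m0 hu (hIoo r hr)).continuousAt.add
      ((kernel_cont s hs'.ne').continuousAt.mul (hasDerivAt_m1 hu (hIoo r hr)).continuousAt)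
  have hGd : ∀ r ∈ Ioo (0 : ℝ) s, HasDerivAt G
      (2 * π * (4 * (r * Real.log (s / r) * circleAverage (fun z => lev u z 1) 0 r))) r := by
    intro r hr
    have hr' := hIoo r ⟨hr.1.le, hr.2.le⟩
    have hk : HasDerivAt (fun r : ℝ => r * Real.log (s / r)) (Real.log (s / r) - 1) r := by
      have h1 : HasDerivAt (fun r : ℝ => r * Real.log s - r * Real.log r)
          (1 * Real.log s - (Real.log r + 1)) r :=
        ((hasDerivAt_id r).mul_const _).sub (Real.hasDerivAt_mul_log hr.1.ne')
      rw [show (fun r : ℝ => r * Real.log (s / r)) = fun r => r * Real.log s - r * Real.log r from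
        funext (kernel_eq hs'.ne')]
      refine h1.congr_deriv ?_
      rw [Real.log_div hs'.ne' hr.1.ne']; ring
    have h2 := (hasDerivAt_m0 hu hr').add (hk.mul (hasDerivAt_m1 hu hr'))
    refine h2.congr_deriv ?_
    have h3 := radial hu hr'
    have h4 : circleAverage (fun z => lev u z 1) 0 r
        = (2 * π)⁻¹ * ∫ θ in (0 : ℝ)..2 * π, lev u (circleMap 0 r θ) 1 := by
      simp [circleAverage]
    rw [h4]
    have hpi : (2 * π) ≠ 0 := by positivity
    field_simp
    linear_combination (Real.log (s / r)) * (-h3)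
  have hint : IntervalIntegrable (fun r => 2 * π * (4 * (r * Real.log (s / r) *
      circleAverage (fun z => lev u z 1) 0 r))) volume 0 s :=
    ((integrand_intervalIntegrable hs hqc).const_mul 4).const_mul (2 * π)
  have hFTC := intervalIntegral.integral_eq_sub_of_hasDerivAt_of_le hs hGc hGd hint
  have hG0 : G 0 = 2 * π * u 0 := by
    simp [hG, circleMap]
  have hGs : G s = 2 * π * circleAverage u 0 s := by
    simp only [hG, circleAverage, smul_eq_mul]
    rw [div_self hs'.ne', Real.log_one, mul_zero, zero_mul, add_zero]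
    field_simp
  rw [intervalIntegral.integral_const_mul, intervalIntegral.integral_const_mul, hG0, hGs] at hFTC
  have hpi : (0 : ℝ) < 2 * π := by positivity
  unfold TG
  have h5 : 2 * π * (4 * ∫ r in (0 : ℝ)..s, r * Real.log (s / r) *
      circleAverage (fun z => lev u z 1) 0 r) = 2 * π * (circleAverage u 0 s - u 0) := by
    rw [hFTC]; ring
  exact mul_left_cancel₀ hpi.ne' h5

/-! ### linearity and monotonicity -/

theorem cI {q : ℂ → ℝ} {s r : ℝ} (hq : ContinuousOn q (closedBall 0 s)) (h0 : 0 ≤ r)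
    (hr : r ≤ s) : CircleIntegrable q 0 r := by
  refine ContinuousOn.circleIntegrable h0 (hq.mono ?_)
  exact (sphere_subset_closedBall).trans (closedBall_subset_closedBall hr)

theorem TG_congr {q q' : ℂ → ℝ} {s : ℝ} (hs : 0 ≤ s) (h : ∀ z ∈ closedBall (0 : ℂ) s, q z = q' z) :
    TG q s = TG q' s := by
  unfold TG
  congr 1
  refine intervalIntegral.integral_congr fun r hr => ?_
  rw [uIcc_of_le hs] at hr
  congr 1
  refine circleAverage_congr_sphere fun z hz => h z ?_
  rw [abs_of_nonneg hr.1] at hz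
  exact (sphere_subset_closedBall.trans (closedBall_subset_closedBall hr.2)) hz

theorem TG_add {q q' : ℂ → ℝ} {s : ℝ} (hs : 0 ≤ s) (hq : ContinuousOn q (closedBall 0 s))
    (hq' : ContinuousOn q' (closedBall 0 s)) :
    TG (fun z => q z + q' z) s = TG q s + TG q' s := by
  unfold TG
  rw [← mul_add, ← intervalIntegral.integral_add (integrand_intervalIntegrable hs hq)
    (integrand_intervalIntegrable hs hq')]
  congr 1
  refine intervalIntegral.integral_congr fun r hr => ?_
  rw [uIcc_of_le hs] at hr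
  rw [circleAverage_fun_add (cI hq hr.1 hr.2) (cI hq' hr.1 hr.2)]
  ring

theorem TG_const_mul (c : ℝ) (q : ℂ → ℝ) (s : ℝ) : TG (fun z => c * q z) s = c * TG q s := by
  unfold TG
  have h : ∫ r in (0 : ℝ)..s, r * Real.log (s / r) * circleAverage (fun z => c * q z) 0 r
      = c * ∫ r in (0 : ℝ)..s, r * Real.log (s / r) * circleAverage q 0 r := by
    rw [← intervalIntegral.integral_const_mul]
    refine intervalIntegral.integral_congr fun r _ => ?_
    have : circleAverage (fun z => c * q z) 0 r = c * circleAverage q 0 r :=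
      circleAverage_fun_smul (a := c) (f := q) (c := (0 : ℂ)) (R := r)
    show r * Real.log (s / r) * circleAverage (fun z => c * q z) 0 r = _
    rw [this]; ring
  rw [h]; ring

theorem TG_neg (q : ℂ → ℝ) (s : ℝ) : TG (fun z => -q z) s = -TG q s := by
  have := TG_const_mul (-1) q s
  simpa using this

theorem TG_sub {q q' : ℂ → ℝ} {s : ℝ} (hs : 0 ≤ s) (hq : ContinuousOn q (closedBall 0 s))
    (hq' : ContinuousOn q' (closedBall 0 s)) :
    TG (fun z => q z - q' z) s = TG q s - TG q' s := by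
  have h1 := TG_add hs hq hq'.neg
  have h2 := TG_neg q' s
  simp only [sub_eq_add_neg]
  rw [← h2]
  exact h1

theorem TG_mono {q q' : ℂ → ℝ} {s : ℝ} (hs : 0 ≤ s) (hq : ContinuousOn q (closedBall 0 s))
    (hq' : ContinuousOn q' (closedBall 0 s)) (h : ∀ z ∈ closedBall (0 : ℂ) s, q z ≤ q' z) :
    TG q s ≤ TG q' s := by
  unfold TG
  refine mul_le_mul_of_nonneg_left ?_ (by norm_num)
  refine intervalIntegral.integral_mono_on hs (integrand_intervalIntegrable hs hq)
    (integrand_intervalIntegrable hs hq') fun r hr => ?_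
  refine mul_le_mul_of_nonneg_left ?_ (kernel_nonneg hr.1 hr.2)
  refine circleAverage_mono (cI hq hr.1 hr.2) (cI hq' hr.1 hr.2) fun z hz => h z ?_
  rw [abs_of_nonneg hr.1] at hz
  exact (sphere_subset_closedBall.trans (closedBall_subset_closedBall hr.2)) hz

theorem TG_nonneg {q : ℂ → ℝ} {s : ℝ} (hs : 0 ≤ s) (hq : ContinuousOn q (closedBall 0 s))
    (h : ∀ z ∈ closedBall (0 : ℂ) s, 0 ≤ q z) : 0 ≤ TG q s := by
  have := TG_mono (q := fun _ => 0) hs continuousOn_const hq h
  refine le_trans (le_of_eq ?_) this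
  simp [TG, circleAverage]

/-- the `T` of a constant -/
theorem TG_const (c : ℝ) {s : ℝ} (hs : 0 ≤ s) : TG (fun _ => c) s = c * s ^ 2 := by
  have h1 : TG (fun z => lev (fun z : ℂ => c * ‖z‖ ^ 2) z 1) s
      = circleAverage (fun z : ℂ => c * ‖z‖ ^ 2) 0 s - c * ‖(0 : ℂ)‖ ^ 2 :=
    jensen (R := s + 1) ((contDiff_const.mul (contDiff_norm_sq ℝ)).contDiffOn) hs (by linarith)
  have h2 : ∀ z : ℂ, lev (fun z : ℂ => c * ‖z‖ ^ 2) z 1 = c := by
    intro z
    have h3 := lev_const_mul (E := ℂ) (u := fun z : ℂ => ‖z‖ ^ 2) (x := z) c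
      (contDiff_norm_sq ℝ).contDiffAt 1
    rw [h3]
    have h4 : lev (fun z : ℂ => ‖z‖ ^ 2) z 1 = 1 := by
      have h5 := lev_nsq (h := fun z : ℂ => z) (x := z) (analyticAt_id) 1
      rw [h5]
      have h6 : fderiv ℂ (fun z : ℂ => z) z = ContinuousLinearMap.id ℂ ℂ := fderiv_fun_id
      rw [h6]; simp
    rw [h4, mul_one]
  simp only [h2] at h1
  rw [h1]
  have h5 : circleAverage (fun z : ℂ => c * ‖z‖ ^ 2) 0 s = c * s ^ 2 := by
    unfold circleAverage
    simp only [norm_circleMap_zero, sq_abs, intervalIntegral.integral_const, sub_zero, smul_eq_mul]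
    field_simp
  rw [h5]; simp



/-- `TG q` is nondecreasing in the radius for `q ≥ 0` -/
theorem TG_mono_radius {q : ℂ → ℝ} {s s' : ℝ} (hs : 0 ≤ s) (hss : s ≤ s')
    (hq : ContinuousOn q (closedBall 0 s')) (h : ∀ z ∈ closedBall (0 : ℂ) s', 0 ≤ q z) :
    TG q s ≤ TG q s' := by
  rcases hs.eq_or_lt with rfl | hs0
  · rw [TG_zero]
    exact TG_nonneg hss hq h
  have hs'0 : 0 < s' := hs0.trans_le hss
  have hav : ∀ r ∈ Icc (0 : ℝ) s', 0 ≤ circleAverage q 0 r := fun r hr => by
    refine circleAverage_nonneg_of_nonneg fun z hz => h z ?_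
    rw [abs_of_nonneg hr.1] at hz
    exact (sphere_subset_closedBall.trans (closedBall_subset_closedBall hr.2)) hz
  have hI := integrand_intervalIntegrable hs'0.le hq
  have hI1 : IntervalIntegrable (fun r => r * Real.log (s' / r) * circleAverage q 0 r)
      volume 0 s := hI.mono_set (by
        rw [uIcc_of_le hs, uIcc_of_le hs'0.le]; exact Icc_subset_Icc_right hss)
  have hI2 : IntervalIntegrable (fun r => r * Real.log (s' / r) * circleAverage q 0 r)
      volume s s' := hI.mono_set (by
        rw [uIcc_of_le hss, uIcc_of_le hs'0.le]; exact Icc_subset_Icc_left hs)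
  unfold TG
  refine mul_le_mul_of_nonneg_left ?_ (by norm_num)
  rw [← intervalIntegral.integral_add_adjacent_intervals hI1 hI2]
  have h1 : ∫ r in (0 : ℝ)..s, r * Real.log (s / r) * circleAverage q 0 r
      ≤ ∫ r in (0 : ℝ)..s, r * Real.log (s' / r) * circleAverage q 0 r := by
    refine intervalIntegral.integral_mono_on hs
      (integrand_intervalIntegrable hs (hq.mono (closedBall_subset_closedBall hss))) hI1
      fun r hr => ?_
    refine mul_le_mul_of_nonneg_right ?_ (hav r ⟨hr.1, hr.2.trans hss⟩)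
    rw [kernel_eq hs0.ne', kernel_eq hs'0.ne']
    have := mul_le_mul_of_nonneg_left (Real.log_le_log hs0 hss) hr.1
    linarith
  have h2 : 0 ≤ ∫ r in s..s', r * Real.log (s' / r) * circleAverage q 0 r := by
    refine intervalIntegral.integral_nonneg hss fun r hr => ?_
    exact mul_nonneg (kernel_nonneg (hs.trans hr.1) hr.2) (hav r ⟨hs.trans hr.1, hr.2⟩)
  linarith

/-- difference of two `T`s through a global `C²` function -/
theorem TG_sub_eq {q q' δ : ℂ → ℝ} {R s : ℝ} (hs : 0 ≤ s) (hsR : s < R)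
    (hq : ContinuousOn q (ball 0 R)) (hq' : ContinuousOn q' (ball 0 R))
    (hδ : ContDiffOn ℝ 2 δ (ball 0 R)) (h : ∀ z ∈ ball (0 : ℂ) R, lev δ z 1 = q' z - q z) :
    TG q' s - TG q s = circleAverage δ 0 s - δ 0 := by
  rw [← jensen hδ hs hsR, ← TG_sub hs (hq'.mono (closedBall_subset_ball hsR))
    (hq.mono (closedBall_subset_ball hsR))]
  exact TG_congr hs fun z hz => (h z (closedBall_subset_ball hsR hz)).symm

end Crest.Agent.R269.Green_740
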