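import Mathlib
import Crest.Agent.R269.Alp6_927
import Crest.Agent.R269.LevCone_901
import Crest.Agent.R269.WF_731
import Crest.Agent.R269.StMax_528
import Crest.Agent.R269.StDens_528
import Crest.Agent.R269.LevBr_901
import Crest.Agent.R269.FldF_620
import Crest.Agent.R269.PosC_632
import Crest.Agent.R269.Ker2_430

-- ▼ part R269/Stat_731
section

/-!
# R269 (S0411), LINE B (core #1368 of helper730), steps (8)-(12): consequences of the stationary
# variational principle (helper993)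

`SD` : abstract interface = exactly what steps (1)-(7) deliver.

* `Disc` = holomorphic discs `f : D → X` with `T_ω(f; 1) < ∞`; `T f = T_ω(f; 1)`,
  `Tr r f = T_ω(f; r)` (`0 < r < 1`), `k f = T_θ(f; 1)`, `avg u f` = average over the unit circle of
  the boundary values of `u(f)`, `spd f = |f'(0)|²_ω`.
* `Ge p q u` : `p θ + q ω + i∂∂̄ u ≥ ω` on `X`.
* `Int J LJ` : `J` is an interior functional; for a field `a`, `LJ a f` is the second variation of `J`
  summed over the fields `z V_i` of the Wold frame attached to the field `a` [metric `h = a⁻¹`].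
* `S r a f` : `avg_{|z| = r} ∑_i |z V_i|²_ω`.
* `stat` : steps (1)-(4): for all `x, r, κ, t` and `E = (p, q, u) ≥ ω` there is a maximiser `f` of
  `J - κ (T_E(1) - t T_ω(r))` among the discs with centre `x`, and the summed inequality (VAR) holds.
* `key` : step (7), in the weakest qualitative form.

Results: `kdel_ge` (= (A*) for `δ = 0`, (A_δ) in general), `k_ge` (A*), `T_gen`, `T_main` (T),
`T_del` (T_δ).
-/

set_option autoImplicit false

open Set Filter Topology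

noncomputable section

namespace Crest.Agent.R269.Stat_731

/-- what steps (1)-(7) of core #1368 deliver -/
structure SD where
  /-- points of the variety -/
  X : Type
  /-- holomorphic discs with `T_ω(f; 1) < ∞` -/
  Disc : Type
  /-- smooth positive fields (Hermitian metrics on the cotangent space) -/
  Fld : Type
  n : ℕ
  hn : 0 < n
  /-- `f ↦ f(0)` -/
  ctr : Disc → X
  /-- constant discs -/
  cst : X → Disc
  ctr_cst : ∀ x, ctr (cst x) = x
  /-- continuous functions on `X` -/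
  Ct : (X → ℝ) → Prop
  ct_const : ∀ c : ℝ, Ct fun _ => c
  ct_add : ∀ {u v : X → ℝ}, Ct u → Ct v → Ct fun x => u x + v x
  ct_smul : ∀ {u : X → ℝ} (c : ℝ), Ct u → Ct fun x => c * u x
  ct_bdd : ∀ {u : X → ℝ}, Ct u → ∃ C, ∀ x, |u x| ≤ C
  /-- smooth functions on `X` -/
  Sm : (X → ℝ) → Prop
  sm_zero : Sm fun _ => 0
  ct_sm : ∀ {u : X → ℝ}, Sm u → Ct u
  /-- average over the boundary circle -/
  avg : (X → ℝ) → Disc → ℝ
  avg_const : ∀ (c : ℝ) f, avg (fun _ => c) f = c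
  avg_add : ∀ {u v : X → ℝ}, Ct u → Ct v → ∀ f, avg (fun x => u x + v x) f = avg u f + avg v f
  avg_smul : ∀ {u : X → ℝ} (c : ℝ), Ct u → ∀ f, avg (fun x => c * u x) f = c * avg u f
  avg_mono : ∀ {u v : X → ℝ}, Ct u → Ct v → (∀ x, u x ≤ v x) → ∀ f, avg u f ≤ avg v f
  avg_cst : ∀ {u : X → ℝ}, Ct u → ∀ x, avg u (cst x) = u x
  /-- `T_θ(f; 1)`, `T_ω(f; 1)`, `|f'(0)|²` -/
  k : Disc → ℝ
  T : Disc → ℝ
  spd : Disc → ℝ
  k_cst : ∀ x, k (cst x) = 0
  T_cst : ∀ x, T (cst x) = 0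
  spd_nonneg : ∀ f, 0 ≤ spd f
  /-- `T_ω(f; r)`, `0 < r < 1` -/
  Tr : ℝ → Disc → ℝ
  Tr_nonneg : ∀ {r f}, 0 < r → r < 1 → 0 ≤ Tr r f
  Tr_le : ∀ {r f}, 0 < r → r < 1 → Tr r f ≤ T f
  Tr_tendsto : ∀ f, ∀ ε, 0 < ε → ∃ r₀ < 1, ∀ r, r₀ < r → r < 1 → T f - ε ≤ Tr r f
  Tr_bdd : ∀ {r}, 0 < r → r < 1 → ∃ C, ∀ f, Tr r f ≤ C
  /-- (1.1) -/
  A : ℝ
  schwarz : ∀ f, spd f ≤ A ^ 2
  /-- `log det_g a`, `tr(a α)`, `tr(a ω)`, `tr(a L u)` -/
  ldet : Fld → X → ℝ
  trA : Fld → X → ℝ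
  trO : Fld → X → ℝ
  trL : Fld → (X → ℝ) → X → ℝ
  ct_ldet : ∀ a, Ct (ldet a)
  ct_trA : ∀ a, Ct (trA a)
  ct_trO : ∀ a, Ct (trO a)
  ct_trL : ∀ a {u}, Sm u → Ct (trL a u)
  trL_zero : ∀ a x, trL a (fun _ => 0) x = 0
  /-- `p θ + q ω + i∂∂̄ u ≥ ω` -/
  Ge : ℝ → ℝ → (X → ℝ) → Prop
  ge_ex : ∀ p q {u}, Sm u → ∃ t, 0 < t ∧ Ge p (q + t) u
  /-- `T_ω ≤ T_E` -/
  T_le : ∀ {p q u}, Sm u → Ge p q u → ∀ f, T f ≤ p * k f + q * T f + (avg u f - u (ctr f))
  /-- some positive field -/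
  fld : Fld
  /-- interior functionals and their summed second variations -/
  Int : (Disc → ℝ) → (Fld → Disc → ℝ) → Prop
  int_zero : Int (fun _ => 0) (fun _ _ => 0)
  Lspd : Fld → Disc → ℝ
  int_spd : Int spd Lspd
  /-- (5) + AM-GM at the centre -/
  Lspd_ge : ∀ a f, n * Real.exp ((avg (ldet a) f - k f) / n) ≤ Lspd a f
  /-- `avg_{|z| = r} ∑ |z V_i|²_ω` -/
  S : ℝ → Fld → Disc → ℝ
  S_nonneg : ∀ {r}, 0 < r → r < 1 → ∀ a f, 0 ≤ S r a f
  /-- (7) -/
  key : ∀ a, ∀ η, 0 < η → ∃ δ, 0 < δ ∧ ∀ r f, 0 < r → 1 - δ < r → r < 1 → T f - Tr r f < δ →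
    avg (trO a) f - η ≤ S r a f
  /-- (1)-(4) -/
  stat : ∀ {J : Disc → ℝ} {LJ : Fld → Disc → ℝ}, Int J LJ → ∀ {κ t r : ℝ}, 0 < κ → 0 ≤ t →
    0 < r → r < 1 → ∀ {p q : ℝ} {u : X → ℝ}, Sm u → Ge p q u → ∀ x, ∃ f, ctr f = x ∧
      (∀ g, ctr g = x →
        J g - κ * (p * k g + q * T g + (avg u g - u x) - t * Tr r g) ≤
          J f - κ * (p * k f + q * T f + (avg u f - u x) - t * Tr r f)) ∧
      ∀ a, LJ a f + κ * t * S r a f ≤
        κ * (p * avg (trA a) f + q * avg (trO a) f + avg (trL a u) f)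

namespace SD

variable (P : SD)

theorem avg_le {u : P.X → ℝ} (hu : P.Ct u) {C : ℝ} (h : ∀ x, u x ≤ C) (f : P.Disc) :
    P.avg u f ≤ C := by
  have := P.avg_mono hu (P.ct_const C) h f
  rwa [P.avg_const] at this

theorem le_avg {u : P.X → ℝ} (hu : P.Ct u) {C : ℝ} (h : ∀ x, C ≤ u x) (f : P.Disc) :
    C ≤ P.avg u f := by
  have := P.avg_mono (P.ct_const C) hu h f
  rwa [P.avg_const] at this

theorem abs_avg_le {u : P.X → ℝ} (hu : P.Ct u) {C : ℝ} (h : ∀ x, |u x| ≤ C) (f : P.Disc) :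
    |P.avg u f| ≤ C :=
  abs_le.2 ⟨P.le_avg hu (fun x => (abs_le.1 (h x)).1) f, P.avg_le hu (fun x => (abs_le.1 (h x)).2) f⟩

theorem npos : (0 : ℝ) < P.n := by exact_mod_cast P.hn

theorem exp_ge (q y : ℝ) (hq : 0 < q) : q * (1 - Real.log q - y) ≤ Real.exp (-y) := by
  have h1 := Real.add_one_le_exp (-y - Real.log q)
  have h2 : Real.exp (-y) = q * Real.exp (-y - Real.log q) := by
    rw [Real.exp_sub, Real.exp_log hq]
    field_simp
  rw [h2]
  exact mul_le_mul_of_nonneg_left (by linarith) hq.le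

/-- the maximiser property and (VAR) -/
def Max (J : P.Disc → ℝ) (LJ : P.Fld → P.Disc → ℝ) (κ t r p q : ℝ) (u : P.X → ℝ) (x : P.X)
    (f : P.Disc) : Prop :=
  P.ctr f = x ∧
    (∀ g, P.ctr g = x →
      J g - κ * (p * P.k g + q * P.T g + (P.avg u g - u x) - t * P.Tr r g) ≤
        J f - κ * (p * P.k f + q * P.T f + (P.avg u f - u x) - t * P.Tr r f)) ∧
    ∀ a, LJ a f + κ * t * P.S r a f ≤
      κ * (p * P.avg (P.trA a) f + q * P.avg (P.trO a) f + P.avg (P.trL a u) f)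

/-! ### (10), (11): lower bounds for `k` and `k_δ` -/

/-- `k_δ = (1 + δ m₁) k - δ T` -/
def kd (m₁ δ : ℝ) (f : P.Disc) : ℝ := (1 + δ * m₁) * P.k f - δ * P.T f

/-- (A_δ): `k_δ ≥ -C₃` for all discs. -/
theorem kdel_ge (m₁ δ : ℝ) (a : P.Fld)
    (hint : ∃ c CΘ : ℝ, 0 < c ∧ ∀ R : ℝ, ∃ (Θ : P.Disc → ℝ)
      (LΘ : P.Fld → P.Disc → ℝ), P.Int Θ LΘ ∧ (∀ f, |Θ f| ≤ CΘ) ∧
      ∀ f, P.T f ≤ R → c * Real.exp (-(P.kd m₁ δ f / P.n)) ≤ LΘ a f) :
    ∃ C₃, 0 ≤ C₃ ∧ ∀ f, -C₃ ≤ P.kd m₁ δ f := by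
  have hn := P.npos
  obtain ⟨t, ht, hGe⟩ := P.ge_ex (1 + δ * m₁) (-δ) P.sm_zero
  obtain ⟨c, CΘ, hc, hint⟩ := hint
  have hz : ∀ f, P.avg (fun _ => 0) f = 0 := fun f => P.avg_const 0 f
  have hLz : ∀ f, P.avg (P.trL a fun _ => 0) f = 0 := fun f => by
    have : P.trL a (fun _ => 0) = fun _ => 0 := funext (P.trL_zero a)
    rw [this, P.avg_const]
  have cc : P.Ct fun x => (1 + δ * m₁) * P.trA a x + (-δ + t) * P.trO a x :=
    P.ct_add (P.ct_smul _ (P.ct_trA a)) (P.ct_smul _ (P.ct_trO a))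
  obtain ⟨B₀, hB₀⟩ := P.ct_bdd cc
  set B := |B₀| + 1 with hB
  have hBpos : 0 < B := by positivity
  have htr : ∀ f, (1 + δ * m₁) * P.avg (P.trA a) f + (-δ + t) * P.avg (P.trO a) f ≤ B := by
    intro f
    rw [← P.avg_smul _ (P.ct_trA a), ← P.avg_smul _ (P.ct_trO a),
      ← P.avg_add (P.ct_smul _ (P.ct_trA a)) (P.ct_smul _ (P.ct_trO a))]
    refine P.avg_le cc (fun x => ?_) f
    have h1 := le_abs_self ((1 + δ * m₁) * P.trA a x + (-δ + t) * P.trO a x)
    have h2 := hB₀ x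
    have h3 := le_abs_self B₀
    linarith
  refine ⟨|2 * CΘ + P.n * (|Real.log (B / c)|)|, abs_nonneg _, fun g => ?_⟩
  refine le_of_forall_pos_le_add fun ε hε => ?_
  obtain ⟨r₀, hr₀, hr⟩ := P.Tr_tendsto g (ε / t) (by positivity)
  obtain ⟨r, hr1, hr2⟩ := exists_between (max_lt hr₀ one_pos)
  have hr3 : 0 < r := (le_max_right _ _).trans_lt hr1
  have hrg := hr r ((le_max_left _ _).trans_lt hr1) hr2
  obtain ⟨CT, hCT⟩ := P.Tr_bdd hr3 hr2
  obtain ⟨Θ, LΘ, hΘ, hΘb, hΘl⟩ := hint (2 * CΘ + t * CT)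
  obtain ⟨f, hf, hmax, hvar⟩ := P.stat hΘ one_pos ht.le hr3 hr2 P.sm_zero hGe (P.ctr g)
  -- bound of `T f`
  have h0 := hmax (P.cst (P.ctr g)) (P.ctr_cst _)
  rw [P.k_cst, P.T_cst] at h0
  simp only [hz] at h0
  have hTrc : 0 ≤ P.Tr r (P.cst (P.ctr g)) := P.Tr_nonneg hr3 hr2
  have hTf := P.T_le P.sm_zero hGe f
  simp only [hz] at hTf
  have b1 := abs_le.1 (hΘb f)
  have b2 := abs_le.1 (hΘb (P.cst (P.ctr g)))
  have hTr := mul_le_mul_of_nonneg_left (hCT f) ht.le
  have hTrc' := mul_nonneg ht.le hTrc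
  have hTb : P.T f ≤ 2 * CΘ + t * CT := by nlinarith
  have h1 := hΘl f hTb
  have h2 := hvar a
  have h3 := P.S_nonneg hr3 hr2 a f
  rw [hLz, add_zero] at h2
  have h4 : c * Real.exp (-(P.kd m₁ δ f / P.n)) ≤ B := by
    have := mul_nonneg ht.le h3
    have := htr f
    linarith
  have h5 : -P.kd m₁ δ f ≤ P.n * Real.log (B / c) := by
    have h6 : Real.exp (-(P.kd m₁ δ f / P.n)) ≤ B / c := by
      rw [le_div_iff₀ hc]; linarith
    have h7 := (Real.le_log_iff_exp_le (by positivity)).2 h6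
    rwa [← neg_div, div_le_iff₀ hn, mul_comm] at h7
  have h9 : P.n * Real.log (B / c) ≤ P.n * |Real.log (B / c)| :=
    mul_le_mul_of_nonneg_left (le_abs_self _) hn.le
  have h10 := hmax g rfl
  simp only [hz] at h10
  have h11 : t * (P.T g - P.Tr r g) ≤ ε := by
    have := mul_le_mul_of_nonneg_left (show P.T g - P.Tr r g ≤ ε / t by linarith) ht.le
    rwa [mul_div_cancel₀ _ ht.ne'] at this
  have h12 : 0 ≤ t * (P.T f - P.Tr r f) :=
    mul_nonneg ht.le (by linarith [P.Tr_le (f := f) hr3 hr2])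
  have b3 := abs_le.1 (hΘb g)
  have h14 := le_abs_self (2 * CΘ + P.n * (|Real.log (B / c)|))
  simp only [kd] at h5 ⊢
  nlinarith

/-- (A*): `k ≥ -C₁` for all discs -/
theorem k_ge : ∃ C₁, 0 ≤ C₁ ∧ ∀ f, -C₁ ≤ P.k f := by
  have hn := P.npos
  obtain ⟨C, hC, h⟩ := P.kdel_ge 0 0 P.fld <| by
    set a := P.fld
    obtain ⟨Ca, hCa⟩ := P.ct_bdd (P.ct_ldet a)
    refine ⟨P.n * Real.exp (-(Ca / P.n)), P.A ^ 2, by positivity, fun R =>
      ⟨P.spd, P.Lspd, P.int_spd, fun f => by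
        rw [abs_of_nonneg (P.spd_nonneg f)]; exact P.schwarz f, fun f _ => ?_⟩⟩
    refine le_trans ?_ (P.Lspd_ge a f)
    rw [mul_assoc, ← Real.exp_add]
    refine mul_le_mul_of_nonneg_left (Real.exp_le_exp.2 ?_) hn.le
    have h8 := (abs_le.1 (P.abs_avg_le (P.ct_ldet a) hCa f)).1
    rw [← neg_div, ← neg_div, ← add_div]
    refine div_le_div_of_nonneg_right ?_ hn.le
    simp only [kd]
    linarith
  exact ⟨C, hC, fun f => by simpa [kd] using h f⟩

/-! ### (8): the monotonicity trick -/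

theorem exists_small {J : P.Disc → ℝ} {LJ : P.Fld → P.Disc → ℝ} (hJ : P.Int J LJ) {CJ : ℝ}
    (hJb : ∀ f, J f ≤ CJ) {κ t p q : ℝ} (hκ : 0 < κ) (ht : 0 < t) {u : P.X → ℝ} (hu : P.Sm u)
    (hGe : P.Ge p (q + t) u) {C₃ : ℝ} (hlow : ∀ f, -C₃ ≤ p * P.k f + q * P.T f) (x : P.X)
    {η : ℝ} (hη : 0 < η) :
    ∃ r f, 0 < r ∧ 1 - η < r ∧ r < 1 ∧ P.Max J LJ κ t r p (q + t) u x f ∧
      P.T f - P.Tr r f < η := by
  by_contra hcon
  push Not at hcon
  obtain ⟨Mu, hMu⟩ := P.ct_bdd (P.ct_sm hu)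
  set Val : ℝ → P.Disc → ℝ := fun r f =>
    J f - κ * (p * P.k f + (q + t) * P.T f + (P.avg u f - u x) - t * P.Tr r f) with hVal
  set B := CJ + κ * (C₃ + 2 * Mu) with hB
  have hub : ∀ r f, 0 < r → r < 1 → Val r f ≤ B := by
    intro r f h1 h2
    have e1 := hJb f
    have e2 := hlow f
    have e3 := (abs_le.1 (P.abs_avg_le (P.ct_sm hu) hMu f)).1
    have e4 := (abs_le.1 (hMu x)).2
    have e5 : 0 ≤ t * (P.T f - P.Tr r f) :=
      mul_nonneg ht.le (by linarith [P.Tr_le (f := f) h1 h2])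
    have e6 : -(C₃ + 2 * Mu) ≤
        p * P.k f + (q + t) * P.T f + (P.avg u f - u x) - t * P.Tr r f := by nlinarith
    have e7 := mul_le_mul_of_nonneg_left e6 hκ.le
    simp only [hVal, hB]
    nlinarith
  have hstep : 0 < κ * t * (η / 2) := by positivity
  have hst : ∀ m : ℕ, ∃ r f, 0 < r ∧ 1 - η < r ∧ r < 1 ∧ P.Max J LJ κ t r p (q + t) u x f ∧
      Val (max (1 - η) 0 / 2 + 1 / 2) (P.cst x) - B + B - |Val (max (1 - η) 0 / 2 + 1 / 2) (P.cst x)|
        - |Val (max (1 - η) 0 / 2 + 1 / 2) (P.cst x)| + m * (κ * t * (η / 2)) ≤ Val r f := by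
    intro m
    induction m with
    | zero =>
      have h1 : 0 < max (1 - η) 0 / 2 + 1 / 2 := by positivity
      have h2 : max (1 - η) 0 / 2 + 1 / 2 < 1 := by
        have : max (1 - η) 0 < 1 := max_lt (by linarith) one_pos
        linarith
      have h3 : 1 - η < max (1 - η) 0 / 2 + 1 / 2 := by
        have h4 := le_max_left (1 - η) 0
        have : max (1 - η) 0 < 1 := max_lt (by linarith) one_pos
        linarith
      obtain ⟨f, hf, hmax, hvar⟩ := P.stat hJ hκ ht.le h1 h2 hu hGe x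
      refine ⟨_, f, h1, h3, h2, ⟨hf, hmax, hvar⟩, ?_⟩
      have h5 := hmax (P.cst x) (P.ctr_cst x)
      have h6 := le_abs_self (Val (max (1 - η) 0 / 2 + 1 / 2) (P.cst x))
      have h7 := abs_nonneg (Val (max (1 - η) 0 / 2 + 1 / 2) (P.cst x))
      have h8 : Val (max (1 - η) 0 / 2 + 1 / 2) (P.cst x) ≤
        Val (max (1 - η) 0 / 2 + 1 / 2) f := h5
      push_cast
      linarith
    | succ m ih =>
      obtain ⟨r, f, h1, h2, h3, h4, h5⟩ := ih
      have h6 := hcon r f h1 h2 h3 h4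
      obtain ⟨r₀, hr₀, hr⟩ := P.Tr_tendsto f (η / 2) (by positivity)
      obtain ⟨r', hr1, hr2⟩ := exists_between (max_lt hr₀ h3)
      have h7 : r < r' := (le_max_right _ _).trans_lt hr1
      have h8 := hr r' ((le_max_left _ _).trans_lt hr1) hr2
      have h9 : 0 < r' := h1.trans h7
      obtain ⟨f', hf', hmax', hvar'⟩ := P.stat hJ hκ ht.le h9 hr2 hu hGe x
      refine ⟨r', f', h9, h2.trans h7, hr2, ⟨hf', hmax', hvar'⟩, ?_⟩
      have h10 : Val r' f ≤ Val r' f' := hmax' f h4.1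
      have h11 : Val r' f = Val r f + κ * t * (P.Tr r' f - P.Tr r f) := by
        simp only [hVal]; ring
      have h12 : κ * t * (η / 2) ≤ κ * t * (P.Tr r' f - P.Tr r f) :=
        mul_le_mul_of_nonneg_left (by linarith) (by positivity)
      push_cast
      linarith
  obtain ⟨m, hm⟩ := exists_nat_gt
    ((B + 3 * |Val (max (1 - η) 0 / 2 + 1 / 2) (P.cst x)|) / (κ * t * (η / 2)))
  obtain ⟨r, f, h1, -, h3, -, h5⟩ := hst m
  have h6 := hub r f h1 h3
  rw [div_lt_iff₀ hstep] at hm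
  have h7 := neg_abs_le (Val (max (1 - η) 0 / 2 + 1 / 2) (P.cst x))
  linarith

/-! ### (9), (12) -/

/-- the common part of (9) and (12): near-stationary discs with
`LJ ≤ κ (avg (p tr(aθ) + q tr(aω) + tr(aLu)) + η)` and `J f - κ (p k + q T + avg u - u x) ≥ J(cst x)`. -/
theorem exists_disc {J : P.Disc → ℝ} {LJ : P.Fld → P.Disc → ℝ} (hJ : P.Int J LJ) {CJ : ℝ}
    (hJb : ∀ f, J f ≤ CJ) {κ p q : ℝ} (hκ : 0 < κ) {u : P.X → ℝ} (hu : P.Sm u)
    {C₃ : ℝ} (hlow : ∀ f, -C₃ ≤ p * P.k f + q * P.T f) (x : P.X) (a : P.Fld)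
    {η : ℝ} (hη : 0 < η) :
    ∃ f, P.ctr f = x ∧
      J (P.cst x) ≤ J f - κ * (p * P.k f + q * P.T f + (P.avg u f - u x)) ∧
      LJ a f ≤ κ * (p * P.avg (P.trA a) f + q * P.avg (P.trO a) f + P.avg (P.trL a u) f + η) := by
  obtain ⟨t, ht, hGe⟩ := P.ge_ex p q hu
  obtain ⟨δ, hδ, hkey⟩ := P.key a (η / t) (by positivity)
  obtain ⟨r, f, h1, h2, h3, ⟨hf, hmax, hvar⟩, h5⟩ :=
    P.exists_small hJ hJb hκ ht hu hGe hlow x hδ
  refine ⟨f, hf, ?_, ?_⟩
  · have h6 := hmax (P.cst x) (P.ctr_cst x)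
    rw [P.k_cst, P.T_cst, P.avg_cst (P.ct_sm hu)] at h6
    have h7 : 0 ≤ κ * (t * P.Tr r (P.cst x)) :=
      mul_nonneg hκ.le (mul_nonneg ht.le (P.Tr_nonneg h1 h3))
    have h8 : 0 ≤ κ * (t * (P.T f - P.Tr r f)) :=
      mul_nonneg hκ.le (mul_nonneg ht.le (by linarith [P.Tr_le (f := f) h1 h3]))
    nlinarith
  · have h6 := hvar a
    have h7 := hkey r f h1 h2 h3 h5
    have h8 : t * P.avg (P.trO a) f - η ≤ t * P.S r a f := by
      have := mul_le_mul_of_nonneg_left h7 ht.le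
      rwa [mul_sub, mul_div_cancel₀ _ ht.ne'] at this
    have h9 := mul_le_mul_of_nonneg_left h8 hκ.le
    nlinarith

/-- (9), general field `a` -/
theorem T_gen {lam κ c₀ e : ℝ} (hlam : 0 < lam) (hκ : 0 < κ) (he : 0 ≤ e)
    (a : P.Fld) {u : P.X → ℝ} (hu : P.Sm u)
    (h : ∀ x, P.trA a x + e * P.trO a x + P.trL a u x ≤
      P.n * c₀ + lam * u x + lam * P.ldet a x) (x : P.X) :
    -(P.A ^ 2 / κ) + P.n * (1 - Real.log (κ * lam) - c₀ / lam) ≤ u x := by
  have hn := P.npos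
  have hq : 0 < κ * lam := mul_pos hκ hlam
  have hcu := P.ct_sm hu
  have cA := P.ct_trA a
  have cO := P.ct_trO a
  have cL := P.ct_trL a hu
  have cd := P.ct_ldet a
  obtain ⟨C₁, hC₁0, hC₁⟩ := P.k_ge
  have hlow : ∀ f, -C₁ ≤ 1 * P.k f + e * P.T f := fun f => by
    have hT : 0 ≤ P.T f := (P.Tr_nonneg (r := 1 / 2) (by norm_num) (by norm_num)).trans
      (P.Tr_le (by norm_num) (by norm_num))
    have := mul_nonneg he hT
    linarith [hC₁ f]
  refine le_of_forall_pos_le_add fun ε hε => ?_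
  obtain ⟨f, hf, h1, h2⟩ := P.exists_disc P.int_spd P.schwarz hκ hu hlow x a
    (η := lam * ε) (by positivity)
  have hT : 0 ≤ P.T f := (P.Tr_nonneg (r := 1 / 2) (by norm_num) (by norm_num)).trans
    (P.Tr_le (by norm_num) (by norm_num))
  have h3 := P.Lspd_ge a f
  have h4 : P.avg (P.trA a) f + e * P.avg (P.trO a) f + P.avg (P.trL a u) f ≤
      P.n * c₀ + lam * P.avg u f + lam * P.avg (P.ldet a) f := by
    have e1 : P.avg (fun x => P.trA a x + e * P.trO a x + P.trL a u x) f =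
        P.avg (P.trA a) f + e * P.avg (P.trO a) f + P.avg (P.trL a u) f := by
      rw [P.avg_add (P.ct_add cA (P.ct_smul e cO)) cL, P.avg_add cA (P.ct_smul e cO),
        P.avg_smul e cO]
    have e2 : P.avg (fun x => P.n * c₀ + lam * u x + lam * P.ldet a x) f =
        P.n * c₀ + lam * P.avg u f + lam * P.avg (P.ldet a) f := by
      rw [P.avg_add (P.ct_add (P.ct_const _) (P.ct_smul lam hcu)) (P.ct_smul lam cd),
        P.avg_add (P.ct_const _) (P.ct_smul lam hcu), P.avg_const, P.avg_smul lam hcu,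
        P.avg_smul lam cd]
    rw [← e1, ← e2]
    exact P.avg_mono (P.ct_add (P.ct_add cA (P.ct_smul e cO)) cL)
      (P.ct_add (P.ct_add (P.ct_const _) (P.ct_smul lam hcu)) (P.ct_smul lam cd)) h f
  have h5 := exp_ge (κ * lam) ((P.k f - P.avg (P.ldet a) f) / P.n) hq
  have h6 : (P.n : ℝ) * (κ * lam * (1 - Real.log (κ * lam))) -
      κ * lam * (P.k f - P.avg (P.ldet a) f) ≤ P.Lspd a f := by
    refine le_trans ?_ h3
    have := mul_le_mul_of_nonneg_left h5 hn.le
    refine le_trans (le_of_eq ?_) (this.trans (le_of_eq ?_))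
    · field_simp
    · congr 2; ring
  have h7 := P.schwarz f
  have h8 := P.spd_nonneg (P.cst x)
  have h9 : κ * (P.k f + e * P.T f + (P.avg u f - u x)) ≤ P.A ^ 2 := by nlinarith
  have h10 : κ * (P.k f + (P.avg u f - u x)) ≤ P.A ^ 2 := by
    have := mul_nonneg hκ.le (mul_nonneg he hT)
    nlinarith
  have h11 := mul_le_mul_of_nonneg_left h4 hκ.le
  have h12 : (P.n : ℝ) * (κ * lam * (1 - Real.log (κ * lam))) ≤
      κ * (P.n * c₀) + lam * P.A ^ 2 + κ * lam * u x + κ * (lam * ε) := by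
    have := mul_le_mul_of_nonneg_left h10 hlam.le
    nlinarith
  have h13 : κ * lam * (-(P.A ^ 2 / κ) + P.n * (1 - Real.log (κ * lam) - c₀ / lam)) =
      (P.n : ℝ) * (κ * lam * (1 - Real.log (κ * lam))) - κ * (P.n * c₀) - lam * P.A ^ 2 := by
    field_simp
    ring
  have h14 : κ * lam * (-(P.A ^ 2 / κ) + P.n * (1 - Real.log (κ * lam) - c₀ / lam)) ≤
      κ * lam * (u x + ε) := by
    rw [h13]; nlinarith
  exact le_of_mul_le_mul_left h14 hq

/-- the constant `λ` -/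
def lam : ℝ := P.n / (Real.exp 1 * (P.A ^ 2 + 1))

theorem lam_pos : 0 < P.lam := by
  have := P.npos
  unfold lam
  positivity

/-- (T) -/
theorem T_main {c₀ e : ℝ} (hc : c₀ ≤ P.lam) (he : 0 ≤ e) (a : P.Fld) {u : P.X → ℝ} (hu : P.Sm u)
    (h : ∀ x, P.trA a x + e * P.trO a x + P.trL a u x ≤
      P.n * c₀ + P.lam * u x + P.lam * P.ldet a x) (x : P.X) : 0 ≤ u x := by
  have hn := P.npos
  have hA : 0 < P.A ^ 2 + 1 := by positivity
  have h1 := P.T_gen P.lam_pos (κ := (P.A ^ 2 + 1) / P.n) (by positivity) he a hu h x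
  refine le_trans ?_ h1
  have e1 : (P.A ^ 2 + 1) / P.n * P.lam = Real.exp (-1) := by
    unfold lam
    rw [Real.exp_neg]
    field_simp
  rw [e1, Real.log_exp]
  have e2 : P.A ^ 2 / ((P.A ^ 2 + 1) / P.n) ≤ P.n := by
    rw [div_le_iff₀ (by positivity)]
    field_simp
    nlinarith
  have e3 : c₀ / P.lam ≤ 1 := (div_le_one P.lam_pos).2 hc
  nlinarith

/-- (T_δ) -/
theorem T_del {m₁ δ C₃ : ℝ} (hC₃ : ∀ f, -C₃ ≤ P.kd m₁ δ f) (a : P.Fld) {u : P.X → ℝ}
    (hu : P.Sm u)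
    (h : ∀ x, (1 + δ * m₁) * P.trA a x - δ * P.trO a x + P.trL a u x ≤ u x) (x : P.X) :
    -C₃ ≤ u x := by
  have hcu := P.ct_sm hu
  have cA := P.ct_trA a
  have cO := P.ct_trO a
  have cL := P.ct_trL a hu
  have hlow : ∀ f, -C₃ ≤ (1 + δ * m₁) * P.k f + (-δ) * P.T f := fun f => by
    have := hC₃ f
    simp only [kd] at this
    linarith
  refine le_of_forall_pos_le_add fun ε hε => ?_
  obtain ⟨f, hf, h1, h2⟩ := P.exists_disc P.int_zero (CJ := 0) (fun _ => le_rfl) one_pos hu hlow x a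
    hε
  have h4 : (1 + δ * m₁) * P.avg (P.trA a) f + (-δ) * P.avg (P.trO a) f + P.avg (P.trL a u) f ≤
      P.avg u f := by
    have e1 : P.avg (fun x => (1 + δ * m₁) * P.trA a x + (-δ) * P.trO a x + P.trL a u x) f =
        (1 + δ * m₁) * P.avg (P.trA a) f + (-δ) * P.avg (P.trO a) f + P.avg (P.trL a u) f := by
      rw [P.avg_add (P.ct_add (P.ct_smul _ cA) (P.ct_smul _ cO)) cL,
        P.avg_add (P.ct_smul _ cA) (P.ct_smul _ cO), P.avg_smul _ cO, P.avg_smul _ cA]
    rw [← e1]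
    refine P.avg_mono (P.ct_add (P.ct_add (P.ct_smul _ cA) (P.ct_smul _ cO)) cL) hcu
      (fun x => ?_) f
    have := h x
    linarith
  have h5 := hlow f
  linarith

end SD

end Crest.Agent.R269.Stat_731
end
end

-- ▼ part R269/Alp7_927
section

/-!
# R269 (S0411), leaf ALPHA, file 7 (helper927): smooth Hermitian matrices and smooth traces

* `FormField I n β` : `β p v` (`v ∈ Tan I p`) is a `C*`-invariant form, given by a matrix field which is smooth at
  the cone points;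
* `formField_alpha`, `formField_omg`, `formField_lev`, `FormField.add`, `.smul`;
* `FormField.trace` : for a `PosField a` there is `t ∈ SmX` with `t p = ∑ i, β p (b i)` for every frame `b`
  representing `a` at `p`.
-/

set_option autoImplicit false

open Complex Filter Topology Matrix MvPolynomial Crest.AlgGeometry.ProjEmb
open Crest.Agent.R269.Geo_328 Crest.Agent.R269.Defs_58
open scoped ContDiff ComplexConjugate

namespace Crest.Agent.R269.Alp_927

noncomputable section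

variable {N n : ℕ} {I : Ideal (HomCoordRing N)}

theorem two_le_inf : (2 : WithTop ℕ∞) ≤ ∞ := by
  have h : ((2 : ℕ∞) : WithTop ℕ∞) ≤ ((⊤ : ℕ∞) : WithTop ℕ∞) := WithTop.coe_le_coe.2 le_top
  exact h

/-- value of the form with matrix `M` -/
def frm (M : VV N) (v : EE N) : ℝ := (∑ j, ∑ k, v j * conj (v k) * M j k).re

/-- trace of the form with matrix `M` against the Hermitian tensor `A` -/
def trm (M A : VV N) : ℝ := (∑ j, ∑ k, A j k * M j k).re

theorem sum_frm {κ : Type*} [Fintype κ] (M : VV N) (b : κ → EE N) :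
    ∑ i, frm M (b i) = trm M (fun j k => ∑ i, b i j * conj (b i k)) := by
  unfold frm trm
  rw [← Complex.re_sum, Finset.sum_comm]
  congr 1
  refine Finset.sum_congr rfl fun j _ => ?_
  rw [Finset.sum_comm]
  refine Finset.sum_congr rfl fun k _ => ?_
  rw [Finset.sum_mul]

/-- a smooth `C*`-invariant family of Hermitian forms on the tangent spaces of the cone -/
structure FormField (I : Ideal (HomCoordRing N)) (β : EE N → EE N → ℝ) : Prop where
  mat : ∃ M : EE N → VV N, (∀ p ∈ Cone I, ContDiffAt ℝ ∞ M p) ∧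
    ∀ p ∈ Cone I, ∀ v ∈ Tan I p, β p v = frm (M p) v
  inv : ∀ p ∈ Cone I, ∀ v ∈ Tan I p, ∀ c : ℂ, c ≠ 0 → β (c • p) (c • v) = β p v

theorem contDiffAt_trm {M a : EE N → VV N} {p : EE N} (hM : ContDiffAt ℝ ∞ M p)
    (ha : ContDiffAt ℝ ∞ a p) : ContDiffAt ℝ ∞ (fun q => trm (M q) (a q)) p := by
  have h1 : ContDiffAt ℝ ∞ (fun q => ∑ j, ∑ k, a q j k * M q j k) p := by
    refine ContDiffAt.sum fun j _ => ContDiffAt.sum fun k _ => ?_
    exact (contDiffAt_pi.1 (contDiffAt_pi.1 ha j) k).mul (contDiffAt_pi.1 (contDiffAt_pi.1 hM j) k)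
  exact Complex.reCLM.contDiff.contDiffAt.comp p h1

theorem FormField.trace (hX : IsSmoothProjective I n) {β : EE N → EE N → ℝ} (hβ : FormField I β)
    {a : EE N → VV N} (ha : PosField I n a) :
    ∃ t, SmX I t ∧ ∀ p ∈ Cone I, ∀ b : Fin n → EE N, Rep I a p b → t p = ∑ i, β p (b i) := by
  obtain ⟨M, hM, hβM⟩ := hβ.mat
  have key : ∀ p ∈ Cone I, ∀ b : Fin n → EE N, Rep I a p b →
      trm (M p) (a p) = ∑ i, β p (b i) := by
    intro p hp b hb
    have h1 : ∑ i, β p (b i) = ∑ i, frm (M p) (b i) :=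
      Finset.sum_congr rfl fun i _ => hβM p hp _ (hb.1 i)
    rw [h1, sum_frm]
    congr 1
    funext j k
    exact hb.2.2 j k
  refine ⟨fun p => trm (M p) (a p), ⟨fun p hp => ?_, fun p hp c hc => ?_⟩, key⟩
  · exact contDiffAt_trm (hM p hp) (ha.smooth p hp)
  · obtain ⟨b, hb, _⟩ := ha.rep p hp
    have hb' : Rep I a (c • p) (fun i => c • b i) := by
      refine ⟨fun i => ?_, fun i => ?_, fun j k => ?_⟩
      · rw [Tan_smul hX p hc]
        exact (Tan I p).smul_mem c (hb.1 i)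
      · have : ∀ k, (c • b i) k * conj ((c • p) k) = (c * conj c) * (b i k * conj (p k)) := by
          intro k
          rw [Pi.smul_apply, Pi.smul_apply, smul_eq_mul, smul_eq_mul, map_mul]
          ring
        simp only [this]
        rw [← Finset.mul_sum, hb.2.1 i, mul_zero]
      · rw [ha.hom p hp c hc]
        have h1 : ((‖c‖ ^ 2 : ℝ) : ℂ) = c * conj c := by
          rw [Complex.mul_conj, Complex.normSq_eq_norm_sq]
        rw [h1, Pi.smul_apply, Pi.smul_apply, smul_eq_mul, hb.2.2 j k, Finset.mul_sum]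
        refine Finset.sum_congr rfl fun i _ => ?_
        show _ = (c • b i) j * conj ((c • b i) k)
        rw [Pi.smul_apply, Pi.smul_apply, smul_eq_mul, smul_eq_mul, map_mul]
        ring
    show trm (M (c • p)) (a (c • p)) = trm (M p) (a p)
    rw [key _ (smul_mem_Cone hX hp hc) _ hb', key p hp b hb]
    exact Finset.sum_congr rfl fun i _ => hβ.inv p hp _ (hb.1 i) c hc

theorem FormField.add {β β' : EE N → EE N → ℝ} (h : FormField I β) (h' : FormField I β') :
    FormField I (fun p v => β p v + β' p v) := by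
  obtain ⟨M, hM, hβM⟩ := h.mat
  obtain ⟨M', hM', hβM'⟩ := h'.mat
  refine ⟨⟨fun p => M p + M' p, fun p hp => (hM p hp).add (hM' p hp), fun p hp v hv => ?_⟩,
    fun p hp v hv c hc => by rw [h.inv p hp v hv c hc, h'.inv p hp v hv c hc]⟩
  rw [hβM p hp v hv, hβM' p hp v hv]
  unfold frm
  rw [← Complex.add_re, ← Finset.sum_add_distrib]
  congr 1
  refine Finset.sum_congr rfl fun j _ => ?_
  rw [← Finset.sum_add_distrib]
  refine Finset.sum_congr rfl fun k _ => ?_
  simp only [Pi.add_apply]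
  ring

theorem FormField.const_mul {β : EE N → EE N → ℝ} (h : FormField I β) (r : ℝ) :
    FormField I (fun p v => r * β p v) := by
  obtain ⟨M, hM, hβM⟩ := h.mat
  refine ⟨⟨fun p => (r : ℝ) • M p, fun p hp => (hM p hp).const_smul r, fun p hp v hv => ?_⟩,
    fun p hp v hv c hc => by rw [h.inv p hp v hv c hc]⟩
  rw [hβM p hp v hv]
  unfold frm
  rw [← Complex.re_ofReal_mul, Finset.mul_sum]
  congr 1
  refine Finset.sum_congr rfl fun j _ => ?_
  rw [Finset.mul_sum]
  refine Finset.sum_congr rfl fun k _ => ?_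
  simp only [Pi.smul_apply, Complex.real_smul]
  ring

theorem FormField.congr {β β' : EE N → EE N → ℝ} (h : FormField I β)
    (hX : IsSmoothProjective I n)
    (hc : ∀ p ∈ Cone I, ∀ v ∈ Tan I p, β' p v = β p v) : FormField I β' := by
  obtain ⟨M, hM, hβM⟩ := h.mat
  refine ⟨⟨M, hM, fun p hp v hv => by rw [hc p hp v hv, hβM p hp v hv]⟩,
    fun p hp v hv c hc' => ?_⟩
  rw [hc p hp v hv, hc _ (smul_mem_Cone hX hp hc') _ ?_, h.inv p hp v hv c hc']
  rw [Tan_smul hX p hc']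
  exact (Tan I p).smul_mem c hv

/-! ### matrices -/

theorem contDiffAt_d2 {u : EE N → ℝ} {p : EE N} (hu : ContDiffAt ℝ ∞ u p) (v w : EE N) :
    ContDiffAt ℝ ∞ (fun q => Lev_901.d2 u q v w) p := by
  have h1 : ContDiffAt ℝ ∞ (fderiv ℝ u) p := hu.fderiv_right (m := ∞) (by simp)
  have h2 : ContDiffAt ℝ ∞ (fderiv ℝ (fderiv ℝ u)) p := h1.fderiv_right (m := ∞) (by simp)
  exact (h2.clm_apply contDiffAt_const).clm_apply contDiffAt_const

theorem contDiffAt_levM {u : EE N → ℝ} {p : EE N} (hu : ContDiffAt ℝ ∞ u p) :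
    ContDiffAt ℝ ∞ (fun q => (fun j k => Lev_901.levM u q j k : VV N)) p := by
  refine contDiffAt_pi.2 fun j => contDiffAt_pi.2 fun k => ?_
  unfold Lev_901.levM Lev_901.levB
  simp only [Matrix.of_apply]
  have c1 : ∀ f : EE N → ℝ, ContDiffAt ℝ ∞ f p → ContDiffAt ℝ ∞ (fun q => ((f q : ℝ) : ℂ)) p :=
    fun f hf => Complex.ofRealCLM.contDiff.contDiffAt.comp p hf
  refine (c1 _ ?_).add (contDiffAt_const.mul (c1 _ ?_))
  · exact ((contDiffAt_d2 hu _ _).add (contDiffAt_d2 hu _ _)).div_const 4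
  · exact ((contDiffAt_d2 hu _ _).sub (contDiffAt_d2 hu _ _)).div_const 4

theorem frm_levM (u : EE N → ℝ) (p v : EE N) :
    frm (fun j k => Lev_901.levM u p j k) v = LevC_653.lev u p v := (Lev_901.lev_eq_sum u p v).symm

/-- the coefficients of `∂W` -/
def dW (W : EE N → ℝ) (q : EE N) (j : Fin (N + 1)) : ℂ :=
  ((fderiv ℝ W q (Pi.single j 1) : ℝ) : ℂ) / 2
    - Complex.I * ((fderiv ℝ W q (Complex.I • Pi.single j 1) : ℝ) : ℂ) / 2

theorem contDiffAt_dW {W : EE N → ℝ} {p : EE N} (hW : ContDiffAt ℝ ∞ W p) (j : Fin (N + 1)) :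
    ContDiffAt ℝ ∞ (fun q => dW W q j) p := by
  have h1 : ContDiffAt ℝ ∞ (fderiv ℝ W) p := hW.fderiv_right (m := ∞) (by simp)
  have c1 : ∀ f : EE N → ℝ, ContDiffAt ℝ ∞ f p → ContDiffAt ℝ ∞ (fun q => ((f q : ℝ) : ℂ)) p :=
    fun f hf => Complex.ofRealCLM.contDiff.contDiffAt.comp p hf
  unfold dW
  exact ((c1 _ (h1.clm_apply contDiffAt_const)).div_const 2).sub
    ((contDiffAt_const.mul (c1 _ (h1.clm_apply contDiffAt_const))).div_const 2)

theorem fderiv_re_sum (L : EE N →L[ℝ] ℝ) (v : EE N) :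
    L v = (∑ j, v j * (((L (Pi.single j 1) : ℝ) : ℂ)
      - Complex.I * ((L (Complex.I • Pi.single j 1) : ℝ) : ℂ))).re := by
  have hv : v = ∑ j, ((v j).re • (Pi.single j (1 : ℂ) : EE N)
      + (v j).im • (Complex.I • Pi.single j (1 : ℂ) : EE N)) := by
    funext i
    rw [Finset.sum_apply]
    simp only [Pi.add_apply, Pi.smul_apply, Pi.single_apply]
    rw [Finset.sum_eq_single i]
    · simp
    · intro j _ hj
      simp [Ne.symm hj]
    · simp
  conv_lhs => rw [hv]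
  rw [map_sum, Complex.re_sum]
  refine Finset.sum_congr rfl fun j _ => ?_
  rw [map_add, map_smul, map_smul]
  simp

theorem gsq_eq_dW (W : EE N → ℝ) (q v : EE N) :
    LevC_653.gsq W q v = Complex.normSq (∑ j, v j * dW W q j) := by
  have h1 : ∀ w : EE N, fderiv ℝ W q w = 2 * (∑ j, w j * dW W q j).re := by
    intro w
    have h0 : ∀ z : ℂ, 2 * z.re = (2 * z).re := fun z => by simp
    rw [fderiv_re_sum (fderiv ℝ W q) w, h0, Finset.mul_sum]
    congr 1
    refine Finset.sum_congr rfl fun j _ => ?_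
    unfold dW
    ring
  have h2 : ∑ j, (Complex.I • v) j * dW W q j = Complex.I * ∑ j, v j * dW W q j := by
    rw [Finset.mul_sum]
    refine Finset.sum_congr rfl fun j _ => ?_
    rw [Pi.smul_apply, smul_eq_mul, mul_assoc]
  rw [LevC_653.gsq_eq, h1, h1, h2, Complex.I_mul_re, Complex.normSq_apply]
  ring

theorem frm_dW (W : EE N → ℝ) (q v : EE N) :
    frm (fun j k => dW W q j * conj (dW W q k)) v = LevC_653.gsq W q v := by
  rw [gsq_eq_dW, ← Complex.ofReal_re (Complex.normSq _), ← Complex.mul_conj, map_sum, frm]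
  congr 1
  rw [Finset.sum_mul]
  refine Finset.sum_congr rfl fun j _ => ?_
  rw [Finset.mul_sum]
  refine Finset.sum_congr rfl fun k _ => ?_
  rw [map_mul]
  ring

/-- the matrix of `W² L log W`, smooth also at the zeros of `W` -/
def QM (W : EE N → ℝ) (q : EE N) : VV N := fun j k =>
  ((W q : ℝ) : ℂ) * Lev_901.levM W q j k - dW W q j * conj (dW W q k)

theorem contDiffAt_QM {W : EE N → ℝ} {p : EE N} (hW : ContDiffAt ℝ ∞ W p) :
    ContDiffAt ℝ ∞ (QM W) p := by
  have c1 : ContDiffAt ℝ ∞ (fun q => ((W q : ℝ) : ℂ)) p :=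
    Complex.ofRealCLM.contDiff.contDiffAt.comp p hW
  have c2 := contDiffAt_levM hW
  unfold QM
  refine contDiffAt_pi.2 fun j => contDiffAt_pi.2 fun k => ?_
  have c3 : ContDiffAt ℝ ∞ (fun q => Lev_901.levM W q j k) p :=
    contDiffAt_pi.1 (contDiffAt_pi.1 c2 j) k
  have c4 : ContDiffAt ℝ ∞ (fun q => conj (dW W q k)) p :=
    Complex.conjCLE.contDiff.contDiffAt.comp p (contDiffAt_dW hW k)
  exact (c1.mul c3).sub ((contDiffAt_dW hW j).mul c4)

theorem frm_sub (M M' : VV N) (v : EE N) :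
    frm (fun j k => M j k - M' j k) v = frm M v - frm M' v := by
  unfold frm
  rw [← Complex.sub_re, ← Finset.sum_sub_distrib]
  congr 1
  refine Finset.sum_congr rfl fun j _ => ?_
  rw [← Finset.sum_sub_distrib]
  refine Finset.sum_congr rfl fun k _ => ?_
  ring

theorem frm_smul (r : ℝ) (M : VV N) (v : EE N) :
    frm (fun j k => ((r : ℝ) : ℂ) * M j k) v = r * frm M v := by
  unfold frm
  rw [← Complex.re_ofReal_mul, Finset.mul_sum]
  congr 1
  refine Finset.sum_congr rfl fun j _ => ?_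
  rw [Finset.mul_sum]
  refine Finset.sum_congr rfl fun k _ => ?_
  ring

theorem frm_sum {ι : Type*} (s : Finset ι) (M : ι → VV N) (v : EE N) :
    frm (fun j k => ∑ i ∈ s, M i j k) v = ∑ i ∈ s, frm (M i) v := by
  unfold frm
  rw [← Complex.re_sum]
  congr 1
  symm
  rw [Finset.sum_comm]
  refine Finset.sum_congr rfl fun j _ => ?_
  rw [Finset.sum_comm]
  refine Finset.sum_congr rfl fun k _ => ?_
  rw [Finset.mul_sum]

theorem frm_QM (W : EE N → ℝ) (q v : EE N) :
    frm (QM W q) v = W q * LevC_653.lev W q v - LevC_653.gsq W q v := by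
  have h1 := frm_sub (fun j k => ((W q : ℝ) : ℂ) * Lev_901.levM W q j k)
    (fun j k => dW W q j * conj (dW W q k)) v
  have h2 := frm_smul (W q) (fun j k => Lev_901.levM W q j k) v
  rw [h2, frm_levM, frm_dW] at h1
  exact h1

theorem frm_QM_of_ne {W : EE N → ℝ} {q : EE N} (hW : ContDiffAt ℝ 2 W q) (h0 : W q ≠ 0) (v : EE N) :
    frm (QM W q) v = W q ^ 2 * LevC_653.lev (fun y => Real.log (W y)) q v := by
  rw [frm_QM, Lev_901.lev_log hW h0]
  field_simp

theorem frm_QM_of_eq {W : EE N → ℝ} {q : EE N} (hW : ∀ y, 0 ≤ W y) (h0 : W q = 0) (v : EE N) :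
    frm (QM W q) v = 0 := by
  have h1 : IsLocalMin W q := Filter.Eventually.of_forall fun y => by rw [h0]; exact hW y
  have h2 := h1.fderiv_eq_zero
  rw [frm_QM, LevC_653.gsq_eq, h0, h2]
  simp

/-! ### the form fields -/

theorem inv_of_smul_add {β : EE N → EE N → ℝ}
    (h : ∀ p ∈ Cone I, ∀ v ∈ Tan I p, ∀ c : ℂ, c ≠ 0 → ∀ r : ℂ,
      β (c • p) (c • (v + r • p)) = β p v) :
    ∀ p ∈ Cone I, ∀ v ∈ Tan I p, ∀ c : ℂ, c ≠ 0 → β (c • p) (c • v) = β p v := by
  intro p hp v hv c hc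
  have := h p hp v hv c hc 0
  rwa [zero_smul, add_zero] at this

theorem formField_omg : FormField I omg := by
  refine ⟨⟨fun q j k => Lev_901.levM (fun q : EE N => Real.log (nsq q)) q j k, fun p hp => ?_,
    fun p hp v _ => ?_⟩, inv_of_smul_add fun p hp v _ c hc r => omg_smul_add hp.2 v hc r⟩
  · exact contDiffAt_levM ((contDiffAt_nsq p).log (nsq_pos hp.2).ne')
  · rw [frm_levM, omg_eq_lev hp.2]

theorem formField_lev (hch : ChartStmt) [hI : I.IsPrime] (hX : IsSmoothProjective I n)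
    {u : EE N → ℝ} (hu : SmX I u) : FormField I (fun p v => Defs_58.lev u p v) := by
  refine ⟨⟨fun q j k => Lev_901.levM u q j k, fun p hp => contDiffAt_levM (hu.1 p hp),
    fun p hp v _ => ?_⟩, fun p hp v hv c hc => ?_⟩
  · rw [frm_levM, lev_eq]
  · obtain ⟨C⟩ := hch N n I hI hX p hp
    rw [lev_eq, lev_eq]
    exact LevCone_901.lev_smul_point hX hp C hu.2 hc
      ((hu.1 p hp).of_le two_le_inf) ((hu.1 _ (smul_mem_Cone hX hp hc)).of_le two_le_inf) hv

theorem formField_alpha (hch : ChartStmt) [hI : I.IsPrime] (hX : IsSmoothProjective I n) :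
    FormField I (alpha I n) := by
  obtain ⟨r, G, hG, hGe⟩ := exists_fin_eqs hX
  set W : Fin r → EE N → ℝ := fun s q => WS (gM (G s) q) with hW
  have hWs : ∀ s p, ContDiffAt ℝ ∞ (W s) p := fun s p => contDiffAt_WS_gM (G s) p
  have hWn : ∀ s q, 0 ≤ W s q := fun s q => WS_nonneg _
  set S : EE N → ℝ := fun q => ∑ s, W s q ^ 2 with hS
  have hSs : ∀ p, ContDiffAt ℝ ∞ S p := fun p => ContDiffAt.sum fun s _ => (hWs s p).pow 2
  have hS0 : ∀ p ∈ Cone I, 0 < S p := by
    intro p hp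
    obtain ⟨s, hs⟩ := hGe p hp
    have h1 : 0 < W s p := hs.pos
    exact lt_of_lt_of_le (by positivity : 0 < W s p ^ 2)
      (Finset.single_le_sum (f := fun s => W s p ^ 2) (fun s _ => by positivity) (Finset.mem_univ s))
  let M0 : EE N → VV N := fun q j k => (((S q)⁻¹ : ℝ) : ℂ) * ∑ s, QM (W s) q j k
  let M1 : EE N → VV N := fun q j k =>
    (((n : ℝ) + 1 : ℝ) : ℂ) * Lev_901.levM (fun q : EE N => Real.log (nsq q)) q j k
  have hM0 : ∀ p ∈ Cone I, ContDiffAt ℝ ∞ M0 p := by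
    intro p hp
    have c0 : ContDiffAt ℝ ∞ (fun q => (S q)⁻¹) p := (hSs p).inv (hS0 p hp).ne'
    have c1 : ContDiffAt ℝ ∞ (fun q => (((S q)⁻¹ : ℝ) : ℂ)) p :=
      Complex.ofRealCLM.contDiff.contDiffAt.comp p c0
    refine contDiffAt_pi.2 fun j => contDiffAt_pi.2 fun k => ?_
    refine c1.mul (ContDiffAt.sum fun s _ => ?_)
    exact contDiffAt_pi.1 (contDiffAt_pi.1 (contDiffAt_QM (hWs s p)) j) k
  have hM1 : ∀ p ∈ Cone I, ContDiffAt ℝ ∞ M1 p := by
    intro p hp
    have c1 := contDiffAt_levM ((contDiffAt_nsq (k := ∞) p).log (nsq_pos hp.2).ne')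
    refine contDiffAt_pi.2 fun j => contDiffAt_pi.2 fun k => ?_
    exact contDiffAt_const.mul (contDiffAt_pi.1 (contDiffAt_pi.1 c1 j) k)
  refine ⟨⟨fun q j k => M0 q j k - M1 q j k, fun p hp => (hM0 p hp).sub (hM1 p hp),
    fun p hp v hv => ?_⟩,
    inv_of_smul_add fun p hp v hv c hc r => alpha_smul_add hch hX hp hv hc r⟩
  have e1 : frm (M1 p) v = (n + 1) * omg p v := by
    rw [omg_eq_lev hp.2, ← frm_levM]
    exact frm_smul _ _ v
  have e2 : frm (M0 p) v = alpha I n p v + (n + 1) * omg p v := by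
    have h1 : frm (M0 p) v = (S p)⁻¹ * ∑ s, frm (QM (W s) p) v := by
      rw [← frm_sum]
      exact frm_smul _ _ v
    have h2 : ∀ s, frm (QM (W s) p) v = W s p ^ 2 * (alpha I n p v + (n + 1) * omg p v) := by
      intro s
      by_cases h0 : W s p = 0
      · rw [frm_QM_of_eq (hWn s) h0, h0]
        ring
      · rw [frm_QM_of_ne ((hWs s p).of_le two_le_inf) h0,
          alpha_eq hch hX hp hv (eqs_of_ne (hG s) h0)]
        have : LevC_653.lev (lG (G s)) p v = LevC_653.lev (fun y => Real.log (W s y)) p v := rfl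
        rw [this]
        ring
    rw [h1, Finset.sum_congr rfl fun s _ => h2 s, ← Finset.sum_mul]
    have h3 := (hS0 p hp).ne'
    change (S p)⁻¹ * (S p * _) = _
    rw [← mul_assoc, inv_mul_cancel₀ h3, one_mul]
  have e3 := frm_sub (M0 p) (M1 p) v
  rw [e1, e2] at e3
  rw [e3]
  ring


end

end Crest.Agent.R269.Alp_927
end

-- ▼ part R269/SDI0_731
section

/-!
# R269 (S0411), Line B, B13: lemmas for the concrete instance (helper731)
-/

set_option autoImplicit false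

open MvPolynomial Crest.AlgGeometry.ProjEmb Crest.Agent.R269.Geo_328 Metric Set Filter
open Crest.Agent.R269.Defs_58 Crest.Agent.R269.DefsS_731 Crest.Agent.R269.Iface_731
open Crest.Agent.R269.TE_499 (TE1 bav Ref Dom CDens)
open Crest.Agent.R269.WF_731
open scoped ContDiff Topology ComplexConjugate

noncomputable section

namespace Crest.Agent.R269.SDI_731

variable {N n : ℕ} {I : Ideal (HomCoordRing N)}

/-! ### the reference form and dominated densities -/

theorem levf_eq (w : EE N → ℝ) : (LevC_653.lev w : EE N → EE N → ℝ) = lev w := by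
  funext p v; exact (LevBr_901.lev_eq w p v).symm

theorem cdens_of_dens {E : EE N → EE N → ℝ} (h : StFun_528.Dens I E) : CDens I E := h.cont

theorem ref_omg (I : Ideal (HomCoordRing N)) : Ref I omg :=
  ⟨cdens_of_dens StMax_528.dens_omg, fun p _ v _ => LevBr_901.omg_nonneg p v⟩

theorem dens_lev (hI : I.IsPrime) (hX : IsSmoothProjective I n) {w : EE N → ℝ} (hw : SmX I w) :
    StFun_528.Dens I (lev w) := by
  have := hI
  exact StMax_528.dens_lev hX hw

theorem dens_alpha (hI : I.IsPrime) (hX : IsSmoothProjective I n) :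
    StFun_528.Dens I (alpha I n) := StDens_528.dens_alpha hI hX

theorem dens_dens (hI : I.IsPrime) (hX : IsSmoothProjective I n) (cθ cω : ℝ) {u : EE N → ℝ}
    (hu : SmX I u) : StFun_528.Dens I (dens I n cθ cω u) := StDens_528.dens_Efo hI hX cθ cω hu

theorem dom_lev (hI : I.IsPrime) (hX : IsSmoothProjective I n) {w : EE N → ℝ} (hw : SmX I w) :
    ∃ C, Dom I omg (LevC_653.lev w) C := by
  obtain ⟨C, -, hC⟩ := LevBr_901.smX_lev_bdd hI hX hw
  refine ⟨C, ?_⟩
  rw [levf_eq]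
  exact ⟨cdens_of_dens (dens_lev hI hX hw), hC⟩

theorem dom_alpha (hI : I.IsPrime) (hX : IsSmoothProjective I n) : ∃ C, Dom I omg (alpha I n) C := by
  obtain ⟨C, hC⟩ := PosC_632.alphaBddStmt N n I hI hX
  exact ⟨C, cdens_of_dens (dens_alpha hI hX), hC⟩

theorem dom_dens (hI : I.IsPrime) (hX : IsSmoothProjective I n) (cθ cω : ℝ) {u : EE N → ℝ}
    (hu : SmX I u) : ∃ C, Dom I omg (dens I n cθ cω u) C := by
  obtain ⟨C, hC⟩ := PosC_632.bdd_all hI hX hu cθ cω
  exact ⟨C, cdens_of_dens (dens_dens hI hX cθ cω hu), hC⟩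

theorem smX_two (w : EE N → ℝ) (hw : SmX I w) : ∀ p ∈ Cone I, ContDiffAt ℝ 2 w p :=
  fun p hp => (hw.1 p hp).of_le LevBr_901.two_le_infty

theorem tendsto_bav (hI : I.IsPrime) (hX : IsSmoothProjective I n) {w : EE N → ℝ} (hw : SmX I w)
    {H : ℂ → EE N} (hH : IsDisc I H) (hf : FinE omg H) :
    Tendsto (fun s => cav w H s) (𝓝[<] 1) (𝓝 (bav w H)) := by
  obtain ⟨C, hC⟩ := dom_lev hI hX hw
  exact TE_499.tendsto_cav (ref_omg I) (smX_two w hw) hC hH hf

theorem bav_eq (w : EE N → ℝ) (H : ℂ → EE N) : bav w H = w (H 0) + TE1 (lev w) H := by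
  unfold bav
  rw [levf_eq]

theorem sphere_sub {s : ℝ} (h0 : 0 ≤ s) (h1 : s < 1) : sphere (0 : ℂ) |s| ⊆ ball 0 1 := by
  intro z hz
  rw [mem_sphere_zero_iff_norm, abs_of_nonneg h0] at hz
  rw [mem_ball_zero_iff, hz]
  exact h1

theorem cav_congr {w w' : EE N → ℝ} (h : ∀ p ∈ Cone I, w p = w' p) {H : ℂ → EE N}
    (hH : IsDisc I H) {s : ℝ} (h0 : 0 ≤ s) (h1 : s < 1) : cav w H s = cav w' H s :=
  Real.circleAverage_congr_sphere fun z hz => h _ (hH.cone z (sphere_sub h0 h1 hz))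

theorem ci_comp {w : EE N → ℝ} (hw : ContinuousOn w (Cone I)) {H : ℂ → EE N}
    (hH : IsDisc I H) {s : ℝ} (h0 : 0 ≤ s) (h1 : s < 1) : CircleIntegrable (fun z => w (H z)) 0 s := by
  refine ContinuousOn.circleIntegrable' ?_
  exact (hw.comp hH.hol.continuousOn fun z hz => hH.cone z hz).mono (sphere_sub h0 h1)

theorem smX_cont {w : EE N → ℝ} (hw : SmX I w) : ContinuousOn w (Cone I) :=
  fun p hp => (hw.1 p hp).continuousAt.continuousWithinAt

theorem bav_congr (hI : I.IsPrime) (hX : IsSmoothProjective I n) {w w' : EE N → ℝ}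
    (hw : SmX I w) (hw' : SmX I w') (h : ∀ p ∈ Cone I, w p = w' p) {H : ℂ → EE N}
    (hH : IsDisc I H) (hf : FinE omg H) : bav w H = bav w' H := by
  refine tendsto_nhds_unique (tendsto_bav hI hX hw hH hf) ?_
  refine (tendsto_bav hI hX hw' hH hf).congr' ?_
  filter_upwards [Ioo_mem_nhdsLT (show (0 : ℝ) < 1 by norm_num)] with s hs
  exact (cav_congr h hH hs.1.le hs.2).symm

theorem bav_add (hI : I.IsPrime) (hX : IsSmoothProjective I n) {w w' : EE N → ℝ}
    (hw : SmX I w) (hw' : SmX I w') {H : ℂ → EE N}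
    (hH : IsDisc I H) (hf : FinE omg H) : bav (fun p => w p + w' p) H = bav w H + bav w' H := by
  refine tendsto_nhds_unique (tendsto_bav hI hX (LevBr_901.smX_add hw hw') hH hf) ?_
  refine ((tendsto_bav hI hX hw hH hf).add (tendsto_bav hI hX hw' hH hf)).congr' ?_
  filter_upwards [Ioo_mem_nhdsLT (show (0 : ℝ) < 1 by norm_num)] with s hs
  exact (Real.circleAverage_fun_add (ci_comp (smX_cont hw) hH hs.1.le hs.2)
    (ci_comp (smX_cont hw') hH hs.1.le hs.2)).symm

theorem bav_const_mul (hI : I.IsPrime) (hX : IsSmoothProjective I n) (c : ℝ) {w : EE N → ℝ}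
    (hw : SmX I w) {H : ℂ → EE N}
    (hH : IsDisc I H) (hf : FinE omg H) : bav (fun p => c * w p) H = c * bav w H := by
  refine tendsto_nhds_unique (tendsto_bav hI hX (LevBr_901.smX_const_mul c hw) hH hf) ?_
  refine ((tendsto_bav hI hX hw hH hf).const_mul c).congr fun s => ?_
  have := Real.circleAverage_fun_smul (a := c) (f := fun z => w (H z)) (c := (0 : ℂ)) (R := s)
  exact this.symm

theorem bav_mono (hI : I.IsPrime) (hX : IsSmoothProjective I n) {w w' : EE N → ℝ}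
    (hw : SmX I w) (hw' : SmX I w') (h : ∀ p ∈ Cone I, w p ≤ w' p) {H : ℂ → EE N}
    (hH : IsDisc I H) (hf : FinE omg H) : bav w H ≤ bav w' H := by
  refine le_of_tendsto_of_tendsto (tendsto_bav hI hX hw hH hf) (tendsto_bav hI hX hw' hH hf) ?_
  filter_upwards [Ioo_mem_nhdsLT (show (0 : ℝ) < 1 by norm_num)] with s hs
  exact Real.circleAverage_mono (ci_comp (smX_cont hw) hH hs.1.le hs.2)
    (ci_comp (smX_cont hw') hH hs.1.le hs.2) fun z hz => h _ (hH.cone z (sphere_sub hs.1.le hs.2 hz))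

theorem bav_const (hI : I.IsPrime) (hX : IsSmoothProjective I n) (c : ℝ) {H : ℂ → EE N}
    (hH : IsDisc I H) (hf : FinE omg H) : bav (fun _ => c) H = c := by
  refine tendsto_nhds_unique (tendsto_bav hI hX (LevBr_901.smX_const I c) hH hf) ?_
  refine tendsto_const_nhds.congr fun s => ?_
  exact (Real.circleAverage_const c (0 : ℂ) s).symm

/-! ### the characteristic of `cθ α + cω ω + dd^c u` -/

theorem TE1_dens (hI : I.IsPrime) (hX : IsSmoothProjective I n) (cθ cω : ℝ) {u : EE N → ℝ}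
    (hu : SmX I u) {H : ℂ → EE N} (hH : IsDisc I H) (hf : FinE omg H) :
    TE1 (dens I n cθ cω u) H = cθ * TE1 (alpha I n) H + cω * TE1 omg H + (bav u H - u (H 0)) := by
  obtain ⟨Ca, hCa⟩ := dom_alpha hI hX
  obtain ⟨Cu, hCu⟩ := dom_lev hI hX hu
  rw [levf_eq] at hCu
  have ho := ref_omg I
  have h1 : TE1 (fun p v => cθ * alpha I n p v + cω * omg p v) H =
      cθ * TE1 (alpha I n) H + cω * TE1 omg H := by
    rw [TE_499.TE1_add ho (hCa.const_mul cθ) (ho.dom.const_mul cω) hH hf,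
      TE_499.TE1_const_mul ho hCa cθ hH hf, TE_499.TE1_const_mul ho ho.dom cω hH hf]
  have h2 : TE1 (dens I n cθ cω u) H =
      TE1 (fun p v => cθ * alpha I n p v + cω * omg p v) H + TE1 (lev u) H :=
    TE_499.TE1_add ho ((hCa.const_mul cθ).add (ho.dom.const_mul cω)) hCu hH hf
  rw [h2, h1, bav_eq]
  ring

/-! ### change of lift -/

theorem TE_tw {E : EE N → EE N → ℝ} (hE : StFun_528.Dens I E) {H : ℂ → EE N} (hH : IsDisc I H)
    {φ : ℂ → ℂ} (hφ : DifferentiableOn ℂ φ (ball 0 1)) {s : ℝ} (hs : s ∈ Ioo (0 : ℝ) 1) :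
    TE E (StCpt_528.tw φ H) s = TE E H s := (hE.funC_TE hs).inv H φ hH hφ

theorem TE1_tw {E : EE N → EE N → ℝ} (hE : StFun_528.Dens I E) {C : ℝ} (hC : Dom I omg E C)
    {H : ℂ → EE N} (hH : IsDisc I H) (hf : FinE omg H)
    {φ : ℂ → ℂ} (hφ : DifferentiableOn ℂ φ (ball 0 1)) :
    TE1 E (StCpt_528.tw φ H) = TE1 E H := by
  apply TE_499.TE1_unique
  refine (TE_499.tendsto_TE1 (ref_omg I) hC hH hf).congr' ?_
  filter_upwards [Ioo_mem_nhdsLT (show (0 : ℝ) < 1 by norm_num)] with s hs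
  exact (TE_tw hE hH hφ hs).symm

theorem finE_tw {H : ℂ → EE N} (hH : IsDisc I H) (hf : FinE omg H)
    {φ : ℂ → ℂ} (hφ : DifferentiableOn ℂ φ (ball 0 1)) : FinE omg (StCpt_528.tw φ H) := by
  obtain ⟨B, hB⟩ := hf
  exact ⟨B, fun s hs => by rw [TE_tw StMax_528.dens_omg hH hφ hs]; exact hB s hs⟩

theorem cav_tw {w : EE N → ℝ} (hw : SmX I w) {H : ℂ → EE N} (hH : IsDisc I H)
    {φ : ℂ → ℂ} (hφ : DifferentiableOn ℂ φ (ball 0 1)) {s : ℝ} (hs : s ∈ Ico (0 : ℝ) 1) :
    cav w (StCpt_528.tw φ H) s = cav w H s :=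
  (StFun_528.funC_cav (smX_cont hw) hw.2 hs).inv H φ hH hφ

theorem bav_tw (hI : I.IsPrime) (hX : IsSmoothProjective I n) {w : EE N → ℝ} (hw : SmX I w)
    {H : ℂ → EE N} (hH : IsDisc I H) (hf : FinE omg H)
    {φ : ℂ → ℂ} (hφ : DifferentiableOn ℂ φ (ball 0 1)) :
    bav w (StCpt_528.tw φ H) = bav w H := by
  refine tendsto_nhds_unique (tendsto_bav hI hX hw (StFun_528.IsDisc.tw hX hH hφ)
    (finE_tw hH hf hφ)) ?_
  refine (tendsto_bav hI hX hw hH hf).congr' ?_
  filter_upwards [Ioo_mem_nhdsLT (show (0 : ℝ) < 1 by norm_num)] with s hs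
  exact (cav_tw hw hH hφ ⟨hs.1.le, hs.2⟩).symm

theorem Jf_funC (hI : I.IsPrime) (hX : IsSmoothProjective I n) (c0 c1 : ℝ) {u1 : EE N → ℝ}
    (hu : SmX I u1) {r1 : ℝ} (hr : r1 ∈ Ioo (0 : ℝ) 1) :
    StFun_528.FunC I (Jf c0 c1 u1 r1) := by
  have h1 : StFun_528.FunC I (fun H => c0 * omg (H 0) (deriv H 0)) :=
    ((StMax_528.dens_omg (I := I)).funC_at (mem_ball_self one_pos)).const_mul c0
  have h2 : StFun_528.FunC I (fun H => c1 * TE omg H r1) :=
    ((StMax_528.dens_omg (I := I)).funC_TE hr).const_mul c1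
  have h3 : StFun_528.FunC I (fun H => cav u1 H r1) :=
    StFun_528.funC_cav (smX_cont hu) hu.2 ⟨hr.1.le, hr.2⟩
  have h4 : StFun_528.FunC I (fun H => cav u1 H 0) :=
    StFun_528.funC_cav (smX_cont hu) hu.2 ⟨le_rfl, one_pos⟩
  have e : (fun H : ℂ → EE N => cav u1 H 0) = fun H => u1 (H 0) := by
    funext H
    simp [cav]
  rw [e] at h4
  exact (h1.add h2).add (h3.sub h4)

/-! ### constant discs -/

theorem isDisc_const {p : EE N} (hp : p ∈ Cone I) : IsDisc I (fun _ => p) :=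
  ⟨differentiableOn_const _, fun _ _ => hp⟩

theorem TE_const {E : EE N → EE N → ℝ} {p : EE N} (h0 : E p 0 = 0) (s : ℝ) :
    TE E (fun _ => p) s = 0 := by
  have e : (fun z : ℂ => E p (deriv (fun _ : ℂ => p) z)) = fun _ => 0 := by
    funext z; rw [deriv_const]; exact h0
  unfold TE TG
  rw [e]
  simp [Real.circleAverage_const]

theorem TE1_const {E : EE N → EE N → ℝ} {p : EE N} (h0 : E p 0 = 0) :
    TE1 E (fun _ => p) = 0 := by
  apply TE_499.TE1_unique
  simp only [TE_const h0]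
  exact tendsto_const_nhds

theorem finE_const (p : EE N) : FinE omg (fun _ => p) :=
  ⟨0, fun s _ => by rw [TE_const (LevBr_901.omg_zero p)]⟩

theorem alpha_zero (I : Ideal (HomCoordRing N)) (p : EE N) : alpha I n p 0 = 0 := by
  unfold alpha
  split_ifs with h
  · rw [LevBr_901.lev_zero_vec, LevBr_901.omg_zero]; simp
  · rfl

end Crest.Agent.R269.SDI_731
end
end

-- ▼ part R269/SDI1_731
section

/-!
# R269 (S0411), Line B, B13: the concrete instance of `Stat_731.SD`, data (helper731)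
-/

set_option autoImplicit false

open MvPolynomial Crest.AlgGeometry.ProjEmb Crest.Agent.R269.Geo_328 Metric Set Filter
open Crest.Agent.R269.Defs_58 Crest.Agent.R269.DefsS_731 Crest.Agent.R269.Iface_731
open Crest.Agent.R269.TE_499 (TE1 bav Ref Dom CDens)
open Crest.Agent.R269.WF_731
open scoped ContDiff Topology ComplexConjugate

noncomputable section

namespace Crest.Agent.R269.SDI_731

variable {N n : ℕ} {I : Ideal (HomCoordRing N)}

/-! ### functions on the points -/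

/-- smooth functions on the points of the cone -/
def SmP (I : Ideal (HomCoordRing N)) (u : Pt I → ℝ) : Prop :=
  ∃ w : EE N → ℝ, SmX I w ∧ ∀ x : Pt I, u x = w x.1

open Classical in
/-- a smooth extension -/
def sx (u : Pt I → ℝ) : EE N → ℝ :=
  if h : ∃ w : EE N → ℝ, SmX I w ∧ ∀ x : Pt I, u x = w x.1 then h.choose else fun _ => 0

theorem smX_sx (u : Pt I → ℝ) : SmX I (sx u) := by
  unfold sx
  split_ifs with h
  · exact h.choose_spec.1
  · exact LevBr_901.smX_const I 0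

theorem sx_eq {u : Pt I → ℝ} (h : SmP I u) (x : Pt I) : sx u x.1 = u x := by
  have h' : ∃ w : EE N → ℝ, SmX I w ∧ ∀ x : Pt I, u x = w x.1 := h
  unfold sx
  rw [dif_pos h']
  exact (h'.choose_spec.2 x).symm

theorem sx_restrict {w : EE N → ℝ} (hw : SmX I w) {p : EE N} (hp : p ∈ Cone I) :
    sx (fun x : Pt I => w x.1) p = w p :=
  sx_eq (u := fun x : Pt I => w x.1) ⟨w, hw, fun _ => rfl⟩ ⟨p, hp⟩

/-- boundary average -/
def avgP (u : Pt I → ℝ) (f : Dsc I omg) : ℝ := bav (sx u) f.H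

theorem avgP_eq (hI : I.IsPrime) (hX : IsSmoothProjective I n) {u : Pt I → ℝ} {w : EE N → ℝ}
    (hw : SmX I w) (h : ∀ x : Pt I, u x = w x.1) (f : Dsc I omg) : avgP u f = bav w f.H := by
  refine bav_congr hI hX (smX_sx u) hw (fun p hp => ?_) f.disc f.fin
  rw [← h ⟨p, hp⟩]
  exact sx_eq ⟨w, hw, h⟩ ⟨p, hp⟩

/-! ### fields -/

/-- positive fields -/
def PF (I : Ideal (HomCoordRing N)) (n : ℕ) : Type := {a : EE N → VV N // PosField I n a}

/-- a representing frame -/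
def fr (a : PF I n) (x : Pt I) : Fin n → EE N := (a.2.rep x.1 x.2).choose

theorem fr_rep (a : PF I n) (x : Pt I) : Rep I a.1 x.1 (fr a x) := (a.2.rep x.1 x.2).choose_spec.1


def ldetP (a : PF I n) (x : Pt I) : ℝ := Real.log (DD x.1 (fr a x))
def trAP (a : PF I n) (x : Pt I) : ℝ := ∑ i, alpha I n x.1 (fr a x i)
def trOP (a : PF I n) (x : Pt I) : ℝ := ∑ i, omg x.1 (fr a x i)
def trLP (a : PF I n) (u : Pt I → ℝ) (x : Pt I) : ℝ := ∑ i, lev (sx u) x.1 (fr a x i)

theorem exists_trA (hI : I.IsPrime) (hX : IsSmoothProjective I n) (a : PF I n) :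
    ∃ t, SmX I t ∧ ∀ p ∈ Cone I, ∀ b : Fin n → EE N, Rep I a.1 p b → t p = ∑ i, alpha I n p (b i) := by
  have := hI
  exact (Alp_927.formField_alpha chartStmt hX).trace hX a.2

theorem exists_trO (hX : IsSmoothProjective I n) (a : PF I n) :
    ∃ t, SmX I t ∧ ∀ p ∈ Cone I, ∀ b : Fin n → EE N, Rep I a.1 p b → t p = ∑ i, omg p (b i) :=
  Alp_927.formField_omg.trace hX a.2

theorem exists_trL (hI : I.IsPrime) (hX : IsSmoothProjective I n) (a : PF I n) {w : EE N → ℝ}
    (hw : SmX I w) :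
    ∃ t, SmX I t ∧ ∀ p ∈ Cone I, ∀ b : Fin n → EE N, Rep I a.1 p b → t p = ∑ i, lev w p (b i) := by
  have := hI
  exact (Alp_927.formField_lev chartStmt hX hw).trace hX a.2

/-! ### normalised lifts -/

theorem exists_nl (f : Dsc I omg) : ∃ φ : ℂ → ℂ, DifferentiableOn ℂ φ (ball 0 1) ∧
    Normal (StCpt_528.tw φ f.H) := by
  obtain ⟨B, hB⟩ := f.fin
  obtain ⟨φ, h1, h2⟩ := StFun_528.exists_normal (StFun_528.isDisc_iff.1 f.disc) (K := B)
    fun s hs => by
      rw [StMax_528.Tom_eq_TE f.disc hs.1.le hs.2]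
      exact hB s hs
  exact ⟨φ, h1, StFun_528.normal_iff.2 h2⟩

/-- the twist to a normalised lift -/
def ph (f : Dsc I omg) : ℂ → ℂ := (exists_nl f).choose

/-- a normalised lift -/
def nl (f : Dsc I omg) : ℂ → EE N := StCpt_528.tw (ph f) f.H

theorem ph_diff (f : Dsc I omg) : DifferentiableOn ℂ (ph f) (ball 0 1) := (exists_nl f).choose_spec.1

theorem nl_normal (f : Dsc I omg) : Normal (nl f) := (exists_nl f).choose_spec.2

theorem nl_disc (hX : IsSmoothProjective I n) (f : Dsc I omg) : IsDisc I (nl f) :=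
  StFun_528.IsDisc.tw hX f.disc (ph_diff f)


/-! ### Wold frames -/

/-- the hypothesis: existence of Wold frames -/
def HW (I : Ideal (HomCoordRing N)) (n : ℕ) : Prop := ∀ a : EE N → VV N, PosField I n a →
    ∃ C : ℝ, 0 ≤ C ∧ ∀ H : ℂ → EE N, IsDisc I H → Normal H → ∃ V, WF I n a C H V

def cW (hW : HW I n) (a : PF I n) : ℝ := (hW a.1 a.2).choose

theorem cW_nonneg (hW : HW I n) (a : PF I n) : 0 ≤ cW hW a := (hW a.1 a.2).choose_spec.1

/-- the Wold frame of `(nl f, a)` -/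
def vW (hX : IsSmoothProjective I n) (hW : HW I n) (a : PF I n) (f : Dsc I omg) : Fin n → ℂ → EE N :=
  ((hW a.1 a.2).choose_spec.2 (nl f) (nl_disc hX f) (nl_normal f)).choose

theorem vW_spec (hX : IsSmoothProjective I n) (hW : HW I n) (a : PF I n) (f : Dsc I omg) :
    WF I n a.1 (cW hW a) (nl f) (vW hX hW a f) :=
  ((hW a.1 a.2).choose_spec.2 (nl f) (nl_disc hX f) (nl_normal f)).choose_spec

/-! ### interior functionals -/

/-- interior functionals with their summed second variations -/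
def IntP (hX : IsSmoothProjective I n) (hW : HW I n) (J : Dsc I omg → ℝ)
    (LJ : PF I n → Dsc I omg → ℝ) : Prop :=
  ∃ (c0 c1 : ℝ) (u1 : EE N → ℝ) (r1 : ℝ), SmX I u1 ∧ r1 ∈ Ioo (0 : ℝ) 1 ∧
    (∀ f, J f = Jf c0 c1 u1 r1 f.H) ∧ ∀ a f, LJ a f = ∑ i, LJf c0 c1 u1 r1 (nl f) (vW hX hW a f i)

def LspdP (hX : IsSmoothProjective I n) (hW : HW I n) (a : PF I n) (f : Dsc I omg) : ℝ :=
  ∑ i, omg (nl f 0) (vW hX hW a f i 0)

def SP (hX : IsSmoothProjective I n) (hW : HW I n) (r : ℝ) (a : PF I n) (f : Dsc I omg) : ℝ :=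
  ∑ i, Real.circleAverage (fun z => ‖z‖ ^ 2 * omg (nl f z) (vW hX hW a f i z)) 0 r

/-- the constant disc -/
def cstP (x : Pt I) : Dsc I omg := ⟨fun _ => x.1, isDisc_const x.2, finE_const x.1⟩

theorem levZ (p v : EE N) : lev (fun _ : EE N => (0 : ℝ)) p v = 0 := LevBr_901.lev_const 0 p v

theorem int_zero (hX : IsSmoothProjective I n) (hW : HW I n) :
    IntP hX hW (fun _ => 0) (fun _ _ => 0) := by
  refine ⟨0, 0, fun _ => 0, 1 / 2, LevBr_901.smX_const I 0, ⟨by norm_num, by norm_num⟩, ?_, ?_⟩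
  · intro f
    simp [Jf, cav, Real.circleAverage_const]
  · intro a f
    simp only [LJf, zero_mul, zero_add, levZ, mul_zero, Real.circleAverage_const,
      Finset.sum_const_zero]

theorem int_spd (hX : IsSmoothProjective I n) (hW : HW I n) :
    IntP hX hW (fun f => omg (f.H 0) (deriv f.H 0)) (LspdP hX hW) := by
  refine ⟨1, 0, fun _ => 0, 1 / 2, LevBr_901.smX_const I 0, ⟨by norm_num, by norm_num⟩, ?_, ?_⟩
  · intro f
    simp [Jf, cav, Real.circleAverage_const]
  · intro a f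
    simp only [LJf, zero_mul, levZ, mul_zero, Real.circleAverage_const, add_zero, one_mul, LspdP]

end Crest.Agent.R269.SDI_731
end
end

-- ▼ part R269/SDI2_731
section

/-!
# R269 (S0411), Line B, B13: the concrete instance of `Stat_731.SD`, proofs (helper731)
-/

set_option autoImplicit false

open MvPolynomial Crest.AlgGeometry.ProjEmb Crest.Agent.R269.Geo_328 Metric Set Filter
open Crest.Agent.R269.Defs_58 Crest.Agent.R269.DefsS_731 Crest.Agent.R269.Iface_731
open Crest.Agent.R269.TE_499 (TE1 bav Ref Dom CDens)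
open Crest.Agent.R269.WF_731
open scoped ContDiff Topology ComplexConjugate

noncomputable section

namespace Crest.Agent.R269.SDI_731

variable {N n : ℕ} {I : Ideal (HomCoordRing N)}

/-! ### normalised discs -/

theorem nsq_pos' {p : EE N} (hp : p ∈ Cone I) : 0 < nsq p := PosC_632.nsq_pos hp.2

theorem cont_log_nsq (I : Ideal (HomCoordRing N)) :
    ContinuousOn (fun p : EE N => Real.log (nsq p)) (Cone I) :=
  ContinuousOn.log PosC_632.continuous_nsq.continuousOn fun _ hp => (nsq_pos' hp).ne'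

theorem cav_log_nsq {H : ℂ → EE N} (hH : IsDisc I H) {s : ℝ} (h0 : 0 ≤ s) (h1 : s < 1) :
    cav (fun p => Real.log (nsq p)) H s = Real.log (nsq (H 0)) + TE omg H s := by
  have h := StMax_528.Tom_eq_TE hH h0 h1
  unfold StCpt_528.Tom at h
  have e : cav (fun p => Real.log (nsq p)) H s =
      Real.circleAverage (fun z => Real.log (Brody_164.nsq (H z))) 0 s := rfl
  have e2 : Real.log (nsq (H 0)) = Real.log (Brody_164.nsq (H 0)) := rfl
  rw [e, e2, ← show TE (fun p v => omg p v) H s = TE omg H s from rfl]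
  linarith

/-- `T_ω(1) = -log |H(0)|²` and `e_s = -avg_s log |H|²` for normalised lifts -/
theorem normal_TE1 {H : ℂ → EE N} (hH : IsDisc I H) (hN : Normal H) :
    TE1 omg H = -Real.log (nsq (H 0)) := by
  apply TE_499.TE1_unique
  have h1 : Tendsto (fun s => cav (fun p => Real.log (nsq p)) H s - Real.log (nsq (H 0))) (𝓝[<] 1)
      (𝓝 (0 - Real.log (nsq (H 0)))) := hN.avg.sub_const _
  rw [zero_sub] at h1
  refine h1.congr' ?_
  filter_upwards [Ioo_mem_nhdsLT (show (0 : ℝ) < 1 by norm_num)] with s hs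
  rw [cav_log_nsq hH hs.1.le hs.2]
  ring

theorem normal_err {H : ℂ → EE N} (hH : IsDisc I H) (hN : Normal H) {s : ℝ} (h0 : 0 ≤ s)
    (h1 : s < 1) : TE1 omg H - TE omg H s = -cav (fun p => Real.log (nsq p)) H s := by
  rw [normal_TE1 hH hN, cav_log_nsq hH h0 h1]
  ring

theorem normal_fin {H : ℂ → EE N} (hH : IsDisc I H) (hN : Normal H) : FinE omg H := by
  refine ⟨-Real.log (nsq (H 0)), fun s hs => ?_⟩
  have h1 := cav_log_nsq hH hs.1.le hs.2
  have h2 : cav (fun p => Real.log (nsq p)) H s ≤ 0 := by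
    refine Real.circleAverage_mono_on_of_le_circle
      (ci_comp (cont_log_nsq I) hH hs.1.le hs.2) fun z hz => ?_
    have hz' := sphere_sub hs.1.le hs.2 hz
    exact Real.log_nonpos (PosC_632.nsq_nonneg _) (hN.le_one z hz')
  linarith

/-! ### the frame -/

theorem omg_wdg {p : EE N} (hp : p ≠ 0) (V : EE N) :
    omg p V = (∑ i, ∑ j, ‖wdg V p i j‖ ^ 2) / (2 * nsq p ^ 2) := by
  have h := Ker2_430.sum_wdg_sq hp V
  have h0 := PosC_632.nsq_pos hp
  rw [h]
  field_simp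

theorem cont_omg_frame {H : ℂ → EE N} (hH : IsDisc I H) {V : ℂ → EE N}
    (hV : DifferentiableOn ℂ (fun z => wdg (V z) (H z)) (ball 0 1)) :
    ContinuousOn (fun z => omg (H z) (V z)) (ball 0 1) := by
  have h1 : ContinuousOn (fun z => (∑ i, ∑ j, ‖wdg (V z) (H z) i j‖ ^ 2) / (2 * nsq (H z) ^ 2))
      (ball 0 1) := by
    refine ContinuousOn.div ?_ ?_ fun z hz => ?_
    · refine continuousOn_finsetSum _ fun i _ => continuousOn_finsetSum _ fun j _ => ?_
      have h2 := hV.continuousOn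
      rw [continuousOn_pi] at h2
      have h3 := h2 i
      rw [continuousOn_pi] at h3
      exact (h3 j).norm.pow 2
    · exact continuousOn_const.mul ((PosC_632.continuous_nsq.comp_continuousOn hH.hol.continuousOn).pow 2)
    · have := nsq_pos' (hH.cone z hz)
      positivity
  refine h1.congr fun z hz => ?_
  exact omg_wdg (hH.cone z hz).2 _

theorem ci_frame {H : ℂ → EE N} (hH : IsDisc I H) {V : ℂ → EE N}
    (hV : DifferentiableOn ℂ (fun z => wdg (V z) (H z)) (ball 0 1)) {r : ℝ} (h0 : 0 ≤ r)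
    (h1 : r < 1) : CircleIntegrable (fun z => omg (H z) (V z)) 0 r :=
  ((cont_omg_frame hH hV).mono (sphere_sub h0 h1)).circleIntegrable'

theorem avg_norm_sq {q : ℂ → ℝ} {r : ℝ} :
    Real.circleAverage (fun z => ‖z‖ ^ 2 * q z) 0 r = r ^ 2 * Real.circleAverage q 0 r := by
  have h1 : Real.circleAverage (fun z => ‖z‖ ^ 2 * q z) 0 r =
      Real.circleAverage (fun z => r ^ 2 * q z) 0 r :=
    Real.circleAverage_congr_sphere fun z hz => by
      rw [mem_sphere_zero_iff_norm] at hz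
      show ‖z‖ ^ 2 * q z = r ^ 2 * q z
      rw [hz, sq_abs]
  rw [h1]
  exact Real.circleAverage_fun_smul (a := r ^ 2) (f := q) (c := (0 : ℂ)) (R := r)

/-- (key), for one normalised disc -/
theorem key_core (hI : I.IsPrime) (hX : IsSmoothProjective I n) (a : PF I n) {t : EE N → ℝ}
    (ht : SmX I t) (htr : ∀ p ∈ Cone I, ∀ b : Fin n → EE N, Rep I a.1 p b → t p = ∑ i, omg p (b i))
    {C : ℝ} (hC : 0 ≤ C) : ∃ K : ℝ, 0 < K ∧ ∀ (H : ℂ → EE N) (V : Fin n → ℂ → EE N), IsDisc I H →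
      Normal H → WF I n a.1 C H V → ∀ r, 0 < r → r < 1 →
        bav t H - K * ((TE1 omg H - TE omg H r) + (1 - r)) ≤
          ∑ i, Real.circleAverage (fun z => ‖z‖ ^ 2 * omg (H z) (V i z)) 0 r := by
  obtain ⟨M, hM0, hM⟩ := LevBr_901.smX_bdd hX ht
  obtain ⟨C', hC'⟩ := dom_lev hI hX ht
  have hpos : ∀ p ∈ Cone I, 0 ≤ t p := fun p hp => by
    rw [htr p hp _ (fr_rep a ⟨p, hp⟩)]
    exact Finset.sum_nonneg fun i _ => LevBr_901.omg_nonneg _ _
  refine ⟨2 * M + |C'| + C * M + 1, by positivity, fun H V hH hN hV r hr0 hr1 => ?_⟩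
  have hf := normal_fin hH hN
  have he : 0 ≤ TE1 omg H - TE omg H r := by
    have := TE_499.TE_le_TE1 (ref_omg I) hH hf hr0.le hr1
    linarith
  have h1 : ∑ i, Real.circleAverage (fun z => ‖z‖ ^ 2 * omg (H z) (V i z)) 0 r =
      r ^ 2 * Real.circleAverage (fun z => ∑ i, omg (H z) (V i z)) 0 r := by
    rw [Finset.sum_congr rfl fun i _ => avg_norm_sq (q := fun z => omg (H z) (V i z)) (r := r),
      ← Finset.mul_sum]
    congr 1
    have := Real.circleAverage_fun_sum (s := Finset.univ) (f := fun i z => omg (H z) (V i z))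
      (c := (0 : ℂ)) (R := r) fun i _ => ci_frame hH (hV.hol i) hr0.le hr1
    rw [← this]
  have hsum : CircleIntegrable (fun z => ∑ i, omg (H z) (V i z)) 0 r := by
    have h2 : ContinuousOn (fun z => ∑ i, omg (H z) (V i z)) (ball (0 : ℂ) 1) :=
      continuousOn_finsetSum _ fun i _ => cont_omg_frame hH (hV.hol i)
    exact (h2.mono (sphere_sub hr0.le hr1)).circleIntegrable'
  have hint1 := ci_comp (smX_cont ht) hH hr0.le hr1
  have hint2 : CircleIntegrable (fun z => C * M * Real.log (nsq (H z))) 0 r := by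
    have h2 : ContinuousOn (fun z => C * M * Real.log (nsq (H z))) (ball (0 : ℂ) 1) :=
      continuousOn_const.mul ((cont_log_nsq I).comp hH.hol.continuousOn fun z hz => hH.cone z hz)
    exact (h2.mono (sphere_sub hr0.le hr1)).circleIntegrable'
  have h2 : cav t H r + C * M * cav (fun p => Real.log (nsq p)) H r ≤
      Real.circleAverage (fun z => ∑ i, omg (H z) (V i z)) 0 r := by
    have e1 : C * M * cav (fun p => Real.log (nsq p)) H r =
        Real.circleAverage (fun z => C * M * Real.log (nsq (H z))) 0 r :=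
      (Real.circleAverage_fun_smul (a := C * M) (f := fun z => Real.log (nsq (H z)))
        (c := (0 : ℂ)) (R := r)).symm
    have e2 : cav t H r + C * M * cav (fun p => Real.log (nsq p)) H r =
        Real.circleAverage (fun z => t (H z) + C * M * Real.log (nsq (H z))) 0 r := by
      rw [e1]
      exact (Real.circleAverage_fun_add hint1 hint2).symm
    rw [e2]
    refine Real.circleAverage_mono (hint1.add hint2) hsum fun z hz => ?_
    have hz' := sphere_sub hr0.le hr1 hz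
    have hc := hH.cone z hz'
    have h3 := hV.k1 z hz' _ (fr_rep a ⟨H z, hc⟩)
    rw [← htr _ hc _ (fr_rep a ⟨H z, hc⟩)] at h3
    have h4 := nsq_pos' hc
    have h5 := Real.log_le_sub_one_of_pos h4
    have h6 := hpos _ hc
    have h7 := hM _ hc
    rw [abs_of_nonneg h6] at h7
    have h8 : 0 ≤ 1 - nsq (H z) := by have := hN.le_one z hz'; linarith
    have h9 : C * (1 - nsq (H z)) * t (H z) ≤ C * (1 - nsq (H z)) * M :=
      mul_le_mul_of_nonneg_left h7 (mul_nonneg hC h8)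
    have h10 : C * (1 - nsq (H z)) * M ≤ C * (-Real.log (nsq (H z))) * M := by
      refine mul_le_mul_of_nonneg_right (mul_le_mul_of_nonneg_left ?_ hC) hM0
      linarith
    have h11 : (1 - C * (1 - nsq (H z))) * t (H z) = t (H z) - C * (1 - nsq (H z)) * t (H z) := by
      ring
    rw [h11] at h3
    nlinarith
  rw [h1]
  have h3 : |bav t H - cav t H r| ≤ C' * (TE1 omg H - TE omg H r) :=
    TE_499.abs_bav_sub_cav_le (ref_omg I) (smX_two t ht) hC' hH hf hr0.le hr1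
  have h4 := (abs_le.1 h3).2
  have h5 := normal_err hH hN hr0.le hr1
  have h6 : bav t H ≤ M := by
    have := bav_mono hI hX ht (LevBr_901.smX_const I M) (fun p hp => (abs_le.1 (hM p hp)).2) hH hf
    rwa [bav_const hI hX M hH hf] at this
  have h7 : C' * (TE1 omg H - TE omg H r) ≤ |C'| * (TE1 omg H - TE omg H r) :=
    mul_le_mul_of_nonneg_right (le_abs_self _) he
  set e := TE1 omg H - TE omg H r with hedef
  have h8 : cav (fun p => Real.log (nsq p)) H r = -e := by linarith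
  rw [h8] at h2
  have h9 : bav t H - (|C'| + C * M) * e ≤
      Real.circleAverage (fun z => ∑ i, omg (H z) (V i z)) 0 r := by nlinarith
  have hr2 : r ^ 2 ≤ 1 := by nlinarith
  have hr3 : 1 - r ^ 2 ≤ 2 * (1 - r) := by nlinarith
  have h10 : r ^ 2 * (bav t H - (|C'| + C * M) * e) ≤
      r ^ 2 * Real.circleAverage (fun z => ∑ i, omg (H z) (V i z)) 0 r :=
    mul_le_mul_of_nonneg_left h9 (sq_nonneg r)
  refine le_trans ?_ h10
  have h11 : (1 - r ^ 2) * bav t H ≤ 2 * M * (1 - r) := by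
    have : (1 - r ^ 2) * bav t H ≤ (1 - r ^ 2) * M :=
      mul_le_mul_of_nonneg_left h6 (by linarith)
    have h12 : (1 - r ^ 2) * M ≤ 2 * (1 - r) * M := mul_le_mul_of_nonneg_right hr3 hM0
    linarith
  have h12 : r ^ 2 * ((|C'| + C * M) * e) ≤ (|C'| + C * M) * e := by
    have : 0 ≤ (|C'| + C * M) * e := by positivity
    nlinarith
  have h13 : 0 ≤ 1 - r := by linarith
  nlinarith [mul_nonneg hM0 he, mul_nonneg (abs_nonneg C') h13, mul_nonneg (mul_nonneg hC hM0) h13]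

/-- (5) at the centre + AM-GM -/
theorem lspd_core (hn : 1 ≤ n) {a : EE N → VV N} {C : ℝ} {D : EE N → ℝ} (hD : SmX I D)
    (hD0 : ∀ p ∈ Cone I, 0 < D p)
    (hDD : ∀ p ∈ Cone I, ∀ b : Fin n → EE N, Rep I a p b → DD p b = D p) {H : ℂ → EE N}
    {V : Fin n → ℂ → EE N} (hH : IsDisc I H) (hV : WF I n a C H V) :
    n * Real.exp ((bav (fun p => Real.log (D p)) H - TE1 (alpha I n) H) / n) ≤
      ∑ i, omg (H 0) (V i 0) := by
  have h0 : (0 : ℂ) ∈ ball (0 : ℂ) 1 := mem_ball_self one_pos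
  have hp := hH.cone 0 h0
  have h1 := hV.det D hD hD0 hDD 0 ⟨le_rfl, one_pos⟩
  rw [TE_499.TE_zero, sub_zero] at h1
  have h2 : Real.circleAverage (fun z => Real.log (DD (H z) (fun i => V i z))) 0 0 =
      Real.log (DD (H 0) (fun i => V i 0)) := by simp
  rw [h2] at h1
  have h3 := hV.pos 0 h0
  have h4 := FldD_620.amgm hp.2 (fun i => V i 0)
  refine le_trans ?_ h4
  have hn' : (0 : ℝ) < n := by exact_mod_cast hn
  refine mul_le_mul_of_nonneg_left ?_ hn'.le
  have h5 : DD (H 0) (fun i => V i 0) ^ ((n : ℝ)⁻¹) =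
      Real.exp (Real.log (DD (H 0) (fun i => V i 0)) / n) := by
    rw [Real.rpow_def_of_pos h3, div_eq_mul_inv]
  rw [h5]
  exact Real.exp_le_exp.2 (div_le_div_of_nonneg_right h1 hn'.le)

end Crest.Agent.R269.SDI_731
end
end

-- ▼ part R269/SDI3_731

/-!
# R269 (S0411), Line B, B13: the concrete instance of `Stat_731.SD`, the maximiser (helper731)
-/

set_option autoImplicit false

open MvPolynomial Crest.AlgGeometry.ProjEmb Crest.Agent.R269.Geo_328 Metric Set Filter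
open Crest.Agent.R269.Defs_58 Crest.Agent.R269.DefsS_731 Crest.Agent.R269.Iface_731
open Crest.Agent.R269.TE_499 (TE1 bav Ref Dom CDens)
open Crest.Agent.R269.WF_731
open scoped ContDiff Topology ComplexConjugate

noncomputable section

namespace Crest.Agent.R269.SDI_731

variable {N n : ℕ} {I : Ideal (HomCoordRing N)}

/-- bound of the interior functionals -/
theorem Jf_bdd (hX : IsSmoothProjective I n) (hc : EntireCurvesConstant I) (c0 c1 : ℝ)
    {u1 : EE N → ℝ} (hu : SmX I u1) {r1 : ℝ} (hr : r1 ∈ Ioo (0 : ℝ) 1) :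
    ∃ B, ∀ H, IsDisc I H → |Jf c0 c1 u1 r1 H| ≤ B := by
  obtain ⟨A, hA, hB⟩ := StMax_528.exists_brody hX hc
  obtain ⟨M, hM0, hM⟩ := LevBr_901.smX_bdd hX hu
  refine ⟨|c0| * A ^ 2 + |c1| * (A ^ 2 / (1 - r1) ^ 2 * r1 ^ 2) + (M + M), fun H hH => ?_⟩
  have h1 : |c0 * omg (H 0) (deriv H 0)| ≤ |c0| * A ^ 2 := by
    rw [abs_mul, abs_of_nonneg (LevBr_901.omg_nonneg _ _)]
    exact mul_le_mul_of_nonneg_left (StMax_528.omg_zero_le hB hH) (abs_nonneg _)
  have h2 : |c1 * TE omg H r1| ≤ |c1| * (A ^ 2 / (1 - r1) ^ 2 * r1 ^ 2) := by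
    have h3 : 0 ≤ TE omg H r1 :=
      StMax_528.TE_nonneg StMax_528.dens_omg (fun p _ v _ => LevBr_901.omg_nonneg p v) hH hr.1.le hr.2
    rw [abs_mul, abs_of_nonneg h3]
    exact mul_le_mul_of_nonneg_left (StMax_528.TE_omg_le hB hH hr.1.le hr.2) (abs_nonneg _)
  have h3 : |cav u1 H r1 - u1 (H 0)| ≤ M + M := by
    have e1 := StMax_528.abs_cav_le (smX_cont hu) hM hH hr.1.le hr.2
    have e2 := hM (H 0) (hH.cone 0 (mem_ball_self one_pos))
    exact (abs_sub _ _).trans (add_le_add e1 e2)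
  unfold Jf
  exact (abs_add_three _ _ _).trans (add_le_add (add_le_add h1 h2) h3)

theorem lt_one_le_TE1 (hI : I.IsPrime) (hX : IsSmoothProjective I n) (cθ cω : ℝ) {u : EE N → ℝ}
    (hu : SmX I u) (hG : GeO I n cθ cω u) {H : ℂ → EE N} (hH : IsDisc I H) (hf : FinE omg H) {s : ℝ}
    (hs : s ∈ Ioo (0 : ℝ) 1) : TE (dens I n cθ cω u) H s ≤ TE1 (dens I n cθ cω u) H := by
  obtain ⟨C, hC⟩ := dom_dens hI hX cθ cω hu
  refine ge_of_tendsto (TE_499.tendsto_TE1 (ref_omg I) hC hH hf) ?_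
  filter_upwards [Ioo_mem_nhdsLT hs.2] with t ht
  exact StMax_528.TE_mono_radius (dens_dens hI hX cθ cω hu)
    (fun p hp v hv => (LevBr_901.omg_nonneg p v).trans (hG p hp v hv)) hH hs.1.le ht.1.le ht.2

/-- (1)-(4) of the stationary route for the concrete discs -/
theorem stat_core (hI : I.IsPrime) (hX : IsSmoothProjective I n) (hc : EntireCurvesConstant I)
    (c0 c1 : ℝ) {u1 : EE N → ℝ} (hu1 : SmX I u1) {r1 : ℝ} (hr1 : r1 ∈ Ioo (0 : ℝ) 1) {κ t r : ℝ}
    (hκ : 0 < κ) (ht : 0 ≤ t) (hr : r ∈ Ioo (0 : ℝ) 1) (cθ cω : ℝ) {u : EE N → ℝ} (hu : SmX I u)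
    (hG : GeO I n cθ cω u) (x : Pt I) :
    ∃ f : Dsc I omg, f.H 0 = x.1 ∧
      (∀ g : Dsc I omg, g.H 0 = x.1 →
        Jf c0 c1 u1 r1 g.H - κ * (cθ * TE1 (alpha I n) g.H + cω * TE1 omg g.H +
          (bav u g.H - u x.1) - t * TE omg g.H r) ≤
        Jf c0 c1 u1 r1 f.H - κ * (cθ * TE1 (alpha I n) f.H + cω * TE1 omg f.H +
          (bav u f.H - u x.1) - t * TE omg f.H r)) ∧
      ∃ T1, IsMx I n (Jf c0 c1 u1 r1) κ t r cθ cω u (nl f) T1 := by
  obtain ⟨A, hA, hB⟩ := StMax_528.exists_brody hX hc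
  have hJ := Jf_funC hI hX c0 c1 hu1 hr1
  have hO : StFun_528.FunC I (fun H => κ * t * TE omg H r) :=
    ((StMax_528.dens_omg (I := I)).funC_TE hr).const_mul (κ * t)
  obtain ⟨B, hBJ⟩ := Jf_bdd hX hc c0 c1 hu1 hr1
  have hcF := hJ.add hO
  have hE := dens_dens hI hX cθ cω hu
  obtain ⟨H, T1, hH, hctr, hN, hlim, hle, hmax⟩ := StMax_528.exists_max_TE hX hc x.2 hcF
    (B := B + κ * t * (A ^ 2 / (1 - r) ^ 2 * r ^ 2)) (fun H hH _ => by
      have h1 := (abs_le.1 (hBJ H hH)).2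
      have h2 := mul_le_mul_of_nonneg_left (StMax_528.TE_omg_le hB hH hr.1.le hr.2)
        (mul_nonneg hκ.le ht)
      exact add_le_add h1 h2) hE one_pos (fun p hp v hv => by
      rw [one_mul]; exact hG p hp v hv) hκ
  obtain ⟨c, hc0, hcH⟩ := StMax_528.Ctr.exists_smul x.2 hH hctr
  have hfin : FinE omg H := normal_fin hH hN
  -- the disc with the exact centre
  set φ0 : ℂ → ℂ := fun _ => Complex.log c⁻¹ with hφ0
  have hφd : DifferentiableOn ℂ φ0 (ball 0 1) := differentiableOn_const _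
  have hexp : Complex.exp (Complex.log c⁻¹) = c⁻¹ := Complex.exp_log (inv_ne_zero hc0)
  set f : Dsc I omg := ⟨StCpt_528.tw φ0 H, StFun_528.IsDisc.tw hX hH hφd, finE_tw hH hfin hφd⟩ with hf
  have hf0 : f.H 0 = x.1 := by
    show Complex.exp (Complex.log c⁻¹) • H 0 = x.1
    rw [hexp, hcH, smul_smul, inv_mul_cancel₀ hc0, one_smul]
  obtain ⟨CE, hCE⟩ := dom_dens hI hX cθ cω hu
  have hT1 : TE1 (dens I n cθ cω u) H = T1 := TE_499.TE1_unique hlim
  have hT1f : TE1 (dens I n cθ cω u) f.H = T1 := by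
    rw [← hT1]; exact TE1_tw hE hCE hH hfin hφd
  have hcf : (Jf c0 c1 u1 r1 f.H + κ * t * TE omg f.H r) = Jf c0 c1 u1 r1 H + κ * t * TE omg H r :=
    hcF.inv H φ0 hH hφd
  refine ⟨f, hf0, fun g hg => ?_, T1, ?_⟩
  · have h1 := hmax g.H (TE1 (dens I n cθ cω u) g.H) g.disc (StMax_528.ctr_of_smul (a := 1) (by
      rw [hg, one_smul])) (fun s hs => lt_one_le_TE1 hI hX cθ cω hu hG g.disc g.fin hs)
    have h2 := TE1_dens hI hX cθ cω hu g.disc g.fin
    have h3 := TE1_dens hI hX cθ cω hu f.disc f.fin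
    rw [hg] at h2
    rw [hf0, hT1f] at h3
    rw [h2] at h1
    rw [h3] at h1
    have h4 := hcf
    linarith
  · have hnl : IsDisc I (nl f) := nl_disc hX f
    have htw1 : ∀ {E : EE N → EE N → ℝ}, StFun_528.Dens I E → ∀ s ∈ Ioo (0 : ℝ) 1,
        TE E (nl f) s = TE E H s := fun hE' s hs => by
      rw [show TE _ (nl f) s = TE _ f.H s from TE_tw hE' f.disc (ph_diff f) hs]
      exact TE_tw hE' hH hφd hs
    have hcn : Jf c0 c1 u1 r1 (nl f) + κ * t * TE omg (nl f) r =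
        Jf c0 c1 u1 r1 H + κ * t * TE omg H r := by
      rw [← hcf]; exact hcF.inv f.H (ph f) f.disc (ph_diff f)
    refine ⟨hnl, nl_normal f, ?_, fun G K hGd hGc hGK => ?_⟩
    · refine hlim.congr' ?_
      filter_upwards [Ioo_mem_nhdsLT (show (0 : ℝ) < 1 by norm_num)] with s hs
      exact (htw1 hE s hs).symm
    · obtain ⟨c', hc', hG0⟩ := hGc
      have hn0 : nl f 0 = Complex.exp (ph f 0) • x.1 := by
        rw [← hf0]; rfl
      have h1 := hmax G K hGd (StMax_528.ctr_of_smul (a := c' * Complex.exp (ph f 0)) (by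
        rw [hG0, hn0, smul_smul])) hGK
      rw [hcn]
      exact h1

/-! ### the instance -/

theorem smP_add {u v : Pt I → ℝ} (hu : SmP I u) (hv : SmP I v) : SmP I fun x => u x + v x := by
  obtain ⟨w, hw, h⟩ := hu
  obtain ⟨w', hw', h'⟩ := hv
  exact ⟨_, LevBr_901.smX_add hw hw', fun x => by show u x + v x = _; rw [h, h']⟩

theorem smP_smul {u : Pt I → ℝ} (c : ℝ) (hu : SmP I u) : SmP I fun x => c * u x := by
  obtain ⟨w, hw, h⟩ := hu
  exact ⟨_, LevBr_901.smX_const_mul c hw, fun x => by show c * u x = _; rw [h]⟩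

theorem exists_ldet (hI : I.IsPrime) (hX : IsSmoothProjective I n) (a : PF I n) :
    ∃ D : EE N → ℝ, SmX I D ∧ (∀ p ∈ Cone I, 0 < D p) ∧
      (∀ p ∈ Cone I, ∀ b : Fin n → EE N, Rep I a.1 p b → DD p b = D p) :=
  FldE_620.exists_detF hI hX a.2

theorem lev_zero_ext {w : EE N → ℝ} (hI : I.IsPrime) (hX : IsSmoothProjective I n) (hw : SmX I w)
    (h0 : ∀ p ∈ Cone I, w p = 0) {p : EE N} (hp : p ∈ Cone I) {v : EE N} (hv : v ∈ Tan I p) :
    lev w p v = 0 := by
  rw [LevBr_901.levCone N n I hI hX w (fun _ => 0) p hp (hw.1 p hp) contDiffAt_const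
    (Eventually.of_forall fun q hq => h0 q hq) v hv]
  exact levZ p v

theorem lev_ext {w w' : EE N → ℝ} (hI : I.IsPrime) (hX : IsSmoothProjective I n) (hw : SmX I w)
    (hw' : SmX I w') (h0 : ∀ p ∈ Cone I, w p = w' p) {p : EE N} (hp : p ∈ Cone I) {v : EE N}
    (hv : v ∈ Tan I p) : lev w p v = lev w' p v :=
  LevBr_901.levCone N n I hI hX w w' p hp (hw.1 p hp) (hw'.1 p hp)
    (Eventually.of_forall fun q hq => h0 q hq) v hv

theorem ct_trLP (hI : I.IsPrime) (hX : IsSmoothProjective I n) (a : PF I n) (u : Pt I → ℝ) :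
    SmP I (trLP a u) := by
  obtain ⟨t, ht, h⟩ := exists_trL hI hX a (smX_sx u)
  exact ⟨t, ht, fun x => (h x.1 x.2 _ (fr_rep a x)).symm⟩

theorem ct_trAP (hI : I.IsPrime) (hX : IsSmoothProjective I n) (a : PF I n) :
    SmP I (trAP a) := by
  obtain ⟨t, ht, h⟩ := exists_trA hI hX a
  exact ⟨t, ht, fun x => (h x.1 x.2 _ (fr_rep a x)).symm⟩

theorem ct_trOP (hX : IsSmoothProjective I n) (a : PF I n) :
    SmP I (trOP a) := by
  obtain ⟨t, ht, h⟩ := exists_trO hX a
  exact ⟨t, ht, fun x => (h x.1 x.2 _ (fr_rep a x)).symm⟩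

theorem ct_ldetP (hI : I.IsPrime) (hX : IsSmoothProjective I n) (a : PF I n) :
    SmP I (ldetP a) := by
  obtain ⟨D, hD, hD0, h⟩ := exists_ldet hI hX a
  exact ⟨fun p => Real.log (D p), LevBr_901.smX_log hD fun p hp => (hD0 p hp).ne', fun x => by
    unfold ldetP; rw [h x.1 x.2 _ (fr_rep a x)]⟩

theorem exists_fld (hI : I.IsPrime) (hX : IsSmoothProjective I n) : Nonempty (PF I n) := by
  obtain ⟨a, ha, -⟩ := FldF_620.exists_gInv hI hX
  exact ⟨⟨a, ha⟩⟩


/-- **the concrete instance** -/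
def sd (hI : I.IsPrime) (hX : IsSmoothProjective I n) (hn : 1 ≤ n) (hc : EntireCurvesConstant I)
    (hW : HW I n) : Stat_731.SD where
  X := Pt I
  Disc := Dsc I omg
  Fld := PF I n
  n := n
  hn := hn
  ctr f := ⟨f.H 0, f.disc.cone 0 (mem_ball_self one_pos)⟩
  cst := cstP
  ctr_cst _ := rfl
  Ct := SmP I
  ct_const c := ⟨fun _ => c, LevBr_901.smX_const I c, fun _ => rfl⟩
  ct_add := smP_add
  ct_smul := smP_smul
  ct_bdd := by
    rintro u ⟨w, hw, h⟩
    obtain ⟨C, -, hC⟩ := LevBr_901.smX_bdd hX hw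
    exact ⟨C, fun x => by rw [h]; exact hC x.1 x.2⟩
  Sm := SmP I
  sm_zero := ⟨fun _ => 0, LevBr_901.smX_const I 0, fun _ => rfl⟩
  ct_sm h := h
  avg := avgP
  avg_const c f := by
    rw [avgP_eq hI hX (LevBr_901.smX_const I c) (fun _ => rfl)]
    exact bav_const hI hX c f.disc f.fin
  avg_add := by
    rintro u v ⟨w, hw, h⟩ ⟨w', hw', h'⟩ f
    rw [avgP_eq hI hX (LevBr_901.smX_add hw hw') (fun x => by rw [h, h']), avgP_eq hI hX hw h,
      avgP_eq hI hX hw' h']
    exact bav_add hI hX hw hw' f.disc f.fin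
  avg_smul := by
    rintro u c ⟨w, hw, h⟩ f
    rw [avgP_eq hI hX (LevBr_901.smX_const_mul c hw) (fun x => by rw [h]), avgP_eq hI hX hw h]
    exact bav_const_mul hI hX c hw f.disc f.fin
  avg_mono := by
    rintro u v ⟨w, hw, h⟩ ⟨w', hw', h'⟩ huv f
    rw [avgP_eq hI hX hw h, avgP_eq hI hX hw' h']
    refine bav_mono hI hX hw hw' (fun p hp => ?_) f.disc f.fin
    have := huv ⟨p, hp⟩
    rwa [h, h'] at this
  avg_cst := by
    rintro u ⟨w, hw, h⟩ x
    rw [avgP_eq hI hX hw h, h]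
    show bav w (fun _ => x.1) = w x.1
    rw [bav_eq, TE1_const (LevBr_901.lev_zero_vec w x.1), add_zero]
  k f := TE1 (alpha I n) f.H
  T f := TE1 omg f.H
  spd f := omg (f.H 0) (deriv f.H 0)
  k_cst x := TE1_const (alpha_zero I x.1)
  T_cst x := TE1_const (LevBr_901.omg_zero x.1)
  spd_nonneg f := LevBr_901.omg_nonneg _ _
  Tr r f := TE omg f.H r
  Tr_nonneg := fun {r f} h0 h1 => StMax_528.TE_nonneg StMax_528.dens_omg
    (fun p _ v _ => LevBr_901.omg_nonneg p v) f.disc h0.le h1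
  Tr_le := fun {r f} h0 h1 => TE_499.TE_le_TE1 (ref_omg I) f.disc f.fin h0.le h1
  Tr_tendsto f ε hε := by
    have h := TE_499.tendsto_err (ref_omg I) f.disc f.fin
    have h1 := h.eventually (gt_mem_nhds hε)
    rw [eventually_nhdsWithin_iff, Metric.eventually_nhds_iff] at h1
    obtain ⟨δ, hδ, h1⟩ := h1
    refine ⟨1 - δ, by linarith, fun r hr0 hr1 => ?_⟩
    have h2 := h1 (y := r) (by rw [Real.dist_eq, abs_lt]; constructor <;> linarith) hr1
    linarith
  Tr_bdd := fun {r} h0 h1 => by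
    obtain ⟨A, hA, hB⟩ := StMax_528.exists_brody hX hc
    exact ⟨A ^ 2 / (1 - r) ^ 2 * r ^ 2, fun f => StMax_528.TE_omg_le hB f.disc h0.le h1⟩
  A := (StMax_528.exists_brody hX hc).choose
  schwarz f := StMax_528.omg_zero_le (StMax_528.exists_brody hX hc).choose_spec.2 f.disc
  ldet := ldetP
  trA := trAP
  trO := trOP
  trL := trLP
  ct_ldet := ct_ldetP hI hX
  ct_trA := ct_trAP hI hX
  ct_trO := ct_trOP hX
  ct_trL a u _ := ct_trLP hI hX a u
  trL_zero a x := by
    refine Finset.sum_eq_zero fun i _ => ?_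
    exact lev_zero_ext hI hX (smX_sx _) (fun p hp => sx_restrict (LevBr_901.smX_const I 0) hp) x.2
      ((fr_rep a x).1 i)
  Ge p q u := GeO I n p q (sx u)
  ge_ex := by
    intro p q u _
    obtain ⟨C, hC⟩ := PosC_632.bdd_all hI hX (smX_sx u) p q
    refine ⟨|C| + 1, by positivity, fun x hx v hv => ?_⟩
    have h1 := (abs_le.1 (hC x hx v hv)).1
    have h2 := LevBr_901.omg_nonneg x v
    have h3 := le_abs_self C
    have h4 : C * omg x v ≤ |C| * omg x v := mul_le_mul_of_nonneg_right h3 h2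
    show omg x v ≤ p * alpha I n x v + (q + (|C| + 1)) * omg x v + lev (sx u) x v
    have h5 : (q + (|C| + 1)) * omg x v = q * omg x v + |C| * omg x v + omg x v := by ring
    rw [h5]
    linarith
  T_le := by
    intro p q u hu hG f
    have h1 := TE1_dens hI hX p q (smX_sx u) f.disc f.fin
    obtain ⟨C, hC⟩ := dom_dens hI hX p q (smX_sx u)
    have h2 := TE_499.TE1_le (ref_omg I) (ref_omg I).dom hC f.disc f.fin hG
    rw [h1] at h2
    have h3 : sx u (f.H 0) = u ⟨f.H 0, f.disc.cone 0 (mem_ball_self one_pos)⟩ :=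
      sx_eq hu ⟨f.H 0, f.disc.cone 0 (mem_ball_self one_pos)⟩
    rw [h3] at h2
    exact h2
  fld := (exists_fld hI hX).some
  Int := IntP hX hW
  int_zero := int_zero hX hW
  Lspd := LspdP hX hW
  int_spd := int_spd hX hW
  Lspd_ge a f := by
    obtain ⟨D, hD, hD0, hDD⟩ := exists_ldet hI hX a
    have h := lspd_core hn hD hD0 hDD (nl_disc hX f) (vW_spec hX hW a f)
    have h1 : avgP (ldetP a) f = bav (fun p => Real.log (D p)) (nl f) := by
      rw [avgP_eq hI hX (LevBr_901.smX_log hD fun p hp => (hD0 p hp).ne') (fun x => by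
        unfold ldetP; rw [hDD x.1 x.2 _ (fr_rep a x)])]
      exact (bav_tw hI hX (LevBr_901.smX_log hD fun p hp => (hD0 p hp).ne') f.disc f.fin
        (ph_diff f)).symm
    obtain ⟨Ca, hCa⟩ := dom_alpha hI hX
    have h2 : TE1 (alpha I n) f.H = TE1 (alpha I n) (nl f) :=
      (TE1_tw (dens_alpha hI hX) hCa f.disc f.fin (ph_diff f)).symm
    rw [h1, h2]
    exact h
  S := SP hX hW
  S_nonneg := fun {r} h0 h1 a f => by
    refine Finset.sum_nonneg fun i _ => ?_
    exact Real.circleAverage_nonneg_of_nonneg fun z _ =>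
      mul_nonneg (sq_nonneg _) (LevBr_901.omg_nonneg _ _)
  key := by
    intro a η hη
    obtain ⟨t, ht, htr⟩ := exists_trO hX a
    obtain ⟨K, hK, h⟩ := key_core hI hX a ht htr (cW_nonneg hW a)
    refine ⟨η / (2 * K), by positivity, fun r f h0 h1 h2 h3 => ?_⟩
    have h4 := h (nl f) (vW hX hW a f) (nl_disc hX f) (nl_normal f) (vW_spec hX hW a f) r h0 h2
    have h5 : avgP (trOP a) f = bav t (nl f) := by
      rw [avgP_eq hI hX (u := trOP a) ht (fun x => (htr x.1 x.2 _ (fr_rep a x)).symm)]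
      exact (bav_tw hI hX ht f.disc f.fin (ph_diff f)).symm
    have h6 : TE1 omg (nl f) = TE1 omg f.H :=
      TE1_tw StMax_528.dens_omg (ref_omg I).dom f.disc f.fin (ph_diff f)
    have h7 : TE omg (nl f) r = TE omg f.H r :=
      TE_tw StMax_528.dens_omg f.disc (ph_diff f) ⟨h0, h2⟩
    rw [h6, h7] at h4
    rw [h5]
    refine le_trans ?_ h4
    have h8 : K * ((TE1 omg f.H - TE omg f.H r) + (1 - r)) ≤
        K * (η / (2 * K) + η / (2 * K)) := mul_le_mul_of_nonneg_left (by linarith) hK.le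
    have h9 : K * (η / (2 * K) + η / (2 * K)) = η := by field_simp; norm_num
    linarith
  stat := by
    intro J LJ hJ κ t r hκ ht h0 h1 p q u hu hG x
    obtain ⟨c0, c1, u1, r1, hu1, hr1, hJ1, hJ2⟩ := hJ
    obtain ⟨f, hf0, hmax, T1, hmx⟩ := stat_core hI hX hc c0 c1 hu1 hr1 hκ ht ⟨h0, h1⟩ p q
      (smX_sx u) hG x
    refine ⟨f, Subtype.ext hf0, fun g hg => ?_, fun a => ?_⟩
    · have h2 := hmax g (congrArg Subtype.val hg)
      rw [sx_eq hu x] at h2
      rw [hJ1, hJ1]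
      exact h2
    · obtain ⟨tA, htA, hA⟩ := exists_trA hI hX a
      obtain ⟨tO, htO, hO⟩ := exists_trO hX a
      obtain ⟨tL, htL, hL⟩ := exists_trL hI hX a (smX_sx u)
      have hs1 := LevBr_901.smX_add (LevBr_901.smX_const_mul p htA) (LevBr_901.smX_const_mul q htO)
      have hs2 := LevBr_901.smX_add hs1 htL
      have h2 := (vW_spec hX hW a f).var c0 c1 u1 r1 κ t r p q (sx u) T1 hu1 hr1 hκ ht ⟨h0, h1⟩
        (smX_sx u) hG hmx (fun y => p * tA y + q * tO y + tL y) hs2 (fun y hy b hb => by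
          simp only [dens]
          rw [hA y hy b hb, hO y hy b hb, hL y hy b hb, Finset.sum_add_distrib,
            Finset.sum_add_distrib, Finset.mul_sum, Finset.mul_sum])
      have h3 : bav (fun y => p * tA y + q * tO y + tL y) (nl f) =
          p * avgP (trAP a) f + q * avgP (trOP a) f + avgP (trLP a u) f := by
        rw [avgP_eq hI hX (u := trAP a) htA (fun x => (hA x.1 x.2 _ (fr_rep a x)).symm),
          avgP_eq hI hX (u := trOP a) htO (fun x => (hO x.1 x.2 _ (fr_rep a x)).symm),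
          avgP_eq hI hX (u := trLP a u) htL (fun x => (hL x.1 x.2 _ (fr_rep a x)).symm)]
        rw [show bav (fun y => p * tA y + q * tO y + tL y) (nl f) =
          bav (fun y => p * tA y + q * tO y + tL y) f.H from bav_tw hI hX hs2 f.disc f.fin (ph_diff f)]
        rw [bav_add hI hX hs1 htL f.disc f.fin, bav_add hI hX (LevBr_901.smX_const_mul p htA)
          (LevBr_901.smX_const_mul q htO) f.disc f.fin, bav_const_mul hI hX p htA f.disc f.fin,
          bav_const_mul hI hX q htO f.disc f.fin]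
      rw [h3, Finset.sum_add_distrib, ← Finset.mul_sum] at h2
      rw [hJ2]
      exact h2

end Crest.Agent.R269.SDI_731
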