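import Crest.Agent.R269.Defs_58
import Crest.Agent.R269.GeoT_328
import Crest.Agent.R269.Chart_632

-- ▼ part R269/Sec1_669
section

/-!
# R269 (S0411), leaf BIGSEC (helper669), part 1: linear algebra of `wedgeSq` and `DD`
-/

set_option autoImplicit false

open MvPolynomial Crest.AlgGeometry.ProjEmb Crest.Agent.R269.Geo_328 Crest.Agent.R269.Defs_58
open scoped ContDiff Topology ComplexConjugate Matrix ComplexOrder

namespace Crest.Agent.R269.Sec_669

noncomputable section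

variable {N n : ℕ} {I : Ideal (HomCoordRing N)}

theorem wedgeSq_eq {m : ℕ} (w : Fin m → EE N) :
    wedgeSq w = (Matrix.of w * (Matrix.of w)ᴴ).det.re := by
  unfold wedgeSq
  congr 2

theorem det_mul_conjTranspose_real {m : ℕ} (W : Matrix (Fin m) (Fin (N + 1)) ℂ) :
    (((W * Wᴴ).det.re : ℝ) : ℂ) = (W * Wᴴ).det := by
  have h : (W * Wᴴ).IsHermitian := Matrix.isHermitian_mul_conjTranspose_self W
  have h1 := congrArg Matrix.det h.eq
  rw [Matrix.det_conjTranspose] at h1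
  exact Complex.conj_eq_iff_re.1 h1

theorem wedgeSq_comb {m : ℕ} (A : Matrix (Fin m) (Fin m) ℂ) (w : Fin m → EE N) :
    wedgeSq (fun i => ∑ k, A i k • w k) = ‖A.det‖ ^ 2 * wedgeSq w := by
  rw [wedgeSq_eq, wedgeSq_eq]
  have h1 : (Matrix.of fun i => ∑ k, A i k • w k) = A * Matrix.of w := by
    ext i j
    simp [Matrix.mul_apply, Finset.sum_apply]
  rw [h1, Matrix.conjTranspose_mul, ← Matrix.mul_assoc, Matrix.mul_assoc A, Matrix.det_mul,
    Matrix.det_mul, Matrix.det_conjTranspose, ← det_mul_conjTranspose_real (Matrix.of w)]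
  have h2 : A.det * (((Matrix.of w * (Matrix.of w)ᴴ).det.re : ℝ) : ℂ) * star A.det =
      ((‖A.det‖ ^ 2 * (Matrix.of w * (Matrix.of w)ᴴ).det.re : ℝ) : ℂ) := by
    have h3 : A.det * star A.det = ((‖A.det‖ ^ 2 : ℝ) : ℂ) := by
      rw [Complex.star_def, Complex.mul_conj, Complex.normSq_eq_norm_sq]
    calc A.det * (((Matrix.of w * (Matrix.of w)ᴴ).det.re : ℝ) : ℂ) * star A.det
        = (A.det * star A.det) * (((Matrix.of w * (Matrix.of w)ᴴ).det.re : ℝ) : ℂ) := by ring
      _ = _ := by rw [h3]; push_cast; ring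
  rw [h2, Complex.ofReal_re, Complex.ofReal_re]

theorem wedgeSq_nonneg {m : ℕ} (w : Fin m → EE N) : 0 ≤ wedgeSq w := by
  rw [wedgeSq_eq]
  have h : (Matrix.of w * (Matrix.of w)ᴴ).PosSemidef := Matrix.posSemidef_self_mul_conjTranspose _
  exact (Complex.le_def.1 h.det_nonneg).1

theorem wedgeSq_pos {m : ℕ} {w : Fin m → EE N} (h : LinearIndependent ℂ w) : 0 < wedgeSq w := by
  rw [wedgeSq_eq]
  have h1 : (Matrix.of w * (Matrix.of w)ᴴ).PosDef := by
    have := Matrix.PosDef.mul_conjTranspose_self (Matrix.of w) (by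
      rw [Matrix.vecMul_injective_iff]
      exact h)
    exact this
  exact (Complex.lt_def.1 h1.det_pos).1

theorem linearIndependent_of_wedgeSq {m : ℕ} {w : Fin m → EE N} (h : wedgeSq w ≠ 0) :
    LinearIndependent ℂ w := by
  by_contra hli
  apply h
  rw [Fintype.not_linearIndependent_iff] at hli
  obtain ⟨g, hg, i, hi⟩ := hli
  rw [wedgeSq_eq]
  have h1 : g ᵥ* (Matrix.of w * (Matrix.of w)ᴴ) = 0 := by
    rw [← Matrix.vecMul_vecMul]
    have : g ᵥ* Matrix.of w = 0 := by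
      funext j
      have := congrFun hg j
      simpa [Matrix.vecMul, dotProduct, Finset.sum_apply] using this
    rw [this, Matrix.zero_vecMul]
  have h2 : (Matrix.of w * (Matrix.of w)ᴴ).det = 0 := by
    by_contra hdet
    have hinj := Matrix.vecMul_injective_iff_isUnit.2
      ((Matrix.isUnit_iff_isUnit_det _).2 (isUnit_iff_ne_zero.2 hdet))
    have h3 : g = 0 := hinj (by simpa using h1)
    exact hi (by rw [h3]; rfl)
  rw [h2]; simp

theorem wedgeSq_smul {m : ℕ} (c : ℂ) (w : Fin m → EE N) :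
    wedgeSq (fun i => c • w i) = ‖c‖ ^ (2 * m) * wedgeSq w := by
  have h := wedgeSq_comb (Matrix.diagonal fun _ : Fin m => c) w
  have h1 : (fun i => ∑ k, (Matrix.diagonal fun _ : Fin m => c) i k • w k) = fun i => c • w i := by
    funext i
    rw [Finset.sum_eq_single i]
    · simp
    · intro j _ hj; simp [Matrix.diagonal_apply_ne _ hj.symm]
    · simp
  rw [h1] at h
  rw [h, Matrix.det_diagonal]
  simp [pow_mul, mul_comm]

/-! ### `DD` -/

theorem nsq_nonneg (p : EE N) : 0 ≤ nsq p := Finset.sum_nonneg fun i _ => by positivity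

theorem nsq_pos {p : EE N} (hp : p ≠ 0) : 0 < nsq p := by
  obtain ⟨i, hi⟩ : ∃ i, p i ≠ 0 := by
    by_contra h
    push Not at h
    exact hp (funext h)
  exact Finset.sum_pos' (fun i _ => by positivity) ⟨i, Finset.mem_univ i, by positivity⟩

theorem nsq_smul (c : ℂ) (p : EE N) : nsq (c • p) = ‖c‖ ^ 2 * nsq p := by
  simp only [nsq, Pi.smul_apply, smul_eq_mul, norm_mul, mul_pow, Finset.mul_sum]

theorem DD_nonneg (p : EE N) (b : Fin n → EE N) : 0 ≤ DD p b :=
  div_nonneg (wedgeSq_nonneg _) (pow_nonneg (nsq_nonneg p) _)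

theorem DD_pos_iff {p : EE N} (hp : p ≠ 0) {b : Fin n → EE N} :
    0 < DD p b ↔ LinearIndependent ℂ (Fin.cons p b : Fin (n + 1) → EE N) := by
  have h := nsq_pos hp
  unfold DD
  constructor
  · intro h1
    apply linearIndependent_of_wedgeSq
    intro h0
    rw [h0] at h1; simp at h1
  · intro h1
    have := wedgeSq_pos h1
    positivity

/-- change of frame -/
theorem DD_mix (p : EE N) (b : Fin n → EE N) (M : Matrix (Fin n) (Fin n) ℂ) (r : Fin n → ℂ) :
    DD p (fun i => (∑ k, M i k • b k) + r i • p) = ‖M.det‖ ^ 2 * DD p b := by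
  set A : Matrix (Fin (n + 1)) (Fin (n + 1)) ℂ :=
    Fin.cons (Pi.single 0 1) (fun i => Fin.cons (r i) (M i)) with hA
  have h1 : (Fin.cons p (fun i => (∑ k, M i k • b k) + r i • p) : Fin (n + 1) → EE N) =
      fun i => ∑ k, A i k • (Fin.cons p b : Fin (n + 1) → EE N) k := by
    funext i
    refine Fin.cases ?_ (fun i => ?_) i
    · simp [hA, Pi.single_apply]
    · simp [hA, Fin.sum_univ_succ]
      rw [add_comm]
  have h2 : A.det = M.det := by
    rw [Matrix.det_succ_row_zero]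
    rw [Finset.sum_eq_single 0]
    · simp [hA]
      congr 1
    · intro j _ hj
      simp [hA, hj]
    · simp
  unfold DD
  rw [h1, wedgeSq_comb, h2]
  ring

theorem DD_smul {c : ℂ} (hc : c ≠ 0) (p : EE N) (b : Fin n → EE N) :
    DD (c • p) (fun i => c • b i) = DD p b := by
  have h1 : (Fin.cons (c • p) (fun i => c • b i) : Fin (n + 1) → EE N) =
      fun i => c • (Fin.cons p b : Fin (n + 1) → EE N) i := by
    funext i
    refine Fin.cases ?_ (fun i => ?_) i <;> simp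
  unfold DD
  rw [h1, wedgeSq_smul, nsq_smul, mul_pow, ← pow_mul]
  have : ‖c‖ ^ (2 * (n + 1)) ≠ 0 := by positivity
  rw [mul_div_mul_left _ _ this]

/-- every tangent family is a combination of a tangent frame and `p` -/
theorem exists_comb (hX : IsSmoothProjective I n) {p : EE N} (hp : p ∈ Cone I)
    {b b' : Fin n → EE N} (hb : TanFam I p b) (hD : 0 < DD p b) (hb' : TanFam I p b') :
    ∃ (M : Matrix (Fin n) (Fin n) ℂ) (r : Fin n → ℂ),
      b' = fun i => (∑ k, M i k • b k) + r i • p := by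
  have hli := (DD_pos_iff hp.2).1 hD
  have hmem : ∀ i, (Fin.cons p b : Fin (n + 1) → EE N) i ∈ Tan I p := by
    intro i
    refine Fin.cases ?_ (fun i => ?_) i
    · simpa using self_mem_Tan hX hp.1
    · simpa using hb i
  set w : Fin (n + 1) → Tan I p := fun i => ⟨_, hmem i⟩ with hw
  have hwli : LinearIndependent ℂ w := by
    have : (Submodule.subtype (Tan I p)) ∘ w = (Fin.cons p b : Fin (n + 1) → EE N) := rfl
    exact LinearIndependent.of_comp (Submodule.subtype (Tan I p)) (by rw [this]; exact hli)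
  have hspan : Submodule.span ℂ (Set.range w) = ⊤ :=
    hwli.span_eq_top_of_card_eq_finrank (by simp [finrank_Tan hX hp])
  have hex : ∀ i, ∃ g : Fin (n + 1) → ℂ, ∑ k, g k • w k = ⟨b' i, hb' i⟩ := by
    intro i
    have : (⟨b' i, hb' i⟩ : Tan I p) ∈ Submodule.span ℂ (Set.range w) := by rw [hspan]; trivial
    exact (Submodule.mem_span_range_iff_exists_fun ℂ).1 this
  choose g hg using hex
  refine ⟨fun i k => g i k.succ, fun i => g i 0, ?_⟩
  funext i
  have := congrArg (Submodule.subtype (Tan I p)) (hg i)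
  rw [map_sum] at this
  simp only [map_smul, Submodule.subtype_apply, hw] at this
  rw [← this, Fin.sum_univ_succ]
  simp only [Fin.cons_zero, Fin.cons_succ]
  rw [add_comm]

end

end Crest.Agent.R269.Sec_669
end

-- ▼ part R269/HolSec_307
section

/-!
# R269 (S0411), leaf BIG-OUT: holomorphic sections of `m K_X + j A` (helper307)

A section is a function `S p b` (`p` in the cone, `b_1..b_n` in `Tan I p`), `det^m`-homogeneous in `b`
modulo `p`, of weight `j` under `ℂ^*`, holomorphic along holomorphic families.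
Everything is reduced to chart functions by the local formula
`S p b = (p i)^j * (det X(p,b))^m * φ (ratio i J p₀ p)`.
-/

set_option autoImplicit false

open MvPolynomial Crest.AlgGeometry.ProjEmb
open scoped ContDiff Topology ComplexConjugate

namespace Crest.Agent.R269.HolSec_307

open Crest.Agent.R269.Geo_328

noncomputable section

variable {N n : ℕ}

/-! ### The chart matrix -/

/-- differential of the ratio coordinates at `p`, applied to `b` -/
def Xm (i : Fin (N + 1)) (J : Fin n → Fin (N + 1)) (p : EE N) (b : Fin n → EE N) :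
    Matrix (Fin n) (Fin n) ℂ :=
  Matrix.of fun k l => (p i * b k (J l) - p (J l) * b k i) / p i ^ 2

theorem Xm_apply (i : Fin (N + 1)) (J : Fin n → Fin (N + 1)) (p : EE N) (b : Fin n → EE N)
    (k l : Fin n) : Xm i J p b k l = (p i * b k (J l) - p (J l) * b k i) / p i ^ 2 := rfl

theorem Xm_smul (i : Fin (N + 1)) (J : Fin n → Fin (N + 1)) (p : EE N) (b : Fin n → EE N)
    {c : ℂ} (hc : c ≠ 0) : Xm i J (c • p) (fun k => c • b k) = Xm i J p b := by
  ext k l
  simp only [Xm_apply, Pi.smul_apply, smul_eq_mul]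
  have h2 : c ^ 2 ≠ 0 := pow_ne_zero 2 hc
  rw [show c * p i * (c * b k (J l)) - c * p (J l) * (c * b k i) =
    c ^ 2 * (p i * b k (J l) - p (J l) * b k i) by ring, mul_pow, mul_div_mul_left _ _ h2]



/-- the local value of the section of `m K + j A` with chart function `φ` -/
def val (m : ℕ) (j : ℤ) (i : Fin (N + 1)) (J : Fin n → Fin (N + 1)) (p₀ : EE N) (φ : CC n → ℂ)
    (p : EE N) (b : Fin n → EE N) : ℂ :=
  p i ^ j * (Xm i J p b).det ^ m * φ (ratio i J p₀ p)

section val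

variable (m : ℕ) (j : ℤ) (i : Fin (N + 1)) (J : Fin n → Fin (N + 1)) (p₀ : EE N) (φ : CC n → ℂ)



end val

theorem analyticAt_apply {E : Type*} [NormedAddCommGroup E] [NormedSpace ℂ E] {ι : Type*}
    [Fintype ι] {F : E → ι → ℂ} {x : E} (h : AnalyticAt ℂ F x) (k : ι) :
    AnalyticAt ℂ (fun y => F y k) x :=
  (ContinuousLinearMap.proj (R := ℂ) (φ := fun _ : ι => ℂ) k).analyticAt _ |>.comp h

theorem Xm_analyticAt {E : Type*} [NormedAddCommGroup E] [NormedSpace ℂ E]
    {i : Fin (N + 1)} {J : Fin n → Fin (N + 1)} {F : E → EE N} {b : Fin n → E → EE N} {x : E}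
    (hF : AnalyticAt ℂ F x) (hb : ∀ k, AnalyticAt ℂ (b k) x) (hi : F x i ≠ 0) (k l : Fin n) :
    AnalyticAt ℂ (fun y => Xm i J (F y) (fun k => b k y) k l) x := by
  simp only [Xm_apply]
  refine AnalyticAt.fun_div ?_ ?_ (pow_ne_zero 2 hi)
  · exact ((analyticAt_apply hF i).fun_mul (analyticAt_apply (hb k) (J l))).fun_sub
      ((analyticAt_apply hF (J l)).fun_mul (analyticAt_apply (hb k) i))
  · exact (analyticAt_apply hF i).fun_pow 2

theorem det_analyticAt {E : Type*} [NormedAddCommGroup E] [NormedSpace ℂ E]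
    {M : E → Matrix (Fin n) (Fin n) ℂ} {x : E} (h : ∀ k l, AnalyticAt ℂ (fun y => M y k l) x) :
    AnalyticAt ℂ (fun y => (M y).det) x := by
  simp only [Matrix.det_apply]
  refine Finset.analyticAt_fun_sum _ fun σ _ => ?_
  exact (Finset.analyticAt_fun_prod _ fun k _ => h (σ k) k).const_smul

theorem ratio_analyticAt {E : Type*} [NormedAddCommGroup E] [NormedSpace ℂ E]
    {i : Fin (N + 1)} {J : Fin n → Fin (N + 1)} {p₀ : EE N} {F : E → EE N} {x : E}
    (hF : AnalyticAt ℂ F x) (hi : F x i ≠ 0) :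
    AnalyticAt ℂ (fun y => ratio i J p₀ (F y)) x := by
  refine analyticAt_pi_iff.2 fun k => ?_
  unfold ratio
  exact ((analyticAt_apply hF (J k)).fun_div (analyticAt_apply hF i) hi).fun_sub analyticAt_const

theorem val_analyticAt {E : Type*} [NormedAddCommGroup E] [NormedSpace ℂ E] (m : ℕ) (j : ℤ)
    {i : Fin (N + 1)} {J : Fin n → Fin (N + 1)} {p₀ : EE N} {φ : CC n → ℂ}
    {F : E → EE N} {b : Fin n → E → EE N} {x : E}
    (hF : AnalyticAt ℂ F x) (hb : ∀ k, AnalyticAt ℂ (b k) x) (hi : F x i ≠ 0)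
    (hφ : AnalyticAt ℂ φ (ratio i J p₀ (F x))) :
    AnalyticAt ℂ (fun y => val m j i J p₀ φ (F y) (fun k => b k y)) x := by
  unfold val
  refine AnalyticAt.fun_mul (AnalyticAt.fun_mul ?_ ?_) ?_
  · exact (analyticAt_apply hF i).zpow hi
  · exact (det_analyticAt fun k l => Xm_analyticAt hF hb hi k l).fun_pow m
  · exact AnalyticAt.fun_comp hφ (ratio_analyticAt hF hi)

/-! ### Decomposition of frames in a chart -/

section chart

variable {I : Ideal (HomCoordRing N)} {p₀ : EE N} (c : ConeChart I n p₀)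

/-- the `k`-th partial derivative of the chart -/
def dσ (z : CC n) (k : Fin n) : EE N := fderiv ℂ c.σ z (Pi.single k 1)

theorem hasFDerivAt_σ {z : CC n} (hz : z ∈ Metric.ball (0 : CC n) c.R) :
    HasFDerivAt c.σ (fderiv ℂ c.σ z) z :=
  (c.an z hz).differentiableAt.hasFDerivAt

theorem fderiv_σ_i {z : CC n} (hz : z ∈ Metric.ball (0 : CC n) c.R) (x : CC n) :
    fderiv ℂ c.σ z x c.i = 0 := by
  have h1 : HasFDerivAt (fun y => c.σ y c.i)
      ((ContinuousLinearMap.proj (R := ℂ) (φ := fun _ : Fin (N + 1) => ℂ) c.i).comp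
        (fderiv ℂ c.σ z)) z :=
    (ContinuousLinearMap.proj (R := ℂ) (φ := fun _ : Fin (N + 1) => ℂ) c.i).hasFDerivAt.comp z
      (hasFDerivAt_σ c hz)
  have h2 : (fun y => c.σ y c.i) =ᶠ[𝓝 z] fun _ => (1 : ℂ) := by
    filter_upwards [Metric.isOpen_ball.mem_nhds hz] with y hy using c.σ_i y hy
  have h3 := h1.unique ((hasFDerivAt_const (1 : ℂ) z).congr_of_eventuallyEq h2)
  have h4 := DFunLike.congr_fun h3 x
  simpa using h4

theorem fderiv_σ_J {z : CC n} (hz : z ∈ Metric.ball (0 : CC n) c.R) (x : CC n) (k : Fin n) :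
    fderiv ℂ c.σ z x (c.J k) = x k := by
  have h1 : HasFDerivAt (fun y => c.σ y (c.J k))
      ((ContinuousLinearMap.proj (R := ℂ) (φ := fun _ : Fin (N + 1) => ℂ) (c.J k)).comp
        (fderiv ℂ c.σ z)) z :=
    (ContinuousLinearMap.proj (R := ℂ) (φ := fun _ : Fin (N + 1) => ℂ) (c.J k)).hasFDerivAt.comp z
      (hasFDerivAt_σ c hz)
  have h2 : (fun y => c.σ y (c.J k)) =ᶠ[𝓝 z] fun y => p₀ (c.J k) / p₀ c.i + y k := by
    filter_upwards [Metric.isOpen_ball.mem_nhds hz] with y hy using c.σ_J y hy k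
  have h0 : HasFDerivAt (fun y : CC n => p₀ (c.J k) / p₀ c.i + y k)
      (ContinuousLinearMap.proj (R := ℂ) (φ := fun _ : Fin n => ℂ) k) z :=
    ((ContinuousLinearMap.proj (R := ℂ) (φ := fun _ : Fin n => ℂ) k).hasFDerivAt).const_add _
  have h3 := h1.unique (h0.congr_of_eventuallyEq h2)
  have h4 := DFunLike.congr_fun h3 x
  simpa using h4

theorem fderiv_σ_eq (z x : CC n) : fderiv ℂ c.σ z x = ∑ l, x l • dσ c z l := by
  conv_lhs => rw [pi_eq_sum_univ' x]
  rw [map_sum]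
  refine Finset.sum_congr rfl fun l _ => ?_
  simp only [dσ]
  rw [← map_smul]

theorem σ_i_ne {z : CC n} (hz : z ∈ Metric.ball (0 : CC n) c.R) : c.σ z c.i ≠ 0 := by
  rw [c.σ_i z hz]; exact one_ne_zero

theorem ratio_σ {z : CC n} (hz : z ∈ Metric.ball (0 : CC n) c.R) : ratio c.i c.J p₀ (c.σ z) = z := by
  funext k
  simp only [ratio, c.σ_i z hz, c.σ_J z hz k, div_one]
  ring

theorem self_mem (hX : IsSmoothProjective I n) {z : CC n} (hz : z ∈ Metric.ball (0 : CC n) c.R) :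
    c.σ z ∈ Tan I (c.σ z) := self_mem_Tan hX (c.σ_cone z hz).1

theorem dσ_mem {z : CC n} (hz : z ∈ Metric.ball (0 : CC n) c.R) (k : Fin n) :
    dσ c z k ∈ Tan I (c.σ z) := (c.tan z hz _).2 ⟨0, _, by rw [zero_smul, zero_add]; rfl⟩

theorem Xm_dσ {z : CC n} (hz : z ∈ Metric.ball (0 : CC n) c.R) :
    Xm c.i c.J (c.σ z) (dσ c z) = 1 := by
  ext k l
  rw [Xm_apply, c.σ_i z hz]
  unfold dσ
  rw [fderiv_σ_i c hz, fderiv_σ_J c hz]
  simp [Matrix.one_apply, Pi.single_apply, eq_comm]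

/-- every tangent frame at a cone point of the chart, expressed through `σ` and `∂σ` -/
theorem decomp (hX : IsSmoothProjective I n) {p : EE N} (hp : p ∈ Cone I) (hW : p ∈ c.W)
    {b : Fin n → EE N} (hb : ∀ k, b k ∈ Tan I p) :
    ∃ r : Fin n → ℂ, b = fun k => p c.i • (∑ l, Xm c.i c.J p b k l •
      dσ c (ratio c.i c.J p₀ p) l + r k • c.σ (ratio c.i c.J p₀ p)) := by
  obtain ⟨hz, hpe⟩ := c.surj p hp hW
  set z := ratio c.i c.J p₀ p with hzdef
  have hpi : p c.i ≠ 0 := c.W_ne p hW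
  have key : ∀ k, ∃ rk : ℂ, b k = p c.i • (∑ l, Xm c.i c.J p b k l • dσ c z l + rk • c.σ z) := by
    intro k
    have h1 : b k ∈ Tan I (c.σ z) := by
      have := hb k
      rw [hpe, Tan_smul hX _ hpi] at this
      exact this
    have h2 : (p c.i)⁻¹ • b k ∈ Tan I (c.σ z) := Submodule.smul_mem _ _ h1
    obtain ⟨r, x, hrx⟩ := (c.tan z hz _).1 h2
    refine ⟨r, ?_⟩
    have hi := congrFun hrx c.i
    simp only [Pi.smul_apply, Pi.add_apply, smul_eq_mul, c.σ_i z hz, fderiv_σ_i c hz, mul_one,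
      add_zero] at hi
    have hx : ∀ l, x l = Xm c.i c.J p b k l := by
      intro l
      have hl := congrFun hrx (c.J l)
      simp only [Pi.smul_apply, Pi.add_apply, smul_eq_mul, fderiv_σ_J c hz] at hl
      have hpl : p (c.J l) = p c.i * c.σ z (c.J l) := by
        conv_lhs => rw [hpe]
        rfl
      rw [Xm_apply]
      rw [eq_div_iff (pow_ne_zero 2 hpi), hpl]
      have e1 : x l = (p c.i)⁻¹ * b k (c.J l) - r * c.σ z (c.J l) := by rw [hl]; ring
      rw [e1, ← hi]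
      field_simp
    have h3 : b k = p c.i • ((p c.i)⁻¹ • b k) := by rw [smul_smul, mul_inv_cancel₀ hpi, one_smul]
    have h4 : r • c.σ z + fderiv ℂ c.σ z x =
        ∑ l, Xm c.i c.J p b k l • dσ c z l + r • c.σ z := by
      rw [fderiv_σ_eq, add_comm]
      congr 1
      exact Finset.sum_congr rfl fun l _ => by rw [hx]
    rw [h3, hrx, h4]
  choose r hr using key
  exact ⟨r, funext hr⟩

end chart

/-! ### Holomorphic sections of `m K_X + j A` -/

/-- a holomorphic section of `m K_X + j A` as a function of (cone point, tangent frame) -/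
structure HolSec (I : Ideal (HomCoordRing N)) (n m : ℕ) (j : ℤ) where
  S : EE N → (Fin n → EE N) → ℂ
  smul : ∀ p ∈ Cone I, ∀ b : Fin n → EE N, (∀ k, b k ∈ Tan I p) → ∀ c : ℂ, c ≠ 0 →
    S (c • p) (fun k => c • b k) = c ^ j * S p b
  lin : ∀ p ∈ Cone I, ∀ b : Fin n → EE N, (∀ k, b k ∈ Tan I p) →
    ∀ (A : Matrix (Fin n) (Fin n) ℂ) (r : Fin n → ℂ),
    S p (fun k => ∑ l, A k l • b l + r k • p) = A.det ^ m * S p b
  hol : ∀ (d : ℕ) (F : CC d → EE N) (b : Fin n → CC d → EE N) (z₀ : CC d), AnalyticAt ℂ F z₀ →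
    (∀ k, AnalyticAt ℂ (b k) z₀) → (∀ᶠ z in 𝓝 z₀, F z ∈ Cone I ∧ ∀ k, b k z ∈ Tan I (F z)) →
    AnalyticAt ℂ (fun z => S (F z) (fun k => b k z)) z₀

/-- the chart function of a section -/
def HolSec.chart {I : Ideal (HomCoordRing N)} {m : ℕ} {j : ℤ} (S : HolSec I n m j) {p₀ : EE N}
    (c : ConeChart I n p₀) (z : CC n) : ℂ := S.S (c.σ z) (dσ c z)

theorem dσ_analyticAt {I : Ideal (HomCoordRing N)} {p₀ : EE N} (c : ConeChart I n p₀)
    {z : CC n} (hz : z ∈ Metric.ball (0 : CC n) c.R) (k : Fin n) :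
    AnalyticAt ℂ (fun y => dσ c y k) z := by
  have h1 : AnalyticAt ℂ (fderiv ℂ c.σ) z := (c.an z hz).fderiv
  exact (ContinuousLinearMap.apply ℂ (EE N) (Pi.single k (1 : ℂ) : CC n)).analyticAt _ |>.comp h1

theorem HolSec.chart_analyticAt {I : Ideal (HomCoordRing N)} {m : ℕ} {j : ℤ} (S : HolSec I n m j)
    {p₀ : EE N} (c : ConeChart I n p₀) {z : CC n} (hz : z ∈ Metric.ball (0 : CC n) c.R) :
    AnalyticAt ℂ (S.chart c) z := by
  refine S.hol n c.σ (fun k y => dσ c y k) z (c.an z hz) (fun k => dσ_analyticAt c hz k) ?_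
  filter_upwards [Metric.isOpen_ball.mem_nhds hz] with y hy
  exact ⟨c.σ_cone y hy, fun k => dσ_mem c hy k⟩

/-- the local formula -/
theorem HolSec.local_formula {I : Ideal (HomCoordRing N)} (hX : IsSmoothProjective I n) {m : ℕ}
    {j : ℤ} (S : HolSec I n m j)
    {p₀ : EE N} (c : ConeChart I n p₀) {p : EE N} (hp : p ∈ Cone I) (hW : p ∈ c.W)
    {b : Fin n → EE N} (hb : ∀ k, b k ∈ Tan I p) :
    S.S p b = val m j c.i c.J p₀ (S.chart c) p b := by
  obtain ⟨r, hr⟩ := decomp c hX hp hW hb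
  obtain ⟨hz, hpe⟩ := c.surj p hp hW
  have hpi : p c.i ≠ 0 := c.W_ne p hW
  have hT : ∀ k, dσ c (ratio c.i c.J p₀ p) k ∈ Tan I (c.σ (ratio c.i c.J p₀ p)) :=
    fun k => dσ_mem c hz k
  have h1 := S.lin _ (c.σ_cone _ hz) _ hT (Xm c.i c.J p b) r
  have hT2 : ∀ k, (∑ l, Xm c.i c.J p b k l • dσ c (ratio c.i c.J p₀ p) l +
      r k • c.σ (ratio c.i c.J p₀ p)) ∈ Tan I (c.σ (ratio c.i c.J p₀ p)) := fun k =>
    Submodule.add_mem _ (Submodule.sum_mem _ fun l _ => Submodule.smul_mem _ _ (hT l))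
      (Submodule.smul_mem _ _ (self_mem c hX hz))
  have h2 := S.smul _ (c.σ_cone _ hz) _ hT2 (p c.i) hpi
  rw [← hpe, ← hr, h1] at h2
  rw [h2]
  unfold val HolSec.chart
  ring


/-! ### Sections from chart functions -/

/-- a covering family of cone charts with chart functions of a section of `m K + j A` -/
structure ChartFam (I : Ideal (HomCoordRing N)) (n m : ℕ) (j : ℤ) (A : Type*) where
  p₀ : A → EE N
  c : ∀ a, ConeChart I n (p₀ a)
  cov : ∀ p ∈ Cone I, ∃ a, p ∈ (c a).W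
  φ : A → CC n → ℂ
  an : ∀ a, AnalyticOnNhd ℂ (φ a) (Metric.ball 0 (c a).R)
  compat : ∀ a a' z, z ∈ Metric.ball (0 : CC n) (c a).R → (c a).σ z ∈ (c a').W →
    φ a z = val m j (c a').i (c a').J (p₀ a') (φ a') ((c a).σ z) (dσ (c a) z)

namespace ChartFam

variable {I : Ideal (HomCoordRing N)} {m : ℕ} {j : ℤ} {A : Type*} (D : ChartFam I n m j A)

/-- local value in the chart `a` -/
def v (a : A) (p : EE N) (b : Fin n → EE N) : ℂ :=
  val m j (D.c a).i (D.c a).J (D.p₀ a) (D.φ a) p b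





end ChartFam

/-! ### Algebra of sections -/

namespace HolSec

variable {I : Ideal (HomCoordRing N)} {m m' : ℕ} {j j' : ℤ}

/-- sum -/
def add (S T : HolSec I n m j) : HolSec I n m j where
  S p b := S.S p b + T.S p b
  smul p hp b hb c hc := by rw [S.smul p hp b hb c hc, T.smul p hp b hb c hc, mul_add]
  lin p hp b hb A r := by rw [S.lin p hp b hb A r, T.lin p hp b hb A r, mul_add]
  hol d F b z₀ hF hb hev := (S.hol d F b z₀ hF hb hev).fun_add (T.hol d F b z₀ hF hb hev)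

/-- scalar multiple -/
def csmul (a : ℂ) (S : HolSec I n m j) : HolSec I n m j where
  S p b := a * S.S p b
  smul p hp b hb c hc := by rw [S.smul p hp b hb c hc]; ring
  lin p hp b hb A r := by rw [S.lin p hp b hb A r]; ring
  hol d F b z₀ hF hb hev := analyticAt_const.fun_mul (S.hol d F b z₀ hF hb hev)

/-- product -/
def mul (S : HolSec I n m j) (T : HolSec I n m' j') : HolSec I n (m + m') (j + j') where
  S p b := S.S p b * T.S p b
  smul p hp b hb c hc := by
    rw [S.smul p hp b hb c hc, T.smul p hp b hb c hc, zpow_add₀ hc]; ring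
  lin p hp b hb A r := by rw [S.lin p hp b hb A r, T.lin p hp b hb A r, pow_add]; ring
  hol d F b z₀ hF hb hev := (S.hol d F b z₀ hF hb hev).fun_mul (T.hol d F b z₀ hF hb hev)




end HolSec

end

end Crest.Agent.R269.HolSec_307
end

-- ▼ part R269/HolSecB_307
section

/-!
# R269 (S0411), leaf BIG-OUT, part B: identity theorem, smooth functions on the cone from local data
(helper307)
-/

set_option autoImplicit false

open MvPolynomial Crest.AlgGeometry.ProjEmb
open scoped ContDiff Topology ComplexConjugate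

namespace Crest.Agent.R269.HolSec_307

open Crest.Agent.R269.Geo_328

noncomputable section

variable {N n : ℕ} {I : Ideal (HomCoordRing N)}

/-! ### Identity theorem -/

namespace HolSec

variable {m : ℕ} {j : ℤ}

/-- `S` vanishes at `p` -/
def VanAt (S : HolSec I n m j) (p : EE N) : Prop :=
  ∀ b : Fin n → EE N, (∀ k, b k ∈ Tan I p) → S.S p b = 0

theorem VanAt.smul (hX : IsSmoothProjective I n) {S : HolSec I n m j} {p : EE N}
    (hp : p ∈ Cone I) (h : S.VanAt p) {a : ℂ} (ha : a ≠ 0) : S.VanAt (a • p) := by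
  intro b hb
  have hb' : ∀ k, a⁻¹ • b k ∈ Tan I p := fun k => by
    rw [Tan_smul hX p ha] at hb
    exact Submodule.smul_mem _ _ (hb k)
  have h1 := S.smul p hp (fun k => a⁻¹ • b k) hb' a ha
  have h2 : (fun k => a • a⁻¹ • b k) = b := by
    funext k
    rw [smul_smul, mul_inv_cancel₀ ha, one_smul]
  rw [h2, h _ hb', mul_zero] at h1
  exact h1




end HolSec

/-! ### Smooth functions on the cone from local data -/

theorem nsq_pos {p : EE N} (hp : p ≠ 0) : 0 < nsq p := by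
  obtain ⟨i, hi⟩ : ∃ i, p i ≠ 0 := by
    by_contra h
    push Not at h
    exact hp (funext h)
  exact lt_of_lt_of_le (by positivity : (0 : ℝ) < ‖p i‖ ^ 2)
    (Finset.single_le_sum (f := fun i => ‖p i‖ ^ 2) (fun _ _ => by positivity) (Finset.mem_univ i))

theorem nsq_contDiff : ContDiff ℝ ∞ (nsq : EE N → ℝ) := by
  unfold nsq
  refine ContDiff.sum fun i _ => ?_
  exact (contDiff_apply ℝ ℂ i).norm_sq ℝ

/-- the normalisation `p ↦ p / |p|` -/
def nrm (p : EE N) : EE N := (Real.sqrt (nsq p))⁻¹ • p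

theorem nrm_contDiffAt {p : EE N} (hp : p ≠ 0) : ContDiffAt ℝ ∞ (nrm : EE N → EE N) p := by
  have h1 : ContDiffAt ℝ ∞ (fun q : EE N => (Real.sqrt (nsq q))⁻¹) p :=
    ((nsq_contDiff.contDiffAt).sqrt (nsq_pos hp).ne').inv
      (Real.sqrt_pos.2 (nsq_pos hp)).ne'
  exact h1.smul contDiffAt_id

theorem nsq_smul (c : ℝ) (p : EE N) : nsq (c • p) = c ^ 2 * nsq p := by
  unfold nsq
  rw [Finset.mul_sum]
  refine Finset.sum_congr rfl fun i _ => ?_
  rw [Pi.smul_apply, norm_smul, mul_pow, Real.norm_eq_abs, sq_abs]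

theorem nsq_nrm {p : EE N} (hp : p ≠ 0) : nsq (nrm p) = 1 := by
  unfold nrm
  rw [nsq_smul, inv_pow, Real.sq_sqrt (nsq_pos hp).le, inv_mul_cancel₀ (nsq_pos hp).ne']

theorem nrm_eq {p : EE N} : nrm p = ((Real.sqrt (nsq p))⁻¹ : ℂ) • p := by
  unfold nrm
  funext i
  simp

theorem isClosed_affineCone : IsClosed (affineCone I) := by
  have : affineCone I = ⋂ F ∈ I, {p | MvPolynomial.eval p F = 0} := by
    ext p; simp [affineCone]
  rw [this]
  exact isClosed_biInter fun F _ => isClosed_eq (MvPolynomial.continuous_eval F) continuous_const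

theorem isCompact_sphereCone : IsCompact {p : EE N | p ∈ affineCone I ∧ nsq p = 1} := by
  refine Metric.isCompact_of_isClosed_isBounded ?_ ?_
  · exact isClosed_affineCone.inter (isClosed_eq nsq_contDiff.continuous continuous_const)
  · refine (Metric.isBounded_closedBall (x := (0 : EE N)) (r := 1)).subset ?_
    rintro p ⟨-, hp⟩
    rw [mem_closedBall_zero_iff, pi_norm_le_iff_of_nonneg zero_le_one]
    intro i
    have h1 : ‖p i‖ ^ 2 ≤ nsq p :=
      Finset.single_le_sum (f := fun i => ‖p i‖ ^ 2) (fun _ _ => by positivity) (Finset.mem_univ i)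
    rw [hp] at h1
    nlinarith [norm_nonneg (p i)]

/-- GLUING: a `ℂ^*`-invariant function on the cone which near every cone point has a smooth
extension, has one smooth extension to a neighbourhood of the cone. -/
theorem exists_smooth_of_local (hX : IsSmoothProjective I n) {Y : Type*} [NormedAddCommGroup Y]
    [NormedSpace ℝ Y] (f : EE N → Y) (hf : ∀ p ∈ Cone I, ∀ c : ℂ, c ≠ 0 → f (c • p) = f p)
    (hloc : ∀ p ∈ Cone I, ∃ (W : Set (EE N)) (g : EE N → Y), IsOpen W ∧ p ∈ W ∧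
      (∀ q ∈ W, ContDiffAt ℝ ∞ g q) ∧ ∀ q ∈ W, q ∈ Cone I → g q = f q) :
    ∃ u : EE N → Y, (∀ p ∈ Cone I, ContDiffAt ℝ ∞ u p) ∧ ∀ p ∈ Cone I, u p = f p := by
  classical
  choose! W g hWo hpW hgs hgf using hloc
  -- bump functions
  have hb : ∀ p ∈ Cone I, ∃ ρ : EE N → ℝ, ContDiff ℝ ∞ ρ ∧ tsupport ρ ⊆ W p ∧ (∀ q, 0 ≤ ρ q) ∧
      0 < ρ p := by
    intro p hp
    obtain ⟨ρ, h1, h2, h3, h4, h5⟩ := exists_contDiff_tsupport_subset (E := EE N) (n := (⊤ : ℕ∞))
      ((hWo p hp).mem_nhds (hpW p hp))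
    refine ⟨ρ, h3, h1, fun q => (h4 (Set.mem_range_self q)).1, ?_⟩
    rw [h5]; exact one_pos
  choose! ρ hρs hρt hρ0 hρp using hb
  set K := {p : EE N | p ∈ affineCone I ∧ nsq p = 1} with hK
  have hKC : ∀ p ∈ K, p ∈ Cone I := by
    rintro p ⟨h1, h2⟩
    refine ⟨h1, ?_⟩
    rintro rfl
    simp [nsq] at h2
  obtain ⟨t, htK, htc⟩ := (isCompact_sphereCone (I := I)).elim_nhds_subcover
    (fun p => {q | 0 < ρ p q}) (fun p hp =>
      (isOpen_lt continuous_const (hρs p (hKC p hp)).continuous).mem_nhds (hρp p (hKC p hp)))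
  let den : EE N → ℝ := fun q => ∑ p ∈ t, ρ p (nrm q)
  let num : EE N → Y := fun q => ∑ p ∈ t, ρ p (nrm q) • g p (nrm q)
  have hden : ∀ q ∈ Cone I, 0 < den q := by
    intro q hq
    have hq0 : (Real.sqrt (nsq q))⁻¹ ≠ 0 := inv_ne_zero (Real.sqrt_pos.2 (nsq_pos hq.2)).ne'
    have hqK : nrm q ∈ K := by
      refine ⟨?_, nsq_nrm hq.2⟩
      rw [nrm_eq]
      exact smul_mem_affineCone hX hq.1 _
    obtain ⟨p, hpt, hpq⟩ := Set.mem_iUnion₂.1 (htc hqK)
    exact lt_of_lt_of_le hpq (Finset.single_le_sum (f := fun p => ρ p (nrm q))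
      (fun p hp => hρ0 p (hKC p (htK p hp)) _) hpt)
  have hterm : ∀ p ∈ t, ∀ y, ContDiffAt ℝ ∞ (fun q => ρ p q • g p q) y := by
    intro p hp y
    have hpC := hKC p (htK p hp)
    by_cases hy : y ∈ W p
    · exact (hρs p hpC).contDiffAt.smul (hgs p hpC y hy)
    · have hy' : y ∉ tsupport (ρ p) := fun h => hy (hρt p hpC h)
      have h0 : (fun q => ρ p q • g p q) =ᶠ[𝓝 y] fun _ => 0 := by
        have := (isClosed_tsupport (ρ p)).isOpen_compl.mem_nhds hy'
        filter_upwards [this] with q hq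
        rw [image_eq_zero_of_notMem_tsupport hq, zero_smul]
      exact contDiffAt_const.congr_of_eventuallyEq h0
  refine ⟨fun q => (den q)⁻¹ • num q, fun p hp => ?_, fun p hp => ?_⟩
  · have h1 := nrm_contDiffAt hp.2
    refine ContDiffAt.smul (ContDiffAt.inv ?_ (hden p hp).ne') ?_
    · refine ContDiffAt.sum fun a ha => ?_
      exact ((hρs a (hKC a (htK a ha))).contDiffAt).comp p h1
    · refine ContDiffAt.sum fun a ha => ?_
      exact (hterm a ha (nrm p)).comp p h1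
  · have hq0 : ((Real.sqrt (nsq p))⁻¹ : ℂ) ≠ 0 := by
      rw [← Complex.ofReal_inv]
      exact Complex.ofReal_ne_zero.2 (inv_ne_zero (Real.sqrt_pos.2 (nsq_pos hp.2)).ne')
    have hf1 : f (nrm p) = f p := by
      rw [nrm_eq]; exact hf p hp _ hq0
    have hnC : nrm p ∈ Cone I := by rw [nrm_eq]; exact smul_mem_Cone hX hp hq0
    have hnum : num p = den p • f p := by
      change ∑ a ∈ t, ρ a (nrm p) • g a (nrm p) = (∑ a ∈ t, ρ a (nrm p)) • f p
      rw [Finset.sum_smul]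
      refine Finset.sum_congr rfl fun a ha => ?_
      have haC := hKC a (htK a ha)
      by_cases hy : nrm p ∈ W a
      · rw [hgf a haC _ hy hnC, hf1]
      · have hy' : nrm p ∉ tsupport (ρ a) := fun h => hy (hρt a haC h)
        rw [image_eq_zero_of_notMem_tsupport hy', zero_smul, zero_smul]
    change (den p)⁻¹ • num p = f p
    rw [hnum, smul_smul, inv_mul_cancel₀ (hden p hp).ne', one_smul]

end

end Crest.Agent.R269.HolSec_307
end

-- ▼ part R269/Sec2_669

/-!
# R269 (S0411), leaf BIGSEC (helper669), part 2: the norm function of a holomorphic section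

`hs I n m j S p = |S p b|² |p|^(-2j) / DD p b ^ m` for any tangent frame `b` at `p ∈ Cone I`.
Main results: `hs_eq`, `sq_norm_eq`, `hs_smul`, `exists_smX`, `along`, `bigNorm`.
-/

set_option autoImplicit false
set_option linter.unusedVariables false

open MvPolynomial Crest.AlgGeometry.ProjEmb Crest.Agent.R269.Geo_328 Crest.Agent.R269.Defs_58
open scoped ContDiff Topology ComplexConjugate Matrix ComplexOrder

namespace Crest.Agent.R269.Sec_669

open Crest.Agent.R269.HolSec_307 (Xm Xm_apply Xm_smul Xm_dσ dσ dσ_mem dσ_analyticAt val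
  val_analyticAt ratio_σ ratio_analyticAt isCompact_sphereCone nsq_contDiff exists_smooth_of_local)

noncomputable section

variable {N n m : ℕ} {j : ℤ} {I : Ideal (HomCoordRing N)}
  {S : EE N → (Fin n → EE N) → ℂ}

/-- the bundled form of helper307 -/
def bun (h : HolSec I n m j S) : HolSec_307.HolSec I n m j where
  S := S
  smul := h.hom
  lin := h.mix
  hol := h.hol

/-! ### Frames -/

theorem linearIndependent_of_Xm {i : Fin (N + 1)} {J : Fin n → Fin (N + 1)} {p : EE N}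
    (hi : p i ≠ 0) {b : Fin n → EE N} (h : (Xm i J p b).det ≠ 0) :
    LinearIndependent ℂ (Fin.cons p b : Fin (n + 1) → EE N) := by
  rw [Fintype.linearIndependent_iff]
  intro g hg
  rw [Fin.sum_univ_succ] at hg
  simp only [Fin.cons_zero, Fin.cons_succ] at hg
  have h1 : (fun k : Fin n => g k.succ) ᵥ* Xm i J p b = 0 := by
    funext l
    have e1 := congrFun hg i
    have e2 := congrFun hg (J l)
    simp only [Pi.add_apply, Pi.smul_apply, smul_eq_mul, Finset.sum_apply, Pi.zero_apply] at e1 e2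
    have e3 : ∑ k, g k.succ * (p i * b k (J l) - p (J l) * b k i) = 0 := by
      have : ∑ k, g (Fin.succ k) * (p i * b k (J l) - p (J l) * b k i) =
          p i * (g 0 * p (J l) + ∑ k, g k.succ * b k (J l)) -
            p (J l) * (g 0 * p i + ∑ k, g k.succ * b k i) := by
        rw [mul_add, mul_add, Finset.mul_sum, Finset.mul_sum]
        have : ∑ k, g (Fin.succ k) * (p i * b k (J l) - p (J l) * b k i) =
            ∑ k, p i * (g k.succ * b k (J l)) - ∑ k, p (J l) * (g k.succ * b k i) := by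
          rw [← Finset.sum_sub_distrib]
          exact Finset.sum_congr rfl fun k _ => by ring
        rw [this]; ring
      rw [this, e1, e2]; ring
    simp only [Matrix.vecMul, dotProduct, Xm_apply, Pi.zero_apply]
    have e4 : ∑ k, g (Fin.succ k) * ((p i * b k (J l) - p (J l) * b k i) / p i ^ 2) =
        (∑ k, g k.succ * (p i * b k (J l) - p (J l) * b k i)) / p i ^ 2 := by
      rw [Finset.sum_div]
      exact Finset.sum_congr rfl fun k _ => by rw [mul_div_assoc]
    rw [e4, e3, zero_div]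
  have h2 : (fun k : Fin n => g k.succ) = 0 := by
    have hinj := Matrix.vecMul_injective_iff_isUnit.2
      ((Matrix.isUnit_iff_isUnit_det _).2 (isUnit_iff_ne_zero.2 h))
    exact hinj (by simpa using h1)
  have h3 : ∀ k : Fin n, g k.succ = 0 := fun k => congrFun h2 k
  have h4 : g 0 = 0 := by
    have e1 := congrFun hg i
    simp only [Pi.add_apply, Pi.smul_apply, smul_eq_mul, Finset.sum_apply, Pi.zero_apply, h3,
      zero_mul, Finset.sum_const_zero, add_zero] at e1
    exact (mul_eq_zero.1 e1).resolve_right hi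
  intro k
  exact Fin.cases h4 h3 k

/-- the chart frame is a frame -/
theorem DD_chart_pos {p₀ : EE N} (c : ConeChart I n p₀) {z : CC n}
    (hz : z ∈ Metric.ball (0 : CC n) c.R) : 0 < DD (c.σ z) (dσ c z) := by
  rw [DD_pos_iff (c.σ_cone z hz).2]
  refine linearIndependent_of_Xm (i := c.i) (J := c.J) (HolSec_307.σ_i_ne c hz) ?_
  rw [Xm_dσ c hz, Matrix.det_one]
  exact one_ne_zero

theorem TanFam.smul' (hX : IsSmoothProjective I n) {p : EE N} {b : Fin n → EE N}
    (hb : TanFam I p b) {c : ℂ} (hc : c ≠ 0) : TanFam I (c • p) (fun k => c • b k) := by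
  intro k
  rw [Tan_smul hX p hc]
  exact Submodule.smul_mem _ _ (hb k)

theorem TanFam.mix (hX : IsSmoothProjective I n) {p : EE N} (hp : p ∈ Cone I) {b : Fin n → EE N}
    (hb : TanFam I p b) (M : Matrix (Fin n) (Fin n) ℂ) (r : Fin n → ℂ) :
    TanFam I p (fun i => (∑ k, M i k • b k) + r i • p) := fun i =>
  Submodule.add_mem _ (Submodule.sum_mem _ fun k _ => Submodule.smul_mem _ _ (hb k))
    (Submodule.smul_mem _ _ (self_mem_Tan hX hp.1))

/-- every cone point has a tangent frame -/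
theorem exists_frame (hI : I.IsPrime) (hX : IsSmoothProjective I n) {p : EE N} (hp : p ∈ Cone I) :
    ∃ b : Fin n → EE N, TanFam I p b ∧ 0 < DD p b := by
  obtain ⟨c⟩ := Chart_632.chartStmt N n I hI hX p hp
  obtain ⟨hz, hpe⟩ := c.surj p hp c.mem_W
  have hpi : p c.i ≠ 0 := c.p₀_ne
  have h1 : TanFam I (c.σ (ratio c.i c.J p p)) (dσ c (ratio c.i c.J p p)) := fun k => dσ_mem c hz k
  have h2 := DD_chart_pos c hz
  rw [← DD_smul hpi] at h2
  have h3 := TanFam.smul' hX h1 hpi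
  rw [← hpe] at h2 h3
  exact ⟨_, h3, h2⟩

/-! ### the norm function -/

open Classical in
/-- squared norm of the section: `|S p b|² |p|^(-2j) / DD p b ^ m` for any tangent frame `b` -/
def hs (I : Ideal (HomCoordRing N)) (n m : ℕ) (j : ℤ) (S : EE N → (Fin n → EE N) → ℂ)
    (p : EE N) : ℝ :=
  if h : ∃ b : Fin n → EE N, TanFam I p b ∧ 0 < DD p b then
    ‖S p h.choose‖ ^ 2 * nsq p ^ (-j) / DD p h.choose ^ m
  else 0

theorem hs_eq (hX : IsSmoothProjective I n) (h : HolSec I n m j S) {p : EE N} (hp : p ∈ Cone I)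
    {b : Fin n → EE N} (hb : TanFam I p b) (hD : 0 < DD p b) :
    hs I n m j S p = ‖S p b‖ ^ 2 * nsq p ^ (-j) / DD p b ^ m := by
  have hex : ∃ b : Fin n → EE N, TanFam I p b ∧ 0 < DD p b := ⟨b, hb, hD⟩
  unfold hs
  rw [dif_pos hex]
  obtain ⟨hb', hD'⟩ := hex.choose_spec
  set b' := hex.choose
  obtain ⟨M, r, hM⟩ := exists_comb hX hp hb hD hb'
  have e1 := h.mix p hp b hb M r
  rw [← hM] at e1
  have e2 := DD_mix p b M r
  rw [← hM] at e2
  have hM0 : M.det ≠ 0 := by
    intro h0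
    rw [h0] at e2
    simp only [norm_zero, ne_eq, OfNat.ofNat_ne_zero, not_false_eq_true, zero_pow, zero_mul] at e2
    exact hD'.ne' e2
  rw [e1, e2, norm_mul, norm_pow]
  have hn : 0 < ‖M.det‖ := norm_pos_iff.2 hM0
  have e3 : (‖M.det‖ ^ m * ‖S p b‖) ^ 2 * nsq p ^ (-j) =
      (‖M.det‖ ^ 2) ^ m * (‖S p b‖ ^ 2 * nsq p ^ (-j)) := by
    rw [mul_pow, ← pow_mul, ← pow_mul, mul_comm m 2]; ring
  rw [e3, mul_pow, mul_div_mul_left _ _ (by positivity)]

/-- `‖S p b‖² = hs p · |p|^(2j) · DD p b ^ m` for EVERY tangent family (also dependent ones) -/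
theorem sq_norm_eq (hI : I.IsPrime) (hX : IsSmoothProjective I n) (h : HolSec I n m j S) {p : EE N}
    (hp : p ∈ Cone I) {b : Fin n → EE N} (hb : TanFam I p b) :
    ‖S p b‖ ^ 2 = hs I n m j S p * nsq p ^ j * DD p b ^ m := by
  obtain ⟨b₀, hb₀, hD₀⟩ := exists_frame hI hX hp
  obtain ⟨M, r, hM⟩ := exists_comb hX hp hb₀ hD₀ hb
  have e1 := h.mix p hp b₀ hb₀ M r
  rw [← hM] at e1
  have e2 := DD_mix p b₀ M r
  rw [← hM] at e2
  have hn := nsq_pos hp.2
  rw [hs_eq hX h hp hb₀ hD₀, e1, e2, norm_mul, norm_pow, zpow_neg]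
  have h1 : nsq p ^ j ≠ 0 := (zpow_pos hn j).ne'
  have h2 : DD p b₀ ^ m ≠ 0 := (pow_pos hD₀ m).ne'
  field_simp
  ring

theorem hs_nonneg (p : EE N) : 0 ≤ hs I n m j S p := by
  unfold hs
  split_ifs with h
  · exact div_nonneg (mul_nonneg (sq_nonneg _) (zpow_nonneg (nsq_nonneg p) _))
      (pow_nonneg (DD_nonneg _ _) _)
  · exact le_rfl

theorem hs_smul (hI : I.IsPrime) (hX : IsSmoothProjective I n) (h : HolSec I n m j S) {p : EE N}
    (hp : p ∈ Cone I) {c : ℂ} (hc : c ≠ 0) : hs I n m j S (c • p) = hs I n m j S p := by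
  obtain ⟨b, hb, hD⟩ := exists_frame hI hX hp
  have hp' := smul_mem_Cone hX hp hc
  rw [hs_eq hX h hp hb hD, hs_eq hX h hp' (TanFam.smul' hX hb hc) (by rw [DD_smul hc]; exact hD),
    DD_smul hc, h.hom p hp b hb c hc, norm_mul, nsq_smul, norm_zpow, mul_zpow]
  congr 1
  have h1 : (‖c‖ ^ j) ^ 2 * (‖c‖ ^ 2) ^ (-j) = 1 := by
    rw [← zpow_natCast (‖c‖ ^ j) 2, ← zpow_mul, ← zpow_natCast ‖c‖ 2, ← zpow_mul,
      ← zpow_add₀ (norm_ne_zero_iff.2 hc)]
    rw [show j * ((2 : ℕ) : ℤ) + ((2 : ℕ) : ℤ) * -j = 0 by ring, zpow_zero]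
  calc (‖c‖ ^ j * ‖S p b‖) ^ 2 * ((‖c‖ ^ 2) ^ (-j) * nsq p ^ (-j))
      = ((‖c‖ ^ j) ^ 2 * (‖c‖ ^ 2) ^ (-j)) * (‖S p b‖ ^ 2 * nsq p ^ (-j)) := by ring
    _ = _ := by rw [h1, one_mul]

/-- the section in a chart -/
def loc (S : EE N → (Fin n → EE N) → ℂ) {p₀ : EE N} (c : ConeChart I n p₀) (z : CC n) : ℂ :=
  S (c.σ z) (dσ c z)

theorem loc_analyticAt (h : HolSec I n m j S) {p₀ : EE N} (c : ConeChart I n p₀) {z : CC n}
    (hz : z ∈ Metric.ball (0 : CC n) c.R) : AnalyticAt ℂ (loc S c) z :=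
  (bun h).chart_analyticAt c hz

theorem hs_chart (hX : IsSmoothProjective I n) (h : HolSec I n m j S) {p₀ : EE N}
    (c : ConeChart I n p₀) {z : CC n} (hz : z ∈ Metric.ball (0 : CC n) c.R) :
    hs I n m j S (c.σ z) = ‖loc S c z‖ ^ 2 * nsq (c.σ z) ^ (-j) / DD (c.σ z) (dσ c z) ^ m :=
  hs_eq hX h (c.σ_cone z hz) (fun k => dσ_mem c hz k) (DD_chart_pos c hz)

theorem hs_ratio (hI : I.IsPrime) (hX : IsSmoothProjective I n) (h : HolSec I n m j S) {p₀ : EE N}
    (c : ConeChart I n p₀) {q : EE N} (hq : q ∈ Cone I) (hW : q ∈ c.W) :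
    hs I n m j S q = hs I n m j S (c.σ (ratio c.i c.J p₀ q)) := by
  obtain ⟨hz, hqe⟩ := c.surj q hq hW
  have h1 := hs_smul hI hX h (c.σ_cone _ hz) (c := q c.i) (c.W_ne q hW)
  rw [← hqe] at h1
  exact h1

/-- a section evaluated along analytic families is analytic (any source) -/
theorem along (hI : I.IsPrime) (hX : IsSmoothProjective I n) (h : HolSec I n m j S)
    {E : Type*} [NormedAddCommGroup E] [NormedSpace ℂ E] {F : E → EE N} {b : Fin n → E → EE N}
    {z₀ : E} (hF : AnalyticAt ℂ F z₀) (hb : ∀ k, AnalyticAt ℂ (b k) z₀)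
    (hev : ∀ᶠ z in 𝓝 z₀, F z ∈ Cone I ∧ TanFam I (F z) (fun k => b k z)) :
    AnalyticAt ℂ (fun z => S (F z) (fun k => b k z)) z₀ := by
  obtain ⟨c⟩ := Chart_632.chartStmt N n I hI hX _ hev.self_of_nhds.1
  have hW := c.mem_W
  obtain ⟨hz, -⟩ := c.surj _ hev.self_of_nhds.1 hW
  have h1 : AnalyticAt ℂ (fun z => val m j c.i c.J (F z₀) (loc S c) (F z) (fun k => b k z)) z₀ :=
    val_analyticAt m j hF hb c.p₀_ne (loc_analyticAt h c hz)
  refine h1.congr ?_
  filter_upwards [hev, hF.continuousAt.preimage_mem_nhds (c.W_open.mem_nhds hW)] with z hz1 hz2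
  exact ((bun h).local_formula hX c hz1.1 hz2 hz1.2).symm

/-! ### smoothness -/

theorem contDiffAt_wedgeSq {E : Type*} [NormedAddCommGroup E] [NormedSpace ℝ E] {k : ℕ}
    {w : Fin k → E → EE N} {z : E} (hw : ∀ i l, ContDiffAt ℝ ∞ (fun y => w i y l) z) :
    ContDiffAt ℝ ∞ (fun y => wedgeSq (fun i => w i y)) z := by
  unfold wedgeSq
  have h1 : ContDiffAt ℝ ∞ (fun y => (Matrix.of fun a b : Fin k =>
      ∑ l, w a y l * conj (w b y l)).det) z := by
    simp only [Matrix.det_apply]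
    refine ContDiffAt.sum fun σ _ => ?_
    refine ContDiffAt.const_smul _ ?_
    refine contDiffAt_prod fun a _ => ?_
    simp only [Matrix.of_apply]
    refine ContDiffAt.sum fun l _ => ?_
    exact (hw _ l).mul (Complex.conjCLE.contDiff.contDiffAt.comp z (hw _ l))
  exact Complex.reCLM.contDiff.contDiffAt.comp z h1

theorem contDiffAt_nsq {E : Type*} [NormedAddCommGroup E] [NormedSpace ℝ E] {F : E → EE N}
    {z : E} (hF : ∀ l, ContDiffAt ℝ ∞ (fun y => F y l) z) :
    ContDiffAt ℝ ∞ (fun y => nsq (F y)) z := by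
  unfold nsq
  exact ContDiffAt.sum fun l _ => (hF l).norm_sq ℝ

theorem contDiffAt_DD {E : Type*} [NormedAddCommGroup E] [NormedSpace ℝ E] {F : E → EE N}
    {b : Fin n → E → EE N} {z : E} (hF : ∀ l, ContDiffAt ℝ ∞ (fun y => F y l) z)
    (hb : ∀ k l, ContDiffAt ℝ ∞ (fun y => b k y l) z) (h0 : F z ≠ 0) :
    ContDiffAt ℝ ∞ (fun y => DD (F y) (fun k => b k y)) z := by
  unfold DD
  refine ContDiffAt.div ?_ ((contDiffAt_nsq hF).pow _) (pow_pos (nsq_pos h0) _).ne'
  have h1 : (fun y => wedgeSq (Fin.cons (F y) (fun k => b k y) : Fin (n + 1) → EE N)) =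
      fun y => wedgeSq (fun i => (Fin.cons F b : Fin (n + 1) → E → EE N) i y) := by
    funext y
    congr 1
    funext i
    refine Fin.cases ?_ (fun i => ?_) i <;> simp
  rw [h1]
  refine contDiffAt_wedgeSq fun i l => ?_
  refine Fin.cases ?_ (fun i => ?_) i
  · simpa using hF l
  · simpa using hb i l

theorem contDiffAt_comp_apply {E : Type*} [NormedAddCommGroup E] [NormedSpace ℂ E] {F : E → EE N}
    {z : E} (hF : AnalyticAt ℂ F z) (l : Fin (N + 1)) : ContDiffAt ℝ ∞ (fun y => F y l) z := by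
  have h1 : AnalyticAt ℂ (fun y => F y l) z := HolSec_307.analyticAt_apply hF l
  exact h1.contDiffAt.restrict_scalars ℝ

/-- `hs` in a chart is smooth -/
theorem contDiffAt_hs_chart (hX : IsSmoothProjective I n) (h : HolSec I n m j S) {p₀ : EE N}
    (c : ConeChart I n p₀) {z : CC n} (hz : z ∈ Metric.ball (0 : CC n) c.R) :
    ContDiffAt ℝ ∞ (fun y => ‖loc S c y‖ ^ 2 * nsq (c.σ y) ^ (-j) / DD (c.σ y) (dσ c y) ^ m) z := by
  have hσ : ∀ l, ContDiffAt ℝ ∞ (fun y => c.σ y l) z := contDiffAt_comp_apply (c.an z hz)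
  have hb : ∀ k l, ContDiffAt ℝ ∞ (fun y => dσ c y k l) z := fun k =>
    contDiffAt_comp_apply (dσ_analyticAt c hz k)
  have h0 := (c.σ_cone z hz).2
  refine ContDiffAt.div ?_ ((contDiffAt_DD hσ hb h0).pow m) (pow_pos (DD_chart_pos c hz) m).ne'
  refine ContDiffAt.mul ?_ ?_
  · exact (((loc_analyticAt h c hz).contDiffAt (n := ∞)).restrict_scalars ℝ).norm_sq ℝ
  · have h1 := contDiffAt_nsq hσ
    rcases j with a | a
    · have e : (fun y => nsq (c.σ y) ^ (-(Int.ofNat a))) = fun y => (nsq (c.σ y) ^ a)⁻¹ := by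
        funext y
        rw [zpow_neg]; rfl
      rw [e]
      exact (h1.pow a).inv (pow_pos (nsq_pos h0) _).ne'
    · have e : (fun y => nsq (c.σ y) ^ (-(Int.negSucc a))) = fun y => (nsq (c.σ y) ^ (a + 1)) := by
        funext y
        rw [Int.neg_negSucc]; norm_cast
      rw [e]
      exact h1.pow _

/-- the norm function is smooth on the cone (up to the choice of the extension) -/
theorem exists_smX (hI : I.IsPrime) (hX : IsSmoothProjective I n) (h : HolSec I n m j S) :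
    ∃ ns, SmX I ns ∧ ∀ p ∈ Cone I, ns p = hs I n m j S p := by
  obtain ⟨u, hu1, hu2⟩ := exists_smooth_of_local (I := I) hX (hs I n m j S)
    (fun p hp c hc => hs_smul hI hX h hp hc) (by
      intro p hp
      obtain ⟨c⟩ := Chart_632.chartStmt N n I hI hX p hp
      have hcont : ContinuousOn (fun q : EE N => ratio c.i c.J p q) c.W := by
        intro q hq
        have : AnalyticAt ℂ (fun q : EE N => ratio c.i c.J p q) q :=
          ratio_analyticAt (F := fun q : EE N => q) analyticAt_id (c.W_ne q hq)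
        exact this.continuousAt.continuousWithinAt
      refine ⟨c.W ∩ (fun q : EE N => ratio c.i c.J p q) ⁻¹' Metric.ball 0 c.R,
        fun q => (fun y => ‖loc S c y‖ ^ 2 * nsq (c.σ y) ^ (-j) / DD (c.σ y) (dσ c y) ^ m)
          (ratio c.i c.J p q), hcont.isOpen_inter_preimage c.W_open Metric.isOpen_ball,
        ⟨c.mem_W, (c.surj p hp c.mem_W).1⟩, ?_, ?_⟩
      · rintro q ⟨hq1, hq2⟩
        have h2 : ContDiffAt ℝ ∞ (fun q : EE N => ratio c.i c.J p q) q := by
          have : AnalyticAt ℂ (fun q : EE N => ratio c.i c.J p q) q :=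
            ratio_analyticAt (F := fun q : EE N => q) analyticAt_id (c.W_ne q hq1)
          exact (this.contDiffAt (n := ∞)).restrict_scalars ℝ
        exact (contDiffAt_hs_chart hX h c hq2).comp q h2
      · rintro q ⟨hq1, hq2⟩ hq3
        rw [hs_ratio hI hX h c hq3 hq1, hs_chart hX h c hq2])
  refine ⟨u, ⟨hu1, ?_⟩, hu2⟩
  intro p hp c hc
  rw [hu2 p hp, hu2 _ (smul_mem_Cone hX hp hc), hs_smul hI hX h hp hc]

/-- a `ℂ^*`-invariant continuous function on the cone is bounded -/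
theorem SmX.bdd (hX : IsSmoothProjective I n) {u : EE N → ℝ} (hu : SmX I u) :
    ∃ B : ℝ, 0 < B ∧ ∀ p ∈ Cone I, |u p| ≤ B := by
  set K := {p : EE N | p ∈ affineCone I ∧ nsq p = 1} with hK
  have hKC : ∀ p ∈ K, p ∈ Cone I := by
    rintro p ⟨h1, h2⟩
    refine ⟨h1, ?_⟩
    rintro rfl
    simp [nsq] at h2
  have hc : ContinuousOn u K := fun p hp => (hu.1 p (hKC p hp)).continuousAt.continuousWithinAt
  obtain ⟨B, hB⟩ := (isCompact_sphereCone (I := I)).exists_bound_of_continuousOn hc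
  refine ⟨max B 1, lt_max_of_lt_right one_pos, fun p hp => ?_⟩
  have hq0 : ((Real.sqrt (nsq p))⁻¹ : ℂ) ≠ 0 := by
    rw [← Complex.ofReal_inv]
    exact Complex.ofReal_ne_zero.2 (inv_ne_zero (Real.sqrt_pos.2 (nsq_pos hp.2)).ne')
  have h1 := hu.2 p hp _ hq0
  rw [← HolSec_307.nrm_eq] at h1
  rw [← h1]
  refine (hB _ ⟨?_, HolSec_307.nsq_nrm hp.2⟩).trans (le_max_left _ _)
  rw [HolSec_307.nrm_eq]
  exact smul_mem_affineCone hX hp.1 _

/-! ### the package for Part 11 -/

theorem HolSec.csmul (h : HolSec I n m j S) (a : ℂ) : HolSec I n m j (fun p b => a * S p b) where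
  hom p hp b hb c hc := by rw [h.hom p hp b hb c hc]; ring
  mix p hp b hb M r := by rw [h.mix p hp b hb M r]; ring
  hol d F b z₀ hF hb hev := analyticAt_const.fun_mul (h.hol d F b z₀ hF hb hev)

theorem hs_csmul (hI : I.IsPrime) (hX : IsSmoothProjective I n) (h : HolSec I n m j S) (a : ℂ)
    {p : EE N} (hp : p ∈ Cone I) :
    hs I n m j (fun p b => a * S p b) p = ‖a‖ ^ 2 * hs I n m j S p := by
  obtain ⟨b, hb, hD⟩ := exists_frame hI hX hp
  rw [hs_eq hX h hp hb hD, hs_eq hX (HolSec.csmul h a) hp hb hD, norm_mul]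
  ring

/-- local lower bound of the norm function: the hypothesis `hloc` of `exists_b` (helper653) -/
theorem hloc (hX : IsSmoothProjective I n) (h : HolSec I n m j S)
    (hne : ∀ p ∈ Cone I, ∃ᶠ q in 𝓝 p, q ∈ Cone I ∧ ∃ b, TanFam I q b ∧ S q b ≠ 0)
    {p : EE N} (hp : p ∈ Cone I) (c : ConeChart I n p) :
    AnalyticAt ℂ (loc S c) 0 ∧ (¬ ∀ᶠ z in 𝓝 (0 : CC n), loc S c z = 0) ∧
      ∃ C₁ : ℝ, ∀ᶠ z in 𝓝 (0 : CC n), ‖loc S c z‖ ^ 2 ≤ C₁ * hs I n m j S (c.σ z) := by
  have h0 : (0 : CC n) ∈ Metric.ball (0 : CC n) c.R := Metric.mem_ball_self c.R_pos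
  refine ⟨loc_analyticAt h c h0, ?_, ?_⟩
  · intro hev
    have hr : ContinuousAt (fun q : EE N => ratio c.i c.J p q) p := by
      have : AnalyticAt ℂ (fun q : EE N => ratio c.i c.J p q) p :=
        ratio_analyticAt (F := fun q : EE N => q) analyticAt_id c.p₀_ne
      exact this.continuousAt
    have hr0 : ratio c.i c.J p p = 0 := by
      funext k; simp [ratio]
    have hev' : ∀ᶠ q in 𝓝 p, loc S c (ratio c.i c.J p q) = 0 := by
      have h1 := hr.tendsto
      rw [hr0] at h1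
      exact h1.eventually hev
    refine hne p hp ?_
    filter_upwards [hev', c.W_open.mem_nhds c.mem_W] with q hq1 hq2
    rintro ⟨hq3, b, hb, hSb⟩
    apply hSb
    have h1 := (bun h).local_formula hX c hq3 hq2 hb
    have h2 : (bun h).chart c (ratio c.i c.J p q) = 0 := hq1
    have h3 : S q b = val m j c.i c.J p ((bun h).chart c) q b := h1
    rw [h3]
    unfold val
    rw [h2, mul_zero]
  · have hσ : ∀ l, ContDiffAt ℝ ∞ (fun y => c.σ y l) 0 := contDiffAt_comp_apply (c.an 0 h0)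
    have hb : ∀ k l, ContDiffAt ℝ ∞ (fun y => dσ c y k l) 0 := fun k =>
      contDiffAt_comp_apply (dσ_analyticAt c h0 k)
    have hne0 := (c.σ_cone 0 h0).2
    have hc1 : ContinuousAt (fun y => DD (c.σ y) (dσ c y) ^ m) 0 :=
      ((contDiffAt_DD hσ hb hne0).pow m).continuousAt
    have hc2 : ContinuousAt (fun y => nsq (c.σ y) ^ j) 0 :=
      (contDiffAt_nsq hσ).continuousAt.zpow₀ j (Or.inl (nsq_pos hne0).ne')
    have hc3 := hc2.mul hc1
    refine ⟨nsq (c.σ 0) ^ j * DD (c.σ 0) (dσ c 0) ^ m + 1, ?_⟩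
    have hlt := hc3.eventually (gt_mem_nhds (lt_add_one _))
    filter_upwards [hlt, Metric.isOpen_ball.mem_nhds h0] with z hz1 hz2
    have h3 : 0 < nsq (c.σ z) ^ j := zpow_pos (nsq_pos (c.σ_cone z hz2).2) j
    have h4 : 0 < DD (c.σ z) (dσ c z) ^ m := pow_pos (DD_chart_pos c hz2) m
    have h5 : ‖loc S c z‖ ^ 2 =
        (nsq (c.σ z) ^ j * DD (c.σ z) (dσ c z) ^ m) * hs I n m j S (c.σ z) := by
      rw [hs_chart hX h c hz2, zpow_neg]
      field_simp
    rw [h5]
    exact mul_le_mul_of_nonneg_right hz1.le (hs_nonneg _)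

/-- THE PACKAGE FOR PART 11 -/
theorem bigNorm (hI : I.IsPrime) (hX : IsSmoothProjective I n) (hBig : BigP I n) :
    ∃ m : ℕ, 1 ≤ m ∧ ∃ S, HolSec I n m (-1) S ∧ ∃ ns : EE N → ℝ, SmX I ns ∧
      (∀ p ∈ Cone I, 0 ≤ ns p ∧ ns p ≤ 1) ∧
      (∀ p ∈ Cone I, ∀ b : Fin n → EE N, TanFam I p b →
        ‖S p b‖ ^ 2 * nsq p = ns p * DD p b ^ m) ∧
      (∀ p ∈ Cone I, ∃ᶠ q in 𝓝 p, q ∈ Cone I ∧ ns q ≠ 0) ∧
      ∀ p ∈ Cone I, ∀ C : ConeChart I n p, ∃ s : CC n → ℂ, AnalyticAt ℂ s 0 ∧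
        (¬ ∀ᶠ z in 𝓝 (0 : CC n), s z = 0) ∧
        ∃ C₁ : ℝ, ∀ᶠ z in 𝓝 (0 : CC n), ‖s z‖ ^ 2 ≤ C₁ * ns (C.σ z) := by
  obtain ⟨m, hm, S, hS, hne⟩ := hBig
  obtain ⟨ns, hns, hnsE⟩ := exists_smX hI hX hS
  obtain ⟨B, hB0, hB⟩ := SmX.bdd hX hns
  set a : ℂ := (((Real.sqrt B)⁻¹ : ℝ) : ℂ) with ha
  have ha0 : 0 < (Real.sqrt B)⁻¹ := inv_pos.2 (Real.sqrt_pos.2 hB0)
  have ha1 : ‖a‖ ^ 2 = B⁻¹ := by
    rw [ha, Complex.norm_real, Real.norm_of_nonneg ha0.le, inv_pow, Real.sq_sqrt hB0.le]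
  have hane : a ≠ 0 := Complex.ofReal_ne_zero.2 ha0.ne'
  have hS' := HolSec.csmul hS a
  have hnsE' : ∀ p ∈ Cone I, B⁻¹ * ns p = hs I n m (-1) (fun p b => a * S p b) p := by
    intro p hp
    rw [hs_csmul hI hX hS a hp, ha1, hnsE p hp]
  have hne' : ∀ p ∈ Cone I, ∃ᶠ q in 𝓝 p, q ∈ Cone I ∧ ∃ b, TanFam I q b ∧ a * S q b ≠ 0 := by
    intro p hp
    refine (hne p hp).mono ?_
    rintro q ⟨hq, b, hb, hSb⟩
    exact ⟨hq, b, hb, mul_ne_zero hane hSb⟩
  refine ⟨m, hm, _, hS', fun p => B⁻¹ * ns p, ⟨fun p hp => contDiffAt_const.mul (hns.1 p hp),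
    fun p hp c hc => by simp only [hns.2 p hp c hc]⟩, ?_, ?_, ?_, ?_⟩
  · intro p hp
    constructor
    · simp only [hnsE' p hp]
      exact hs_nonneg p
    · have := (abs_le.1 (hB p hp)).2
      calc B⁻¹ * ns p ≤ B⁻¹ * B := by gcongr
        _ = 1 := inv_mul_cancel₀ hB0.ne'
  · intro p hp b hb
    have h1 := sq_norm_eq hI hX hS' hp hb
    simp only [hnsE' p hp]
    rw [h1]
    have hn := (nsq_pos hp.2).ne'
    rw [zpow_neg_one]
    field_simp
  · intro p hp
    refine (hne' p hp).mono ?_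
    rintro q ⟨hq, b, hb, hSb⟩
    refine ⟨hq, ?_⟩
    simp only [hnsE' q hq]
    intro h0
    have h1 := sq_norm_eq hI hX hS' hq hb
    rw [h0, zero_mul, zero_mul] at h1
    exact hSb (norm_eq_zero.1 (pow_eq_zero_iff two_ne_zero |>.1 h1))
  · intro p hp C
    obtain ⟨h1, h2, C₁, h3⟩ := hloc hX hS' hne' hp C
    refine ⟨_, h1, h2, C₁, ?_⟩
    have h0 : (0 : CC n) ∈ Metric.ball (0 : CC n) C.R := Metric.mem_ball_self C.R_pos
    filter_upwards [h3, Metric.isOpen_ball.mem_nhds h0] with z hz hz2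
    simp only [hnsE' _ (C.σ_cone z hz2)]
    exact hz

end

end Crest.Agent.R269.Sec_669
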