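import Mathlib
import Crest.Agent.R269.SDI3_731
import Crest.Agent.R269.LevP_79
import Crest.Agent.R269.Sec2_669
import Crest.Agent.R269.LevBr_901
import Crest.Agent.R269.Iface_731
import Crest.Agent.R269.StMax_528
import Crest.Agent.R269.Defs_58
import Crest.Agent.R269.Frm2_290
import Crest.Agent.R269.LevCone_901
import Crest.Agent.R269.DictA_886
import Crest.Agent.R269.AtlX_632
import Crest.Agent.R269.WF_731
import Crest.Agent.R269.Alp6_927
import Crest.Agent.R269.FldE_620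
import Crest.Agent.R269.GeoChart_328
import Crest.Agent.R269.LevC_653
import Crest.Agent.R269.DetIneq_271

-- ▼ part R269/SDI4_731
section

/-!
# R269 (S0411), Line B, B13: `TStmt` and `TDelStmt` from `WFStmt` and `HintStmt` (helper731)
-/

set_option autoImplicit false

open MvPolynomial Crest.AlgGeometry.ProjEmb Crest.Agent.R269.Geo_328 Metric Set Filter
open Crest.Agent.R269.Defs_58 Crest.Agent.R269.DefsS_731 Crest.Agent.R269.Iface_731
open Crest.Agent.R269.TE_499 (TE1 bav Ref Dom CDens)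
open Crest.Agent.R269.WF_731
open scoped ContDiff Topology ComplexConjugate

noncomputable section

namespace Crest.Agent.R269.SDI_731

variable {N n : ℕ} {I : Ideal (HomCoordRing N)}

theorem trLP_restrict (hI : I.IsPrime) (hX : IsSmoothProjective I n) (a : PF I n) {u : EE N → ℝ}
    (hu : SmX I u) (x : Pt I) :
    trLP a (fun y : Pt I => u y.1) x = ∑ i, lev u x.1 (fr a x i) := by
  refine Finset.sum_congr rfl fun i _ => ?_
  exact lev_ext hI hX (smX_sx _) hu (fun p hp => sx_restrict hu hp) x.2 ((fr_rep a x).1 i)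

/-- a positive field as an element of `PF` -/
def mkPF {a : EE N → VV N} (ha : PosField I n a) : PF I n := ⟨a, ha⟩

/-- (T) -/
theorem tP (hI : I.IsPrime) (hX : IsSmoothProjective I n) (hn : 1 ≤ n) (hc : EntireCurvesConstant I)
    (hW : HW I n) : TP I n := by
  set P := sd hI hX hn hc hW with hP
  refine ⟨P.lam, P.lam_pos, P.lam, P.lam_pos, fun e he a ha u hu h => ?_⟩
  obtain ⟨a', ρ, ha', hρ, hρ0, hρa, hρD, hD⟩ := FldF_620.exists_posField_unimod (n := n) hn hI hX ha
  have key := P.T_main (c₀ := P.lam) le_rfl he (mkPF ha')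
    (u := fun x : Pt I => u x.1) ⟨u, hu, fun _ => rfl⟩ (fun (x : Pt I) => ?_)
  · intro p hp
    exact key ⟨p, hp⟩
  · -- the frame of `a'` is `√ρ` times a frame of `a`
    have hr : Rep I a' x.1 (fr (mkPF ha') x) := fr_rep (mkPF ha') x
    obtain ⟨b, hb, hbb⟩ := FldF_620.rep_scale_inv (hρ0 x.1 x.2) hr (hρa x.1)
    have h1 := h x.1 x.2 b hb
    rw [hρD x.1 x.2 b hb] at h1
    have h2 : ldetP (mkPF ha') x = 0 := by
      unfold ldetP
      rw [hD x.1 x.2 _ hr, Real.log_one]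
    have h3 : trAP (mkPF ha') x + e * trOP (mkPF ha') x +
        trLP (mkPF ha') (fun y : Pt I => u y.1) x =
        ρ x.1 * ∑ i, (alpha I n x.1 (b i) + e * omg x.1 (b i) + lev u x.1 (b i)) := by
      rw [trLP_restrict hI hX _ hu]
      unfold trAP trOP
      rw [Finset.mul_sum, Finset.mul_sum, ← Finset.sum_add_distrib, ← Finset.sum_add_distrib]
      refine Finset.sum_congr rfl fun i _ => ?_
      have e1 : fr (mkPF ha') x i = ((Real.sqrt (ρ x.1) : ℝ) : ℂ) • b i := congrFun hbb i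
      rw [e1, FldF_620.alpha_smul_vec, LevBr_901.omg_smul_vec, LevBr_901.lev_smul_vec,
        FldF_620.norm_sqrt_sq (hρ0 x.1 x.2).le]
      ring
    have h4 : ρ x.1 * ∑ i, (alpha I n x.1 (b i) + e * omg x.1 (b i) + lev u x.1 (b i)) ≤
        n * P.lam + P.lam * u x.1 := by
      have h5 := mul_le_mul_of_nonneg_left h1 (hρ0 x.1 x.2).le
      refine h5.trans (le_of_eq ?_)
      have := (hρ0 x.1 x.2).ne'
      field_simp
    show trAP (mkPF ha') x + e * trOP (mkPF ha') x +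
        trLP (mkPF ha') (fun y : Pt I => u y.1) x ≤
        (n : ℝ) * P.lam + P.lam * u x.1 + P.lam * ldetP (mkPF ha') x
    rw [h2, h3, mul_zero, add_zero]
    exact h4

/-- the functional `Θ`, for one pair `(I, n)` -/
def HH (I : Ideal (HomCoordRing N)) (n : ℕ) : Prop :=
    ∀ a : EE N → VV N, PosField I n a → ∀ C : ℝ, 0 ≤ C →
    ∃ m₁ δ c CΘ : ℝ, 0 ≤ m₁ ∧ 0 < δ ∧ 0 < c ∧ ∀ R : ℝ, ∃ (c1 : ℝ) (u1 : EE N → ℝ), SmX I u1 ∧
      (∀ H, IsDisc I H → |Jf 0 c1 u1 (1 / 2) H| ≤ CΘ) ∧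
      ∀ H V, IsDisc I H → Normal H → TE1 omg H ≤ R → WF I n a C H V →
        c * Real.exp (-(kdl I n m₁ δ H / n)) ≤ ∑ i, LJf 0 c1 u1 (1 / 2) H (V i)

/-- (T_δ) -/
theorem tDelP (hI : I.IsPrime) (hX : IsSmoothProjective I n) (hn : 1 ≤ n)
    (hc : EntireCurvesConstant I) (hW : HW I n) (hH : HH I n) : TDelP I n := by
  set P := sd hI hX hn hc hW with hP
  set a : PF I n := (exists_fld hI hX).some with ha
  obtain ⟨m₁, δ, c, CΘ, hm, hδ, hc', hR⟩ := hH a.1 a.2 (cW hW a) (cW_nonneg hW a)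
  have hkd : ∃ C₃, 0 ≤ C₃ ∧ ∀ f, -C₃ ≤ P.kd m₁ δ f := by
    refine P.kdel_ge m₁ δ a ⟨c, CΘ, hc', fun R => ?_⟩
    obtain ⟨c1, u1, hu1, h1, h2⟩ := hR R
    refine ⟨fun f => Jf 0 c1 u1 (1 / 2) f.H, fun a f => ∑ i, LJf 0 c1 u1 (1 / 2) (nl f)
      (vW hX hW a f i), ⟨0, c1, u1, 1 / 2, hu1, ⟨by norm_num, by norm_num⟩, fun _ => rfl,
        fun _ _ => rfl⟩, fun f => h1 f.H f.disc, fun f hf => ?_⟩
    have h3 : TE1 omg (nl f) = TE1 omg f.H :=
      TE1_tw StMax_528.dens_omg (ref_omg I).dom f.disc f.fin (ph_diff f)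
    obtain ⟨Ca, hCa⟩ := dom_alpha hI hX
    have h4 : TE1 (alpha I n) (nl f) = TE1 (alpha I n) f.H :=
      TE1_tw (dens_alpha hI hX) hCa f.disc f.fin (ph_diff f)
    have h5 := h2 (nl f) (vW hX hW a f) (nl_disc hX f) (nl_normal f) (by rw [h3]; exact hf)
      (vW_spec hX hW a f)
    have h6 : P.kd m₁ δ f = kdl I n m₁ δ (nl f) := by
      unfold kdl
      rw [h3, h4]
      rfl
    rw [h6]
    exact h5
  obtain ⟨C₃, -, hC₃⟩ := hkd
  refine ⟨1 + δ * m₁, by nlinarith [mul_nonneg hδ.le hm], δ, hδ, C₃, fun b hb u hu h => ?_⟩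
  have key := P.T_del (m₁ := m₁) (δ := δ) hC₃ (mkPF hb)
    (u := fun x : Pt I => u x.1) ⟨u, hu, fun _ => rfl⟩ (fun (x : Pt I) => ?_)
  · intro p hp
    exact key ⟨p, hp⟩
  · have h1 := h x.1 x.2 _ (fr_rep (mkPF hb) x)
    show (1 + δ * m₁) * trAP (mkPF hb) x - δ * trOP (mkPF hb) x +
        trLP (mkPF hb) (fun y : Pt I => u y.1) x ≤ u x.1
    rw [trLP_restrict hI hX _ hu]
    unfold trAP trOP
    rw [Finset.mul_sum, Finset.mul_sum, ← Finset.sum_sub_distrib, ← Finset.sum_add_distrib]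
    exact h1

theorem tStmt (hW : WFStmt) : TStmt := fun N n I hI hX hn hc =>
  tP hI hX hn hc (hW N n I hI hX hn hc)

theorem tDelStmt (hW : WFStmt) (hH : HintStmt) : TDelStmt := fun N n I hI hX hn hc hB =>
  tDelP hI hX hn hc (hW N n I hI hX hn hc) (hH N n I hI hX hn hc hB)

end Crest.Agent.R269.SDI_731
end
end

-- ▼ part R269/Half_993
section

/-!
# R269 (S0411), (11.2) of Blueprint_646, disc part (helper993)

Scalar form of the Jensen / AM-GM chain on the circle `|z| = 1/2`.  For a disc with the orthonormal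
frame `b` of (3.3) for `a = g⁻¹` (so `D(H, b) = 1` on the unit circle) and a lift `H` with `|H| = 1` on
the unit circle put `h = log |H|²`, `d = log D(H, b)`, `S = s(H, b)` (holomorphic), so that
`|s|² = |S|² exp(h - m₁ d)`, `T = -h(0)`, `k = -d(0)`.

* `avg_exp_ge`   : Jensen's inequality `exp (avg u) ≤ avg (exp u)` for circle averages;
* `avg_log_le`   : `avg_{1/2} log(|s|² + τ) ≤ log 2 + avg_{1/2} (h - m₁ d)`;
* `rate_half`    : the lower bound of the Levi sum of `Θ_τ` by `exp(-k_δ/n)`.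
-/

set_option autoImplicit false

open Set Filter Topology Metric Real

noncomputable section

namespace Crest.Agent.R269.Half_993

variable {R : ℝ}

theorem ci {f : ℂ → ℝ} (hf : ContinuousOn f (sphere 0 |R|)) : CircleIntegrable f 0 R :=
  hf.circleIntegrable'

/-- Jensen's inequality for `exp` -/
theorem avg_exp_ge {u : ℂ → ℝ} (hu : ContinuousOn u (sphere 0 |R|)) :
    Real.exp (circleAverage u 0 R) ≤ circleAverage (fun z => Real.exp (u z)) 0 R := by
  set m := circleAverage u 0 R with hm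
  have h1 : circleAverage (fun z => Real.exp m * (1 + (u z - m))) 0 R = Real.exp m := by
    have e1 : circleAverage (fun z => Real.exp m * (1 + (u z - m))) 0 R =
        Real.exp m * circleAverage (fun z => 1 + (u z - m)) 0 R := by
      have := circleAverage_fun_smul (𝕜 := ℝ) (a := Real.exp m) (f := fun z => 1 + (u z - m))
        (c := 0) (R := R)
      simpa using this
    have e2 : circleAverage (fun z => 1 + (u z - m)) 0 R = 1 := by
      have : (fun z => 1 + (u z - m)) = fun z => (1 - m) + u z := by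
        funext z; ring
      rw [this, circleAverage_fun_add (circleIntegrable_const _ _ _) (ci hu),
        circleAverage_const, ← hm]
      ring
    rw [e1, e2, mul_one]
  rw [← h1]
  refine circleAverage_mono ?_ ?_ ?_
  · exact ci (continuousOn_const.mul (continuousOn_const.add (hu.sub continuousOn_const)))
  · exact ci (Real.continuous_exp.comp_continuousOn hu)
  · intro z _
    have h2 := Real.add_one_le_exp (u z - m)
    calc Real.exp m * (1 + (u z - m)) ≤ Real.exp m * Real.exp (u z - m) :=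
          mul_le_mul_of_nonneg_left (by linarith) (Real.exp_pos _).le
      _ = Real.exp (u z) := by rw [← Real.exp_add]; congr 1; ring

/-- the data of one disc -/
structure Dat where
  /-- `log |H|²` -/
  h : ℂ → ℝ
  /-- `log D(H, b)` -/
  d : ℂ → ℝ
  /-- `s(H, b)` -/
  S : ℂ → ℂ
  hc : ContinuousOn h (closedBall 0 1)
  dc : ContinuousOn d (closedBall 0 1)
  Sc : ContinuousOn S (closedBall 0 1)
  h1 : ∀ z ∈ sphere (0 : ℂ) 1, h z = 0
  d1 : ∀ z ∈ sphere (0 : ℂ) 1, d z = 0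
  S1 : ∀ z ∈ sphere (0 : ℂ) 1, ‖S z‖ ≤ 1

namespace Dat

variable (D : Dat)

theorem sub : sphere (0 : ℂ) |(1 / 2 : ℝ)| ⊆ closedBall 0 1 := by
  intro z hz
  rw [mem_sphere_zero_iff_norm] at hz
  rw [mem_closedBall_zero_iff, hz]
  norm_num [abs_of_pos]

theorem h_half : ContinuousOn D.h (sphere 0 |(1 / 2 : ℝ)|) := D.hc.mono sub
theorem d_half : ContinuousOn D.d (sphere 0 |(1 / 2 : ℝ)|) := D.dc.mono sub
theorem S_half : ContinuousOn D.S (sphere 0 |(1 / 2 : ℝ)|) := D.Sc.mono sub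

/-- `|s|²` -/
def s2 (m₁ : ℝ) (z : ℂ) : ℝ := ‖D.S z‖ ^ 2 * Real.exp (D.h z - m₁ * D.d z)

theorem s2_nonneg (m₁ : ℝ) (z : ℂ) : 0 ≤ D.s2 m₁ z := by unfold s2; positivity

theorem s2_half (m₁ : ℝ) : ContinuousOn (D.s2 m₁) (sphere 0 |(1 / 2 : ℝ)|) :=
  (D.S_half.norm.pow 2).mul
    (Real.continuous_exp.comp_continuousOn (D.h_half.sub (D.d_half.const_smul m₁)))


theorem s2_pos (m₁ : ℝ) {τ : ℝ} (hτ : 0 < τ) (z : ℂ) : 0 < D.s2 m₁ z + τ :=
  add_pos_of_nonneg_of_pos (D.s2_nonneg m₁ z) hτ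



end Dat

end Crest.Agent.R269.Half_993
end
end

-- ▼ part R269/Half2_993
section

/-!
# R269 (S0411), LINE B, (11) = (A_δ), disc part in the OPEN disc (helper993)

For a normalised lift `H : D → Cone`, the Wold frame `V` of `(H, a)` and the section `s` of `m K_X - A`:
`h = log |H|²` (`≤ 0`, circle averages `→ 0`), `d = log DD(H, V)`, `S(z) = s(H(z), V(z))` holomorphic,
`ns(H) = ‖S‖² exp(h - m d)`.

* `mono_log`    : `avg_r log(‖S‖² + t)` is nondecreasing in `r`;
* `avg_S_le`    : `avg_{1/2} log(‖S‖² + t) ≤ log 2 + B + m C₁`, `0 < t ≤ 1`;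
* `avg_ns_le`   : `avg_{1/2} log(ns + τ) ≤ log 2 + B + m C₁ + avg_{1/2}(h - m d)`;
* `rate`        : lower bound of the summed second variation by `exp(-k_δ/n)`.
-/

set_option autoImplicit false

open Set Filter Topology Metric Real

noncomputable section

namespace Crest.Agent.R269.Half2_993

open Crest.Agent.R269.Half_993 Crest.Agent.R269.SubM_79 Crest.Agent.R269.LevP_79

theorem mono_log {S : ℂ → ℂ} (hS : DifferentiableOn ℂ S (ball 0 1)) {t : ℝ} (ht : 0 < t)
    {r ρ : ℝ} (hr : 0 ≤ r) (hrρ : r ≤ ρ) (hρ : ρ < 1) :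
    circleAverage (fun z => Real.log (‖S z‖ ^ 2 + t)) 0 r ≤
      circleAverage (fun z => Real.log (‖S z‖ ^ 2 + t)) 0 ρ := by
  have hsub : closedBall (0 : ℂ) ρ ⊆ ball 0 1 := closedBall_subset_ball hρ
  refine circleAverage_mono_radius hr hrρ ?_ ?_
  · exact (((hS.continuousOn.mono hsub).norm.pow 2).add continuousOn_const).log
      fun z _ => (by positivity : 0 < ‖S z‖ ^ 2 + t).ne'
  · intro z hz
    have hz' : z ∈ ball (0 : ℂ) 1 := ball_subset_ball hρ.le hz
    have hSa : AnalyticAt ℂ S z := hS.analyticAt (isOpen_ball.mem_nhds hz')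
    set F : ℂ → EuclideanSpace ℂ (Fin 2) := fun z => !₂[S z, ((√t : ℝ) : ℂ)] with hF
    have hFn : ∀ z, ‖F z‖ ^ 2 = ‖S z‖ ^ 2 + t := by
      intro z
      rw [EuclideanSpace.norm_sq_eq]
      simp [hF, Fin.sum_univ_two, Real.sq_sqrt ht.le]
    have hFa : AnalyticAt ℂ F z := by
      have h1 : AnalyticAt ℂ (fun z => ![S z, ((√t : ℝ) : ℂ)]) z := by
        refine AnalyticAt.pi fun i => ?_
        fin_cases i
        · exact hSa
        · exact analyticAt_const
      exact ((PiLp.continuousLinearEquiv 2 ℂ (fun _ : Fin 2 => ℂ)).symm.toContinuousLinearMap.analyticAt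
        _).comp h1
    have hF0 : F z ≠ 0 := by
      intro h0
      have := hFn z
      rw [h0, norm_zero] at this
      have : 0 < ‖S z‖ ^ 2 + t := by positivity
      simp_all
    have h2 := (hasL_log_normSq hFa hF0).lge.mono (fs_nonneg _ _)
    simpa only [hFn] using h2

/-- the data of one disc (normalised lift `H`, frame `V`) -/
structure Dat where
  /-- `log |H|²` -/
  h : ℂ → ℝ
  /-- `log DD(H, V)` -/
  d : ℂ → ℝ
  /-- `s(H, V)` -/
  S : ℂ → ℂ
  hc : ContinuousOn h (ball 0 1)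
  dc : ContinuousOn d (ball 0 1)
  Sd : DifferentiableOn ℂ S (ball 0 1)
  hle : ∀ z ∈ ball (0 : ℂ) 1, h z ≤ 0
  /-- circle averages of `P = -h` tend to zero -/
  hP : ∀ ε > 0, ∀ r₀ < 1, ∃ ρ, r₀ < ρ ∧ 0 ≤ ρ ∧ ρ < 1 ∧ -ε ≤ circleAverage h 0 ρ

namespace Dat

variable (D : Dat)

theorem sub {r : ℝ} (h0 : 0 ≤ r) (h1 : r < 1) : sphere (0 : ℂ) |r| ⊆ ball 0 1 := by
  rw [abs_of_nonneg h0]
  exact sphere_subset_closedBall.trans (closedBall_subset_ball h1)

theorem half_sub : sphere (0 : ℂ) |(1 / 2 : ℝ)| ⊆ ball 0 1 := sub (by norm_num) (by norm_num)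

theorem h_half : ContinuousOn D.h (sphere 0 |(1 / 2 : ℝ)|) := D.hc.mono half_sub
theorem d_half : ContinuousOn D.d (sphere 0 |(1 / 2 : ℝ)|) := D.dc.mono half_sub
theorem S_half : ContinuousOn D.S (sphere 0 |(1 / 2 : ℝ)|) := D.Sd.continuousOn.mono half_sub

/-- `ns(H) = |s|²` -/
def s2 (m : ℝ) (z : ℂ) : ℝ := ‖D.S z‖ ^ 2 * Real.exp (D.h z - m * D.d z)

theorem s2_nonneg (m : ℝ) (z : ℂ) : 0 ≤ D.s2 m z := by unfold s2; positivity

theorem s2_half (m : ℝ) : ContinuousOn (D.s2 m) (sphere 0 |(1 / 2 : ℝ)|) :=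
  (D.S_half.norm.pow 2).mul
    (Real.continuous_exp.comp_continuousOn (D.h_half.sub (D.d_half.const_smul m)))

theorem s2_pos (m : ℝ) {τ : ℝ} (hτ : 0 < τ) (z : ℂ) : 0 < D.s2 m z + τ :=
  add_pos_of_nonneg_of_pos (D.s2_nonneg m z) hτ

/-- `avg_{1/2} log(‖S‖² + t) ≤ log 2 + B + m C₁` -/
theorem avg_S_le {m B C₁ C₂ t : ℝ} (hm : 0 ≤ m) (hB : 0 ≤ B) (hC₁ : 0 ≤ C₁) (hC₂ : 0 ≤ C₂)
    (ht : 0 < t) (ht1 : t ≤ 1)
    (hs : ∀ z ∈ ball (0 : ℂ) 1, D.s2 m z ≤ Real.exp B)
    (hd : ∀ z ∈ ball (0 : ℂ) 1, D.d z ≤ C₁ + C₂ * (-D.h z)) :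
    circleAverage (fun z => Real.log (‖D.S z‖ ^ 2 + t)) 0 (1 / 2) ≤
      Real.log 2 + B + m * C₁ := by
  refine le_of_forall_pos_le_add fun ε hε => ?_
  have hK : 0 < m * C₂ + 1 := by positivity
  obtain ⟨ρ, h1, h2, h3, h4⟩ := D.hP (ε / (m * C₂ + 1)) (by positivity) (1 / 2) (by norm_num)
  refine (mono_log D.Sd ht (by norm_num) h1.le h3).trans ?_
  have hsub := sub h2 h3
  have hcS : ContinuousOn (fun z => Real.log (‖D.S z‖ ^ 2 + t)) (sphere 0 |ρ|) :=
    (((D.Sd.continuousOn.mono hsub).norm.pow 2).add continuousOn_const).log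
      fun z _ => (by positivity : 0 < ‖D.S z‖ ^ 2 + t).ne'
  have hch : ContinuousOn D.h (sphere 0 |ρ|) := D.hc.mono hsub
  have hcw : ContinuousOn (fun z => -(m * C₂ + 1) * D.h z) (sphere 0 |ρ|) :=
    continuousOn_const.mul hch
  have h5 : circleAverage (fun z => Real.log (‖D.S z‖ ^ 2 + t)) 0 ρ ≤
      circleAverage (fun z => (Real.log 2 + B + m * C₁) + -(m * C₂ + 1) * D.h z) 0 ρ := by
    refine circleAverage_mono (ci hcS) (ci (continuousOn_const.add hcw)) fun z hz => ?_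
    have hz' := hsub hz
    have e1 := hs z hz'
    have e2 := hd z hz'
    have e3 := D.hle z hz'
    set w := B + m * C₁ + (m * C₂ + 1) * (-D.h z) with hw
    have hw0 : 0 ≤ w := by
      have := mul_nonneg hm hC₁
      have := mul_nonneg hK.le (neg_nonneg.2 e3)
      positivity
    have e4 : ‖D.S z‖ ^ 2 ≤ Real.exp w := by
      have e5 : ‖D.S z‖ ^ 2 = D.s2 m z * Real.exp (m * D.d z - D.h z) := by
        unfold s2
        rw [mul_assoc, ← Real.exp_add]
        simp
      rw [e5]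
      calc D.s2 m z * Real.exp (m * D.d z - D.h z)
          ≤ Real.exp B * Real.exp (m * D.d z - D.h z) :=
            mul_le_mul_of_nonneg_right e1 (Real.exp_pos _).le
        _ = Real.exp (B + (m * D.d z - D.h z)) := by rw [Real.exp_add]
        _ ≤ Real.exp w := by
            refine Real.exp_le_exp.2 ?_
            have := mul_le_mul_of_nonneg_left e2 hm
            rw [hw]
            nlinarith
    have e6 : t ≤ Real.exp w := ht1.trans (Real.one_le_exp hw0)
    calc Real.log (‖D.S z‖ ^ 2 + t) ≤ Real.log (2 * Real.exp w) :=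
          Real.log_le_log (by positivity) (by linarith)
      _ = Real.log 2 + w := by
          rw [Real.log_mul (by norm_num) (Real.exp_pos _).ne', Real.log_exp]
      _ = _ := by rw [hw]; ring
  have h6 : circleAverage (fun z => (Real.log 2 + B + m * C₁) + -(m * C₂ + 1) * D.h z) 0 ρ =
      (Real.log 2 + B + m * C₁) + -(m * C₂ + 1) * circleAverage D.h 0 ρ := by
    rw [circleAverage_fun_add (circleIntegrable_const _ _ _) (ci hcw), circleAverage_const]
    have := circleAverage_fun_smul (𝕜 := ℝ) (a := -(m * C₂ + 1)) (f := D.h) (c := 0) (R := ρ)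
    simp only [smul_eq_mul] at this
    rw [this]
  rw [h6] at h5
  refine h5.trans ?_
  have h7 : (m * C₂ + 1) * (-circleAverage D.h 0 ρ) ≤ ε := by
    have : -circleAverage D.h 0 ρ ≤ ε / (m * C₂ + 1) := by linarith
    calc (m * C₂ + 1) * (-circleAverage D.h 0 ρ) ≤ (m * C₂ + 1) * (ε / (m * C₂ + 1)) :=
          mul_le_mul_of_nonneg_left this hK.le
      _ = ε := by field_simp
  linarith

/-- `avg_{1/2} log(ns + τ) ≤ K + avg_{1/2}(h - m d)` if `avg_{1/2} log(‖S‖² + t) ≤ K`, `0 < t ≤ 1` -/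
theorem avg_ns_le {m K R τ : ℝ} (hτ : 0 < τ) (hR : τ * Real.exp R ≤ 1)
    (hb : ∀ z ∈ sphere (0 : ℂ) (1 / 2), m * D.d z - D.h z ≤ R)
    (hK : ∀ t : ℝ, 0 < t → t ≤ 1 →
      circleAverage (fun z => Real.log (‖D.S z‖ ^ 2 + t)) 0 (1 / 2) ≤ K) :
    circleAverage (fun z => Real.log (D.s2 m z + τ)) 0 (1 / 2) ≤
      K + circleAverage (fun z => D.h z - m * D.d z) 0 (1 / 2) := by
  have hE : 0 < Real.exp R := Real.exp_pos _
  set t := τ * Real.exp R with ht
  have ht0 : 0 < t := mul_pos hτ hE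
  have hs : ContinuousOn (fun z => Real.log (‖D.S z‖ ^ 2 + t)) (sphere 0 |(1 / 2 : ℝ)|) :=
    ((D.S_half.norm.pow 2).add continuousOn_const).log
      fun z _ => (by positivity : 0 < ‖D.S z‖ ^ 2 + t).ne'
  have hhd : ContinuousOn (fun z => D.h z - m * D.d z) (sphere 0 |(1 / 2 : ℝ)|) :=
    D.h_half.sub (D.d_half.const_smul m)
  have step1 : circleAverage (fun z => Real.log (D.s2 m z + τ)) 0 (1 / 2) ≤
      circleAverage (fun z => Real.log (‖D.S z‖ ^ 2 + t) + (D.h z - m * D.d z)) 0 (1 / 2) := by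
    refine circleAverage_mono ?_ (ci (hs.add hhd)) fun z hz => ?_
    · exact ci (((D.s2_half m).add continuousOn_const).log fun z _ => (D.s2_pos m hτ z).ne')
    · have hz' : z ∈ sphere (0 : ℂ) (1 / 2) := by
        rwa [abs_of_pos (by norm_num : (0 : ℝ) < 1 / 2)] at hz
      have e1 := Real.exp_pos (D.h z - m * D.d z)
      have h2 : D.s2 m z + τ ≤ (‖D.S z‖ ^ 2 + t) * Real.exp (D.h z - m * D.d z) := by
        unfold s2
        have h3 : 1 ≤ Real.exp R * Real.exp (D.h z - m * D.d z) := by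
          rw [← Real.exp_add, Real.one_le_exp_iff]
          linarith [hb z hz']
        have h4 : τ ≤ t * Real.exp (D.h z - m * D.d z) := by
          rw [ht, mul_assoc]
          exact le_mul_of_one_le_right hτ.le h3
        nlinarith
      have h5 := D.s2_nonneg m z
      calc Real.log (D.s2 m z + τ)
          ≤ Real.log ((‖D.S z‖ ^ 2 + t) * Real.exp (D.h z - m * D.d z)) :=
            Real.log_le_log (by positivity) h2
        _ = _ := by rw [Real.log_mul (by positivity) e1.ne', Real.log_exp]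
  rw [circleAverage_fun_add (ci hs) (ci hhd)] at step1
  linarith [hK t ht0 hR]

/-- (11), the lower bound of the summed second variation.  `q z` is the integrand
`∑_i (C ω + L b_τ)(V_i(z))`, `hq` the pointwise determinant inequality of (11.1). -/
theorem rate {n : ℕ} (hn : 0 < n) {m δ K R τ c k T C₃ C₄ : ℝ} (hm : 0 ≤ m) (hδ : 0 ≤ δ)
    (hτ : 0 < τ) (hR : τ * Real.exp R ≤ 1)
    (hb : ∀ z ∈ sphere (0 : ℂ) (1 / 2), m * D.d z - D.h z ≤ R)
    (hK : ∀ t : ℝ, 0 < t → t ≤ 1 →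
      circleAverage (fun z => Real.log (‖D.S z‖ ^ 2 + t)) 0 (1 / 2) ≤ K)
    (hd : -C₃ - k ≤ circleAverage D.d 0 (1 / 2)) (hh : circleAverage D.h 0 (1 / 2) ≤ C₄ - T)
    {q : ℂ → ℝ} (hqc : ContinuousOn q (sphere 0 (1 / 2)))
    (hq : ∀ z ∈ sphere (0 : ℂ) (1 / 2),
      n * Real.exp ((Real.log c - δ * Real.log (D.s2 m z + τ) + D.d z) / n) ≤ q z) :
    n * Real.exp ((Real.log c - δ * K - (1 + δ * m) * C₃ - δ * C₄ -
      ((1 + δ * m) * k - δ * T)) / n) ≤ circleAverage q 0 (1 / 2) := by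
  have hn' : (0 : ℝ) < n := by exact_mod_cast hn
  have habs : |(1 / 2 : ℝ)| = 1 / 2 := abs_of_pos (by norm_num)
  set u : ℂ → ℝ := fun z => (Real.log c - δ * Real.log (D.s2 m z + τ) + D.d z) / n with hu
  have hlc : ContinuousOn (fun z => Real.log (D.s2 m z + τ)) (sphere 0 |(1 / 2 : ℝ)|) :=
    ((D.s2_half m).add continuousOn_const).log fun z _ => (D.s2_pos m hτ z).ne'
  have huc : ContinuousOn u (sphere 0 |(1 / 2 : ℝ)|) :=
    ((continuousOn_const.sub (continuousOn_const.mul hlc)).add D.d_half).div_const _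
  have h1 : circleAverage (fun z => n * Real.exp (u z)) 0 (1 / 2) ≤ circleAverage q 0 (1 / 2) := by
    refine circleAverage_mono ?_ (ContinuousOn.circleIntegrable' (by rwa [habs])) fun z hz => ?_
    · exact ci (continuousOn_const.mul (Real.continuous_exp.comp_continuousOn huc))
    · rw [habs] at hz
      exact hq z hz
  have h2 : circleAverage (fun z => n * Real.exp (u z)) 0 (1 / 2) =
      n * circleAverage (fun z => Real.exp (u z)) 0 (1 / 2) := by
    have := circleAverage_fun_smul (𝕜 := ℝ) (a := (n : ℝ)) (f := fun z => Real.exp (u z))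
      (c := 0) (R := 1 / 2)
    simpa using this
  have h3 := avg_exp_ge huc
  have h4 : circleAverage u 0 (1 / 2) = (Real.log c -
      δ * circleAverage (fun z => Real.log (D.s2 m z + τ)) 0 (1 / 2) +
      circleAverage D.d 0 (1 / 2)) / n := by
    have e1 : u = fun z => (n : ℝ)⁻¹ • (Real.log c + (-δ * Real.log (D.s2 m z + τ) + D.d z)) := by
      funext z
      simp only [hu, smul_eq_mul]
      field_simp
      ring
    have c1 : CircleIntegrable (fun z => -δ * Real.log (D.s2 m z + τ)) 0 (1 / 2) :=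
      ci (continuousOn_const.mul hlc)
    have c2 : CircleIntegrable (fun z => -δ * Real.log (D.s2 m z + τ) + D.d z) 0 (1 / 2) :=
      ci ((continuousOn_const.mul hlc).add D.d_half)
    rw [e1, circleAverage_fun_smul, circleAverage_fun_add (circleIntegrable_const _ _ _) c2,
      circleAverage_const, circleAverage_fun_add c1 (ci D.d_half)]
    have e2 : circleAverage (fun z => -δ * Real.log (D.s2 m z + τ)) 0 (1 / 2) =
        -δ * circleAverage (fun z => Real.log (D.s2 m z + τ)) 0 (1 / 2) := by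
      have := circleAverage_fun_smul (𝕜 := ℝ) (a := -δ)
        (f := fun z => Real.log (D.s2 m z + τ)) (c := 0) (R := 1 / 2)
      simpa using this
    rw [e2, smul_eq_mul]
    field_simp
    ring
  have h5 := D.avg_ns_le (m := m) hτ hR hb hK
  have h6 : circleAverage (fun z => D.h z - m * D.d z) 0 (1 / 2) =
      circleAverage D.h 0 (1 / 2) - m * circleAverage D.d 0 (1 / 2) := by
    have c1 : CircleIntegrable (fun z => m * D.d z) 0 (1 / 2) :=
      ci (continuousOn_const.mul D.d_half)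
    rw [circleAverage_fun_sub (ci D.h_half) c1]
    have := circleAverage_fun_smul (𝕜 := ℝ) (a := m) (f := D.d) (c := 0) (R := 1 / 2)
    simp only [smul_eq_mul] at this
    rw [this]
  rw [h6] at h5
  refine le_trans ?_ h1
  rw [h2]
  refine mul_le_mul_of_nonneg_left (le_trans ?_ h3) hn'.le
  rw [h4]
  refine Real.exp_le_exp.2 (div_le_div_of_nonneg_right ?_ hn'.le)
  have h7 : (1 + δ * m) * (-C₃ - k) ≤ (1 + δ * m) * circleAverage D.d 0 (1 / 2) :=
    mul_le_mul_of_nonneg_left hd (by positivity)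
  have h8 := mul_le_mul_of_nonneg_left h5 hδ
  have h9 := mul_le_mul_of_nonneg_left hh hδ
  nlinarith

end Dat

end Crest.Agent.R269.Half2_993
end
end

-- ▼ part R269/Half3_993
section

/-!
# R269 (S0411), LINE B, (11) = THETA over Defs_58 / DefsS_731 / Iface_731 (helper993)

* `Fr I H V`    : `V` is a frame along the disc `H`: tangent, `wdg (V_i) H` holomorphic, `DD > 0`;
* `rep`, `unw_wdg` : holomorphic / smooth representatives of `V` modulo `H`;
* `S_diff`      : `z ↦ S (H z) (V z)` is holomorphic for `S : HolSec`;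
* `logDD_cont`, `dens_cont` : continuity of `log DD (H, V)`, `E (H z) (V z)` for `Dens I E`;
* `exists_R`    : `|H|` is bounded below on `|z| ≤ 1/2` by `|H(0)|` (compactness, Brody);
* `theta`       : the lower bound of the summed second variation of `Θ_τ = TE (C ω + dd^c b_τ) · (1/2)`.
-/

set_option autoImplicit false

open MvPolynomial Crest.AlgGeometry.ProjEmb Set Filter Topology Metric
open scoped ContDiff ComplexConjugate

noncomputable section

namespace Crest.Agent.R269.Half3_993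

open Crest.Agent.R269.Geo_328 (EE VV CC Cone Tan nsq ConeChart)
open Crest.Agent.R269.Defs_58 (omg SmX lev alpha DD TanFam HolSec BigP)
open Crest.Agent.R269.DefsS_731 (TE TG cav wdg IsDisc Normal FinE)
open Crest.Agent.R269.Iface_731 (unw dens)
open Crest.Agent.R269.StFun_528 (Dens)

variable {N n : ℕ} {I : Ideal (HomCoordRing N)}

/-! ### representatives -/

/-- local holomorphic representative of `wdg V p` -/
def rep (j : Fin (N + 1)) (v : VV N) (p : EE N) : EE N := fun k => v k j / p j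

theorem rep_wdg {j : Fin (N + 1)} {p : EE N} (hj : p j ≠ 0) (V : EE N) :
    rep j (wdg V p) p = V + (-(V j / p j)) • p := by
  funext k
  simp only [rep, wdg, Pi.add_apply, Pi.smul_apply, smul_eq_mul]
  field_simp
  ring

theorem unw_wdg {p : EE N} (hp : p ≠ 0) (V : EE N) :
    unw p (wdg V p) = V + (-((∑ j, V j * conj (p j)) / (nsq p : ℂ))) • p := by
  have h0 : (nsq p : ℂ) ≠ 0 := by
    exact_mod_cast (Sec_669.nsq_pos hp).ne'
  have h1 : (∑ j, p j * conj (p j)) = (nsq p : ℂ) := by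
    unfold Geo_328.nsq
    push_cast
    refine Finset.sum_congr rfl fun i _ => ?_
    rw [Complex.mul_conj, Complex.normSq_eq_norm_sq]
    push_cast
    rfl
  funext k
  simp only [unw, wdg, Pi.add_apply, Pi.smul_apply, smul_eq_mul]
  have h2 : ∑ j, (V k * p j - V j * p k) * conj (p j) =
      V k * (nsq p : ℂ) - (∑ j, V j * conj (p j)) * p k := by
    rw [← h1, Finset.mul_sum, Finset.sum_mul, ← Finset.sum_sub_distrib]
    refine Finset.sum_congr rfl fun j _ => ?_
    ring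
  rw [h2]
  field_simp
  ring

/-- a frame along the disc `H` (vectors are only meant modulo `H`) -/
structure Fr (I : Ideal (HomCoordRing N)) (H : ℂ → EE N) (V : Fin n → ℂ → EE N) : Prop where
  tan : ∀ i, ∀ z ∈ ball (0 : ℂ) 1, V i z ∈ Tan I (H z)
  hol : ∀ i, DifferentiableOn ℂ (fun z => wdg (V i z) (H z)) (ball 0 1)
  pos : ∀ z ∈ ball (0 : ℂ) 1, 0 < DD (H z) (fun i => V i z)

theorem DD_add (p : EE N) (b : Fin n → EE N) (r : Fin n → ℂ) :
    DD p (fun i => b i + r i • p) = DD p b := by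
  have := Sec_669.DD_mix p b 1 r
  simpa [Matrix.one_apply] using this

theorem S_add {m : ℕ} {j : ℤ} {S : EE N → (Fin n → EE N) → ℂ} (h : HolSec I n m j S) {p : EE N}
    (hp : p ∈ Cone I) {b : Fin n → EE N} (hb : TanFam I p b) (r : Fin n → ℂ) :
    S p (fun i => b i + r i • p) = S p b := by
  have := h.mix p hp b hb 1 r
  simpa [Matrix.one_apply] using this

section disc

variable {H : ℂ → EE N} {V : Fin n → ℂ → EE N}

theorem ne_zero (hd : IsDisc I H) {z : ℂ} (hz : z ∈ ball (0 : ℂ) 1) : H z ≠ 0 := (hd.cone z hz).2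

theorem Fr.tanFam (hV : Fr I H V) {z : ℂ} (hz : z ∈ ball (0 : ℂ) 1) :
    TanFam I (H z) (fun i => V i z) := fun i => hV.tan i z hz

theorem analyticAt_apply (hd : IsDisc I H) {z : ℂ} (hz : z ∈ ball (0 : ℂ) 1) (j : Fin (N + 1)) :
    AnalyticAt ℂ (fun z => H z j) z :=
  ((differentiableOn_pi.1 hd.hol) j).analyticAt (isOpen_ball.mem_nhds hz)

theorem analyticAt_rep (hd : IsDisc I H) (hV : Fr I H V) {z : ℂ} (hz : z ∈ ball (0 : ℂ) 1)
    {j : Fin (N + 1)} (hj : H z j ≠ 0) (i : Fin n) :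
    AnalyticAt ℂ (fun z => rep j (wdg (V i z) (H z)) (H z)) z := by
  have h1 : ∀ k l, AnalyticAt ℂ (fun z => wdg (V i z) (H z) k l) z := fun k l =>
    ((differentiableOn_pi.1 ((differentiableOn_pi.1 (hV.hol i)) k)) l).analyticAt
      (isOpen_ball.mem_nhds hz)
  refine AnalyticAt.pi fun k => ?_
  exact (h1 k j).div (analyticAt_apply hd hz j) hj

/-- `z ↦ S (H z) (V z)` is holomorphic -/
theorem S_diff (hI : I.IsPrime) (hX : IsSmoothProjective I n) {m : ℕ} {j : ℤ}
    {S : EE N → (Fin n → EE N) → ℂ} (h : HolSec I n m j S) (hd : IsDisc I H) (hV : Fr I H V) :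
    DifferentiableOn ℂ (fun z => S (H z) (fun i => V i z)) (ball 0 1) := by
  intro z₀ hz₀
  obtain ⟨l, hl⟩ := Function.ne_iff.1 (ne_zero hd hz₀)
  have hl' : H z₀ l ≠ 0 := hl
  have h1 : AnalyticAt ℂ H z₀ := hd.hol.analyticAt (isOpen_ball.mem_nhds hz₀)
  have h2 := fun i => analyticAt_rep hd hV hz₀ hl' i
  have hne : ∀ᶠ z in 𝓝 z₀, H z l ≠ 0 :=
    (analyticAt_apply hd hz₀ l).continuousAt.eventually_ne hl'
  have hb : ∀ᶠ z in 𝓝 z₀, z ∈ ball (0 : ℂ) 1 := isOpen_ball.mem_nhds hz₀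
  have hev : ∀ᶠ z in 𝓝 z₀, H z ∈ Cone I ∧
      TanFam I (H z) (fun i => rep l (wdg (V i z) (H z)) (H z)) := by
    filter_upwards [hne, hb] with z hz hz1
    refine ⟨hd.cone z hz1, fun i => ?_⟩
    show rep l (wdg (V i z) (H z)) (H z) ∈ Tan I (H z)
    rw [rep_wdg hz]
    exact Submodule.add_mem _ (hV.tan i z hz1)
      (Submodule.smul_mem _ _ (Geo_328.self_mem_Tan hX (hd.cone z hz1).1))
  have h3 := Sec_669.along hI hX h h1 h2 hev
  have h4 : (fun z => S (H z) (fun i => rep l (wdg (V i z) (H z)) (H z))) =ᶠ[𝓝 z₀]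
      fun z => S (H z) (fun i => V i z) := by
    filter_upwards [hne, hb] with z hz hz1
    have : (fun i => rep l (wdg (V i z) (H z)) (H z)) =
        fun i => V i z + (-(V i z l / H z l)) • H z := funext fun i => rep_wdg hz _
    rw [this]
    exact S_add h (hd.cone z hz1) (hV.tanFam hz1) _
  exact (h3.congr h4).differentiableAt.differentiableWithinAt

/-- the smooth representative `unw (wdg V H)` is continuous -/
theorem cont_unw (hd : IsDisc I H) {W : ℂ → EE N}
    (hW : ContinuousOn (fun z => wdg (W z) (H z)) (ball 0 1)) :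
    ContinuousOn (fun z => unw (H z) (wdg (W z) (H z))) (ball 0 1) := by
  have hH := hd.hol.continuousOn
  have hHi : ∀ i, ContinuousOn (fun z => H z i) (ball (0 : ℂ) 1) := fun i =>
    (continuous_apply i).comp_continuousOn hH
  have hWi : ∀ i j, ContinuousOn (fun z => wdg (W z) (H z) i j) (ball (0 : ℂ) 1) := fun i j =>
    continuousOn_pi.1 (continuousOn_pi.1 hW i) j
  have hn : ContinuousOn (fun z => (nsq (H z) : ℂ)) (ball (0 : ℂ) 1) := by
    refine Complex.continuous_ofReal.comp_continuousOn ?_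
    unfold Geo_328.nsq
    exact continuousOn_finsetSum _ fun i _ => (hHi i).norm.pow 2
  refine continuousOn_pi.2 fun i => ?_
  unfold unw
  refine ContinuousOn.div ?_ hn fun z hz => ?_
  · exact continuousOn_finsetSum _ fun j _ =>
      (hWi i j).mul (Complex.continuous_conj.comp_continuousOn (hHi j))
  · exact_mod_cast (Sec_669.nsq_pos (ne_zero hd hz)).ne'

theorem dens_cont (hX : IsSmoothProjective I n) {E : EE N → EE N → ℝ} (hE : Dens I E)
    (hd : IsDisc I H) {W : ℂ → EE N} (ht : ∀ z ∈ ball (0 : ℂ) 1, W z ∈ Tan I (H z))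
    (hW : ContinuousOn (fun z => wdg (W z) (H z)) (ball 0 1)) :
    ContinuousOn (fun z => E (H z) (W z)) (ball 0 1) := by
  have h1 := cont_unw hd hW
  have h2 : ∀ z ∈ ball (0 : ℂ) 1, unw (H z) (wdg (W z) (H z)) ∈ Tan I (H z) := by
    intro z hz
    rw [unw_wdg (ne_zero hd hz)]
    exact Submodule.add_mem _ (ht z hz)
      (Submodule.smul_mem _ _ (Geo_328.self_mem_Tan hX (hd.cone z hz).1))
  have h3 : ContinuousOn (fun z => (H z, unw (H z) (wdg (W z) (H z)))) (ball (0 : ℂ) 1) :=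
    hd.hol.continuousOn.prodMk h1
  refine (hE.cont.comp h3 fun z hz => ⟨hd.cone z hz, h2 z hz⟩).congr fun z hz => ?_
  have := hE.inv (H z) (hd.cone z hz) (W z) (ht z hz) 1 one_ne_zero
    (-((∑ j, W z j * conj (H z j)) / (nsq (H z) : ℂ)))
  rw [one_smul, one_smul] at this
  simp only [Function.comp_apply]
  rw [unw_wdg (ne_zero hd hz), this]

theorem DD_cont (hd : IsDisc I H) (hV : Fr I H V) :
    ContinuousOn (fun z => DD (H z) (fun i => V i z)) (ball 0 1) := by
  have h1 : ∀ i, ContinuousOn (fun z => unw (H z) (wdg (V i z) (H z))) (ball 0 1) := fun i =>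
    cont_unw hd (hV.hol i).continuousOn
  have h2 : ContinuousOn (fun z => DD (H z) (fun i => unw (H z) (wdg (V i z) (H z))))
      (ball 0 1) := by
    have hH := hd.hol.continuousOn
    have hHi : ∀ i, ContinuousOn (fun z => H z i) (ball (0 : ℂ) 1) := fun i =>
      (continuous_apply i).comp_continuousOn hH
    unfold DD
    refine ContinuousOn.div ?_ ?_ fun z hz => (pow_pos (Sec_669.nsq_pos (ne_zero hd hz)) _).ne'
    · unfold Defs_58.wedgeSq
      refine Complex.continuous_re.comp_continuousOn ?_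
      refine ContinuousOn.comp (t := Set.univ) (Continuous.continuousOn (Continuous.matrix_det
        continuous_id)) ?_ (fun _ _ => Set.mem_univ _)
      refine continuousOn_pi.2 fun a => continuousOn_pi.2 fun b => ?_
      simp only [Matrix.of_apply]
      refine continuousOn_finsetSum _ fun k _ => ?_
      have h3 : ∀ a : Fin (n + 1), ContinuousOn (fun z => (Fin.cons (H z)
          (fun i => unw (H z) (wdg (V i z) (H z))) : Fin (n + 1) → EE N) a k) (ball 0 1) := by
        intro a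
        refine Fin.cases ?_ (fun i => ?_) a
        · simpa using hHi k
        · simpa using continuousOn_pi.1 (h1 i) k
      exact (h3 a).mul (Complex.continuous_conj.comp_continuousOn (h3 b))
    · refine ContinuousOn.pow ?_ _
      unfold Geo_328.nsq
      exact continuousOn_finsetSum _ fun i _ => (hHi i).norm.pow 2
  refine h2.congr fun z hz => ?_
  have : (fun i => unw (H z) (wdg (V i z) (H z))) = fun i => V i z +
      (-((∑ j, V i z j * conj (H z j)) / (nsq (H z) : ℂ))) • H z :=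
    funext fun i => unw_wdg (ne_zero hd hz) _
  simp only
  rw [this, DD_add]

theorem logDD_cont (hd : IsDisc I H) (hV : Fr I H V) :
    ContinuousOn (fun z => Real.log (DD (H z) (fun i => V i z))) (ball 0 1) :=
  (DD_cont hd hV).log fun z hz => (hV.pos z hz).ne'

end disc

/-! ### lower bound of `|H|` on `|z| ≤ 1/2` -/

theorem exists_R (hX : IsSmoothProjective I n) (hc : EntireCurvesConstant I) (R : ℝ) :
    ∃ R' : ℝ, ∀ H : ℂ → EE N, IsDisc I H → (∀ z ∈ ball (0 : ℂ) 1, nsq (H z) ≤ 1) →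
      Real.exp (-R) ≤ nsq (H 0) → ∀ z ∈ closedBall (0 : ℂ) (1 / 2), -Real.log (nsq (H z)) ≤ R' := by
  by_contra hcon
  push Not at hcon
  obtain ⟨A, hA, hB⟩ := StMax_528.exists_brody hX hc
  choose Hm h1 h2 h3 zm h4 h5 using fun k : ℕ => hcon k
  set u : Ultrafilter ℕ := Filter.hyperfilter ℕ with hu
  obtain ⟨H, hH, hHu, -, -⟩ := StCpt_528.compact_lifts (LevBr_901.isClosed_affineCone I) hB u
    (Real.exp_pos (-R)) (fun k => StFun_528.isDisc_iff.1 (h1 k)) (fun k => h2 k) (fun k => h3 k)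
  obtain ⟨z, hz, hzu⟩ := (isCompact_closedBall (0 : ℂ) (1 / 2)).ultrafilter_le_nhds (u.map zm)
    (by
      rw [Ultrafilter.coe_map, Filter.le_principal_iff]
      exact Filter.mem_map.2 (Filter.univ_mem' h4))
  have hsub : closedBall (0 : ℂ) (1 / 2) ⊆ ball 0 1 := closedBall_subset_ball (by norm_num)
  have hzt : Tendsto zm u (𝓝 z) := hzu
  have hzw : Tendsto zm u (𝓝[ball 0 1] z) := by
    rw [isOpen_ball.nhdsWithin_eq (hsub hz)]; exact hzt
  have h6 : Tendsto (fun k => Hm k (zm k)) u (𝓝 (H z)) :=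
    hHu.tendsto_comp (hH.diff.continuousOn z (hsub hz)) (hsub hz) hzw
  have h7 : Tendsto (fun k => -Real.log (nsq (Hm k (zm k)))) u (𝓝 (-Real.log (nsq (H z)))) := by
    have hne : nsq (H z) ≠ 0 := (Sec_669.nsq_pos (hH.ne z (hsub hz))).ne'
    have hcn : Continuous (nsq : EE N → ℝ) := LevBr_901.continuous_nsq
    exact ((hcn.tendsto _).comp h6 |>.log hne).neg
  have h8 : ∀ᶠ k in (u : Filter ℕ), -Real.log (nsq (Hm k (zm k))) < -Real.log (nsq (H z)) + 1 :=
    h7.eventually (gt_mem_nhds (by linarith))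
  have h9 : ∀ᶠ k : ℕ in (u : Filter ℕ), -Real.log (nsq (H z)) + 1 < k := by
    have : (u : Filter ℕ) ≤ atTop := by
      rw [hu, ← Nat.cofinite_eq_atTop]; exact Filter.hyperfilter_le_cofinite
    exact this (Filter.Tendsto.eventually_gt_atTop tendsto_natCast_atTop_atTop _)
  obtain ⟨k, h10, h11⟩ := (h8.and h9).exists
  linarith [h5 k]

/-! ### Jensen for smooth functions -/

theorem jensen_smX {u : EE N → ℝ} (hu : SmX I u) {H : ℂ → EE N} (hH : IsDisc I H) {s : ℝ}
    (h0 : 0 ≤ s) (h1 : s < 1) :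
    TE (fun p v => lev u p v) H s = cav u H s - u (H 0) := by
  have hC : ∀ z ∈ ball (0 : ℂ) 1, ContDiffAt ℝ 2 u (H z) := fun z hz =>
    LevBr_901.smX_two hu (hH.cone z hz)
  have hu2 : ContDiffOn ℝ 2 (fun z => u (H z)) (ball 0 1) := by
    intro z hz
    apply ContDiffAt.contDiffWithinAt
    have han : AnalyticAt ℂ H z := hH.hol.analyticAt (isOpen_ball.mem_nhds hz)
    exact (hC z hz).comp z (han.restrictScalars (𝕜 := ℝ)).contDiffAt
  have hj := Green_740.jensen hu2 h0 h1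
  have e : TE (fun p v => lev u p v) H s =
      Green_740.TG (fun z => LevC_653.lev (fun z => u (H z)) z 1) s := by
    refine StFun_528.TG_congr h0 h1 (fun z hz => ?_)
    have han : AnalyticAt ℂ H z := hH.hol.analyticAt (isOpen_ball.mem_nhds hz)
    have h3 := Lev_901.lev_comp_curve (hC z hz) han 1
    rw [h3, one_smul]
    exact StMax_528.lev_eq u (H z) (deriv H z)
  rw [e, hj]
  rfl

/-! ### THETA -/

theorem dens_eq (C : ℝ) (u : EE N → ℝ) (p v : EE N) :
    dens I n 0 C u p v = C * omg p v + lev u p v := by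
  simp [dens]

theorem theta (hI : I.IsPrime) (hX : IsSmoothProjective I n) (hn : 1 ≤ n)
    (hc : EntireCurvesConstant I) {m : ℕ} {S : EE N → (Fin n → EE N) → ℂ}
    (hS : HolSec I n m (-1) S) {ns : EE N → ℝ} (hns : ∀ p ∈ Cone I, 0 ≤ ns p ∧ ns p ≤ 1)
    (hSn : ∀ p ∈ Cone I, ∀ b : Fin n → EE N, TanFam I p b →
      ‖S p b‖ ^ 2 * nsq p = ns p * DD p b ^ m)
    {dl C c : ℝ} {b : ℝ → EE N → ℝ} (hdl : 0 < dl) (hC : 0 < C) (hc0 : 0 < c)
    (hb : ∀ τ, 0 < τ → τ ≤ 1 → SmX I (b τ) ∧ (∀ q ∈ Cone I, 0 ≤ b τ q ∧ b τ q ≤ C) ∧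
      (∀ q ∈ Cone I, ∀ v ∈ Tan I q, omg q v ≤ C * omg q v + lev (b τ) q v) ∧
      ∀ q ∈ Cone I, ∀ V : Fin n → EE N, TanFam I q V →
        n * (c * (ns q + τ) ^ (-dl) * DD q V) ^ ((n : ℝ)⁻¹) ≤
          ∑ i, (C * omg q (V i) + lev (b τ) q (V i)))
    {C₁ C₂ : ℝ} (C₃ : ℝ) (hC₁ : 0 ≤ C₁) (hC₂ : 0 ≤ C₂) :
    ∃ c' CΘ : ℝ, 0 < c' ∧ ∀ R : ℝ, ∃ τ, 0 < τ ∧ τ ≤ 1 ∧
      (∀ H, IsDisc I H → |TE (dens I n 0 C (b τ)) H (1 / 2)| ≤ CΘ) ∧
      ∀ (H : ℂ → EE N) (V : Fin n → ℂ → EE N) (k T : ℝ), IsDisc I H → Normal H → Fr I H V →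
        -Real.log (nsq (H 0)) = T → T ≤ R →
        (∀ z ∈ ball (0 : ℂ) 1, Real.log (DD (H z) (fun i => V i z)) ≤
          C₁ + C₂ * (-Real.log (nsq (H z)))) →
        (-C₃ - k ≤ Real.circleAverage (fun z => Real.log (DD (H z) (fun i => V i z))) 0 (1 / 2)) →
        c' * Real.exp (-(((1 + dl * m) * k - dl * T) / n)) ≤
          ∑ i, (1 / 2) ^ 2 *
            Real.circleAverage (fun z => dens I n 0 C (b τ) (H z) (V i z)) 0 (1 / 2) := by
  have := hI
  have hn' : (0 : ℝ) < n := by exact_mod_cast hn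
  obtain ⟨A, hA, hB⟩ := StMax_528.exists_brody hX hc
  have hhalf0 : (0 : ℝ) ≤ 1 / 2 := by norm_num
  have hhalf1 : (1 / 2 : ℝ) < 1 := by norm_num
  have hTE : ∀ H, IsDisc I H → TE (fun p v => omg p v) H (1 / 2) ≤ A ^ 2 := fun H hH => by
    have := StMax_528.TE_omg_le hB hH hhalf0 hhalf1
    refine this.trans (le_of_eq ?_)
    ring
  have hdE : ∀ τ, 0 < τ → τ ≤ 1 → Dens I (fun p v => dens I n 0 C (b τ) p v) := fun τ h1 h2 => by
    have := (StMax_528.dens_omg (I := I)).const_mul C |>.add (StMax_528.dens_lev hX (hb τ h1 h2).1)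
    simpa only [dens_eq] using this
  set K : ℝ := Real.log 2 + 0 + m * C₁ with hK
  refine ⟨n / 4 * Real.exp ((Real.log c - dl * K - (1 + dl * m) * C₃ - dl * A ^ 2) / n),
    C * A ^ 2 + C, by positivity, fun R => ?_⟩
  obtain ⟨R', hR'⟩ := exists_R hX hc R
  set R2 : ℝ := m * C₁ + (m * C₂ + 1) * |R'| with hR2
  have hR20 : 0 ≤ R2 := by positivity
  refine ⟨Real.exp (-R2), Real.exp_pos _, Real.exp_le_one_iff.2 (by linarith), ?_, ?_⟩
  · intro H hH
    obtain ⟨hb1, hb2, hb3, -⟩ := hb _ (Real.exp_pos (-R2)) (Real.exp_le_one_iff.2 (by linarith))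
    have hE := hdE _ (Real.exp_pos (-R2)) (Real.exp_le_one_iff.2 (by linarith))
    have e1 : TE (dens I n 0 C (b (Real.exp (-R2)))) H (1 / 2) =
        C * TE (fun p v => omg p v) H (1 / 2) + (cav (b (Real.exp (-R2))) H (1 / 2) -
          b (Real.exp (-R2)) (H 0)) := by
      rw [← jensen_smX hb1 hH hhalf0 hhalf1, ← StMax_528.TE_const_mul]
      have hsub : closedBall (0 : ℂ) (1 / 2) ⊆ ball 0 1 := closedBall_subset_ball hhalf1
      have h3 := Green_740.TG_add hhalf0
        (((StMax_528.dens_omg (I := I)).const_mul C).continuousOn hH |>.mono hsub)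
        ((StMax_528.dens_lev hX hb1).continuousOn hH |>.mono hsub)
      have h4 : TE (dens I n 0 C (b (Real.exp (-R2)))) H (1 / 2) = Green_740.TG
          (fun z => C * omg (H z) (deriv H z) + lev (b (Real.exp (-R2))) (H z) (deriv H z))
          (1 / 2) := by
        unfold TE
        simp only [dens_eq]
        rfl
      rw [h4, h3]
      rfl
    have h0 : H 0 ∈ Cone I := hH.cone 0 (mem_ball_self one_pos)
    have hcc : ContinuousOn (b (Real.exp (-R2))) (Cone I) := fun p hp =>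
      (hb1.1 p hp).continuousAt.continuousWithinAt
    have h2 := StMax_528.abs_cav_le (M := C) hcc (fun p hp => by
      rw [abs_of_nonneg (hb2 p hp).1]; exact (hb2 p hp).2) hH hhalf0 hhalf1
    have h3 := abs_le.1 h2
    have h4 := hb2 _ h0
    have h5 := hTE H hH
    have h6 : 0 ≤ TE (dens I n 0 C (b (Real.exp (-R2)))) H (1 / 2) := by
      refine StMax_528.TE_nonneg hE (fun p hp v hv => ?_) hH hhalf0 hhalf1
      rw [dens_eq]
      exact (StMax_528.omg_nonneg p v).trans (hb3 p hp v hv)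
    rw [abs_of_nonneg h6, e1]
    have h7 := mul_le_mul_of_nonneg_left h5 hC.le
    linarith [h3.2, h4.1]
  · intro H V k T hH hN hV hT hTR hup hlow
    obtain ⟨hb1, hb2, hb3, hb4⟩ := hb _ (Real.exp_pos (-R2)) (Real.exp_le_one_iff.2 (by linarith))
    have hE := hdE _ (Real.exp_pos (-R2)) (Real.exp_le_one_iff.2 (by linarith))
    set τ := Real.exp (-R2) with hτ
    have hτ0 : 0 < τ := Real.exp_pos _
    have hnp : ∀ z ∈ ball (0 : ℂ) 1, 0 < nsq (H z) := fun z hz =>
      Sec_669.nsq_pos (ne_zero hH hz)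
    -- the data of the disc
    let D : Half2_993.Dat :=
      { h := fun z => Real.log (nsq (H z))
        d := fun z => Real.log (DD (H z) (fun i => V i z))
        S := fun z => S (H z) (fun i => V i z)
        hc := by
          refine ContinuousOn.log ?_ fun z hz => (hnp z hz).ne'
          exact LevBr_901.continuous_nsq.comp_continuousOn hH.hol.continuousOn
        dc := logDD_cont hH hV
        Sd := S_diff hI hX hS hH hV
        hle := fun z hz => Real.log_nonpos (hnp z hz).le (hN.le_one z hz)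
        hP := by
          intro ε hε r₀ hr₀
          have h1 : ∀ᶠ s in 𝓝[<] (1 : ℝ),
              -ε < Real.circleAverage (fun z => Real.log (nsq (H z))) 0 s :=
            hN.avg.eventually (lt_mem_nhds (by linarith))
          have h2 : ∀ᶠ s in 𝓝[<] (1 : ℝ), s ∈ Ioo (max r₀ 0) 1 :=
            Ioo_mem_nhdsLT (max_lt hr₀ one_pos)
          obtain ⟨s, h3, h4⟩ := (h1.and h2).exists
          exact ⟨s, (le_max_left _ _).trans_lt h4.1, ((le_max_right _ _).trans_lt h4.1).le, h4.2,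
            h3.le⟩ }
    have hs2 : ∀ z ∈ ball (0 : ℂ) 1, D.s2 m z = ns (H z) := by
      intro z hz
      have h1 := hSn (H z) (hH.cone z hz) (fun i => V i z) (hV.tanFam hz)
      have h2 := hV.pos z hz
      have h3 := hnp z hz
      show ‖S (H z) (fun i => V i z)‖ ^ 2 * Real.exp (Real.log (nsq (H z)) -
        m * Real.log (DD (H z) (fun i => V i z))) = ns (H z)
      rw [Real.exp_sub, Real.exp_log h3, ← Real.log_pow, Real.exp_log (by positivity)]
      rw [← mul_div_assoc, h1]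
      field_simp
    have hS1 : ∀ t : ℝ, 0 < t → t ≤ 1 →
        Real.circleAverage (fun z => Real.log (‖D.S z‖ ^ 2 + t)) 0 (1 / 2) ≤ K := by
      intro t ht ht1
      refine D.avg_S_le (B := 0) (C₁ := C₁) (C₂ := C₂) (by positivity) le_rfl hC₁ hC₂ ht ht1
        (fun z hz => ?_) (fun z hz => hup z hz)
      rw [hs2 z hz, Real.exp_zero]
      exact (hns _ (hH.cone z hz)).2
    have hsub : sphere (0 : ℂ) (1 / 2) ⊆ ball 0 1 :=
      sphere_subset_closedBall.trans (closedBall_subset_ball hhalf1)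
    have hR1 : ∀ z ∈ sphere (0 : ℂ) (1 / 2), m * D.d z - D.h z ≤ R2 := by
      intro z hz
      have h1 := hup z (hsub hz)
      have h2 := hR' H hH hN.le_one (by
        rw [← Real.exp_log (hnp 0 (mem_ball_self one_pos))]
        exact Real.exp_le_exp.2 (by linarith)) z (sphere_subset_closedBall hz)
      have h3 := h2.trans (le_abs_self R')
      show m * Real.log (DD (H z) (fun i => V i z)) - Real.log (nsq (H z)) ≤ R2
      have h4 := mul_le_mul_of_nonneg_left h1 (Nat.cast_nonneg m : (0 : ℝ) ≤ m)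
      have h5 : (m * C₂ + 1) * (-Real.log (nsq (H z))) ≤ (m * C₂ + 1) * |R'| :=
        mul_le_mul_of_nonneg_left h3 (by positivity)
      rw [hR2]
      nlinarith
    have hh : Real.circleAverage D.h 0 (1 / 2) ≤ A ^ 2 - T := by
      have h1 := StMax_528.Tom_eq_TE hH hhalf0 hhalf1
      unfold StCpt_528.Tom at h1
      have h2 := hTE H hH
      have h3 : Real.circleAverage D.h 0 (1 / 2) - Real.log (nsq (H 0)) =
        TE (fun p v => omg p v) H (1 / 2) := h1
      linarith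
    set q : ℂ → ℝ := fun z => ∑ i, dens I n 0 C (b τ) (H z) (V i z) with hq
    have hqi : ∀ i, ContinuousOn (fun z => dens I n 0 C (b τ) (H z) (V i z)) (ball 0 1) := fun i =>
      dens_cont hX hE hH (hV.tan i) (hV.hol i).continuousOn
    have hqc : ContinuousOn q (sphere 0 (1 / 2)) :=
      (continuousOn_finsetSum _ fun i _ => hqi i).mono hsub
    have hrate := D.rate (n := n) hn (m := m) (δ := dl) (K := K) (R := R2) (τ := τ) (c := c)
      (k := k) (T := T) (C₃ := C₃) (C₄ := A ^ 2) (by positivity) hdl.le hτ0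
      (by rw [hτ, ← Real.exp_add]; simp) hR1 hS1 hlow hh hqc (by
        intro z hz
        have hz' := hsub hz
        have h1 := hb4 (H z) (hH.cone z hz') (fun i => V i z) (hV.tanFam hz')
        have h2 := hV.pos z hz'
        have h3 := (hns _ (hH.cone z hz')).1
        have h4 : 0 < ns (H z) + τ := by positivity
        rw [hs2 z hz']
        refine le_trans (le_of_eq ?_) (h1.trans (le_of_eq ?_))
        · congr 1
          rw [Real.rpow_def_of_pos (by positivity)]
          congr 1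
          rw [Real.log_mul (by positivity) h2.ne', Real.log_mul hc0.ne' (by positivity),
            Real.log_rpow h4]
          have e5 : D.d z = Real.log (DD (H z) (fun i => V i z)) := rfl
          rw [e5, div_eq_mul_inv]
          ring
        · simp only [hq, dens_eq])
    have hci : ∀ i ∈ (Finset.univ : Finset (Fin n)), CircleIntegrable
        (fun z => dens I n 0 C (b τ) (H z) (V i z)) 0 (1 / 2) := fun i _ => by
      refine ContinuousOn.circleIntegrable' ((hqi i).mono ?_)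
      rw [abs_of_nonneg hhalf0]; exact hsub
    have hsum : Real.circleAverage q 0 (1 / 2) = ∑ i, Real.circleAverage
        (fun z => dens I n 0 C (b τ) (H z) (V i z)) 0 (1 / 2) := by
      rw [hq]
      exact Real.circleAverage_fun_sum hci
    rw [← Finset.mul_sum, ← hsum]
    refine le_trans (le_of_eq ?_) (mul_le_mul_of_nonneg_left hrate (by positivity))
    rw [mul_assoc, ← Real.exp_add]
    have : (Real.log c - dl * K - (1 + dl * m) * C₃ - dl * A ^ 2) / n +
        -(((1 + dl * m) * k - dl * T) / n) = (Real.log c - dl * K - (1 + dl * m) * C₃ -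
          dl * A ^ 2 - ((1 + dl * m) * k - dl * T)) / n := by
      field_simp
      ring
    rw [this]
    ring

end Crest.Agent.R269.Half3_993
end
end

-- ▼ part R269/BGl1_653
section

/-! Row 269, leaf 11.1 (helper653): `DD` is 290's `D`, properties of `omg`, and
`|lev w q v|, gsq w q v ≤ C omg q v` on tangent vectors for smooth functions `w` on `X`. -/

set_option autoImplicit false
set_option linter.unusedSectionVars false

open Complex Filter Topology MvPolynomial Crest.AlgGeometry.ProjEmb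
open scoped ContDiff ComplexConjugate

namespace Crest.Agent.R269.BGl1_653

open Crest.Agent.R269.Geo_328 Crest.Agent.R269.Defs_58
open Crest.Agent.R269.LevC_653 (gsq gmul)
open Crest.Agent.R269.Frm290 (gmat prj gram D)

noncomputable section

variable {N n : ℕ} {I : Ideal (HomCoordRing N)}

/-! ### `Defs_58.lev` is `LevC_653.lev` -/

theorem lev_eq {ι : Type} [Fintype ι] (φ : (ι → ℂ) → ℝ) (p v : ι → ℂ) :
    Defs_58.lev φ p v = LevC_653.lev φ p v := by
  unfold Defs_58.lev LevC_653.lev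
  rw [iteratedFDeriv_two_apply, iteratedFDeriv_two_apply]
  simp

/-! ### `DD` and `omg` in 290's notation -/

theorem nsq_eq (p : EE N) : Frm290.nsq p = Geo_328.nsq p := rfl

/-- `Unit ⊕ Fin n ≃ Fin (n+1)` -/
def eqv (n : ℕ) : Unit ⊕ Fin n ≃ Fin (n + 1) where
  toFun := Sum.elim (fun _ => 0) Fin.succ
  invFun := Fin.cases (Sum.inl ()) Sum.inr
  left_inv := by rintro (_ | i) <;> simp
  right_inv := by
    intro i
    refine Fin.cases ?_ (fun i => ?_) i <;> simp

theorem gram_apply (p : EE N) (b : Fin n → EE N) (i j : Fin n) :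
    gram p (Matrix.of fun k l => b l k) i j = ((Geo_328.nsq p : ℂ))⁻¹ *
      ((∑ k, conj (b i k) * b j k) - ((Geo_328.nsq p : ℂ))⁻¹ * (∑ k, conj (p k) * b j k) *
        (∑ k, conj (b i k) * p k)) := by
  have e1 : (Matrix.of fun (k : Fin (N + 1)) (l : Fin n) => b l k).conjTranspose i = star (b i) := by
    ext k; simp [Matrix.conjTranspose_apply]
  have e2 : (fun k => (Matrix.of fun (k : Fin (N + 1)) (l : Fin n) => b l k) k j) = b j := by
    ext k; simp
  rw [gram, Matrix.mul_assoc, Matrix.mul_apply]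
  have e3 : ∀ k, (gmat p * Matrix.of fun k l => b l k) k j = (gmat p).mulVec (b j) k := by
    intro k
    simp [Matrix.mul_apply, Matrix.mulVec, dotProduct]
  simp only [e3]
  have e4 : (gmat p).mulVec (b j) = ((Geo_328.nsq p : ℂ))⁻¹ •
      (b j - (((Geo_328.nsq p : ℂ))⁻¹ * (star p ⬝ᵥ b j)) • p) := by
    rw [gmat, Matrix.smul_mulVec, Frm290.prj_mulVec]
    rfl
  rw [e4]
  simp only [Matrix.conjTranspose_apply, Matrix.of_apply, Pi.smul_apply, Pi.sub_apply, smul_eq_mul,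
    RCLike.star_def]
  have e5 : star p ⬝ᵥ b j = ∑ k, conj (p k) * b j k := by
    simp [dotProduct]
  rw [e5]
  generalize (∑ k, conj (p k) * b j k) = s
  generalize ((Geo_328.nsq p : ℂ))⁻¹ = a
  rw [mul_sub, Finset.mul_sum, Finset.mul_sum, Finset.mul_sum, ← Finset.sum_sub_distrib]
  refine Finset.sum_congr rfl fun k _ => ?_
  ring

/-- `|p ∧ b|² / |p|^(2(n+1)) = det g(b_i, b_j)`. -/
theorem DD_eq_D {p : EE N} (hp : p ≠ 0) (b : Fin n → EE N) :
    DD p b = D p (Matrix.of fun k l => b l k) := by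
  have hn : (0 : ℝ) < Geo_328.nsq p := Frm290.nsq_pos hp
  have hn' : ((Geo_328.nsq p : ℝ) : ℂ) ≠ 0 := by exact_mod_cast hn.ne'
  set W : Matrix (Fin (n + 1)) (Fin (n + 1)) ℂ := Matrix.of fun i j =>
    ∑ k, (Fin.cons p b : Fin (n + 1) → EE N) i k * conj ((Fin.cons p b : Fin (n + 1) → EE N) j k)
    with hW
  set A : Matrix Unit Unit ℂ := Matrix.of fun _ _ => (Geo_328.nsq p : ℂ) with hA
  set B : Matrix Unit (Fin n) ℂ := Matrix.of fun _ j => ∑ k, p k * conj (b j k) with hB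
  set C : Matrix (Fin n) Unit ℂ := Matrix.of fun i _ => ∑ k, b i k * conj (p k) with hC
  set E : Matrix (Fin n) (Fin n) ℂ := Matrix.of fun i j => ∑ k, b i k * conj (b j k) with hE
  have h1 : W.submatrix (eqv n) (eqv n) = Matrix.fromBlocks A B C E := by
    ext i j
    rcases i with i | i <;> rcases j with j | j
    · simp only [Matrix.submatrix_apply, hW, Matrix.of_apply, Matrix.fromBlocks_apply₁₁, hA, eqv,
        Equiv.coe_fn_mk, Sum.elim_inl, Fin.cons_zero]
      rw [Geo_328.nsq]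
      push_cast
      exact Finset.sum_congr rfl fun k _ => Complex.mul_conj' (p k)
    · simp [hW, hB, eqv]
    · simp [hW, hC, eqv]
    · simp [hW, hE, eqv]
  have hAu : IsUnit A.det := by
    rw [Matrix.det_unique]
    simpa [hA] using hn'
  let : Invertible A := Matrix.invertibleOfIsUnitDet A hAu
  have hAinv : (⅟A) = Matrix.of fun _ _ => ((Geo_328.nsq p : ℂ))⁻¹ := by
    rw [Matrix.invOf_eq_nonsing_inv]
    apply Matrix.inv_eq_right_inv
    ext i j
    simp [hA, Matrix.mul_apply, hn']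
  have h2 : E - C * ⅟A * B = ((Geo_328.nsq p : ℂ)) • (gram p (Matrix.of fun k l => b l k)).transpose := by
    ext i j
    rw [hAinv]
    simp only [Matrix.sub_apply, Matrix.mul_apply, Matrix.smul_apply, Matrix.transpose_apply,
      smul_eq_mul, Finset.univ_unique, Finset.sum_singleton, hE, hC, hB, Matrix.of_apply]
    rw [gram_apply, ← mul_assoc, mul_inv_cancel₀ hn', one_mul]
    have e1 : ∑ k, b i k * conj (b j k) = ∑ k, conj (b j k) * b i k :=
      Finset.sum_congr rfl fun k _ => mul_comm _ _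
    have e2 : ∑ k, b i k * conj (p k) = ∑ k, conj (p k) * b i k :=
      Finset.sum_congr rfl fun k _ => mul_comm _ _
    have e3 : ∑ k, p k * conj (b j k) = ∑ k, conj (b j k) * p k :=
      Finset.sum_congr rfl fun k _ => mul_comm _ _
    rw [e1, e2, e3]
    ring
  have h3 : W.det = (Geo_328.nsq p : ℂ) ^ (n + 1) * (gram p (Matrix.of fun k l => b l k)).det := by
    rw [← Matrix.det_submatrix_equiv_self (eqv n) W, h1, Matrix.det_fromBlocks₁₁, h2,
      Matrix.det_smul, Matrix.det_transpose, Matrix.det_unique]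
    simp only [hA, Matrix.of_apply, Fintype.card_fin]
    ring
  have h4 : W.det.re = Geo_328.nsq p ^ (n + 1) * D p (Matrix.of fun k l => b l k) := by
    rw [h3, D, ← Complex.ofReal_pow, Complex.re_ofReal_mul]
  unfold DD wedgeSq
  rw [h4, mul_div_assoc, mul_comm, div_mul_cancel₀ _ (pow_pos hn _).ne']

theorem omg_eq_dot {p : EE N} (hp : p ≠ 0) (v : EE N) :
    omg p v = (star v ⬝ᵥ ((gmat p).mulVec v)).re := by
  rw [Frm290.gmat_dot' hp, Complex.ofReal_re]
  unfold omg
  have e : star p ⬝ᵥ v = ∑ i, v i * conj (p i) := by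
    simp only [dotProduct, Pi.star_apply, RCLike.star_def]
    exact Finset.sum_congr rfl fun k _ => mul_comm _ _
  rw [e]
  simp only [Frm290.nsq]
  ring

theorem omg_eq_prj {p : EE N} (hp : p ≠ 0) (v : EE N) :
    omg p v = (Geo_328.nsq p)⁻¹ * Geo_328.nsq ((prj p).mulVec v) := by
  rw [omg_eq_dot hp, Frm290.gmat_dot hp, Complex.ofReal_re]
  rfl

theorem omg_nonneg {p : EE N} (hp : p ≠ 0) (v : EE N) : 0 ≤ omg p v := by
  rw [omg_eq_prj hp]
  exact mul_nonneg (inv_nonneg.2 (Frm290.nsq_nonneg p)) (Frm290.nsq_nonneg _)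

theorem omg_smul {p : EE N} (hp : p ≠ 0) {c : ℂ} (hc : c ≠ 0) (v : EE N) :
    omg (c • p) (c • v) = omg p v := by
  rw [omg_eq_dot (smul_ne_zero hc hp), omg_eq_dot hp, Frm290.gmat_smul hc, Matrix.mulVec_smul,
    Matrix.smul_mulVec, star_smul, smul_dotProduct, dotProduct_smul, dotProduct_smul]
  simp only [smul_eq_mul, RCLike.star_def]
  have h1 : conj c * (c * ((((‖c‖ ^ 2 : ℝ) : ℂ)⁻¹) * (star v ⬝ᵥ (gmat p).mulVec v)))
      = star v ⬝ᵥ (gmat p).mulVec v := by
    have hcc : conj c ≠ 0 := by simpa using hc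
    push_cast
    rw [← Complex.mul_conj' c]
    field_simp
  rw [h1]

theorem omg_le {p : EE N} (hp : p ≠ 0) (v : EE N) :
    omg p v ≤ Geo_328.nsq v / Geo_328.nsq p := by
  have h := Frm290.nsq_pos hp
  have h' : (0 : ℝ) < ∑ i, ‖p i‖ ^ 2 := h
  unfold omg
  simp only [Geo_328.nsq]
  rw [div_le_div_iff₀ (by positivity) h']
  have h2 : (0 : ℝ) ≤ ‖∑ i, v i * conj (p i)‖ ^ 2 := by positivity
  nlinarith

/-- horizontal part -/
theorem exists_hor {p : EE N} (hp : p ≠ 0) (v : EE N) :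
    ∃ r : ℂ, Geo_328.nsq (v + r • p) = Geo_328.nsq p * omg p v := by
  refine ⟨-((Geo_328.nsq p : ℂ)⁻¹ * (star p ⬝ᵥ v)), ?_⟩
  have e : v + (-((Geo_328.nsq p : ℂ)⁻¹ * (star p ⬝ᵥ v))) • p = (prj p).mulVec v := by
    rw [Frm290.prj_mulVec]
    rw [neg_smul, ← sub_eq_add_neg]
    rfl
  have hn : Geo_328.nsq p ≠ 0 := (Frm290.nsq_pos hp).ne'
  rw [e, omg_eq_prj hp, ← mul_assoc, mul_inv_cancel₀ hn, one_mul]

theorem norm_sq_le_nsq (v : EE N) : ‖v‖ ^ 2 ≤ Geo_328.nsq v := by
  have h1 : ‖v‖ ≤ Real.sqrt (Geo_328.nsq v) := by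
    rw [pi_norm_le_iff_of_nonneg (Real.sqrt_nonneg _)]
    intro k
    apply Real.le_sqrt_of_sq_le
    exact Finset.single_le_sum (f := fun k => ‖v k‖ ^ 2)
      (fun _ _ => by positivity) (Finset.mem_univ k)
  calc ‖v‖ ^ 2 ≤ (Real.sqrt (Geo_328.nsq v)) ^ 2 := by gcongr
    _ = Geo_328.nsq v := Real.sq_sqrt (Frm290.nsq_nonneg v)

/-! ### Bounds for smooth functions on `X` -/

theorem two_le : (2 : WithTop ℕ∞) ≤ ∞ := by
  have : ((2 : ℕ∞) : WithTop ℕ∞) ≤ ((⊤ : ℕ∞) : WithTop ℕ∞) := WithTop.coe_le_coe.2 le_top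
  exact this

section bound

variable {w : EE N → ℝ}

theorem fderiv_euler (hw : SmX I w) {q : EE N} (hq : q ∈ Cone I)
    (r : ℂ) : fderiv ℝ w q (r • q) = 0 := by
  have hd : DifferentiableAt ℝ w q := (hw.1 q hq).differentiableAt (by simp)
  have h1 : HasDerivAt (fun t : ℝ => (1 + (t : ℂ) * r) • q) (r • q) 0 := by
    have h2 : HasDerivAt (fun t : ℝ => (1 + (t : ℂ) * r)) r 0 := by
      have := ((Complex.ofRealCLM.hasDerivAt (x := (0 : ℝ))).mul_const r).const_add 1
      simpa using this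
    exact h2.smul_const q
  have h0 : (1 + ((0 : ℝ) : ℂ) * r) • q = q := by simp
  have h3 : HasDerivAt (fun t : ℝ => w ((1 + (t : ℂ) * r) • q)) (fderiv ℝ w q (r • q)) 0 := by
    have hd' : HasFDerivAt w (fderiv ℝ w q) ((1 + ((0 : ℝ) : ℂ) * r) • q) := by
      rw [h0]; exact hd.hasFDerivAt
    exact hd'.comp_hasDerivAt (0 : ℝ) h1
  have h4 : (fun t : ℝ => w ((1 + (t : ℂ) * r) • q)) =ᶠ[𝓝 0] fun _ => w q := by
    have h5 : ContinuousAt (fun t : ℝ => (1 + (t : ℂ) * r)) 0 := by fun_prop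
    have h6 : ∀ᶠ t : ℝ in 𝓝 0, (1 + (t : ℂ) * r) ≠ 0 := h5.eventually_ne (by simp)
    filter_upwards [h6] with t ht using hw.2 q hq _ ht
  have h7 := h4.hasDerivAt_iff.1 h3
  exact h7.unique (hasDerivAt_const _ _) 

theorem gsq_add_smul (hw : SmX I w) {q : EE N} (hq : q ∈ Cone I)
    (v : EE N) (r : ℂ) : gsq w q (v + r • q) = gsq w q v := by
  rw [LevC_653.gsq_eq, LevC_653.gsq_eq, smul_add, map_add, map_add, smul_smul,
    fderiv_euler hw hq, fderiv_euler hw hq, add_zero, add_zero]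

theorem gsq_smul_point (hX : IsSmoothProjective I n) (hw : SmX I w) {q : EE N} (hq : q ∈ Cone I)
    (C : ConeChart I n q) {c : ℂ} (hc : c ≠ 0) {v : EE N} (hv : v ∈ Tan I q) :
    gsq w (c • q) (c • v) = gsq w q v := by
  have hu' : ContDiffAt ℝ 2 w (c • q) := (hw.1 _ (smul_mem_Cone hX hq hc)).of_le two_le
  have hu : ContDiffAt ℝ 2 w q := (hw.1 _ hq).of_le two_le
  have h1 : ContDiffAt ℝ 2 (fun x : EE N => w (c • x)) q :=
    ContDiffAt.comp (g := w) q hu' (contDiffAt_id.const_smul c)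
  have h2 : gsq (fun x : EE N => w (c • x)) q v = gsq w (c • q) (c • v) := by
    have h3 : HasFDerivAt (fun x : EE N => c • x) (c • ContinuousLinearMap.id ℂ (EE N)) q :=
      (hasFDerivAt_id q).const_smul c
    have := Lev_901.gsq_comp_hol (F := fun x : EE N => c • x) (x := q) (u := w)
      (LevC_653.diff1 hu') h3.differentiableAt v
    rw [this, h3.fderiv]
    rfl
  rw [← h2]
  apply LevCone_901.gsq_congr_cone hX hq C h1 hu _ hv
  filter_upwards [self_mem_nhdsWithin] with x hx using hw.2 x hx c hc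

/-- on tangent vectors, the Levi form and the gradient of a smooth function are bounded by `omg` -/
theorem exists_bound (hI : I.IsPrime) (hX : IsSmoothProjective I n) (hw : SmX I w) :
    ∃ C : ℝ, 0 ≤ C ∧ ∀ q ∈ Cone I, |w q| ≤ C ∧ ∀ v ∈ Tan I q,
      |LevC_653.lev w q v| ≤ C * omg q v ∧ gsq w q v ≤ C * omg q v := by
  set K : Set (EE N) := {p : EE N | p ∈ affineCone I ∧ Geo_328.nsq p = 1} with hK
  have hKc : IsCompact K := AtlX_632.isCompact_sphereCone I
  have hKC : ∀ q ∈ K, q ∈ Cone I := by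
    rintro q ⟨h1, h2⟩
    refine ⟨h1, ?_⟩
    rintro rfl
    simp [Geo_328.nsq] at h2
  have h2 : ∀ q ∈ K, ContDiffAt ℝ 2 w q := fun q hq =>
    (hw.1 q (hKC q hq)).of_le two_le
  have c0 : ContinuousOn (fun q => ‖w q‖) K := fun q hq =>
    (h2 q hq).continuousAt.norm.continuousWithinAt
  have c1 : ContinuousOn (fun q => ‖fderiv ℝ w q‖) K := fun q hq =>
    (((h2 q hq).fderiv_right (m := 1) (by norm_num)).continuousAt.norm).continuousWithinAt
  have c2 : ContinuousOn (fun q => ‖fderiv ℝ (fderiv ℝ w) q‖) K := fun q hq =>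
    ((((h2 q hq).fderiv_right (m := 1) (by norm_num)).fderiv_right (m := 0)
      (by norm_num)).continuousAt.norm).continuousWithinAt
  obtain ⟨C0, hC0⟩ := hKc.bddAbove_image c0
  obtain ⟨C1, hC1⟩ := hKc.bddAbove_image c1
  obtain ⟨C2, hC2⟩ := hKc.bddAbove_image c2
  refine ⟨|C0| + C1 ^ 2 + |C2|, by positivity, fun q hq => ?_⟩
  obtain ⟨c, hc, hcS⟩ := Crest.Agent.R269.DictA_886.exists_smul_Sph hq.2
  have hcK : c • q ∈ K := ⟨(smul_mem_Cone hX hq hc).1, hcS⟩
  have b0 : |w (c • q)| ≤ C0 := hC0 ⟨_, hcK, rfl⟩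
  have b1 : ‖fderiv ℝ w (c • q)‖ ≤ C1 := hC1 ⟨_, hcK, rfl⟩
  have b2 : ‖fderiv ℝ (fderiv ℝ w) (c • q)‖ ≤ C2 := hC2 ⟨_, hcK, rfl⟩
  have hns : Geo_328.nsq (c • q) = 1 := hcS
  refine ⟨?_, fun v hv => ?_⟩
  · rw [← hw.2 q hq c hc]
    have := abs_nonneg C0
    have := le_abs_self C0
    have := abs_nonneg C2
    nlinarith [sq_nonneg C1]
  · have C := Classical.choice (Chart_632.chartStmt N n I hI hX q hq)
    have C' := Classical.choice (Chart_632.chartStmt N n I hI hX (c • q) (smul_mem_Cone hX hq hc))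
    have hcq := smul_mem_Cone hX hq hc
    have hcv : c • v ∈ Tan I (c • q) := by
      rw [Tan_smul hX q hc]; exact Submodule.smul_mem _ _ hv
    obtain ⟨r, hr⟩ := exists_hor hcq.2 (c • v)
    rw [hns, one_mul, omg_smul hq.2 hc] at hr
    set x := c • v + r • (c • q) with hx
    have hxn : ‖x‖ ^ 2 ≤ omg q v := by rw [← hr]; exact norm_sq_le_nsq x
    have l1 : LevC_653.lev w q v = LevC_653.lev w (c • q) x := by
      rw [hx, LevCone_901.lev_add_smul_self hX hcq C' hw.2 (h2 _ hcK) hcv r,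
        LevCone_901.lev_smul_point hX hq C hw.2 hc
          ((hw.1 q hq).of_le two_le) (h2 _ hcK) hv]
    have l2 : gsq w q v = gsq w (c • q) x := by
      rw [hx, gsq_add_smul hw hcq, gsq_smul_point hX hw hq C hc hv]
    have hIx : ‖Complex.I • x‖ = ‖x‖ := by rw [norm_smul, Complex.norm_I, one_mul]
    have hom := omg_nonneg hq.2 v
    constructor
    · rw [l1]
      unfold LevC_653.lev
      have k1 : |fderiv ℝ (fderiv ℝ w) (c • q) x x| ≤ C2 * ‖x‖ ^ 2 := by
        have := (fderiv ℝ (fderiv ℝ w) (c • q)).le_opNorm₂ x x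
        rw [Real.norm_eq_abs] at this
        calc _ ≤ ‖fderiv ℝ (fderiv ℝ w) (c • q)‖ * ‖x‖ * ‖x‖ := this
          _ ≤ C2 * ‖x‖ * ‖x‖ := by gcongr
          _ = C2 * ‖x‖ ^ 2 := by ring
      have k2 : |fderiv ℝ (fderiv ℝ w) (c • q) (Complex.I • x) (Complex.I • x)| ≤ C2 * ‖x‖ ^ 2 := by
        have := (fderiv ℝ (fderiv ℝ w) (c • q)).le_opNorm₂ (Complex.I • x) (Complex.I • x)
        rw [Real.norm_eq_abs, hIx] at this
        calc _ ≤ ‖fderiv ℝ (fderiv ℝ w) (c • q)‖ * ‖x‖ * ‖x‖ := this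
          _ ≤ C2 * ‖x‖ * ‖x‖ := by gcongr
          _ = C2 * ‖x‖ ^ 2 := by ring
      rw [abs_le] at k1 k2
      have hC2' : 0 ≤ C2 := le_trans (norm_nonneg (fderiv ℝ (fderiv ℝ w) (c • q))) b2
      have k3 : C2 * ‖x‖ ^ 2 ≤ C2 * omg q v := mul_le_mul_of_nonneg_left hxn hC2'
      have k4 : 0 ≤ (|C0| + C1 ^ 2) * omg q v := by positivity
      have k5 : C2 * omg q v ≤ |C2| * omg q v := mul_le_mul_of_nonneg_right (le_abs_self _) hom
      have k6 : 0 ≤ C2 * ‖x‖ ^ 2 := by positivity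
      rw [abs_le]
      constructor <;> nlinarith
    · rw [l2, LevC_653.gsq_eq]
      have hC1' : 0 ≤ C1 := (norm_nonneg _).trans b1
      have k1 : (fderiv ℝ w (c • q) x) ^ 2 ≤ C1 ^ 2 * ‖x‖ ^ 2 := by
        have := (fderiv ℝ w (c • q)).le_opNorm x
        have h3 : ‖fderiv ℝ w (c • q) x‖ ≤ C1 * ‖x‖ := this.trans (by gcongr)
        rw [← mul_pow, ← sq_abs]
        exact pow_le_pow_left₀ (abs_nonneg _) h3 2
      have k2 : (fderiv ℝ w (c • q) (Complex.I • x)) ^ 2 ≤ C1 ^ 2 * ‖x‖ ^ 2 := by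
        have := (fderiv ℝ w (c • q)).le_opNorm (Complex.I • x)
        rw [hIx] at this
        have h3 : ‖fderiv ℝ w (c • q) (Complex.I • x)‖ ≤ C1 * ‖x‖ := this.trans (by gcongr)
        rw [← mul_pow, ← sq_abs]
        exact pow_le_pow_left₀ (abs_nonneg _) h3 2
      have k3 : C1 ^ 2 * ‖x‖ ^ 2 ≤ C1 ^ 2 * omg q v := mul_le_mul_of_nonneg_left hxn (sq_nonneg _)
      have k4 : 0 ≤ (|C0| + |C2|) * omg q v := by positivity
      have k6 : 0 ≤ C1 ^ 2 * ‖x‖ ^ 2 := by positivity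
      nlinarith

end bound

end

end Crest.Agent.R269.BGl1_653
end

-- ▼ part R269/Half4_993
section

/-!
# R269 (S0411), LINE B: `HintStmt` of WF_731 from the function `b` of helper653 (helper993)

* `ref_omg`, `dom_alpha`, `dom_lev`, `finE_normal`, `TE1_omg` : the characteristics of a normalised disc;
* `EBStmt` : the statement of helper653's `exists_b`;
* `hint_of : EBStmt → HintStmt`.
-/

set_option autoImplicit false

open MvPolynomial Crest.AlgGeometry.ProjEmb Set Filter Topology Metric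
open scoped ContDiff ComplexConjugate

noncomputable section

namespace Crest.Agent.R269.Half4_993

open Crest.Agent.R269.Geo_328 (EE VV CC Cone Tan nsq ConeChart)
open Crest.Agent.R269.Defs_58 (omg SmX lev alpha DD TanFam HolSec BigP PosField)
open Crest.Agent.R269.DefsS_731 (TE TG cav wdg IsDisc Normal FinE)
open Crest.Agent.R269.Iface_731 (unw dens)
open Crest.Agent.R269.TE_499 (TE1 bav Ref Dom CDens TB)
open Crest.Agent.R269.WF_731 (Jf LJf WF kdl HintStmt)
open Crest.Agent.R269.Half3_993 (Fr)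

variable {N n : ℕ} {I : Ideal (HomCoordRing N)}

/-! ### the reference density -/

theorem ref_omg : Ref I (fun p v => omg p v) :=
  ⟨(StMax_528.dens_omg (I := I)).cont, fun p _ v _ => StMax_528.omg_nonneg p v⟩

theorem cdens_alpha (hI : I.IsPrime) (hX : IsSmoothProjective I n) :
    CDens I (fun p v => alpha I n p v) := by
  have := hI
  intro x₀ hx
  have hp : x₀.1 ∈ Cone I := hx.1
  obtain ⟨G, hG⟩ := Alp_927.exists_eqs hX hp
  have g1 : ContinuousAt (fun x : EE N × EE N => LevC_653.lev (Alp_927.lG G) x.1 x.2) x₀ :=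
    Lev_901.continuousAt_lev (Alp_927.contDiffAt_lG hG.pos.ne') x₀.2
  have g2 : ContinuousAt (fun x : EE N × EE N => omg x.1 x.2) x₀ :=
    Alp_927.continuous_omg_at (v := x₀.2) hp.2
  have h1 : ContinuousAt (fun x : EE N × EE N =>
      LevC_653.lev (Alp_927.lG G) x.1 x.2 - (n + 1) * omg x.1 x.2) x₀ :=
    g1.sub (continuousAt_const.mul g2)
  have h2 : ∀ᶠ x : EE N × EE N in 𝓝 x₀, Alp_927.WS (Alp_927.gM G x.1) ≠ 0 :=
    continuousAt_fst.eventually (Alp_927.eventually_WS_ne hG.pos.ne')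
  have h3 : ∀ᶠ x : EE N × EE N in 𝓝[TB I] x₀, alpha I n x.1 x.2
      = LevC_653.lev (Alp_927.lG G) x.1 x.2 - (n + 1) * omg x.1 x.2 := by
    filter_upwards [nhdsWithin_le_nhds h2, self_mem_nhdsWithin] with x k1 k2
    exact Alp_927.alpha_eq Geo_328.chartStmt hX k2.1 k2.2 (Alp_927.eqs_of_ne hG.mem k1)
  exact (h1.continuousWithinAt (s := TB I)).congr_of_eventuallyEq h3
    (h3.self_of_nhdsWithin hx)

theorem dom_alpha (hI : I.IsPrime) (hX : IsSmoothProjective I n) :
    ∃ C : ℝ, 0 ≤ C ∧ Dom I (fun p v => omg p v) (fun p v => alpha I n p v) C := by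
  obtain ⟨C, h0, h⟩ := Alp_927.alpha_bdd Geo_328.chartStmt (hI := hI) hX
  exact ⟨C, h0, cdens_alpha hI hX, h⟩

theorem dom_lev (hI : I.IsPrime) (hX : IsSmoothProjective I n) {u : EE N → ℝ} (hu : SmX I u) :
    ∃ C : ℝ, 0 ≤ C ∧ (∀ p ∈ Cone I, |u p| ≤ C) ∧
      Dom I (fun p v => omg p v) (fun p v => LevC_653.lev u p v) C := by
  obtain ⟨C, h0, h⟩ := BGl1_653.exists_bound hI hX hu
  have := hI
  have h2 := (StMax_528.dens_lev hX hu).cont
  simp only [StMax_528.lev_eq] at h2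
  exact ⟨C, h0, fun p hp => (h p hp).1, h2, fun p hp v hv => ((h p hp).2 v hv).1⟩

/-! ### normalised discs -/

section disc

variable {H : ℂ → EE N}

theorem TE_omg_eq (hH : IsDisc I H) {s : ℝ} (h0 : 0 ≤ s) (h1 : s < 1) :
    TE (fun p v => omg p v) H s =
      Real.circleAverage (fun z => Real.log (nsq (H z))) 0 s - Real.log (nsq (H 0)) := by
  rw [← StMax_528.Tom_eq_TE hH h0 h1]
  rfl

theorem finE_normal (hH : IsDisc I H) (hN : Normal H) : FinE (fun p v => omg p v) H := by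
  refine ⟨-Real.log (nsq (H 0)), fun s hs => ?_⟩
  rw [TE_omg_eq hH hs.1.le hs.2]
  have hsub : sphere (0 : ℂ) |s| ⊆ ball 0 1 := by
    rw [abs_of_pos hs.1]
    exact sphere_subset_closedBall.trans (closedBall_subset_ball hs.2)
  have hnp : ∀ z ∈ ball (0 : ℂ) 1, 0 < nsq (H z) := fun z hz =>
    Sec_669.nsq_pos (hH.cone z hz).2
  have hci : CircleIntegrable (fun z => Real.log (nsq (H z))) 0 s := by
    refine ContinuousOn.circleIntegrable' (ContinuousOn.mono ?_ hsub)
    exact ContinuousOn.log (LevBr_901.continuous_nsq.comp_continuousOn hH.hol.continuousOn)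
      fun z hz => (hnp z hz).ne'
  have h2 : Real.circleAverage (fun z => Real.log (nsq (H z))) 0 s ≤ 0 :=
    Real.circleAverage_mono_on_of_le_circle hci
      (fun z hz => Real.log_nonpos (hnp z (hsub hz)).le (hN.le_one z (hsub hz)))
  linarith

theorem TE1_omg (hH : IsDisc I H) (hN : Normal H) :
    TE1 (fun p v => omg p v) H = -Real.log (nsq (H 0)) := by
  apply TE_499.TE1_unique
  have h1 := hN.avg.sub_const (Real.log (nsq (H 0)))
  rw [zero_sub] at h1
  refine h1.congr' ?_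
  filter_upwards [TE_499.mem_Ioo_nhdsLT (zero_lt_one)] with s hs
  exact (TE_omg_eq hH hs.1.le hs.2).symm

/-- `|bav u H| ≤ sup |u|` -/
theorem abs_bav_le (hI : I.IsPrime) (hX : IsSmoothProjective I n) {u : EE N → ℝ} (hu : SmX I u)
    {M : ℝ} (hM : ∀ p ∈ Cone I, |u p| ≤ M) (hH : IsDisc I H) (hf : FinE (fun p v => omg p v) H) :
    |bav u H| ≤ M := by
  obtain ⟨C, -, -, hC⟩ := dom_lev hI hX hu
  have h1 := (TE_499.tendsto_cav ref_omg (fun p hp => LevBr_901.smX_two hu hp) hC hH hf).abs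
  refine le_of_tendsto h1 ?_
  filter_upwards [TE_499.mem_Ioo_nhdsLT (zero_lt_one)] with s hs
  exact StMax_528.abs_cav_le (fun p hp => (hu.1 p hp).continuousAt.continuousWithinAt) hM hH
    hs.1.le hs.2

end disc

/-! ### the statement of helper653's `exists_b` -/

def EBStmt : Prop := ∀ (N n : ℕ) (I : Ideal (HomCoordRing N)), I.IsPrime →
  IsSmoothProjective I n → 0 < n → ∀ (ns : EE N → ℝ) (B : ℝ),
    (∀ q ∈ Cone I, 0 ≤ ns q ∧ ns q ≤ B) →
    (∀ q ∈ Cone I, ∀ c : ℂ, c ≠ 0 → ns (c • q) = ns q) →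
    (∀ p ∈ Cone I, ∀ C : ConeChart I n p, ∃ s : CC n → ℂ, AnalyticAt ℂ s 0 ∧
      (¬ ∀ᶠ z in 𝓝 (0 : CC n), s z = 0) ∧
      ∃ C₁ : ℝ, ∀ᶠ z in 𝓝 (0 : CC n), ‖s z‖ ^ 2 ≤ C₁ * ns (C.σ z)) →
    ∃ (dl C c : ℝ) (b : ℝ → EE N → ℝ), 0 < dl ∧ 0 < C ∧ 0 < c ∧ ∀ τ, 0 < τ → τ ≤ 1 →
      SmX I (b τ) ∧ (∀ q ∈ Cone I, 0 ≤ b τ q ∧ b τ q ≤ C) ∧
      (∀ q ∈ Cone I, ∀ v ∈ Tan I q, omg q v ≤ C * omg q v + lev (b τ) q v) ∧
      ∀ q ∈ Cone I, ∀ V : Fin n → EE N, TanFam I q V →
        n * (c * (ns q + τ) ^ (-dl) * DD q V) ^ ((n : ℝ)⁻¹) ≤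
          ∑ i, (C * omg q (V i) + lev (b τ) q (V i))

/-- **(11)** -/
theorem hint_of (hEB : EBStmt) : HintStmt := by
  intro N n I hI hX hn hc hBig a ha C hC
  have := hI
  obtain ⟨m, -, S, hS, ns, hns, hns01, hSn, -, hloc⟩ := Sec_669.bigNorm hI hX hBig
  obtain ⟨dl, Cb, cb, b, hdl, hCb, hcb, hb⟩ := hEB N n I hI hX (by omega) ns 1 hns01 hns.2 hloc
  obtain ⟨D, hD, hD0, hDD⟩ := FldE_620.exists_detF hI hX ha
  have hlD : SmX I (fun p => Real.log (D p)) := LevBr_901.smX_log hD fun p hp => (hD0 p hp).ne'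
  obtain ⟨CD, hCD0, hCD, -⟩ := dom_lev hI hX hlD
  obtain ⟨Ca, hCa0, hCa⟩ := dom_alpha hI hX
  obtain ⟨A, hA, hB⟩ := StMax_528.exists_brody hX hc
  have hhalf0 : (0 : ℝ) ≤ 1 / 2 := by norm_num
  have hhalf1 : (1 / 2 : ℝ) < 1 := by norm_num
  obtain ⟨c', CΘ, hc', hθ⟩ := Half3_993.theta hI hX hn hc hS hns01 hSn hdl hCb hcb hb
    (C₁ := C) (C₂ := C) (CD + Ca * A ^ 2) hC hC
  refine ⟨m, dl, c', CΘ, Nat.cast_nonneg m, hdl, hc', fun R => ?_⟩
  obtain ⟨τ, hτ0, hτ1, hθ1, hθ2⟩ := hθ R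
  obtain ⟨hb1, hb2, hb3, hb4⟩ := hb τ hτ0 hτ1
  have hJ : ∀ H, IsDisc I H → Jf 0 Cb (b τ) (1 / 2) H = TE (dens I n 0 Cb (b τ)) H (1 / 2) := by
    intro H hH
    have hsub : closedBall (0 : ℂ) (1 / 2) ⊆ ball 0 1 := closedBall_subset_ball hhalf1
    have h3 := Green_740.TG_add hhalf0
      (((StMax_528.dens_omg (I := I)).const_mul Cb).continuousOn hH |>.mono hsub)
      ((StMax_528.dens_lev hX hb1).continuousOn hH |>.mono hsub)
    have h4 : TE (dens I n 0 Cb (b τ)) H (1 / 2) = Green_740.TG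
        (fun z => Cb * omg (H z) (deriv H z) + lev (b τ) (H z) (deriv H z)) (1 / 2) := by
      unfold TE
      simp only [Half3_993.dens_eq]
      rfl
    have h5 := Half3_993.jensen_smX hb1 hH hhalf0 hhalf1
    have h6 := StMax_528.TE_const_mul (fun p v => omg p v) Cb H (1 / 2)
    unfold Jf
    rw [h4, h3, ← h5, zero_mul, zero_add]
    congr 1
    exact h6.symm
  refine ⟨Cb, b τ, hb1, fun H hH => ?_, fun H V hH hN hR hW => ?_⟩
  · rw [hJ H hH]; exact hθ1 H hH
  · have hfin := finE_normal hH hN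
    have hV : Fr I H V := ⟨hW.tan, hW.hol, hW.pos⟩
    have hT := TE1_omg hH hN
    have hdet := hW.det D hD hD0 hDD (1 / 2) ⟨hhalf0, hhalf1⟩
    have hbav := abs_bav_le hI hX hlD hCD hH hfin
    have hTa := TE_499.abs_TE_le hCa.cont (ref_omg (I := I)).cont hCa.bd hH hhalf0 hhalf1
    have hTo : TE (fun p v => omg p v) H (1 / 2) ≤ A ^ 2 := by
      refine (StMax_528.TE_omg_le hB hH hhalf0 hhalf1).trans (le_of_eq ?_)
      ring
    have hlow : -(CD + Ca * A ^ 2) - TE1 (alpha I n) H ≤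
        Real.circleAverage (fun z => Real.log (DD (H z) (fun i => V i z))) 0 (1 / 2) := by
      have h1 := (abs_le.1 hbav).1
      have h2 := (abs_le.1 hTa).1
      have h3 := mul_le_mul_of_nonneg_left hTo hCa0
      have h4 : TE (fun p v => alpha I n p v) H (1 / 2) = TE (alpha I n) H (1 / 2) := rfl
      rw [h4] at h2
      linarith
    have hmain := hθ2 H V (TE1 (alpha I n) H) (TE1 omg H) hH hN hV hT.symm hR
      (fun z hz => (hW.up z hz).trans (le_of_eq (by ring))) hlow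
    refine hmain.trans (le_of_eq ?_)
    refine Finset.sum_congr rfl fun i _ => ?_
    -- the sum over the circle
    have hsub : sphere (0 : ℂ) |(1 / 2 : ℝ)| ⊆ ball 0 1 := by
      rw [abs_of_pos (by norm_num : (0 : ℝ) < 1 / 2)]
      exact sphere_subset_closedBall.trans (closedBall_subset_ball hhalf1)
    have hc1 : ContinuousOn (fun z => omg (H z) (V i z)) (ball 0 1) :=
      Half3_993.dens_cont hX StMax_528.dens_omg hH (hW.tan i) (hW.hol i).continuousOn
    have hc2 : ContinuousOn (fun z => lev (b τ) (H z) (V i z)) (ball 0 1) :=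
      Half3_993.dens_cont hX (StMax_528.dens_lev hX hb1) hH (hW.tan i) (hW.hol i).continuousOn
    have hi1 : CircleIntegrable (fun z => omg (H z) (V i z)) 0 (1 / 2) :=
      (hc1.mono hsub).circleIntegrable'
    have hi2 : CircleIntegrable (fun z => lev (b τ) (H z) (V i z)) 0 (1 / 2) :=
      (hc2.mono hsub).circleIntegrable'
    have e : ∀ f : ℂ → ℝ, Real.circleAverage (fun z => ‖z‖ ^ 2 * f z) 0 (1 / 2) =
        (1 / 2) ^ 2 * Real.circleAverage f 0 (1 / 2) := by
      intro f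
      rw [← smul_eq_mul ((1 / 2 : ℝ) ^ 2), ← Real.circleAverage_fun_smul]
      apply Real.circleAverage_congr_sphere
      intro z hz
      have : ‖z‖ = 1 / 2 := by simpa using hz
      simp only [this, smul_eq_mul]
    unfold LJf
    rw [e, e]
    simp only [Half3_993.dens_eq]
    have e2 : Real.circleAverage (fun z => Cb * omg (H z) (V i z) + lev (b τ) (H z) (V i z)) 0
        (1 / 2) = Cb * Real.circleAverage (fun z => omg (H z) (V i z)) 0 (1 / 2) +
          Real.circleAverage (fun z => lev (b τ) (H z) (V i z)) 0 (1 / 2) := by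
      have h1 : CircleIntegrable (fun z => Cb * omg (H z) (V i z)) 0 (1 / 2) :=
        ((continuousOn_const.mul hc1).mono hsub).circleIntegrable'
      rw [Real.circleAverage_fun_add h1 hi2]
      congr 1
      rw [← smul_eq_mul Cb, ← Real.circleAverage_fun_smul]
      rfl
    rw [e2]
    ring

end Crest.Agent.R269.Half4_993
end
end

-- ▼ part R269/Bf_653
section

/-! Row 269, Blueprint 11.1 (helper653): the function `b_tau = sum_{r<M} (|h_r|^2 + tau)^gam`. -/

set_option autoImplicit false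

open Complex Filter Topology Crest.Agent.R269.LevC_653

namespace Crest.Agent.R269.Bf_653

/-! ### The scalar chain lemma -/

/-- exponent after `M` steps. -/
noncomputable def dexp (gam : ℝ) (M : ℕ) : ℝ := ((1 - gam) / 2) ^ M

theorem dexp_pos {gam : ℝ} (h1 : gam < 1) (M : ℕ) : 0 < dexp gam M :=
  pow_pos (by linarith) M

theorem dexp_le_one {gam : ℝ} (h0 : 0 < gam) (h1 : gam < 1) (M : ℕ) : dexp gam M ≤ 1 :=
  pow_le_one₀ (by linarith) (by linarith)

theorem chain {gam : ℝ} (h0 : 0 < gam) (h1 : gam < 1) {qs : ℝ} (hqs : 0 < qs) (M : ℕ) :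
    ∃ c : ℝ, 0 < c ∧ ∀ (q : ℕ → ℝ) (tau : ℝ), 0 < tau → (∀ r, 0 ≤ q r) → qs ≤ q M →
      c * (q 0 + tau) ^ (-(dexp gam M)) ≤
        1 + ∑ r ∈ Finset.range M, (q r + tau) ^ (gam - 1) * q (r + 1) := by
  induction M with
  | zero =>
    refine ⟨qs, hqs, fun q tau ht hq hM => ?_⟩
    have hT : 0 < q 0 + tau := by linarith [hq 0]
    simp only [dexp, pow_zero, Finset.range_zero, Finset.sum_empty, add_zero]
    rw [Real.rpow_neg hT.le, Real.rpow_one, ← div_eq_mul_inv, div_le_one hT]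
    linarith
  | succ M ih =>
    obtain ⟨c, hc, ih⟩ := ih
    refine ⟨min 1 (c * (2 : ℝ) ^ (-(dexp gam M))), lt_min one_pos (by positivity),
      fun q tau ht hq hM => ?_⟩
    have hT : 0 < q 0 + tau := by linarith [hq 0]
    have hT1 : 0 < q 1 + tau := by linarith [hq 1]
    set t := q 0 + tau with htdef
    set S' := ∑ r ∈ Finset.range M, (q (r + 1) + tau) ^ (gam - 1) * q (r + 1 + 1) with hS'
    have hsum : ∑ r ∈ Finset.range (M + 1), (q r + tau) ^ (gam - 1) * q (r + 1)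
        = S' + t ^ (gam - 1) * q 1 := by
      rw [Finset.sum_range_succ']
    have hS'0 : 0 ≤ S' := Finset.sum_nonneg fun r _ =>
      mul_nonneg (Real.rpow_nonneg (by linarith [hq (r + 1)]) _) (hq _)
    have hmin0 : 0 ≤ min 1 (c * (2 : ℝ) ^ (-(dexp gam M))) := (lt_min one_pos (by positivity)).le
    rw [hsum]
    have hd := dexp_pos h1 M
    have hd1 := dexp_le_one h0 h1 M
    have hdS : dexp gam (M + 1) = dexp gam M * ((1 - gam) / 2) := by
      unfold dexp; rw [pow_succ]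
    have hdS0 := dexp_pos h1 (M + 1)
    have hq1 := hq 1
    have hpt : 0 ≤ t ^ (gam - 1) * q 1 := mul_nonneg (Real.rpow_nonneg hT.le _) hq1
    rcases le_or_gt 1 t with h | h
    · have e1 : t ^ (-(dexp gam (M + 1))) ≤ 1 :=
        Real.rpow_le_one_of_one_le_of_nonpos h (by linarith)
      calc min 1 (c * (2 : ℝ) ^ (-(dexp gam M))) * t ^ (-(dexp gam (M + 1)))
          ≤ 1 * 1 := mul_le_mul (min_le_left _ _) e1 (Real.rpow_nonneg hT.le _) zero_le_one
        _ ≤ 1 + (S' + t ^ (gam - 1) * q 1) := by linarith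
    · rcases le_or_gt (t ^ ((1 - gam) / 2)) (q 1) with h2 | h2
      · have e1 : t ^ (-(dexp gam (M + 1))) ≤ t ^ (-((1 - gam) / 2)) := by
          apply Real.rpow_le_rpow_of_exponent_ge hT h.le
          rw [hdS]
          nlinarith
        have e2 : t ^ (-((1 - gam) / 2)) = t ^ (gam - 1) * t ^ ((1 - gam) / 2) := by
          rw [← Real.rpow_add hT]; congr 1; ring
        have e3 : t ^ (gam - 1) * t ^ ((1 - gam) / 2) ≤ t ^ (gam - 1) * q 1 :=
          mul_le_mul_of_nonneg_left h2 (Real.rpow_nonneg hT.le _)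
        calc min 1 (c * (2 : ℝ) ^ (-(dexp gam M))) * t ^ (-(dexp gam (M + 1)))
            ≤ 1 * t ^ (-(dexp gam (M + 1))) :=
              mul_le_mul_of_nonneg_right (min_le_left _ _) (Real.rpow_nonneg hT.le _)
          _ ≤ 1 + (S' + t ^ (gam - 1) * q 1) := by linarith
      · have hts : t ≤ t ^ ((1 - gam) / 2) := by
          conv_lhs => rw [← Real.rpow_one t]
          exact Real.rpow_le_rpow_of_exponent_ge hT h.le (by linarith)
        have hT1t : q 1 + tau ≤ 2 * t ^ ((1 - gam) / 2) := by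
          have : tau ≤ t := by linarith [hq 0]
          linarith
        have e1 := ih (fun r => q (r + 1)) tau ht (fun r => hq _) hM
        have e2 : (2 * t ^ ((1 - gam) / 2)) ^ (-(dexp gam M)) ≤ (q 1 + tau) ^ (-(dexp gam M)) :=
          Real.rpow_le_rpow_of_nonpos hT1 hT1t (by linarith)
        have e3 : (2 * t ^ ((1 - gam) / 2)) ^ (-(dexp gam M))
            = (2 : ℝ) ^ (-(dexp gam M)) * t ^ (-(dexp gam (M + 1))) := by
          rw [Real.mul_rpow (by norm_num) (Real.rpow_nonneg hT.le _), ← Real.rpow_mul hT.le, hdS]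
          congr 2
          ring
        have e4 : c * ((2 : ℝ) ^ (-(dexp gam M)) * t ^ (-(dexp gam (M + 1)))) ≤ 1 + S' := by
          rw [← e3]
          exact (mul_le_mul_of_nonneg_left e2 hc.le).trans e1
        calc min 1 (c * (2 : ℝ) ^ (-(dexp gam M))) * t ^ (-(dexp gam (M + 1)))
            ≤ (c * (2 : ℝ) ^ (-(dexp gam M))) * t ^ (-(dexp gam (M + 1))) :=
              mul_le_mul_of_nonneg_right (min_le_right _ _) (Real.rpow_nonneg hT.le _)
          _ = c * ((2 : ℝ) ^ (-(dexp gam M)) * t ^ (-(dexp gam (M + 1)))) := by ring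
          _ ≤ 1 + (S' + t ^ (gam - 1) * q 1) := by linarith

/-- Lowering the exponent. -/
theorem lower_exp {T Q d d' : ℝ} (hT : 0 < T) (hTQ : T ≤ Q) (hd : d' ≤ d) :
    T ^ (-d') ≤ Q ^ (d - d') * T ^ (-d) := by
  have : T ^ (-d') = T ^ (d - d') * T ^ (-d) := by
    rw [← Real.rpow_add hT]; congr 1; ring
  rw [this]
  exact mul_le_mul_of_nonneg_right (Real.rpow_le_rpow hT.le hTQ (by linarith))
    (Real.rpow_nonneg hT.le _)

/-! ### One summand -/

section one

variable {E : Type*} [NormedAddCommGroup E] [NormedSpace ℂ E]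

/-- `(|h|^2 + tau)^gam`. -/
noncomputable def pt (gam tau : ℝ) (h : E → ℂ) (y : E) : ℝ := (‖h y‖ ^ 2 + tau) ^ gam

omit [NormedAddCommGroup E] [NormedSpace ℂ E] in
theorem T_pos {tau : ℝ} (ht : 0 < tau) (h : E → ℂ) (y : E) : 0 < ‖h y‖ ^ 2 + tau := by positivity

theorem F_contDiffAt {gam tau t : ℝ} (ht : 0 < t + tau) {n : WithTop ℕ∞} :
    ContDiffAt ℝ n (fun s : ℝ => (s + tau) ^ gam) t :=
  (contDiffAt_id.add contDiffAt_const).rpow_const_of_ne ht.ne'

theorem F_deriv {gam tau t : ℝ} (ht : 0 < t + tau) :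
    deriv (fun s : ℝ => (s + tau) ^ gam) t = gam * (t + tau) ^ (gam - 1) := by
  have h := ((hasDerivAt_id t).add_const tau).rpow_const (p := gam) (Or.inl ht.ne')
  have h' := h.deriv
  simp only [id] at h'
  rw [h']
  ring

theorem F_deriv2 {gam tau t : ℝ} (ht : 0 < t + tau) :
    deriv (deriv (fun s : ℝ => (s + tau) ^ gam)) t
      = gam * (gam - 1) * (t + tau) ^ (gam - 2) := by
  have h1 : deriv (fun s : ℝ => (s + tau) ^ gam) =ᶠ[𝓝 t]
      fun s => gam * (s + tau) ^ (gam - 1) := by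
    have : ∀ᶠ s in 𝓝 t, 0 < s + tau :=
      (continuous_id.add continuous_const).continuousAt.eventually (lt_mem_nhds ht)
    filter_upwards [this] with s hs using F_deriv hs
  rw [h1.deriv_eq]
  have h := (((hasDerivAt_id t).add_const tau).rpow_const (p := gam - 1) (Or.inl ht.ne')).const_mul gam
  have h' := h.deriv
  simp only [id] at h'
  rw [h']
  have : gam - 1 - 1 = gam - 2 := by ring
  rw [this]
  ring

variable {h : E → ℂ} {x : E} {gam tau : ℝ}

theorem pt_contDiffAt (ht : 0 < tau) (hh : AnalyticAt ℂ h x) {n : WithTop ℕ∞} :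
    ContDiffAt ℝ n (pt gam tau h) x :=
  (F_contDiffAt (T_pos ht h x)).comp x (nsq_contDiffAt hh)

theorem pt_lev (ht : 0 < tau) (hh : AnalyticAt ℂ h x) (v : E) :
    lev (pt gam tau h) x v = gam * (‖h x‖ ^ 2 + tau) ^ (gam - 1) * ‖fderiv ℂ h x v‖ ^ 2
      + gam * (gam - 1) * (‖h x‖ ^ 2 + tau) ^ (gam - 2) * (‖h x‖ ^ 2 * ‖fderiv ℂ h x v‖ ^ 2) := by
  have h1 := lev_comp (u := fun y => ‖h y‖ ^ 2) (F := fun s : ℝ => (s + tau) ^ gam)
    (F_contDiffAt (gam := gam) (n := 2) (T_pos ht h x)) (nsq_contDiffAt hh) v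
  rw [F_deriv (T_pos ht h x), F_deriv2 (T_pos ht h x), lev_nsq hh, gsq_nsq hh] at h1
  exact h1

theorem pt_gsq (ht : 0 < tau) (hh : AnalyticAt ℂ h x) (v : E) :
    gsq (pt gam tau h) x v = (gam * (‖h x‖ ^ 2 + tau) ^ (gam - 1)) ^ 2
      * (‖h x‖ ^ 2 * ‖fderiv ℂ h x v‖ ^ 2) := by
  have h1 := gsq_comp (u := fun y => ‖h y‖ ^ 2) (F := fun s : ℝ => (s + tau) ^ gam)
    ((F_contDiffAt (gam := gam) (n := 2) (T_pos ht h x)).differentiableAt (by norm_num))
    ((nsq_contDiffAt (n := 2) hh).differentiableAt (by norm_num)) v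
  rw [F_deriv (T_pos ht h x), gsq_nsq hh] at h1
  exact h1

theorem pt_lev_ge (h0 : 0 < gam) (h1 : gam < 1) (ht : 0 < tau) (hh : AnalyticAt ℂ h x) (v : E) :
    gam ^ 2 * ((‖h x‖ ^ 2 + tau) ^ (gam - 1) * ‖fderiv ℂ h x v‖ ^ 2) ≤ lev (pt gam tau h) x v := by
  rw [pt_lev ht hh]
  have hT := T_pos ht h x
  have e : (‖h x‖ ^ 2 + tau) ^ (gam - 1) = (‖h x‖ ^ 2 + tau) ^ (gam - 2) * (‖h x‖ ^ 2 + tau) := by
    rw [← Real.rpow_add_one hT.ne']
    congr 1
    ring
  rw [e]
  have hp : 0 ≤ (‖h x‖ ^ 2 + tau) ^ (gam - 2) := Real.rpow_nonneg hT.le _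
  have hD : 0 ≤ ‖fderiv ℂ h x v‖ ^ 2 := by positivity
  have hpD := mul_nonneg hp hD
  nlinarith [mul_nonneg hpD (mul_nonneg (mul_nonneg h0.le (by linarith : (0 : ℝ) ≤ 1 - gam)) ht.le)]

theorem pt_gsq_le (h0 : 0 < gam) (h1 : gam < 1) (ht : 0 < tau) (hh : AnalyticAt ℂ h x) (v : E) :
    gsq (pt gam tau h) x v ≤ pt gam tau h x * lev (pt gam tau h) x v := by
  have hT := T_pos ht h x
  have e : pt gam tau h x = (‖h x‖ ^ 2 + tau) ^ (gam - 1) * (‖h x‖ ^ 2 + tau) := by
    unfold pt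
    rw [← Real.rpow_add_one hT.ne']
    congr 1
    ring
  refine le_trans ?_ (mul_le_mul_of_nonneg_left (pt_lev_ge h0 h1 ht hh v) (by
    unfold pt; exact Real.rpow_nonneg hT.le _))
  rw [pt_gsq ht hh, e]
  have hp : 0 ≤ (‖h x‖ ^ 2 + tau) ^ (gam - 1) := Real.rpow_nonneg hT.le _
  have hD : 0 ≤ ‖fderiv ℂ h x v‖ ^ 2 := by positivity
  have := mul_nonneg (mul_nonneg (mul_nonneg hp hp) hD) (mul_nonneg (sq_nonneg gam) ht.le)
  nlinarith

end one

/-! ### Sums -/

section sums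

variable {E : Type*} [NormedAddCommGroup E] [NormedSpace ℂ E]

/-- `C²`, non-negative, psh with gradient controlled by the Levi form. -/
structure Good (b : E → ℝ) (x : E) : Prop where
  smooth : ContDiffAt ℝ 2 b x
  nonneg : 0 ≤ b x
  lev_nonneg : ∀ v, 0 ≤ lev b x v
  grad : ∀ v, gsq b x v ≤ b x * lev b x v

theorem Good.add {b c : E → ℝ} {x : E} (hb : Good b x) (hc : Good c x) :
    Good (fun y => b y + c y) x := by
  refine ⟨hb.smooth.add hc.smooth, add_nonneg hb.nonneg hc.nonneg, fun v => ?_, fun v => ?_⟩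
  · rw [lev_add hb.smooth hc.smooth]
    exact add_nonneg (hb.lev_nonneg v) (hc.lev_nonneg v)
  · have e : gsq (fun y => b y + c y) x v = gsq b x v + gsq c x v + 2 * gmul b c x v := by
      rw [gsq_eq, gsq_eq, gsq_eq, fderiv_fun_add (diff1 hb.smooth) (diff1 hc.smooth)]
      unfold gmul
      simp only [add_apply]
      ring
    rw [e, lev_add hb.smooth hc.smooth]
    have h1 := hb.grad v
    have h2 := hc.grad v
    have h3 := gmul_sq_le b c x v
    have n1 := hb.nonneg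
    have n2 := hc.nonneg
    have l1 := hb.lev_nonneg v
    have l2 := hc.lev_nonneg v
    have g1 := gsq_nonneg b x v
    have g2 := gsq_nonneg c x v
    have h4 : gsq b x v * gsq c x v ≤ (b x * lev b x v) * (c x * lev c x v) :=
      mul_le_mul h1 h2 g2 (mul_nonneg n1 l1)
    have h5 : (2 * gmul b c x v) ^ 2 ≤ (b x * lev c x v + c x * lev b x v) ^ 2 := by
      nlinarith [sq_nonneg (b x * lev c x v - c x * lev b x v)]
    have h6 := abs_le_of_sq_le_sq' h5 (add_nonneg (mul_nonneg n1 l2) (mul_nonneg n2 l1))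
    nlinarith [h6.2]

theorem Good.zero (x : E) : Good (fun _ : E => (0 : ℝ)) x := by
  refine ⟨contDiffAt_const, le_rfl, fun v => by rw [lev_const], fun v => ?_⟩
  rw [gsq_eq]
  simp

theorem Good.sum {ι : Type*} (s : Finset ι) {b : ι → E → ℝ} {x : E} (hb : ∀ i ∈ s, Good (b i) x) :
    Good (fun y => ∑ i ∈ s, b i y) x := by
  classical
  induction s using Finset.induction_on with
  | empty => simpa using Good.zero x
  | insert a s ha ih =>
    have h1 := hb a (Finset.mem_insert_self a s)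
    have h2 := ih fun i hi => hb i (Finset.mem_insert_of_mem hi)
    have := h1.add h2
    simpa [Finset.sum_insert ha] using this

theorem lev_sum {ι : Type*} (s : Finset ι) {b : ι → E → ℝ} {x : E}
    (hb : ∀ i ∈ s, ContDiffAt ℝ 2 (b i) x) (v : E) :
    lev (fun y => ∑ i ∈ s, b i y) x v = ∑ i ∈ s, lev (b i) x v := by
  classical
  induction s using Finset.induction_on with
  | empty => simpa using lev_const (x := x) 0 v
  | insert a s ha ih =>
    have h1 := hb a (Finset.mem_insert_self a s)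
    have h3 : ContDiffAt ℝ 2 (fun y => ∑ i ∈ s, b i y) x :=
      ContDiffAt.sum fun i hi => hb i (Finset.mem_insert_of_mem hi)
    have h2 := ih fun i hi => hb i (Finset.mem_insert_of_mem hi)
    simp only [Finset.sum_insert ha]
    rw [lev_add h1 h3, h2]

theorem pt_good {gam tau : ℝ} (h0 : 0 < gam) (h1 : gam < 1) (ht : 0 < tau) {h : E → ℂ} {x : E}
    (hh : AnalyticAt ℂ h x) : Good (pt gam tau h) x := by
  have hT := T_pos ht h x
  refine ⟨pt_contDiffAt ht hh, Real.rpow_nonneg hT.le _, fun v => ?_, fun v => pt_gsq_le h0 h1 ht hh v⟩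
  refine le_trans ?_ (pt_lev_ge h0 h1 ht hh v)
  have hp : 0 ≤ (‖h x‖ ^ 2 + tau) ^ (gam - 1) := Real.rpow_nonneg hT.le _
  positivity

end sums

/-! ### The local function -/

section loc

variable {E : Type*} [NormedAddCommGroup E] [NormedSpace ℂ E]

/-- iterated derivatives in the direction `e`. -/
noncomputable def dit (e : E) (s : E → ℂ) : ℕ → E → ℂ
  | 0 => s
  | r + 1 => fun y => fderiv ℂ (dit e s r) y e

theorem dit_analyticAt {e : E} {s : E → ℂ} {x : E} (hs : AnalyticAt ℂ s x) (r : ℕ) :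
    AnalyticAt ℂ (dit e s r) x := by
  induction r with
  | zero => exact hs
  | succ r ih =>
    have h1 : AnalyticAt ℂ (fderiv ℂ (dit e s r)) x := ih.fderiv
    exact ((ContinuousLinearMap.apply ℂ ℂ e).analyticAt _).comp h1

/-- the function of 11.1. -/
noncomputable def bf (gam tau : ℝ) (e : E) (s : E → ℂ) (M : ℕ) (y : E) : ℝ :=
  ∑ r ∈ Finset.range M, pt gam tau (dit e s r) y

theorem bf_good {gam tau : ℝ} (h0 : 0 < gam) (h1 : gam < 1) (ht : 0 < tau) {e : E} {s : E → ℂ}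
    {x : E} (hs : AnalyticAt ℂ s x) (M : ℕ) : Good (bf gam tau e s M) x :=
  Good.sum _ fun r _ => pt_good h0 h1 ht (dit_analyticAt hs r)

theorem bf_contDiffAt {gam tau : ℝ} (ht : 0 < tau) {e : E} {s : E → ℂ}
    {x : E} (hs : AnalyticAt ℂ s x) (M : ℕ) {n : WithTop ℕ∞} : ContDiffAt ℝ n (bf gam tau e s M) x :=
  ContDiffAt.sum fun r _ => pt_contDiffAt ht (dit_analyticAt hs r)

theorem bf_lev_ge {gam : ℝ} (h0 : 0 < gam) (h1 : gam < 1) {qs : ℝ} (hqs : 0 < qs) (M : ℕ) :
    ∃ c : ℝ, 0 < c ∧ ∀ (tau : ℝ), 0 < tau → ∀ (e : E) (s : E → ℂ) (x : E), AnalyticAt ℂ s x →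
      qs ≤ ‖dit e s M x‖ ^ 2 →
      c * (‖s x‖ ^ 2 + tau) ^ (-(dexp gam M)) ≤ 1 + lev (bf gam tau e s M) x e := by
  obtain ⟨c, hc, hch⟩ := chain h0 h1 hqs M
  refine ⟨c * gam ^ 2, by positivity, fun tau ht e s x hs hM => ?_⟩
  have h2 := hch (fun r => ‖dit e s r x‖ ^ 2) tau ht (fun r => by positivity) hM
  have h3 : lev (bf gam tau e s M) x e
      = ∑ r ∈ Finset.range M, lev (pt gam tau (dit e s r)) x e :=
    lev_sum _ (fun r _ => pt_contDiffAt ht (dit_analyticAt hs r)) e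
  have h4 : ∑ r ∈ Finset.range M, gam ^ 2 *
      ((‖dit e s r x‖ ^ 2 + tau) ^ (gam - 1) * ‖dit e s (r + 1) x‖ ^ 2)
      ≤ lev (bf gam tau e s M) x e := by
    rw [h3]
    exact Finset.sum_le_sum fun r _ => pt_lev_ge h0 h1 ht (dit_analyticAt hs r) e
  rw [← Finset.mul_sum] at h4
  have hg : gam ^ 2 ≤ 1 := pow_le_one₀ h0.le h1.le
  have h5 := mul_le_mul_of_nonneg_left h2 (sq_nonneg gam)
  have e0 : dit e s 0 x = s x := rfl
  simp only [e0] at h5
  calc c * gam ^ 2 * (‖s x‖ ^ 2 + tau) ^ (-(dexp gam M))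
      = gam ^ 2 * (c * (‖s x‖ ^ 2 + tau) ^ (-(dexp gam M))) := by ring
    _ ≤ gam ^ 2 * (1 + ∑ r ∈ Finset.range M,
        (‖dit e s r x‖ ^ 2 + tau) ^ (gam - 1) * ‖dit e s (r + 1) x‖ ^ 2) := h5
    _ ≤ 1 + lev (bf gam tau e s M) x e := by linarith

end loc

/-! ### Finite order of vanishing in some direction -/

section dir

variable {E : Type*} [NormedAddCommGroup E] [NormedSpace ℂ E]

theorem line_analyticAt {s : E → ℂ} {e y : E} {w : ℂ} (hs : AnalyticAt ℂ s (y + w • e)) :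
    AnalyticAt ℂ (fun w : ℂ => s (y + w • e)) w := by
  have h1 : AnalyticAt ℂ (fun w : ℂ => y + w • e) w :=
    analyticAt_const.add (analyticAt_id.smul analyticAt_const)
  exact AnalyticAt.fun_comp (f := fun w : ℂ => y + w • e) hs h1

theorem iteratedDeriv_line {s : E → ℂ} {p e : E} (hs : AnalyticAt ℂ s p) (M : ℕ) :
    iteratedDeriv M (fun w : ℂ => s (p + w • e)) =ᶠ[𝓝 0] fun w => dit e s M (p + w • e) := by
  induction M with
  | zero => exact Filter.Eventually.of_forall fun w => by simp [dit]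
  | succ M ih =>
    rw [iteratedDeriv_succ]
    refine ih.deriv.trans ?_
    have hc : ContinuousAt (fun w : ℂ => p + w • e) 0 := by fun_prop
    have h0 : Tendsto (fun w : ℂ => p + w • e) (𝓝 0) (𝓝 p) := by
      have := hc.tendsto
      simpa using this
    filter_upwards [h0.eventually hs.eventually_analyticAt] with w hw
    have h1 : HasFDerivAt (dit e s M) (fderiv ℂ (dit e s M) (p + w • e)) (p + w • e) :=
      (dit_analyticAt hw M).differentiableAt.hasFDerivAt
    have h2 : HasDerivAt (fun w : ℂ => p + w • e) e w := by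
      have := ((hasDerivAt_id w).smul_const e).const_add p
      simpa using this
    exact (h1.comp_hasDerivAt w h2).deriv

theorem exists_dir {s : E → ℂ} {p : E} (hs : AnalyticAt ℂ s p) (hne : ¬ ∀ᶠ x in 𝓝 p, s x = 0) :
    ∃ (e : E) (M : ℕ), dit e s M p ≠ 0 := by
  by_contra hcon
  push Not at hcon
  apply hne
  obtain ⟨r, hr, han⟩ := hs.exists_ball_analyticOnNhd
  filter_upwards [Metric.ball_mem_nhds p hr] with x hx
  set e := x - p with he
  have hen : ‖e‖ < r := by rwa [he, ← dist_eq_norm]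
  have hg0 : AnalyticAt ℂ (fun w : ℂ => s (p + w • e)) 0 :=
    line_analyticAt (by simpa using hs)
  have hz : ∀ᶠ w in 𝓝 (0 : ℂ), s (p + w • e) = 0 := by
    have hps := hg0.hasFPowerSeriesAt
    rw [hps.locally_zero_iff]
    have : (fun n => iteratedDeriv n (fun w : ℂ => s (p + w • e)) 0 / (n.factorial : ℂ))
        = fun _ => (0 : ℂ) := by
      funext n
      rw [(iteratedDeriv_line hs n).self_of_nhds]
      have := hcon e n
      simp [this]
    rw [this]
    ext n
    simp [FormalMultilinearSeries.ofScalars]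
  set U : Set ℂ := {w : ℂ | ‖w • e‖ < r} with hU
  have hUc : Convex ℝ U := by
    have : U = (fun w : ℂ => w • e) ⁻¹' Metric.ball (0 : E) r := by
      ext w
      simp [hU]
    rw [this]
    exact (convex_ball (0 : E) r).is_linear_preimage
      ⟨fun a b => add_smul a b e, fun c a => by rw [smul_assoc]⟩
  have hanU : AnalyticOnNhd ℂ (fun w : ℂ => s (p + w • e)) U := by
    intro w hw
    apply line_analyticAt
    apply han
    have hw' : ‖w • e‖ < r := hw
    simpa [Metric.mem_ball, dist_eq_norm] using hw'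
  have h0U : (0 : ℂ) ∈ U := by simp [hU, hr]
  have h1U : (1 : ℂ) ∈ U := by simpa [hU] using hen
  have := hanU.eqOn_zero_of_preconnected_of_eventuallyEq_zero hUc.isPreconnected h0U hz h1U
  simpa [he] using this

/-- **Local form of 11.1.** -/
theorem local_bf [CompleteSpace E] {s : E → ℂ} {p : E} (hs : AnalyticAt ℂ s p)
    (hne : ¬ ∀ᶠ x in 𝓝 p, s x = 0) {gam : ℝ} (h0 : 0 < gam) (h1 : gam < 1) :
    ∃ (e : E) (M : ℕ) (r c C : ℝ), 0 < r ∧ 0 < c ∧ 0 < C ∧
      (∀ x ∈ Metric.ball p r, AnalyticAt ℂ s x) ∧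
      ∀ tau : ℝ, 0 < tau → tau ≤ 1 → ∀ x ∈ Metric.ball p r,
        Good (bf gam tau e s M) x ∧ bf gam tau e s M x ≤ C ∧
        c * (‖s x‖ ^ 2 + tau) ^ (-(dexp gam M)) ≤ 1 + lev (bf gam tau e s M) x e := by
  obtain ⟨e, M, hM⟩ := exists_dir hs hne
  set qs : ℝ := ‖dit e s M p‖ ^ 2 / 2 with hqs
  have hqp : 0 < ‖dit e s M p‖ ^ 2 := by
    have := norm_pos_iff.2 hM
    positivity
  have hqs0 : 0 < qs := by positivity
  have hqs1 : qs < ‖dit e s M p‖ ^ 2 := by rw [hqs]; linarith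
  obtain ⟨c, hc, hcc⟩ := bf_lev_ge (E := E) h0 h1 hqs0 M
  have hev1 : ∀ᶠ x in 𝓝 p, qs < ‖dit e s M x‖ ^ 2 := by
    have : ContinuousAt (fun x => ‖dit e s M x‖ ^ 2) p := by
      have h := (dit_analyticAt (e := e) hs M).continuousAt
      exact (h.norm).pow 2
    exact this.eventually (lt_mem_nhds hqs1)
  have hev2 : ∀ᶠ x in 𝓝 p, ∀ r ∈ Finset.range M, ‖dit e s r x‖ ^ 2 < ‖dit e s r p‖ ^ 2 + 1 := by
    rw [Filter.eventually_all_finset]
    intro r _
    have : ContinuousAt (fun x => ‖dit e s r x‖ ^ 2) p := by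
      have h := (dit_analyticAt (e := e) hs r).continuousAt
      exact (h.norm).pow 2
    exact this.eventually (gt_mem_nhds (by linarith))
  obtain ⟨r, hr, hrb⟩ := Metric.eventually_nhds_iff_ball.1
    (hev1.and (hev2.and hs.eventually_analyticAt))
  refine ⟨e, M, r, c, 1 + ∑ r ∈ Finset.range M, (‖dit e s r p‖ ^ 2 + 2) ^ gam, hr, hc,
    by positivity, fun x hx => (hrb x hx).2.2, fun tau ht ht1 x hx => ?_⟩
  obtain ⟨hx1, hx2, hx3⟩ := hrb x hx
  refine ⟨bf_good h0 h1 ht hx3 M, ?_, hcc tau ht e s x hx3 hx1.le⟩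
  have : bf gam tau e s M x ≤ ∑ r ∈ Finset.range M, (‖dit e s r p‖ ^ 2 + 2) ^ gam := by
    unfold bf pt
    refine Finset.sum_le_sum fun r hr => ?_
    exact Real.rpow_le_rpow (by positivity) (by linarith [hx2 r hr]) h0.le
  linarith

end dir

end Crest.Agent.R269.Bf_653
private theorem rz_2be127c63c : type_of% @_root_.Crest.Agent.R269.Bf_653.dit.eq_def := @_root_.Crest.Agent.R269.Bf_653.dit.eq_def -- L290
private theorem rz_7a304d8a42 : type_of% @_root_.Crest.Agent.R269.Bf_653.dit.eq_1 := @_root_.Crest.Agent.R269.Bf_653.dit.eq_1 -- L290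
end

-- ▼ part R269/BGl2_653
section

/-! Row 269, leaf 11.1 (helper653): the local piece of the function `b`: cut-off of
`bf gam tau e s M ∘ ratio` in a cone chart. -/

set_option autoImplicit false
set_option linter.unusedSectionVars false

open Complex Filter Topology MvPolynomial Crest.AlgGeometry.ProjEmb
open scoped ContDiff ComplexConjugate

namespace Crest.Agent.R269.BGl2_653

open Crest.Agent.R269.Geo_328
open Crest.Agent.R269.Defs_58 (SmX omg)
open Crest.Agent.R269.LevC_653 Crest.Agent.R269.Bf_653 Crest.Agent.R269.BGl1_653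

noncomputable section

/-! ### cut-offs -/

section cut

variable {E : Type*} [NormedAddCommGroup E] [NormedSpace ℂ E]

theorem lev_cut {b χ : E → ℝ} {x : E} (hb : Good b x) (hχ : ContDiffAt ℝ 2 χ x) {C : ℝ}
    (hC : b x ≤ C) (v : E) :
    -(C * |lev (fun y => χ y ^ 2) x v| + 8 * C * gsq χ x v) ≤
      lev (fun y => χ y ^ 2 * b y) x v := by
  have hb2 := hb.smooth
  have hχ2 : ContDiffAt ℝ 2 (fun y => χ y ^ 2) x := hχ.pow 2
  rw [lev_mul (u := fun y => χ y ^ 2) (w := b) hχ2 hb2 v]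
  have hL := hb.lev_nonneg v
  have hb0 := hb.nonneg
  have hC0 : 0 ≤ C := hb0.trans hC
  have hg := gsq_nonneg χ x v
  have e1 : gmul (fun y => χ y ^ 2) b x v = 2 * χ x * gmul χ b x v := by
    have : fderiv ℝ (fun y => χ y ^ 2) x = (2 * χ x) • fderiv ℝ χ x := by
      have := (diff1 hχ).hasFDerivAt.pow 2
      rw [this.fderiv]
      simp
    unfold gmul
    rw [this]
    simp only [smul_apply, smul_eq_mul]
    ring
  have h1 := gmul_sq_le χ b x v
  have h2 : gsq b x v ≤ C * lev b x v :=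
    (hb.grad v).trans (mul_le_mul_of_nonneg_right hC hL)
  have h3 : gmul χ b x v ^ 2 ≤ gsq χ x v * (C * lev b x v) :=
    h1.trans (mul_le_mul_of_nonneg_left h2 hg)
  set X := χ x ^ 2 * lev b x v / 2 with hX
  set Y := 8 * C * gsq χ x v with hY
  have hX0 : 0 ≤ X := by positivity
  have hY0 : 0 ≤ Y := by positivity
  have h4 : (4 * χ x * gmul χ b x v) ^ 2 ≤ (X + Y) ^ 2 := by
    have : (4 * χ x * gmul χ b x v) ^ 2 = 16 * χ x ^ 2 * gmul χ b x v ^ 2 := by ring
    rw [this]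
    have h5 : 16 * χ x ^ 2 * gmul χ b x v ^ 2 ≤ 16 * χ x ^ 2 * (gsq χ x v * (C * lev b x v)) :=
      mul_le_mul_of_nonneg_left h3 (by positivity)
    have h6 : 16 * χ x ^ 2 * (gsq χ x v * (C * lev b x v)) = 4 * X * Y := by
      rw [hX, hY]; ring
    nlinarith [sq_nonneg (X - Y)]
  have h7 := abs_le_of_sq_le_sq' h4 (add_nonneg hX0 hY0)
  have h8 : -(C * |lev (fun y => χ y ^ 2) x v|) ≤ b x * lev (fun y => χ y ^ 2) x v := by
    have k1 : |b x * lev (fun y => χ y ^ 2) x v| ≤ C * |lev (fun y => χ y ^ 2) x v| := by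
      rw [abs_mul, abs_of_nonneg hb0]
      exact mul_le_mul_of_nonneg_right hC (abs_nonneg _)
    exact (abs_le.1 k1).1
  rw [e1]
  have h9 : 0 ≤ χ x ^ 2 * lev b x v := by positivity
  have h10 : X = χ x ^ 2 * lev b x v / 2 := hX
  linarith [h7.1]

theorem Good.comp_hol {E' : Type*} [NormedAddCommGroup E'] [NormedSpace ℂ E'] [CompleteSpace E']
    {b : E' → ℝ}
    {F : E → E'} {x : E} (hb : Good b (F x)) (hF : AnalyticAt ℂ F x) :
    Good (fun y => b (F y)) x := by
  have hF2 : ContDiffAt ℝ 2 F x := (hF.contDiffAt (n := 2)).restrict_scalars ℝ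
  refine ⟨hb.smooth.comp x hF2, hb.nonneg, fun v => ?_, fun v => ?_⟩
  · rw [Lev_901.lev_comp_hol hb.smooth hF]
    exact hb.lev_nonneg _
  · rw [Lev_901.lev_comp_hol hb.smooth hF, Lev_901.gsq_comp_hol (diff1 hb.smooth)
      hF.differentiableAt]
    exact hb.grad _

end cut

/-! ### the chart coordinate -/

section chart

variable {N n : ℕ} {I : Ideal (HomCoordRing N)} {p : EE N} (C : ConeChart I n p)

/-- the ratio coordinate of a chart -/
def zt (q : EE N) : CC n := ratio C.i C.J p q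

theorem zt_smul {c : ℂ} (hc : c ≠ 0) (q : EE N) : zt C (c • q) = zt C q := by
  funext k
  simp only [zt, ratio, Pi.smul_apply, smul_eq_mul]
  rw [mul_div_mul_left _ _ hc]

theorem zt_self : zt C p = 0 := by
  funext k
  simp [zt, ratio]

theorem zt_sigma {z : CC n} (hz : z ∈ Metric.ball (0 : CC n) C.R) : zt C (C.σ z) = z := by
  funext k
  simp only [zt, ratio, C.σ_i z hz, C.σ_J z hz k]
  ring

theorem zt_analyticAt {q : EE N} (hq : q C.i ≠ 0) : AnalyticAt ℂ (zt C) q := by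
  refine AnalyticAt.pi fun k => ?_
  unfold zt ratio
  have h1 : AnalyticAt ℂ (fun q : EE N => q (C.J k)) q :=
    (ContinuousLinearMap.proj (R := ℂ) (φ := fun _ : Fin (N + 1) => ℂ) (C.J k)).analyticAt q
  have h2 : AnalyticAt ℂ (fun q : EE N => q C.i) q :=
    (ContinuousLinearMap.proj (R := ℂ) (φ := fun _ : Fin (N + 1) => ℂ) C.i).analyticAt q
  exact (h1.div h2 hq).sub analyticAt_const

/-- the part of the chart cone over the ball of radius `r` -/
def Wb (r : ℝ) : Set (EE N) := {q | q ∈ C.W ∧ zt C q ∈ Metric.ball (0 : CC n) r}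

theorem Wb_open (r : ℝ) : IsOpen (Wb C r) := by
  have h : ContinuousOn (zt C) C.W := fun q hq =>
    (zt_analyticAt C (C.W_ne q hq)).continuousAt.continuousWithinAt
  exact h.isOpen_inter_preimage C.W_open Metric.isOpen_ball

theorem Wb_smul (r : ℝ) (c : ℂ) (hc : c ≠ 0) (q : EE N) (hq : q ∈ Wb C r) : c • q ∈ Wb C r :=
  ⟨C.W_smul c hc q hq.1, by rw [zt_smul C hc]; exact hq.2⟩

theorem self_mem_Wb {r : ℝ} (hr : 0 < r) : p ∈ Wb C r :=
  ⟨C.mem_W, by rw [zt_self]; exact Metric.mem_ball_self hr⟩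

/-- derivative of the coordinate along the section -/
theorem fderiv_zt {z : CC n} (hz : z ∈ Metric.ball (0 : CC n) C.R) {c : ℂ} (hc : c ≠ 0) (e : CC n) :
    fderiv ℂ (zt C) (c • C.σ z) (c • fderiv ℂ C.σ z e) = e := by
  have h1 : HasFDerivAt (fun y => c • C.σ y) (c • fderiv ℂ C.σ z) z :=
    (C.an z hz).differentiableAt.hasFDerivAt.const_smul c
  have hne : (c • C.σ z) C.i ≠ 0 := by
    simp only [Pi.smul_apply, smul_eq_mul, C.σ_i z hz, mul_one]
    exact hc
  have h2 : HasFDerivAt (zt C) (fderiv ℂ (zt C) (c • C.σ z)) (c • C.σ z) :=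
    (zt_analyticAt C hne).differentiableAt.hasFDerivAt
  have h3 : HasFDerivAt (fun y => zt C (c • C.σ y))
      ((fderiv ℂ (zt C) (c • C.σ z)).comp (c • fderiv ℂ C.σ z)) z := h2.comp z h1
  have h4 : (fun y => zt C (c • C.σ y)) =ᶠ[𝓝 z] fun y => y := by
    filter_upwards [Metric.isOpen_ball.mem_nhds hz] with y hy
    rw [zt_smul C hc, zt_sigma C hy]
  have h5 : HasFDerivAt (fun y : CC n => y)
      ((fderiv ℂ (zt C) (c • C.σ z)).comp (c • fderiv ℂ C.σ z)) z := h4.hasFDerivAt_iff.1 h3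
  have h6 := h5.unique (hasFDerivAt_id z)
  have h7 := DFunLike.congr_fun h6 e
  simpa using h7

end chart

/-! ### the local piece -/

section loc

variable {N n : ℕ} {I : Ideal (HomCoordRing N)}

theorem local_pack (hI : I.IsPrime) (hX : IsSmoothProjective I n) {p : EE N}
    (C : ConeChart I n p) {ns : EE N → ℝ} (hns : ∀ q ∈ Cone I, 0 ≤ ns q)
    (hinv : ∀ q ∈ Cone I, ∀ c : ℂ, c ≠ 0 → ns (c • q) = ns q)
    {s : CC n → ℂ} (hs : AnalyticAt ℂ s 0) (hs0 : ¬ ∀ᶠ z in 𝓝 0, s z = 0) {C1 : ℝ}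
    (hC1 : ∀ᶠ z in 𝓝 (0 : CC n), ‖s z‖ ^ 2 ≤ C1 * ns (C.σ z)) :
    ∃ (O : Set (EE N)) (u : ℝ → EE N → ℝ) (dl K B c : ℝ), IsOpen O ∧ p ∈ O ∧
      (∀ c : ℂ, c ≠ 0 → ∀ q ∈ O, c • q ∈ O) ∧ 0 < dl ∧ 0 ≤ K ∧ 0 ≤ B ∧ 0 < c ∧
      ∀ tau : ℝ, 0 < tau → tau ≤ 1 →
        SmX I (u tau) ∧ (∀ q ∈ Cone I, 0 ≤ u tau q ∧ u tau q ≤ B) ∧
        (∀ q ∈ Cone I, ∀ v ∈ Tan I q, -(B * omg q v) ≤ lev (u tau) q v) ∧
        (∀ q ∈ Cone I, q ∈ O → (∀ v ∈ Tan I q, 0 ≤ lev (u tau) q v) ∧
          ∃ e ∈ Tan I q, omg q e ≤ K ∧ c * (ns q + tau) ^ (-dl) ≤ 1 + lev (u tau) q e) := by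
  classical
  obtain ⟨e, M, r, c, Cb, hr, hc, hCb, hsan, hloc⟩ := local_bf hs hs0 (gam := 1 / 2)
    (by norm_num) (by norm_num)
  have h0R : (0 : CC n) ∈ Metric.ball (0 : CC n) C.R := Metric.mem_ball_self C.R_pos
  -- bound of the derivative of the section
  set Kσ : ℝ := Geo_328.nsq (fderiv ℂ C.σ 0 e) + 1 with hKσ
  have hK1 : ∀ᶠ z in 𝓝 (0 : CC n), Geo_328.nsq (fderiv ℂ C.σ z e) < Kσ := by
    have h1 : ContinuousAt (fun z => fderiv ℂ C.σ z e) 0 := by
      have h2 : AnalyticAt ℂ (fderiv ℂ C.σ) 0 := (C.an 0 h0R).fderiv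
      exact (ContinuousLinearMap.apply ℂ (EE N) e).continuous.continuousAt.comp h2.continuousAt
    have h3 : ContinuousAt (fun z => Geo_328.nsq (fderiv ℂ C.σ z e)) 0 :=
      (DictA_886.continuous_nsq.continuousAt).comp h1
    exact h3.eventually (gt_mem_nhds (by rw [hKσ]; linarith))
  obtain ⟨r1, hr1, hrb⟩ := Metric.eventually_nhds_iff_ball.1 (hC1.and hK1)
  set r0 : ℝ := min (min r r1) C.R with hr0
  have hr0p : 0 < r0 := lt_min (lt_min hr hr1) C.R_pos
  have hr0r : r0 ≤ r := (min_le_left _ _).trans (min_le_left _ _)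
  have hr0r1 : r0 ≤ r1 := (min_le_left _ _).trans (min_le_right _ _)
  have hr0R : r0 ≤ C.R := min_le_right _ _
  have hr2 : r0 / 2 < r0 := by linarith
  have hr2p : 0 < r0 / 2 := by linarith
  -- the cut-off
  set Kc : Set (VV N) := (fun z => PP (C.σ z)) '' Metric.closedBall (0 : CC n) (r0 / 2) with hKc
  have hKcc : IsCompact Kc := by
    refine (isCompact_closedBall (0 : CC n) (r0 / 2)).image_of_continuousOn ?_
    intro z hz
    have hzR : z ∈ Metric.ball (0 : CC n) C.R := by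
      rw [Metric.mem_closedBall] at hz
      rw [Metric.mem_ball]
      linarith
    exact ((CAtl_886.contDiffAt_PP (C.σ_cone z hzR).2).continuousAt.comp
      (C.an z hzR).continuousAt).continuousWithinAt
  obtain ⟨θ, hθs, hθ1, hθ0⟩ := DictA_886.exists_cut (Wb_open C r0) (Wb_smul C r0) hKcc (by
    rintro q hq ⟨z, hz, hzq⟩
    have hz' : z ∈ Metric.ball (0 : CC n) r0 := by
      rw [Metric.mem_closedBall] at hz
      rw [Metric.mem_ball]
      linarith
    have hzR := Metric.ball_subset_ball hr0R hz'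
    obtain ⟨c, hc, h⟩ := CAtl_886.exists_smul_of_PP_eq (C.σ_cone z hzR).2 hq hzq
    rw [h]
    exact Wb_smul C r0 c hc _ ⟨C.σ_W z hzR, by rw [zt_sigma C hzR]; exact hz'⟩)
  set χ : EE N → ℝ := fun x => θ (PP x) with hχ
  have hχs : SmX I χ := by
    refine ⟨fun q hq => hθs.contDiffAt.comp q (CAtl_886.contDiffAt_PP hq.2), fun q hq c hc => ?_⟩
    simp only [hχ]
    rw [CAtl_886.PP_smul hc]
  have hχ2s : SmX I (fun x => χ x ^ 2) :=
    ⟨fun q hq => (hχs.1 q hq).pow 2, fun q hq c hc => by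
      show χ (c • q) ^ 2 = χ q ^ 2
      rw [hχs.2 q hq c hc]⟩
  obtain ⟨Ca, hCa, hCab⟩ := exists_bound hI hX hχs
  obtain ⟨Cc, hCc, hCcb⟩ := exists_bound hI hX hχ2s
  have hnsC1 : ∀ z ∈ Metric.ball (0 : CC n) r0, ‖s z‖ ^ 2 ≤ C1 * ns (C.σ z) := fun z hz =>
    (hrb z (Metric.ball_subset_ball hr0r1 hz)).1
  set u : ℝ → EE N → ℝ := fun tau x =>
    if x ∈ Wb C r0 then χ x ^ 2 * bf (1 / 2) tau e s M (zt C x) else 0 with hu
  set Dl : ℝ := dexp (1 / 2) M with hDl
  have hDlp : 0 < Dl := dexp_pos (by norm_num) M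
  set C2 : ℝ := max C1 1 with hC2
  have hC2p : 0 < C2 := lt_of_lt_of_le one_pos (le_max_right _ _)
  refine ⟨Wb C (r0 / 2), u, Dl, Kσ, Cc * Cb + (Cb * Cc + 8 * Cb * Ca), c * C2 ^ (-Dl),
    Wb_open C _, self_mem_Wb C hr2p, Wb_smul C _, hDlp, ?_, by positivity, by positivity, ?_⟩
  · rw [hKσ]
    have := Frm290.nsq_nonneg (fderiv ℂ C.σ 0 e)
    have h' : (0 : ℝ) ≤ Geo_328.nsq (fderiv ℂ C.σ 0 e) := this
    linarith
  intro tau ht ht1
  -- local formula near points of `Wb C r0`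
  have hloc' : ∀ q ∈ Wb C r0, u tau =ᶠ[𝓝 q]
      fun x => χ x ^ 2 * bf (1 / 2) tau e s M (zt C x) := by
    intro q hq
    filter_upwards [(Wb_open C r0).mem_nhds hq] with x hx
    exact if_pos hx
  have hzero : ∀ q ∈ Cone I, q ∉ Wb C r0 → u tau =ᶠ[𝓝 q] fun _ => (0 : ℝ) := by
    intro q hq hqW
    have h1 : ∀ᶠ x in 𝓝 q, θ (PP x) = 0 :=
      (CAtl_886.contDiffAt_PP hq.2).continuousAt.eventually (hθ0 q hq.2 hqW)
    filter_upwards [h1] with x hx
    simp only [hu, hχ, hx]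
    split_ifs
    · simp
    · rfl
  have hGood : ∀ q ∈ Wb C r0, Good (fun x => bf (1 / 2) tau e s M (zt C x)) q ∧
      bf (1 / 2) tau e s M (zt C q) ≤ Cb := by
    intro q hq
    have h1 := hloc tau ht ht1 (zt C q) (Metric.ball_subset_ball hr0r hq.2)
    exact ⟨Good.comp_hol h1.1 (zt_analyticAt C (C.W_ne q hq.1)), h1.2.1⟩
  have hsm : SmX I (u tau) := by
    refine ⟨fun q hq => ?_, fun q hq c hc => ?_⟩
    · by_cases hqW : q ∈ Wb C r0
      · refine ContDiffAt.congr_of_eventuallyEq ?_ (hloc' q hqW)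
        refine (hχ2s.1 q hq).mul ?_
        have h1 : ContDiffAt ℝ ∞ (bf (1 / 2) tau e s M) (zt C q) :=
          bf_contDiffAt ht (hsan _ (Metric.ball_subset_ball hr0r hqW.2)) M
        have h2 : ContDiffAt ℝ ∞ (zt C) q :=
          ((zt_analyticAt C (C.W_ne q hqW.1)).contDiffAt (n := ∞)).restrict_scalars ℝ
        exact h1.comp q h2
      · exact contDiffAt_const.congr_of_eventuallyEq (hzero q hq hqW)
    · have h1 : c • q ∈ Wb C r0 ↔ q ∈ Wb C r0 := by
        refine ⟨fun h => ?_, fun h => Wb_smul C r0 c hc q h⟩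
        have := Wb_smul C r0 c⁻¹ (inv_ne_zero hc) _ h
        rwa [smul_smul, inv_mul_cancel₀ hc, one_smul] at this
      simp only [hu, h1]
      split_ifs with h
      · rw [hχs.2 q hq c hc, zt_smul C hc]
      · rfl
  refine ⟨hsm, fun q hq => ?_, fun q hq v hv => ?_, fun q hq hqO => ?_⟩
  · -- bounds
    by_cases hqW : q ∈ Wb C r0
    · have h1 : u tau q = χ q ^ 2 * bf (1 / 2) tau e s M (zt C q) := (hloc' q hqW).self_of_nhds
      have h2 := hGood q hqW
      have h3 : 0 ≤ bf (1 / 2) tau e s M (zt C q) := h2.1.nonneg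
      have h4 : χ q ^ 2 ≤ Cc := by
        have := (hCcb q hq).1
        exact (le_abs_self _).trans this
      rw [h1]
      refine ⟨by positivity, ?_⟩
      have h5 : χ q ^ 2 * bf (1 / 2) tau e s M (zt C q) ≤ Cc * Cb :=
        mul_le_mul h4 h2.2 h3 hCc
      have h6 : 0 ≤ Cb * Cc + 8 * Cb * Ca := by positivity
      linarith
    · have h1 : u tau q = 0 := (hzero q hq hqW).self_of_nhds
      rw [h1]
      exact ⟨le_rfl, by positivity⟩
  · -- lower bound of the Levi form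
    have hom := omg_nonneg hq.2 v
    by_cases hqW : q ∈ Wb C r0
    · rw [lev_congr (hloc' q hqW) v]
      have h2 := hGood q hqW
      have h3 := lev_cut h2.1 ((hχs.1 q hq).of_le two_le) h2.2 v
      have h4 := ((hCcb q hq).2 v hv).1
      have h5 := ((hCab q hq).2 v hv).2
      refine le_trans ?_ h3
      have k1 : Cb * |lev (fun y => χ y ^ 2) q v| ≤ Cb * (Cc * omg q v) :=
        mul_le_mul_of_nonneg_left h4 hCb.le
      have k2 : 8 * Cb * gsq χ q v ≤ 8 * Cb * (Ca * omg q v) :=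
        mul_le_mul_of_nonneg_left h5 (by positivity)
      have k3 : 0 ≤ Cc * Cb * omg q v := by positivity
      linarith
    · rw [lev_congr (hzero q hq hqW) v, lev_const]
      have : 0 ≤ (Cc * Cb + (Cb * Cc + 8 * Cb * Ca)) * omg q v := by positivity
      linarith
  · -- on the inner part
    have hqW : q ∈ Wb C r0 := ⟨hqO.1, Metric.ball_subset_ball hr2.le hqO.2⟩
    have h2 := hGood q hqW
    have Cq := Classical.choice (Chart_632.chartStmt N n I hI hX q hq)
    have hev : ∀ᶠ x in 𝓝[Cone I] q, u tau x = bf (1 / 2) tau e s M (zt C x) := by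
      have h3 : ∀ᶠ x in 𝓝[Cone I] q, x ∈ Wb C (r0 / 2) :=
        mem_nhdsWithin_of_mem_nhds ((Wb_open C (r0 / 2)).mem_nhds hqO)
      filter_upwards [h3, self_mem_nhdsWithin] with x hx hxC
      have hxW : x ∈ Wb C r0 := ⟨hx.1, Metric.ball_subset_ball hr2.le hx.2⟩
      have h4 : PP x ∈ Kc := by
        refine ⟨zt C x, Metric.ball_subset_closedBall hx.2, ?_⟩
        obtain ⟨h5, h6⟩ := C.surj x hxC hx.1
        have h7 : PP (x C.i • C.σ (zt C x)) = PP (C.σ (zt C x)) :=
          CAtl_886.PP_smul (C.W_ne x hx.1) _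
        show PP (C.σ (zt C x)) = PP x
        rw [← h7]
        exact congrArg PP h6.symm
      have h8 : χ x = 1 := hθ1 _ h4
      simp only [hu]
      rw [if_pos hxW, h8]
      ring
    have hlev : ∀ v ∈ Tan I q, lev (u tau) q v = lev (fun x => bf (1 / 2) tau e s M (zt C x)) q v :=
      fun v hv => LevCone_901.lev_congr_cone hX hq Cq ((hsm.1 q hq).of_le two_le)
        h2.1.smooth hev hv
    refine ⟨fun v hv => by rw [hlev v hv]; exact h2.1.lev_nonneg v, ?_⟩
    -- the good direction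
    obtain ⟨hzR, hqσ⟩ := C.surj q hq hqW.1
    have hqi : q C.i ≠ 0 := C.W_ne q hqW.1
    set z0 : CC n := zt C q with hz0
    have hzR' : z0 ∈ Metric.ball (0 : CC n) C.R := hzR
    have hqσ' : q = q C.i • C.σ z0 := hqσ
    have hz0r : z0 ∈ Metric.ball (0 : CC n) r0 := hqW.2
    have hTan : fderiv ℂ C.σ z0 e ∈ Tan I (C.σ z0) :=
      (C.tan z0 hzR' _).2 ⟨0, e, by rw [zero_smul, zero_add]⟩
    refine ⟨q C.i • fderiv ℂ C.σ z0 e, ?_, ?_, ?_⟩
    · have h3 : Tan I q = Tan I (C.σ z0) := by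
        conv_lhs => rw [hqσ']
        exact Tan_smul hX _ hqi
      rw [h3]
      exact Submodule.smul_mem _ _ hTan
    · have h3 : omg q (q C.i • fderiv ℂ C.σ z0 e) = omg (C.σ z0) (fderiv ℂ C.σ z0 e) := by
        conv_lhs => rw [hqσ']
        have h4 : (q C.i • C.σ z0) C.i = q C.i := by
          rw [← hqσ']
        rw [h4]
        exact omg_smul (C.σ_cone z0 hzR').2 hqi _
      rw [h3]
      refine (omg_le (C.σ_cone z0 hzR').2 _).trans ?_
      have h5 : 1 ≤ Geo_328.nsq (C.σ z0) := by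
        have h6 : ‖C.σ z0 C.i‖ ^ 2 ≤ Geo_328.nsq (C.σ z0) :=
          Finset.single_le_sum (f := fun k => ‖C.σ z0 k‖ ^ 2)
            (fun _ _ => by positivity) (Finset.mem_univ C.i)
        rw [C.σ_i z0 hzR'] at h6
        simpa using h6
      have h7 : Geo_328.nsq (fderiv ℂ C.σ z0 e) < Kσ :=
        (hrb z0 (Metric.ball_subset_ball hr0r1 hz0r)).2
      have h8 : (0 : ℝ) ≤ Geo_328.nsq (fderiv ℂ C.σ z0 e) := Frm290.nsq_nonneg _
      exact (div_le_self h8 h5).trans h7.le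
    · have hmem : q C.i • fderiv ℂ C.σ z0 e ∈ Tan I q := by
        have h3 : Tan I q = Tan I (C.σ z0) := by
          conv_lhs => rw [hqσ']
          exact Tan_smul hX _ hqi
        rw [h3]
        exact Submodule.smul_mem _ _ hTan
      rw [hlev _ hmem]
      have h1 := hloc tau ht ht1 z0 (Metric.ball_subset_ball hr0r hz0r)
      have h3 : lev (fun x => bf (1 / 2) tau e s M (zt C x)) q (q C.i • fderiv ℂ C.σ z0 e)
          = lev (bf (1 / 2) tau e s M) z0 e := by
        rw [Lev_901.lev_comp_hol (F := zt C) (x := q) (u := bf (1 / 2) tau e s M) h1.1.smooth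
          (zt_analyticAt C hqi)]
        congr 1
        have h4 := fderiv_zt C hzR' hqi e
        rw [← hqσ'] at h4
        exact h4
      rw [h3]
      refine le_trans ?_ h1.2.2
      have hnsq : ns (C.σ z0) = ns q := by
        have := hinv (C.σ z0) (C.σ_cone z0 hzR') (q C.i) hqi
        rw [← hqσ'] at this
        exact this.symm
      have h5 : ‖s z0‖ ^ 2 + tau ≤ C2 * (ns q + tau) := by
        have h6 := hnsC1 z0 hz0r
        rw [hnsq] at h6
        have h7 : C1 * ns q ≤ C2 * ns q := mul_le_mul_of_nonneg_right (le_max_left _ _) (hns q hq)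
        have h8 : tau ≤ C2 * tau := by
          have : 1 ≤ C2 := le_max_right _ _
          nlinarith
        nlinarith
      have h6 : 0 < ‖s z0‖ ^ 2 + tau := by positivity
      have h7 : (C2 * (ns q + tau)) ^ (-Dl) ≤ (‖s z0‖ ^ 2 + tau) ^ (-Dl) :=
        Real.rpow_le_rpow_of_nonpos h6 h5 (by linarith)
      have h8 : 0 ≤ ns q + tau := by have := hns q hq; linarith
      rw [Real.mul_rpow hC2p.le h8] at h7
      calc c * C2 ^ (-Dl) * (ns q + tau) ^ (-Dl) = c * (C2 ^ (-Dl) * (ns q + tau) ^ (-Dl)) := by ring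
        _ ≤ c * (‖s z0‖ ^ 2 + tau) ^ (-Dl) := mul_le_mul_of_nonneg_left h7 hc.le

end loc

end

end Crest.Agent.R269.BGl2_653
end

-- ▼ part R269/BLin_653
section

/-! Row 269, leaf 11.1 (helper653): linear algebra.  If `G, P ≥ 0` and `P(x) ≥ (T-1) G(x)` in one
direction `x` then `n (T det G)^{1/n} ≤ tr (G + P)`. -/

set_option autoImplicit false
set_option linter.unusedSectionVars false

open Matrix Complex
open scoped ComplexConjugate ComplexOrder MatrixOrder

namespace Crest.Agent.R269.BLin_653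

open Crest.Agent.R269.DetIneq271

variable {κ : Type*} [Fintype κ] [DecidableEq κ]

theorem one_add_sum_le_prod {ι : Type*} (s : Finset ι) (f : ι → ℝ) (hf : ∀ i ∈ s, 0 ≤ f i) :
    1 + ∑ i ∈ s, f i ≤ ∏ i ∈ s, (1 + f i) := by
  classical
  induction s using Finset.induction_on with
  | empty => simp
  | insert a s ha ih =>
    have h1 := ih fun i hi => hf i (Finset.mem_insert_of_mem hi)
    have h2 := hf a (Finset.mem_insert_self a s)
    have h3 : 0 ≤ ∑ i ∈ s, f i :=
      Finset.sum_nonneg fun i hi => hf i (Finset.mem_insert_of_mem hi)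
    rw [Finset.sum_insert ha, Finset.prod_insert ha]
    nlinarith [mul_nonneg h2 h3]

theorem det_one_add_eq {Q : Matrix κ κ ℂ} (hQ : Q.IsHermitian) :
    (1 + Q).det = ∏ i, (1 + (hQ.eigenvalues i : ℂ)) := by
  have h1 := Matrix.eval_charpoly Q (-1)
  rw [hQ.charpoly_eq, Polynomial.eval_prod] at h1
  have h2 : (Matrix.scalar κ (-1 : ℂ) - Q) = -(1 + Q) := by
    ext i j
    simp [Matrix.one_apply, Matrix.diagonal_apply]
    split_ifs <;> ring
  rw [h2, Matrix.det_neg] at h1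
  have h3 : ∏ j, Polynomial.eval (-1 : ℂ) (Polynomial.X - Polynomial.C ((hQ.eigenvalues j : ℝ) : ℂ))
      = (-1) ^ Fintype.card κ * ∏ i, (1 + (hQ.eigenvalues i : ℂ)) := by
    rw [← Finset.card_univ, ← Finset.prod_const, ← Finset.prod_mul_distrib]
    refine Finset.prod_congr rfl fun i _ => ?_
    simp
    ring
  have h4 : ((-1 : ℂ) ^ Fintype.card κ) ≠ 0 := by simp
  exact mul_left_cancel₀ h4 (h1.symm.trans h3)

theorem det_one_add_ge {Q : Matrix κ κ ℂ} (hQ : Q.PosSemidef) :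
    1 + Q.trace.re ≤ (1 + Q).det.re := by
  have h1 := det_one_add_eq hQ.1
  have h2 : Q.trace.re = ∑ i, hQ.1.eigenvalues i := by
    rw [hQ.1.trace_eq_sum_eigenvalues]; simp
  have h3 : (1 + Q).det.re = ∏ i, (1 + hQ.1.eigenvalues i) := by
    rw [h1]
    have : (∏ i, (1 + (hQ.1.eigenvalues i : ℂ))) = ((∏ i, (1 + hQ.1.eigenvalues i) : ℝ) : ℂ) := by
      push_cast; rfl
    rw [this, Complex.ofReal_re]
  rw [h2, h3]
  exact one_add_sum_le_prod _ _ fun i _ => hQ.eigenvalues_nonneg i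

theorem re_star_dot (y : κ → ℂ) : (star y ⬝ᵥ y).re = ∑ i, ‖y i‖ ^ 2 := by
  simp only [dotProduct, Pi.star_apply, RCLike.star_def, Complex.re_sum]
  refine Finset.sum_congr rfl fun i _ => ?_
  rw [Complex.conj_mul']
  norm_cast

/-- `y* Q y ≤ tr Q |y|²`. -/
theorem quad_le_trace {Q : Matrix κ κ ℂ} (hQ : Q.PosSemidef) (y : κ → ℂ) :
    (star y ⬝ᵥ (Q *ᵥ y)).re ≤ Q.trace.re * (star y ⬝ᵥ y).re := by
  obtain ⟨S, hS⟩ : ∃ S : Matrix κ κ ℂ, Q = Sᴴ * S := by
    refine ⟨CFC.sqrt Q, ?_⟩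
    have h1 : (CFC.sqrt Q)ᴴ = CFC.sqrt Q := (CFC.sqrt_nonneg Q).posSemidef.isHermitian
    rw [h1]
    exact (CFC.sqrt_mul_sqrt_self Q hQ.nonneg).symm
  have h1 : star y ⬝ᵥ (Q *ᵥ y) = star (S *ᵥ y) ⬝ᵥ (S *ᵥ y) := by
    rw [hS, ← Matrix.mulVec_mulVec, Matrix.dotProduct_mulVec, ← Matrix.star_mulVec]
  have h2 : Q.trace.re = ∑ j, ∑ i, ‖S i j‖ ^ 2 := by
    rw [hS]
    simp only [Matrix.trace, Matrix.diag, Matrix.mul_apply, Matrix.conjTranspose_apply,
      RCLike.star_def, Complex.re_sum]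
    refine Finset.sum_congr rfl fun j _ => Finset.sum_congr rfl fun i _ => ?_
    rw [Complex.conj_mul']
    norm_cast
  rw [h1, re_star_dot, re_star_dot, h2, Finset.sum_comm, Finset.sum_mul]
  refine Finset.sum_le_sum fun i _ => ?_
  have h3 : ‖(S *ᵥ y) i‖ ≤ ∑ j, ‖S i j‖ * ‖y j‖ := by
    simp only [Matrix.mulVec, dotProduct]
    exact (norm_sum_le _ _).trans (Finset.sum_le_sum fun j _ => (norm_mul _ _).le)
  calc ‖(S *ᵥ y) i‖ ^ 2 ≤ (∑ j, ‖S i j‖ * ‖y j‖) ^ 2 := by gcongr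
    _ ≤ (∑ j, ‖S i j‖ ^ 2) * ∑ j, ‖y j‖ ^ 2 := Finset.sum_mul_sq_le_sq_mul_sq _ _ _

theorem trace_ge [Nonempty κ] {G P : Matrix κ κ ℂ} (hG : G.PosSemidef) (hP : P.PosSemidef) {T : ℝ}
    (hT : 0 ≤ T) (hx : 1 < T → ∃ x : κ → ℂ, x ≠ 0 ∧
      (T - 1) * (star x ⬝ᵥ (G *ᵥ x)).re ≤ (star x ⬝ᵥ (P *ᵥ x)).re) :
    (Fintype.card κ : ℝ) * (T * G.det.re) ^ ((Fintype.card κ : ℝ)⁻¹) ≤ G.trace.re + P.trace.re := by
  have htr : ∀ {A : Matrix κ κ ℂ}, A.PosSemidef → 0 ≤ A.trace.re := fun {A} hA => by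
    have := card_mul_dn_le_trace hA
    exact le_trans (mul_nonneg (by positivity) (dn_nonneg hA)) this
  have hcard : (0 : ℝ) < Fintype.card κ := by exact_mod_cast Fintype.card_pos
  by_cases hdet : G.det.re = 0
  · rw [hdet, mul_zero, Real.zero_rpow (inv_pos.2 hcard).ne', mul_zero]
    exact add_nonneg (htr hG) (htr hP)
  have hdet' : 0 < G.det.re := lt_of_le_of_ne (det_re_nonneg hG) (Ne.symm hdet)
  by_cases hT1 : T ≤ 1
  · have h1 := card_mul_dn_le_trace hG
    have h2 := htr hP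
    have h3 : (T * G.det.re) ^ ((Fintype.card κ : ℝ)⁻¹) ≤ dn G := by
      unfold dn
      exact Real.rpow_le_rpow (mul_nonneg hT hdet'.le) (by nlinarith) (inv_pos.2 hcard).le
    have h4 := mul_le_mul_of_nonneg_left h3 hcard.le
    linarith
  push Not at hT1
  obtain ⟨x, hx0, hx1⟩ := hx hT1
  -- `G = Sᴴ S`
  obtain ⟨S, hSH, hS⟩ : ∃ S : Matrix κ κ ℂ, Sᴴ = S ∧ G = Sᴴ * S := by
    refine ⟨CFC.sqrt G, (CFC.sqrt_nonneg G).posSemidef.isHermitian, ?_⟩
    have h1 : (CFC.sqrt G)ᴴ = CFC.sqrt G := (CFC.sqrt_nonneg G).posSemidef.isHermitian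
    rw [h1]
    exact (CFC.sqrt_mul_sqrt_self G hG.nonneg).symm
  have hSdet : S.det ≠ 0 := by
    intro h
    apply hdet
    rw [hS, Matrix.det_mul, h, mul_zero]
    simp
  have hSu : IsUnit S.det := isUnit_iff_ne_zero.2 hSdet
  set Q : Matrix κ κ ℂ := (S⁻¹)ᴴ * P * S⁻¹ with hQ
  have hQP : Q.PosSemidef := hP.conjTranspose_mul_mul_same S⁻¹
  have hPQ : P = Sᴴ * Q * S := by
    have e1 : S⁻¹ * S = 1 := Matrix.nonsing_inv_mul S hSu
    have e2 : Sᴴ * (S⁻¹)ᴴ = 1 := by
      rw [← Matrix.conjTranspose_mul, e1, Matrix.conjTranspose_one]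
    calc P = 1 * P * 1 := by simp
      _ = (Sᴴ * (S⁻¹)ᴴ) * P * (S⁻¹ * S) := by rw [e1, e2]
      _ = Sᴴ * Q * S := by rw [hQ]; simp only [Matrix.mul_assoc]
  set y : κ → ℂ := S *ᵥ x with hy
  have hGx : star x ⬝ᵥ (G *ᵥ x) = star y ⬝ᵥ y := by
    rw [hS, ← Matrix.mulVec_mulVec, Matrix.dotProduct_mulVec, ← Matrix.star_mulVec]
  have hPx : star x ⬝ᵥ (P *ᵥ x) = star y ⬝ᵥ (Q *ᵥ y) := by
    rw [hPQ, ← Matrix.mulVec_mulVec, ← Matrix.mulVec_mulVec, Matrix.dotProduct_mulVec,
      ← Matrix.star_mulVec]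
  have hy0 : y ≠ 0 := fun h => hx0 (by
    have := congrArg (fun v => S⁻¹ *ᵥ v) h
    simpa [hy, Matrix.mulVec_mulVec, Matrix.nonsing_inv_mul S hSu] using this)
  have hyp : 0 < (star y ⬝ᵥ y).re := by
    rw [re_star_dot]
    obtain ⟨i, hi⟩ := Function.ne_iff.1 hy0
    exact Finset.sum_pos' (fun i _ => by positivity)
      ⟨i, Finset.mem_univ _, by have : 0 < ‖y i‖ := norm_pos_iff.2 hi; positivity⟩
  have hTQ : T - 1 ≤ Q.trace.re := by
    rw [hGx, hPx] at hx1
    have := hx1.trans (quad_le_trace hQP y)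
    exact le_of_mul_le_mul_right this hyp
  have hdetQ : T ≤ (1 + Q).det.re := by linarith [det_one_add_ge hQP]
  have h1Q : (1 + Q).PosSemidef := Matrix.PosSemidef.one.add hQP
  have hSS : (S * Sᴴ).PosSemidef := Matrix.posSemidef_self_mul_conjTranspose S
  have h5 := card_mul_dn_mul_dn_le_trace h1Q hSS
  have h6 : ((1 + Q) * (S * Sᴴ)).trace = G.trace + P.trace := by
    have e : G + P = Sᴴ * (1 + Q) * S := by
      rw [Matrix.mul_add, Matrix.add_mul, Matrix.mul_one, ← hS, ← hPQ]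
    rw [← Matrix.trace_add, e, Matrix.trace_mul_cycle, Matrix.trace_mul_comm]
  have h7 : dn (1 + Q) * dn (S * Sᴴ) = ((1 + Q).det.re * G.det.re) ^ ((Fintype.card κ : ℝ)⁻¹) := by
    have e : (S * Sᴴ).det.re = G.det.re := by
      rw [hS, Matrix.det_mul, Matrix.det_mul, mul_comm]
    unfold dn
    rw [e, Real.mul_rpow (det_re_nonneg h1Q) hdet'.le]
  rw [h7, h6, Complex.add_re] at h5
  refine le_trans ?_ h5
  refine mul_le_mul_of_nonneg_left ?_ hcard.le
  exact Real.rpow_le_rpow (mul_nonneg hT hdet'.le) (mul_le_mul_of_nonneg_right hdetQ hdet'.le)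
    (inv_pos.2 hcard).le

end Crest.Agent.R269.BLin_653
end

-- ▼ part R269/BGl3_653
section

/-! Row 269, (11.1) (helper653): the global function `b_τ` (ambient form), theorem `exists_b`. -/

set_option autoImplicit false
set_option linter.unusedSectionVars false

open Complex Filter Topology MvPolynomial Crest.AlgGeometry.ProjEmb
open scoped ContDiff ComplexConjugate ComplexOrder

namespace Crest.Agent.R269.BGl3_653

open Crest.Agent.R269.Geo_328
open Crest.Agent.R269.Defs_58 (SmX omg DD TanFam)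
open Crest.Agent.R269.LevC_653 Crest.Agent.R269.Bf_653 Crest.Agent.R269.BGl1_653
open Crest.Agent.R269.BGl2_653
open Crest.Agent.R269.Frm290 (gmat prj gram D)

noncomputable section

variable {N n : ℕ} {I : Ideal (HomCoordRing N)}

/-! ### a tangent vector is a combination of a frame and the Euler vector -/

theorem tan_decomp (hX : IsSmoothProjective I n) {q : EE N} (hq : q ∈ Cone I) {b : Fin n → EE N}
    (hb : TanFam I q b) (hD : DD q b ≠ 0) {e : EE N} (he : e ∈ Tan I q) :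
    ∃ (x : Fin n → ℂ) (l : ℂ), e = (∑ k, x k • b k) + l • q := by
  have hi : Frm290.Indep q (Matrix.of fun k l => b l k) :=
    Frm290.indep_of_D_ne hq.2 (by rw [← DD_eq_D hq.2]; exact hD)
  set w : Fin (n + 1) → EE N := Fin.cons q b with hw
  have hwT : ∀ i, w i ∈ Tan I q := by
    intro i
    refine Fin.cases ?_ (fun i => ?_) i
    · simpa [hw] using self_mem_Tan hX hq.1
    · simpa [hw] using hb i
  have hlin : LinearIndependent ℂ w := by
    rw [Fintype.linearIndependent_iff]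
    intro g hg
    rw [Fin.sum_univ_succ] at hg
    simp only [hw, Fin.cons_zero, Fin.cons_succ] at hg
    have h1 : (Matrix.of fun (k : Fin (N + 1)) (l : Fin n) => b l k).mulVec (fun i => g i.succ)
        = (-(g 0)) • q := by
      have h2 : (Matrix.of fun (k : Fin (N + 1)) (l : Fin n) => b l k).mulVec (fun i => g i.succ)
          = ∑ i : Fin n, g i.succ • b i := by
        funext k
        simp [Matrix.mulVec, dotProduct, Finset.sum_apply, mul_comm]
      rw [h2, neg_smul]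
      exact eq_neg_of_add_eq_zero_right hg
    have h3 := hi _ _ h1
    have h4 : g 0 = 0 := by
      have h5 : ∑ i : Fin n, g i.succ • b i = 0 := by
        refine Finset.sum_eq_zero fun i _ => ?_
        have := congrFun h3 i
        simp only [Pi.zero_apply] at this
        rw [this, zero_smul]
      rw [h5, add_zero] at hg
      exact (smul_eq_zero.1 hg).resolve_right hq.2
    intro i
    refine Fin.cases h4 (fun i => ?_) i
    exact congrFun h3 i
  set w' : Fin (n + 1) → Tan I q := fun i => ⟨w i, hwT i⟩ with hw'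
  have hlin' : LinearIndependent ℂ w' := by
    apply LinearIndependent.of_comp (Tan I q).subtype
    exact hlin
  have hspan : Submodule.span ℂ (Set.range w') = ⊤ := by
    apply hlin'.span_eq_top_of_card_eq_finrank'
    rw [Fintype.card_fin, finrank_Tan hX hq]
  have hmem : (⟨e, he⟩ : Tan I q) ∈ Submodule.span ℂ (Set.range w') := by
    rw [hspan]; trivial
  obtain ⟨g, hg⟩ := (Submodule.mem_span_range_iff_exists_fun ℂ).1 hmem
  refine ⟨fun k => g k.succ, g 0, ?_⟩
  have h6 := congrArg Subtype.val hg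
  simp only at h6
  rw [← h6, Fin.sum_univ_succ]
  simp only [hw', hw, Submodule.coe_add, Submodule.coe_smul, Submodule.coe_sum, Fin.cons_zero,
    Fin.cons_succ]
  rw [add_comm]

theorem omg_add_smul {p : EE N} (hp : p ≠ 0) (v : EE N) (r : ℂ) :
    omg p (v + r • p) = omg p v := by
  rw [omg_eq_prj hp, omg_eq_prj hp, Matrix.mulVec_add, Matrix.mulVec_smul,
    Frm290.prj_mulVec_self hp, smul_zero, add_zero]

/-! ### the pointwise inequality -/

theorem comb_eq (b : Fin n → EE N) (x : Fin n → ℂ) :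
    (Matrix.of fun (k : Fin (N + 1)) (l : Fin n) => b l k).mulVec x = ∑ k, x k • b k := by
  funext j
  simp [Matrix.mulVec, dotProduct, Finset.sum_apply, mul_comm]

/-- `n (T DD q b)^{1/n} ≤ ∑ (omg + lev u)(b_i)` as soon as `lev u ≥ 0` on the tangent space and
`(T-1) omg(e) ≤ lev u (e)` in one tangent direction. -/
theorem pointwise (hI : I.IsPrime) (hX : IsSmoothProjective I n) (hn : 0 < n) {u : EE N → ℝ}
    (hu : SmX I u) {q : EE N} (hq : q ∈ Cone I) (hpos : ∀ v ∈ Tan I q, 0 ≤ lev u q v)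
    {e : EE N} (he : e ∈ Tan I q) {T : ℝ} (hT : 0 ≤ T) (hTe : 1 < T → 0 < lev u q e)
    (hTe' : 1 < T → (T - 1) * omg q e ≤ lev u q e) {b : Fin n → EE N} (hb : TanFam I q b) :
    (n : ℝ) * (T * DD q b) ^ ((n : ℝ)⁻¹) ≤ ∑ k, (omg q (b k) + lev u q (b k)) := by
  classical
  have hne : Nonempty (Fin n) := ⟨⟨0, hn⟩⟩
  have hn' : (0 : ℝ) < n := by exact_mod_cast hn
  have hu2 : ContDiffAt ℝ 2 u q := (hu.1 q hq).of_le two_le
  by_cases hD : DD q b = 0
  · rw [hD, mul_zero, Real.zero_rpow (inv_pos.2 hn').ne', mul_zero]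
    exact Finset.sum_nonneg fun k _ => add_nonneg (omg_nonneg hq.2 _) (hpos _ (hb k))
  set M : Matrix (Fin (N + 1)) (Fin n) ℂ := Matrix.of fun k l => b l k with hM
  set G : Matrix (Fin n) (Fin n) ℂ := gram q M with hG
  set P : Matrix (Fin n) (Fin n) ℂ := Matrix.of fun i j => Lev_901.levB u q (b j) (b i) with hP
  have hcomb : ∀ x : Fin n → ℂ, (∑ k, x k • b k) ∈ Tan I q := fun x =>
    Submodule.sum_mem _ fun k _ => Submodule.smul_mem _ _ (hb k)
  have hPx : ∀ x : Fin n → ℂ, star x ⬝ᵥ (P.mulVec x) = Lev_901.levB u q (∑ k, x k • b k)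
      (∑ k, x k • b k) := by
    intro x
    rw [Lev_901.levB_sum_right]
    simp only [dotProduct, Pi.star_apply, RCLike.star_def]
    refine Finset.sum_congr rfl fun i _ => ?_
    rw [Lev_901.levB_smul_right, Lev_901.levB_sum_left]
    congr 1
    simp only [Matrix.mulVec, dotProduct, hP, Matrix.of_apply]
    refine Finset.sum_congr rfl fun j _ => ?_
    rw [Lev_901.levB_smul_left, mul_comm]
  have hPH : P.IsHermitian := by
    ext i j
    simp only [hP, Matrix.conjTranspose_apply, Matrix.of_apply, RCLike.star_def]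
    exact Lev_901.levB_conj hu2 _ _
  have hPP : P.PosSemidef := by
    refine Matrix.PosSemidef.of_dotProduct_mulVec_nonneg hPH fun x => ?_
    rw [hPx, Lev_901.levB_self hu2]
    exact_mod_cast hpos _ (hcomb x)
  have hGP : G.PosSemidef := Frm290.gram_posSemidef hq.2 M
  have hGx : ∀ x : Fin n → ℂ, (star x ⬝ᵥ (G.mulVec x)).re = omg q (∑ k, x k • b k) := by
    intro x
    rw [hG, Frm290.gram_dot hq.2, Complex.ofReal_re, comb_eq, omg_eq_prj hq.2]
    rfl
  have htrG : G.trace.re = ∑ k, omg q (b k) := by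
    simp only [Matrix.trace, Matrix.diag, Complex.re_sum]
    refine Finset.sum_congr rfl fun k _ => ?_
    have h1 := hGx (Pi.single k 1)
    have h2 : (∑ j, (Pi.single k (1 : ℂ) : Fin n → ℂ) j • b j) = b k := by
      rw [Finset.sum_eq_single k]
      · simp
      · intro j _ hj; simp [hj]
      · intro h; exact absurd (Finset.mem_univ k) h
    rw [h2] at h1
    rw [← h1]
    simp
  have htrP : P.trace.re = ∑ k, lev u q (b k) := by
    simp only [Matrix.trace, Matrix.diag, Complex.re_sum, hP, Matrix.of_apply]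
    refine Finset.sum_congr rfl fun k _ => ?_
    rw [Lev_901.levB_self_re]
  have hdet : G.det.re = DD q b := by rw [DD_eq_D hq.2]; rfl
  have Cq := Classical.choice (Chart_632.chartStmt N n I hI hX q hq)
  have hadd : ∀ v ∈ Tan I q, ∀ r : ℂ, lev u q (v + r • q) = lev u q v := fun v hv r =>
    LevCone_901.lev_add_smul_self hX hq Cq hu.2 hu2 hv r
  have key := BLin_653.trace_ge hGP hPP hT (by
    intro h1T
    obtain ⟨x, l, hx⟩ := tan_decomp hX hq hb hD he
    have h1 : lev u q e = lev u q (∑ k, x k • b k) := by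
      rw [hx]; exact hadd _ (hcomb x) l
    refine ⟨x, ?_, ?_⟩
    · rintro rfl
      have h2 := hTe h1T
      rw [h1] at h2
      simp [Lev_901.lev_zero] at h2
    · rw [hGx, hPx, Lev_901.levB_self hu2, Complex.ofReal_re, ← h1]
      have h2 : omg q e = omg q (∑ k, x k • b k) := by
        rw [hx]; exact omg_add_smul hq.2 _ _
      rw [← h2]
      exact hTe' h1T)
  rw [htrG, htrP, hdet, Fintype.card_fin] at key
  rw [Finset.sum_add_distrib]
  exact key

/-! ### the global function -/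

theorem exists_lb {ι : Type*} (F : Finset ι) (f : ι → ℝ) (hf : ∀ i, 0 < f i) :
    ∃ m : ℝ, 0 < m ∧ ∀ i ∈ F, m ≤ f i := by
  classical
  induction F using Finset.induction_on with
  | empty => exact ⟨1, one_pos, by simp⟩
  | insert a s ha ih =>
    obtain ⟨m, hm, h⟩ := ih
    refine ⟨min m (f a), lt_min hm (hf a), fun i hi => ?_⟩
    rcases Finset.mem_insert.1 hi with rfl | hi
    · exact min_le_right _ _
    · exact (min_le_left _ _).trans (h i hi)

/-- **(11.1), global ambient form.** -/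
theorem exists_b (hI : I.IsPrime) (hX : IsSmoothProjective I n) (hn : 0 < n) {ns : EE N → ℝ}
    {B : ℝ} (h0 : ∀ q ∈ Cone I, 0 ≤ ns q ∧ ns q ≤ B)
    (hinv : ∀ q ∈ Cone I, ∀ c : ℂ, c ≠ 0 → ns (c • q) = ns q)
    (hloc : ∀ p ∈ Cone I, ∀ C : ConeChart I n p, ∃ s : CC n → ℂ, AnalyticAt ℂ s 0 ∧
      (¬ ∀ᶠ z in 𝓝 0, s z = 0) ∧ ∃ C1 : ℝ, ∀ᶠ z in 𝓝 (0 : CC n), ‖s z‖ ^ 2 ≤ C1 * ns (C.σ z)) :
    ∃ (dl C c : ℝ) (b : ℝ → EE N → ℝ), 0 < dl ∧ 0 < C ∧ 0 < c ∧
      ∀ tau : ℝ, 0 < tau → tau ≤ 1 →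
        SmX I (b tau) ∧ (∀ q ∈ Cone I, 0 ≤ b tau q ∧ b tau q ≤ C) ∧
        (∀ q ∈ Cone I, ∀ v ∈ Tan I q, omg q v ≤ C * omg q v + Defs_58.lev (b tau) q v) ∧
        (∀ q ∈ Cone I, ∀ w : Fin n → EE N, TanFam I q w →
          (n : ℝ) * (c * (ns q + tau) ^ (-dl) * DD q w) ^ ((n : ℝ)⁻¹) ≤
            ∑ k, (C * omg q (w k) + Defs_58.lev (b tau) q (w k))) := by
  classical
  set K1 : Set (EE N) := {p : EE N | p ∈ affineCone I ∧ Geo_328.nsq p = 1} with hK1
  have hK1c : IsCompact K1 := AtlX_632.isCompact_sphereCone I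
  have hK1C : ∀ q ∈ K1, q ∈ Cone I := by
    rintro q ⟨h1, h2⟩
    refine ⟨h1, ?_⟩
    rintro rfl
    simp [Geo_328.nsq] at h2
  have hpack : ∀ p : K1, ∃ (O : Set (EE N)) (u : ℝ → EE N → ℝ) (dl K B c : ℝ), IsOpen O ∧
      (p : EE N) ∈ O ∧ (∀ c : ℂ, c ≠ 0 → ∀ q ∈ O, c • q ∈ O) ∧ 0 < dl ∧ 0 ≤ K ∧ 0 ≤ B ∧ 0 < c ∧
      ∀ tau : ℝ, 0 < tau → tau ≤ 1 →
        SmX I (u tau) ∧ (∀ q ∈ Cone I, 0 ≤ u tau q ∧ u tau q ≤ B) ∧
        (∀ q ∈ Cone I, ∀ v ∈ Tan I q, -(B * omg q v) ≤ lev (u tau) q v) ∧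
        (∀ q ∈ Cone I, q ∈ O → (∀ v ∈ Tan I q, 0 ≤ lev (u tau) q v) ∧
          ∃ e ∈ Tan I q, omg q e ≤ K ∧ c * (ns q + tau) ^ (-dl) ≤ 1 + lev (u tau) q e) := by
    intro p
    have hp := hK1C p p.2
    have C := Classical.choice (Chart_632.chartStmt N n I hI hX p hp)
    obtain ⟨s, hs, hs0, C1, hC1⟩ := hloc p hp C
    exact local_pack hI hX C (fun q hq => (h0 q hq).1) hinv hs hs0 hC1
  choose O u dl K Bp c hOo hOp hOs hdl hK hB hc hall using hpack
  obtain ⟨t, ht⟩ := hK1c.elim_nhds_subcover' (fun x hx => O ⟨x, hx⟩)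
    (fun x hx => (hOo ⟨x, hx⟩).mem_nhds (hOp ⟨x, hx⟩))
  have hcov : ∀ q ∈ Cone I, ∃ p ∈ t, q ∈ O p := by
    intro q hq
    obtain ⟨a, ha, haS⟩ := DictA_886.exists_smul_Sph hq.2
    have haK : a • q ∈ K1 := ⟨(smul_mem_Cone hX hq ha).1, haS⟩
    obtain ⟨p, hp, hpO⟩ := Set.mem_iUnion₂.1 (ht haK)
    refine ⟨p, hp, ?_⟩
    have := hOs p a⁻¹ (inv_ne_zero ha) _ hpO
    rwa [smul_smul, inv_mul_cancel₀ ha, one_smul] at this
  set Q : ℝ := max B 0 + 1 with hQ
  have hQ1 : 0 < Q := by rw [hQ]; have := le_max_right B 0; linarith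
  obtain ⟨d0, hd0, hd0t⟩ := exists_lb t dl hdl
  obtain ⟨c1, hc1, hc1t⟩ := exists_lb t (fun p => c p * Q ^ (-(dl p - d0)))
    (fun p => mul_pos (hc p) (Real.rpow_pos_of_pos hQ1 _))
  set Km : ℝ := ∑ p ∈ t, K p with hKm
  have hKm0 : 0 ≤ Km := Finset.sum_nonneg fun p _ => hK p
  have hKt : ∀ p ∈ t, K p ≤ Km := fun p hp =>
    Finset.single_le_sum (f := K) (fun p _ => hK p) hp
  set Cm : ℝ := 1 + ∑ p ∈ t, Bp p with hCm
  have hCs : 0 ≤ ∑ p ∈ t, Bp p := Finset.sum_nonneg fun p _ => hB p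
  refine ⟨d0, Cm, c1 / (1 + Km), fun tau x => ∑ p ∈ t, u p tau x, hd0, by linarith,
    by positivity, fun tau htau htau1 => ?_⟩
  have hall' := fun p => hall p tau htau htau1
  have hsm : SmX I (fun x => ∑ p ∈ t, u p tau x) := by
    refine ⟨fun q hq => ContDiffAt.sum fun p _ => (hall' p).1.1 q hq, fun q hq a ha => ?_⟩
    exact Finset.sum_congr rfl fun p _ => (hall' p).1.2 q hq a ha
  have hlev : ∀ q ∈ Cone I, ∀ v, Defs_58.lev (fun x => ∑ p ∈ t, u p tau x) q v
      = ∑ p ∈ t, lev (u p tau) q v := by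
    intro q hq v
    rw [lev_eq]
    exact Bf_653.lev_sum t (fun p _ => ((hall' p).1.1 q hq).of_le two_le) v
  have hrest : ∀ q ∈ Cone I, ∀ v ∈ Tan I q, ∀ p ∈ t,
      omg q v + lev (u p tau) q v ≤ Cm * omg q v + ∑ p ∈ t, lev (u p tau) q v := by
    intro q hq v hv p hp
    have hom := omg_nonneg hq.2 v
    have h1 : ∑ p' ∈ t, -(Bp p' * omg q v) + (lev (u p tau) q v + Bp p * omg q v) ≤
        ∑ p' ∈ t, lev (u p' tau) q v := by
      have h2 : ∀ p' ∈ t, 0 ≤ lev (u p' tau) q v + Bp p' * omg q v := fun p' _ => by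
        have := (hall' p').2.2.1 q hq v hv
        linarith
      have h3 := Finset.single_le_sum h2 hp
      rw [Finset.sum_add_distrib] at h3
      rw [Finset.sum_neg_distrib]
      linarith
    rw [Finset.sum_neg_distrib, ← Finset.sum_mul] at h1
    have h4 : 0 ≤ Bp p * omg q v := mul_nonneg (hB p) hom
    rw [hCm]
    linarith
  refine ⟨hsm, fun q hq => ?_, fun q hq v hv => ?_, fun q hq w hw => ?_⟩
  · refine ⟨Finset.sum_nonneg fun p _ => ((hall' p).2.1 q hq).1, ?_⟩
    have h1 : ∑ p ∈ t, u p tau q ≤ ∑ p ∈ t, Bp p :=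
      Finset.sum_le_sum fun p _ => ((hall' p).2.1 q hq).2
    show ∑ p ∈ t, u p tau q ≤ Cm
    linarith
  · rw [hlev q hq]
    obtain ⟨p, hp, hqO⟩ := hcov q hq
    have h1 := hrest q hq v hv p hp
    have h2 := ((hall' p).2.2.2 q hq hqO).1 v hv
    linarith
  · obtain ⟨p, hp, hqO⟩ := hcov q hq
    obtain ⟨hpos, e, he, heK, hec⟩ := (hall' p).2.2.2 q hq hqO
    have hnq : 0 < ns q + tau := by have := (h0 q hq).1; linarith
    have hnQ : ns q + tau ≤ Q := by
      have h1 := (h0 q hq).2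
      have h2 := le_max_left B 0
      rw [hQ]; linarith
    -- uniform exponent
    have h1 : c1 * (ns q + tau) ^ (-d0) ≤ 1 + lev (u p tau) q e := by
      refine le_trans ?_ hec
      have h2 := lower_exp hnq hnQ (hd0t p hp)
      have h3 := hc1t p hp
      have h4 : 0 < (ns q + tau) ^ (-d0) := Real.rpow_pos_of_pos hnq _
      calc c1 * (ns q + tau) ^ (-d0)
          ≤ (c p * Q ^ (-(dl p - d0))) * (ns q + tau) ^ (-d0) :=
            mul_le_mul_of_nonneg_right h3 h4.le
        _ ≤ (c p * Q ^ (-(dl p - d0))) * (Q ^ (dl p - d0) * (ns q + tau) ^ (-(dl p))) :=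
            mul_le_mul_of_nonneg_left h2
              (mul_nonneg (hc p).le (Real.rpow_nonneg hQ1.le _))
        _ = c p * (ns q + tau) ^ (-(dl p)) * (Q ^ (-(dl p - d0)) * Q ^ (dl p - d0)) := by ring
        _ = c p * (ns q + tau) ^ (-(dl p)) := by
            rw [← Real.rpow_add hQ1, neg_add_cancel, Real.rpow_zero, mul_one]
    set T : ℝ := c1 / (1 + Km) * (ns q + tau) ^ (-d0) with hT
    have hT0 : 0 ≤ T := by positivity
    have hTc : c1 * (ns q + tau) ^ (-d0) = (1 + Km) * T := by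
      rw [hT]; field_simp
    rw [hTc] at h1
    have heK' : omg q e ≤ Km := heK.trans (hKt p hp)
    have hpt := pointwise hI hX hn (hall' p).1 hq hpos he hT0
      (fun h => by nlinarith) (fun h => by
        have h5 : (T - 1) * omg q e ≤ (T - 1) * Km :=
          mul_le_mul_of_nonneg_left heK' (by linarith)
        nlinarith) hw
    refine hpt.trans ?_
    refine Finset.sum_le_sum fun k _ => ?_
    rw [hlev q hq]
    exact hrest q hq (w k) (hw k) p hp

end

end Crest.Agent.R269.BGl3_653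
end

-- ▼ part R269/Half5_993
section

/-!
# R269 (S0411), LINE B: `HintStmt` (helper993)
-/

set_option autoImplicit false

namespace Crest.Agent.R269.Half5_993

theorem ebStmt : Half4_993.EBStmt := fun _ _ _ hI hX hn _ _ h0 hinv hloc =>
  BGl3_653.exists_b hI hX hn h0 hinv hloc

theorem hintStmt : WF_731.HintStmt := Half4_993.hint_of ebStmt

end Crest.Agent.R269.Half5_993
end

-- ▼ part R269/Fin_731

/-!
# R269 (S0411), Line B, B13: `TStmt` and `TDelStmt` from `WFStmt` (helper731)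
-/

set_option autoImplicit false

namespace Crest.Agent.R269.Fin_731

open Crest.Agent.R269.Defs_58 Crest.Agent.R269.WF_731

theorem tStmt_of (hW : WFStmt) : TStmt := SDI_731.tStmt hW

theorem tDelStmt_of (hW : WFStmt) : TDelStmt := SDI_731.tDelStmt hW Half5_993.hintStmt

end Crest.Agent.R269.Fin_731
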