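import Crest.Agent.R269.GeoT_328
import Crest.Agent.R269.Frm2_290
import Crest.Agent.R269.Defs_58
import Crest.Agent.R269.GeoPi_328

-- ▼ part R269/FldA_620
section

/-!
# R269 (S0411), leaf FLD, part A (helper620): linear algebra of frames and Hermitian fields

Pure matrix facts: two frames of the same positive field differ by a unitary matrix, the Gram
determinant of a frame is a function of the field, horizontal projection, Gram determinants of
`(p, b)`, the AM-GM inequality.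
-/

set_option autoImplicit false
set_option linter.unusedSectionVars false

open Matrix Crest.AlgGeometry.ProjEmb
open scoped ComplexConjugate ComplexOrder MatrixOrder

namespace Crest.Agent.R269.FldA_620

open Crest.Agent.R269.Geo_328 Crest.Agent.R269.DetIneq271

noncomputable section

section Mat

variable {ι κ : Type*} [Fintype ι] [DecidableEq ι] [Fintype κ] [DecidableEq κ]

/-- two matrices with `B' B'ᴴ = B Bᴴ`, `B` injective, differ by a unitary -/
theorem exists_unitary {B B' : Matrix ι κ ℂ} (hB : IsUnit (Bᴴ * B).det)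
    (h : B' * B'ᴴ = B * Bᴴ) :
    ∃ U : Matrix κ κ ℂ, U * Uᴴ = 1 ∧ Uᴴ * U = 1 ∧ B' = B * U := by
  obtain ⟨L, hLB⟩ : ∃ L : Matrix κ ι ℂ, L * B = 1 :=
    ⟨(Bᴴ * B)⁻¹ * Bᴴ, by rw [Matrix.mul_assoc, Matrix.nonsing_inv_mul _ hB]⟩
  have h0 : (B' - B * (L * B')) * (B' - B * (L * B'))ᴴ = 0 := by
    have e1 : B' - B * (L * B') = (1 - B * L) * B' := by
      rw [Matrix.sub_mul, Matrix.one_mul, Matrix.mul_assoc]
    have e2 : (1 - B * L) * B = 0 := by
      rw [Matrix.sub_mul, Matrix.one_mul, Matrix.mul_assoc, hLB, Matrix.mul_one, sub_self]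
    calc (B' - B * (L * B')) * (B' - B * (L * B'))ᴴ
        = (1 - B * L) * (B' * B'ᴴ) * (1 - B * L)ᴴ := by
          rw [e1, Matrix.conjTranspose_mul]; simp only [Matrix.mul_assoc]
      _ = ((1 - B * L) * B) * Bᴴ * (1 - B * L)ᴴ := by
          rw [h]; simp only [Matrix.mul_assoc]
      _ = 0 := by rw [e2, Matrix.zero_mul, Matrix.zero_mul]
  have h1 : B' = B * (L * B') := by
    rw [Matrix.self_mul_conjTranspose_eq_zero] at h0
    exact sub_eq_zero.1 h0
  have h2 : (L * B') * (L * B')ᴴ = 1 := by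
    calc (L * B') * (L * B')ᴴ = L * (B' * B'ᴴ) * Lᴴ := by
          rw [Matrix.conjTranspose_mul]; simp only [Matrix.mul_assoc]
      _ = (L * B) * (L * B)ᴴ := by
          rw [h, Matrix.conjTranspose_mul L B]; simp only [Matrix.mul_assoc]
      _ = 1 := by rw [hLB, Matrix.conjTranspose_one, Matrix.one_mul]
  exact ⟨L * B', h2, mul_eq_one_comm.1 h2, h1⟩

/-- the Gram determinant does not change under a unitary -/
theorem det_gram_mul_unitary {B : Matrix ι κ ℂ} {U : Matrix κ κ ℂ} (hU : Uᴴ * U = 1) :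
    ((B * U)ᴴ * (B * U)).det = (Bᴴ * B).det := by
  have e : (B * U)ᴴ * (B * U) = Uᴴ * (Bᴴ * B) * U := by
    rw [Matrix.conjTranspose_mul]; simp only [Matrix.mul_assoc]
  have h1 := congrArg Matrix.det hU
  rw [Matrix.det_mul, Matrix.det_one] at h1
  rw [e, Matrix.det_mul, Matrix.det_mul, mul_comm, ← mul_assoc, mul_comm U.det, h1, one_mul]

theorem det_gram_congr {B B' : Matrix ι κ ℂ} (hB : IsUnit (Bᴴ * B).det)
    (h : B' * B'ᴴ = B * Bᴴ) : (B'ᴴ * B').det = (Bᴴ * B).det := by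
  obtain ⟨U, -, hU, rfl⟩ := exists_unitary hB h
  exact det_gram_mul_unitary hU

/-- `det (E S Eᴴ + (1 - E Eᴴ)) = det S` for an isometry `E` -/
theorem det_add_one_sub {E : Matrix ι κ ℂ} (hE : Eᴴ * E = 1) (S : Matrix κ κ ℂ) :
    (E * S * Eᴴ + (1 - E * Eᴴ)).det = S.det := by
  have e : E * S * Eᴴ + (1 - E * Eᴴ) = 1 + (E * (S - 1)) * Eᴴ := by
    rw [Matrix.mul_sub, Matrix.sub_mul, Matrix.mul_one]; abel
  rw [e, Matrix.det_one_add_mul_comm, ← Matrix.mul_assoc, hE, Matrix.one_mul, add_sub_cancel]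

/-- `det (B Bᴴ + (1 - E Eᴴ)) = det (Bᴴ B)` if the columns of `B` lie in the range of the isometry -/
theorem det_frame {E B : Matrix ι κ ℂ} (hE : Eᴴ * E = 1) (hB : E * Eᴴ * B = B) :
    (B * Bᴴ + (1 - E * Eᴴ)).det = (Bᴴ * B).det := by
  have e : B * Bᴴ = E * ((Eᴴ * B) * (Eᴴ * B)ᴴ) * Eᴴ := by
    conv_lhs => rw [← hB]
    simp only [Matrix.conjTranspose_mul, Matrix.conjTranspose_conjTranspose, Matrix.mul_assoc]
  rw [e, det_add_one_sub hE, Matrix.det_mul_comm]
  congr 1
  rw [Matrix.conjTranspose_mul, Matrix.conjTranspose_conjTranspose]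
  calc Bᴴ * E * (Eᴴ * B) = Bᴴ * (E * Eᴴ * B) := by simp only [Matrix.mul_assoc]
    _ = Bᴴ * B := by rw [hB]


theorem exists_mul_conjTranspose {S : Matrix κ κ ℂ} (hS : S.PosSemidef) :
    ∃ C : Matrix κ κ ℂ, S = C * Cᴴ := by
  refine ⟨CFC.sqrt S, ?_⟩
  have h1 : (CFC.sqrt S)ᴴ = CFC.sqrt S := (CFC.sqrt_nonneg S).posSemidef.isHermitian
  rw [h1]
  exact (CFC.sqrt_mul_sqrt_self S hS.nonneg).symm

/-- `Eᴴ M E` is positive definite for `M` positive definite and `E` an isometry -/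
theorem posDef_compress {E : Matrix ι κ ℂ} (hE : Eᴴ * E = 1) {M : Matrix ι ι ℂ} (hM : M.PosDef) :
    (Eᴴ * M * E).PosDef := by
  refine hM.conjTranspose_mul_mul_same ?_
  intro x y hxy
  have h1 := congrArg (fun v => Eᴴ.mulVec v) hxy
  simpa [Matrix.mulVec_mulVec, hE] using h1

end Mat

/-! ## Schur complement with respect to the first coordinate -/

theorem det_schur {n : ℕ} (A : Matrix (Fin (n + 1)) (Fin (n + 1)) ℂ) (h : A 0 0 ≠ 0) :
    A.det = A 0 0 *
      (Matrix.of fun i j : Fin n => A i.succ j.succ - A i.succ 0 * A 0 j.succ / A 0 0).det := by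
  set c : Fin (n + 1) → ℂ := Fin.cons 0 fun i => A i.succ 0 / A 0 0 with hc
  set B : Matrix (Fin (n + 1)) (Fin (n + 1)) ℂ := Matrix.of fun i j => A i j - c i * A 0 j with hB
  have h0 : ∀ j, B 0 j = A 0 j := by intro j; simp [hB, hc]
  have h1 : A.det = B.det := by
    refine Matrix.det_eq_of_forall_row_eq_smul_add_const c 0 (by simp [hc]) ?_
    intro i j
    rw [h0 j]
    simp [hB]
  rw [h1, Matrix.det_succ_column_zero, Fin.sum_univ_succ]
  have h2 : ∀ i : Fin n, B i.succ 0 = 0 := by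
    intro i
    simp only [hB, hc, Matrix.of_apply, Fin.cons_succ]
    field_simp
    simp
  simp only [h2, h0]
  simp only [Fin.val_zero, pow_zero, one_mul, mul_zero, zero_mul, Finset.sum_const_zero, add_zero]
  congr 2
  ext i j
  simp only [Matrix.submatrix_apply, hB, hc, Matrix.of_apply, Fin.succAbove_zero, Fin.cons_succ]
  ring

/-! ## orthonormal frames of subspaces -/

theorem exists_onb {m n : ℕ} (S : Submodule ℂ (Fin m → ℂ)) (hS : Module.finrank ℂ S = n) :
    ∃ E : Matrix (Fin m) (Fin n) ℂ, Eᴴ * E = 1 ∧ (∀ k, (fun j => E j k) ∈ S) ∧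
      ∀ v ∈ S, E *ᵥ (Eᴴ *ᵥ v) = v := by
  set L := WithLp.linearEquiv 2 ℂ (Fin m → ℂ)
  set S' : Submodule ℂ (EuclideanSpace ℂ (Fin m)) := S.comap L.toLinearMap with hS'
  have hS'n : Module.finrank ℂ S' = n := by
    rw [← hS]
    exact LinearEquiv.finrank_eq (L.ofSubmodule' S)
  set b : OrthonormalBasis (Fin n) ℂ S' := (stdOrthonormalBasis ℂ S').reindex (finCongr hS'n)
  set E : Matrix (Fin m) (Fin n) ℂ := Matrix.of fun j k => (b k : EuclideanSpace ℂ (Fin m)) j with hE
  refine ⟨E, ?_, ?_, ?_⟩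
  · ext i j
    have h1 : inner ℂ (b i) (b j) = if i = j then (1 : ℂ) else 0 := by
      have := orthonormal_iff_ite.1 b.orthonormal i j
      exact_mod_cast this
    rw [Matrix.mul_apply, Matrix.one_apply, ← h1, Submodule.coe_inner, PiLp.inner_apply]
    refine Finset.sum_congr rfl fun k _ => ?_
    simp only [hE, Matrix.conjTranspose_apply, Matrix.of_apply, RCLike.inner_apply, RCLike.star_def]
    ring
  · intro k
    exact (b k).2
  · intro v hv
    have hv' : (WithLp.toLp 2 v : EuclideanSpace ℂ (Fin m)) ∈ S' := hv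
    have h2 := b.sum_repr ⟨WithLp.toLp 2 v, hv'⟩
    have h3 : ∀ k, b.repr ⟨WithLp.toLp 2 v, hv'⟩ k = (Eᴴ *ᵥ v) k := by
      intro k
      rw [b.repr_apply_apply, Submodule.coe_inner, PiLp.inner_apply]
      simp only [Matrix.mulVec, dotProduct, hE, Matrix.conjTranspose_apply, Matrix.of_apply,
        RCLike.inner_apply, RCLike.star_def]
      refine Finset.sum_congr rfl fun j _ => ?_
      ring
    have h4 := congrArg (fun w : S' => ((w : EuclideanSpace ℂ (Fin m)) : Fin m → ℂ)) h2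
    simp only at h4
    ext j
    have h5 := congrFun h4 j
    rw [Matrix.mulVec, dotProduct]
    simp only [← h3]
    rw [← h5]
    simp only [Submodule.coe_sum, WithLp.ofLp_sum, Finset.sum_apply, Submodule.coe_smul, WithLp.ofLp_smul, Pi.smul_apply, smul_eq_mul]
    refine Finset.sum_congr rfl fun k _ => ?_
    simp only [hE, Matrix.of_apply]
    ring


section Cone

variable {N n : ℕ} {I : Ideal (HomCoordRing N)}

/-- the horizontal tangent space `Tan I p ∩ pᗮ` -/
def HTan (I : Ideal (HomCoordRing N)) (p : EE N) : Submodule ℂ (EE N) where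
  carrier := {v | v ∈ Tan I p ∧ star p ⬝ᵥ v = 0}
  add_mem' := fun {a b} ha hb => ⟨(Tan I p).add_mem ha.1 hb.1, by rw [dotProduct_add, ha.2, hb.2, add_zero]⟩
  zero_mem' := ⟨(Tan I p).zero_mem, dotProduct_zero _⟩
  smul_mem' := fun c a ha => ⟨(Tan I p).smul_mem c ha.1, by rw [dotProduct_smul, ha.2, smul_zero]⟩

theorem mem_HTan {p v : EE N} : v ∈ HTan I p ↔ v ∈ Tan I p ∧ star p ⬝ᵥ v = 0 := Iff.rfl


theorem star_dot_self' (p : EE N) : star p ⬝ᵥ p = (nsq p : ℂ) := Crest.Agent.R269.Frm290.star_dot_self p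

theorem nsq_pos' {p : EE N} (hp : p ≠ 0) : 0 < nsq p := Crest.Agent.R269.Frm290.nsq_pos hp

theorem finrank_HTan (hX : IsSmoothProjective I n) {p : EE N} (hp : p ∈ Cone I) :
    Module.finrank ℂ (HTan I p) = n := by
  have hn := finrank_Tan hX hp
  have hpT := self_mem_Tan hX hp.1
  let φ : Tan I p →ₗ[ℂ] ℂ :=
    { toFun := fun v => star p ⬝ᵥ (v : EE N)
      map_add' := fun x y => by rw [Submodule.coe_add, dotProduct_add]
      map_smul' := fun c x => by rw [Submodule.coe_smul, dotProduct_smul, RingHom.id_apply] }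
  have h1 : LinearMap.range φ = ⊤ := by
    rw [LinearMap.range_eq_top]
    refine LinearMap.surjective (f := φ) ?_
    intro h
    have h2 : φ ⟨p, hpT⟩ = 0 := by rw [h]; rfl
    have h3 : star p ⬝ᵥ p = 0 := h2
    rw [star_dot_self'] at h3
    exact (nsq_pos' hp.2).ne' (by exact_mod_cast h3)
  have h2 := LinearMap.finrank_range_add_finrank_ker φ
  rw [h1, finrank_top, hn, Module.finrank_self] at h2
  have e : HTan I p = (LinearMap.ker φ).map (Tan I p).subtype := by
    ext v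
    constructor
    · intro hv
      exact ⟨⟨v, hv.1⟩, hv.2, rfl⟩
    · rintro ⟨w, hw, rfl⟩
      exact ⟨w.2, hw⟩
  rw [e, Submodule.finrank_map_subtype_eq]
  omega

end Cone

end

end Crest.Agent.R269.FldA_620
end

-- ▼ part R269/FldB_620
section

/-!
# R269 (S0411), leaf FLD, part B (helper620): `DD p b`, `wedgeSq` and the Gram matrices of
`Frm2_290`; frames representing a Hermitian field

* `wedgeSq_eq`, `DD_eq_D` : the two forms of the determinant
* `rep_unitary` etc. : two horizontal frames of the same field differ by a unitary matrix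
-/

set_option autoImplicit false
set_option linter.unusedSectionVars false

open Matrix Crest.AlgGeometry.ProjEmb
open scoped ComplexConjugate ComplexOrder MatrixOrder

namespace Crest.Agent.R269.FldB_620

open Crest.Agent.R269.Geo_328 Crest.Agent.R269.FldA_620

noncomputable section

variable {N n : ℕ} {I : Ideal (HomCoordRing N)}

/-- the matrix with columns `b` -/
def colM {m : ℕ} (b : Fin m → EE N) : Matrix (Fin (N + 1)) (Fin m) ℂ := Matrix.of fun j k => b k j

@[simp] theorem colM_apply {m : ℕ} (b : Fin m → EE N) (j : Fin (N + 1)) (k : Fin m) :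
    colM b j k = b k j := rfl

theorem colM_mul_conjTranspose {m : ℕ} (b : Fin m → EE N) (j k : Fin (N + 1)) :
    (colM b * (colM b)ᴴ) j k = ∑ i, b i j * conj (b i k) := by
  simp only [Matrix.mul_apply, Matrix.conjTranspose_apply, colM_apply, RCLike.star_def]



/-- Gram matrix of a family of vectors -/
def gramC {m : ℕ} (v : Fin m → EE N) : Matrix (Fin m) (Fin m) ℂ :=
  Matrix.of fun i j => ∑ k, v i k * conj (v j k)



theorem sum_mul_conj (p : EE N) : ∑ k, p k * conj (p k) = (nsq p : ℂ) := by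
  rw [nsq]
  push_cast
  exact Finset.sum_congr rfl fun k _ => Complex.mul_conj' _

theorem gram290_eq {m : ℕ} {p : EE N} (M : Matrix (Fin (N + 1)) (Fin m) ℂ) :
    Frm290.gram p M = (nsq p : ℂ)⁻¹ •
      (Mᴴ * M - (nsq p : ℂ)⁻¹ • vecMulVec (Mᴴ *ᵥ p) (star p ᵥ* M)) := by
  have e : (Frm290.nsq p) = nsq p := rfl
  rw [Frm290.gram, Frm290.gmat, Frm290.prj, e,
    Matrix.mul_smul, Matrix.smul_mul, Matrix.mul_sub, Matrix.mul_one, Matrix.sub_mul,
    Matrix.mul_smul, Matrix.smul_mul, Matrix.mul_vecMulVec, Matrix.vecMulVec_mul]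

theorem gram290_apply {m : ℕ} {p : EE N} (hp : p ≠ 0) (b : Fin m → EE N) (i j : Fin m) :
    (nsq p : ℂ) * Frm290.gram p (colM b) i j =
      ∑ k, conj (b i k) * b j k - (∑ k, conj (b i k) * p k) * (∑ k, conj (p k) * b j k) / nsq p := by
  have hp0 : (0 : ℝ) < nsq p := nsq_pos' hp
  have hpc : (nsq p : ℂ) ≠ 0 := by exact_mod_cast hp0.ne'
  rw [gram290_eq]
  simp only [Matrix.smul_apply, Matrix.sub_apply, smul_eq_mul, Matrix.vecMulVec_apply,
    Matrix.mul_apply, Matrix.conjTranspose_apply, colM_apply, RCLike.star_def, Matrix.mulVec,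
    Matrix.vecMul, dotProduct, Pi.star_apply]
  field_simp

/-- the Gram determinant of `(p, b)` -/
theorem det_gramC_cons {m : ℕ} {p : EE N} (hp : p ≠ 0) (b : Fin m → EE N) :
    (gramC (Fin.cons p b : Fin (m + 1) → EE N)).det =
      ((nsq p ^ (m + 1) * Frm290.D p (colM b) : ℝ) : ℂ) := by
  have hp0 : (0 : ℝ) < nsq p := nsq_pos' hp
  have hpc : (nsq p : ℂ) ≠ 0 := by exact_mod_cast hp0.ne'
  have h00 : (gramC (Fin.cons p b : Fin (m + 1) → EE N)) 0 0 = (nsq p : ℂ) := by
    simp only [gramC, Matrix.of_apply, Fin.cons_zero]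
    exact sum_mul_conj p
  have h1 := det_schur (gramC (Fin.cons p b : Fin (m + 1) → EE N)) (by rw [h00]; exact hpc)
  have h2 : (Matrix.of fun i j : Fin m => gramC (Fin.cons p b : Fin (m + 1) → EE N) i.succ j.succ -
      gramC (Fin.cons p b : Fin (m + 1) → EE N) i.succ 0 *
      gramC (Fin.cons p b : Fin (m + 1) → EE N) 0 j.succ /
      gramC (Fin.cons p b : Fin (m + 1) → EE N) 0 0) =
      (nsq p : ℂ) • (Frm290.gram p (colM b))ᵀ := by
    rw [h00]
    ext i j
    rw [Matrix.smul_apply, Matrix.transpose_apply, smul_eq_mul, gram290_apply hp]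
    simp only [gramC, Matrix.of_apply, Fin.cons_zero, Fin.cons_succ]
    congr 1
    · exact Finset.sum_congr rfl fun k _ => mul_comm _ _
    · rw [mul_comm (∑ k, b i k * conj (p k))]
      congr 2
      · exact Finset.sum_congr rfl fun k _ => mul_comm _ _
      · exact Finset.sum_congr rfl fun k _ => mul_comm _ _
  rw [h2, h00, Matrix.det_smul, Matrix.det_transpose, Fintype.card_fin,
    Frm290.gram_det_eq hp] at h1
  rw [h1]
  push_cast
  ring

/-- for a horizontal family `gram p b = BᴴB / |p|²` -/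
theorem gram290_hor {m : ℕ} {p : EE N} {b : Fin m → EE N} (hb : ∀ i, star p ⬝ᵥ b i = 0) :
    Frm290.gram p (colM b) = (nsq p : ℂ)⁻¹ • ((colM b)ᴴ * colM b) := by
  rw [gram290_eq]
  have h1 : star p ᵥ* colM b = 0 := by
    ext i
    exact hb i
  rw [h1, Matrix.vecMulVec_zero, smul_zero, sub_zero]

theorem D_hor {m : ℕ} {p : EE N} (hp : p ≠ 0) {b : Fin m → EE N}
    (hb : ∀ i, star p ⬝ᵥ b i = 0) :
    ((colM b)ᴴ * colM b).det = ((nsq p ^ m * Frm290.D p (colM b) : ℝ) : ℂ) := by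
  have hpc : (nsq p : ℂ) ≠ 0 := by exact_mod_cast (nsq_pos' hp).ne'
  have h1 := Frm290.gram_det_eq hp (colM b)
  rw [gram290_hor hb, Matrix.det_smul, Fintype.card_fin] at h1
  push_cast
  rw [← h1, ← mul_assoc, ← mul_pow, mul_inv_cancel₀ hpc, one_pow, one_mul]

/-- horizontal part -/
def hor (p v : EE N) : EE N := v - ((nsq p : ℂ)⁻¹ * (star p ⬝ᵥ v)) • p



theorem hor_of_hor {p v : EE N} (h : star p ⬝ᵥ v = 0) : hor p v = v := by
  rw [hor, h, mul_zero, zero_smul, sub_zero]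


end

end Crest.Agent.R269.FldB_620
end

-- ▼ part R269/FldC_620
section

/-!
# R269 (S0411), leaf FLD, part C (helper620): Hermitian matrices carried by a horizontal frame

`IsRep I p A b` : `b_1..b_n ∈ Tan I p`, `b_i ⟂ p`, the `b_i` are independent (`0 < D p b`) and
`A = ∑ b_i b_iᴴ`.
-/

set_option autoImplicit false
set_option linter.unusedSectionVars false

open Matrix Crest.AlgGeometry.ProjEmb
open scoped ComplexConjugate ComplexOrder MatrixOrder

namespace Crest.Agent.R269.FldC_620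

open Crest.Agent.R269.Geo_328 Crest.Agent.R269.FldA_620 Crest.Agent.R269.FldB_620
open Crest.Agent.R269

noncomputable section

variable {N n : ℕ} {I : Ideal (HomCoordRing N)}

/-- a plain function as a matrix -/
def toM (A : VV N) : Matrix (Fin (N + 1)) (Fin (N + 1)) ℂ := A

/-- the frame `b` of `Tan I p ∩ pᗮ` represents the Hermitian matrix `A` -/
structure IsRep (I : Ideal (HomCoordRing N)) (p : EE N) (A : VV N) {n : ℕ}
    (b : Fin n → EE N) : Prop where
  tan : ∀ i, b i ∈ Tan I p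
  hor : ∀ i, star p ⬝ᵥ b i = 0
  pos : 0 < Frm290.D p (colM b)
  eq : toM A = colM b * (colM b)ᴴ

theorem IsRep.mem_HTan {p : EE N} {A : VV N} {b : Fin n → EE N} (h : IsRep I p A b) (i : Fin n) :
    b i ∈ HTan I p := ⟨h.tan i, h.hor i⟩

/-- an orthonormal frame of the horizontal tangent space -/
structure IsOnb (I : Ideal (HomCoordRing N)) (p : EE N) {n : ℕ}
    (E : Matrix (Fin (N + 1)) (Fin n) ℂ) : Prop where
  one : Eᴴ * E = 1
  mem : ∀ k, (fun j => E j k) ∈ HTan I p
  id : ∀ v ∈ HTan I p, E *ᵥ (Eᴴ *ᵥ v) = v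

theorem exists_isOnb (hX : IsSmoothProjective I n) {p : EE N} (hp : p ∈ Cone I) :
    ∃ E : Matrix (Fin (N + 1)) (Fin n) ℂ, IsOnb I p E := by
  obtain ⟨E, h1, h2, h3⟩ := exists_onb (HTan I p) (finrank_HTan hX hp)
  exact ⟨E, h1, h2, h3⟩


theorem IsOnb.mul_colM {p : EE N} {E : Matrix (Fin (N + 1)) (Fin n) ℂ} (h : IsOnb I p E) {m : ℕ}
    {b : Fin m → EE N} (hb : ∀ i, b i ∈ HTan I p) : E * Eᴴ * colM b = colM b := by
  ext j k
  have h1 := congrFun (h.id _ (hb k)) j
  rw [Matrix.mulVec_mulVec] at h1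
  exact h1

theorem IsOnb.mulVec_mem {p : EE N} {E : Matrix (Fin (N + 1)) (Fin n) ℂ} (h : IsOnb I p E)
    (c : Fin n → ℂ) : E *ᵥ c ∈ HTan I p := by
  have h1 : E *ᵥ c = ∑ k, c k • (fun j => E j k) := by
    ext j
    simp only [Matrix.mulVec, dotProduct, Finset.sum_apply, Pi.smul_apply, smul_eq_mul]
    exact Finset.sum_congr rfl fun k _ => mul_comm _ _
  rw [h1]
  exact Submodule.sum_mem _ fun k _ => Submodule.smul_mem _ _ (h.mem k)

variable {p : EE N} {A : VV N} {b : Fin n → EE N} {E : Matrix (Fin (N + 1)) (Fin n) ℂ}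

theorem isUnit_det_of_pos (hp : p ≠ 0) {m : ℕ} {b : Fin m → EE N} (hb : ∀ i, star p ⬝ᵥ b i = 0)
    (h : 0 < Frm290.D p (colM b)) : IsUnit ((colM b)ᴴ * colM b).det := by
  rw [D_hor hp hb, isUnit_iff_ne_zero]
  exact_mod_cast (mul_pos (pow_pos (nsq_pos' hp) m) h).ne'




/-- `det (A + 1 - Q) = |p|^{2n} D(p,b)`, `Q` = projector onto `Tan I p ∩ pᗮ` -/
theorem IsRep.det_add (hp : p ≠ 0) (h : IsRep I p A b) (hE : IsOnb I p E) :
    (toM A + (1 - E * Eᴴ)).det = ((nsq p ^ n * Frm290.D p (colM b) : ℝ) : ℂ) := by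
  rw [h.eq, det_frame hE.one (hE.mul_colM fun i => h.mem_HTan i), D_hor hp h.hor]


/-- a positive definite matrix on the horizontal space has a representing frame -/
theorem exists_isRep (hp : p ≠ 0) (hE : IsOnb I p E) {S : Matrix (Fin n) (Fin n) ℂ}
    (hS : S.PosDef) (hA : toM A = E * S * Eᴴ) : ∃ b : Fin n → EE N, IsRep I p A b := by
  obtain ⟨C, hC⟩ := exists_mul_conjTranspose hS.posSemidef
  set b : Fin n → EE N := fun k => E *ᵥ (fun l => C l k) with hb
  have hcol : colM b = E * C := by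
    ext j k
    rw [colM_apply, hb, Matrix.mul_apply]
    rfl
  have hmem : ∀ i, b i ∈ HTan I p := fun i => hE.mulVec_mem _
  have hhor : ∀ i, star p ⬝ᵥ b i = 0 := fun i => (hmem i).2
  refine ⟨b, fun i => (hmem i).1, hhor, ?_, ?_⟩
  · have h1 := D_hor hp hhor
    rw [hcol] at h1
    have h2 : ((E * C)ᴴ * (E * C)).det = S.det := by
      have : (E * C)ᴴ * (E * C) = Cᴴ * C := by
        rw [Matrix.conjTranspose_mul]
        calc Cᴴ * Eᴴ * (E * C) = Cᴴ * (Eᴴ * E) * C := by simp only [Matrix.mul_assoc]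
          _ = _ := by rw [hE.one, Matrix.mul_one]
      rw [this, Matrix.det_mul_comm, ← hC]
    rw [h2] at h1
    have h3 := DetIneq271.det_re_pos hS
    rw [h1, Complex.ofReal_re, ← hcol] at h3
    exact (mul_pos_iff_of_pos_left (pow_pos (nsq_pos' hp) n)).1 h3
  · rw [hA, hcol, hC, Matrix.conjTranspose_mul]
    simp only [Matrix.mul_assoc]

/-- compression of a positive definite matrix to the horizontal space -/
theorem exists_isRep_of_posDef (hp : p ≠ 0) (hE : IsOnb I p E)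
    {M : Matrix (Fin (N + 1)) (Fin (N + 1)) ℂ} (hM : M.PosDef)
    (hA : toM A = E * Eᴴ * M * (E * Eᴴ)) : ∃ b : Fin n → EE N, IsRep I p A b :=
  exists_isRep hp hE (posDef_compress hE.one hM) (by rw [hA]; simp only [Matrix.mul_assoc])


end

end Crest.Agent.R269.FldC_620
end

-- ▼ part R269/FldD_620
section

/-!
# R269 (S0411), leaf FLD, part D (helper620): the frozen objects `wedgeSq`, `DD`, `omg`, `Rep`,
`PosField` of `Defs_58`

* `DD_eq_D`, `DD_nonneg`, `DD_pos_iff`, `DD_smul`, `DD_mix`, `DD_hor`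
* `omg_eq`, `omg_nonneg`, `omg_add_smul`, `omg_smul`, `omg_pos`
* `amgm` : `n * (DD p b)^(1/n) ≤ ∑ omg p (b i)`
* `rep_unitary`, `rep_DD_eq`, `rep_DD_pos`
-/

set_option autoImplicit false
set_option linter.unusedSectionVars false

open Matrix Crest.AlgGeometry.ProjEmb
open scoped ComplexConjugate ComplexOrder MatrixOrder ContDiff

namespace Crest.Agent.R269.FldD_620

open Crest.Agent.R269.Geo_328 Crest.Agent.R269.FldA_620 Crest.Agent.R269.FldB_620
open Crest.Agent.R269.FldC_620 Crest.Agent.R269.Defs_58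
open Crest.Agent.R269

noncomputable section

variable {N n : ℕ} {I : Ideal (HomCoordRing N)}

/-! ### `wedgeSq`, `DD` -/



theorem DD_eq_D {p : EE N} (hp : p ≠ 0) (b : Fin n → EE N) : DD p b = Frm290.D p (colM b) := by
  have hp0 : (0 : ℝ) < nsq p := nsq_pos' hp
  rw [DD]
  have h1 : wedgeSq (Fin.cons p b : Fin (n + 1) → EE N) =
      nsq p ^ (n + 1) * Frm290.D p (colM b) := by
    have h2 := congrArg Complex.re (det_gramC_cons hp b)
    rw [Complex.ofReal_re] at h2
    exact h2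
  rw [h1]
  field_simp

theorem DD_nonneg {p : EE N} (hp : p ≠ 0) (b : Fin n → EE N) : 0 ≤ DD p b := by
  rw [DD_eq_D hp]
  exact Frm290.D_nonneg hp _


theorem DD_smul {p : EE N} (hp : p ≠ 0) {c : ℂ} (hc : c ≠ 0) (b : Fin n → EE N) :
    DD (c • p) (fun i => c • b i) = DD p b := by
  rw [DD_eq_D hp, DD_eq_D (smul_ne_zero hc hp)]
  exact Frm290.D_smul hc p (colM b)

theorem DD_mix {p : EE N} (hp : p ≠ 0) (b : Fin n → EE N) (M : Matrix (Fin n) (Fin n) ℂ)
    (r : Fin n → ℂ) :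
    DD p (fun i => (∑ k, M i k • b k) + r i • p) = ‖M.det‖ ^ 2 * DD p b := by
  have h1 : colM (fun i => (∑ k, M i k • b k) + r i • p) = colM b * Mᵀ + vecMulVec p r := by
    ext j i
    simp only [colM_apply, Pi.add_apply, Finset.sum_apply, Pi.smul_apply, smul_eq_mul,
      Matrix.add_apply, Matrix.mul_apply, Matrix.transpose_apply, Matrix.vecMulVec_apply]
    rw [mul_comm (r i)]
    congr 1
    exact Finset.sum_congr rfl fun k _ => mul_comm _ _
  rw [DD_eq_D hp, DD_eq_D hp, h1, Frm290.D_add hp, Frm290.D_mul hp, Matrix.det_transpose]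


theorem DD_real_smul {p : EE N} (hp : p ≠ 0) (s : ℂ) (b : Fin n → EE N) :
    DD p (fun i => s • b i) = (‖s‖ ^ 2) ^ n * DD p b := by
  have h1 := DD_mix hp b (s • (1 : Matrix (Fin n) (Fin n) ℂ)) 0
  have h2 : (fun i => (∑ k, (s • (1 : Matrix (Fin n) (Fin n) ℂ)) i k • b k) +
      (0 : Fin n → ℂ) i • p) = fun i => s • b i := by
    funext i
    simp [Matrix.one_apply, Finset.sum_ite_eq]
  rw [h2] at h1
  rw [h1, Matrix.det_smul, Matrix.det_one, Fintype.card_fin, mul_one, norm_pow]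
  ring

/-! ### `omg` -/

theorem star_dot_eq (p v : EE N) : star p ⬝ᵥ v = ∑ i, v i * conj (p i) := by
  simp only [dotProduct, Pi.star_apply, RCLike.star_def]
  exact Finset.sum_congr rfl fun k _ => mul_comm _ _

theorem omg_eq_gmat {p : EE N} (hp : p ≠ 0) (v : EE N) :
    star v ⬝ᵥ (Frm290.gmat p *ᵥ v) = (omg p v : ℂ) := by
  rw [Frm290.gmat_dot' hp, star_dot_eq, omg]
  congr 1
  simp only [Frm290.nsq]
  ring

theorem omg_eq {p : EE N} (hp : p ≠ 0) (v : EE N) : omg p v = nsq (hor p v) / nsq p := by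
  have h1 := omg_eq_gmat hp v
  rw [Frm290.gmat_dot hp, Complex.ofReal_inj, Frm290.prj_mulVec] at h1
  rw [← h1, div_eq_inv_mul]
  rfl

theorem omg_nonneg {p : EE N} (hp : p ≠ 0) (v : EE N) : 0 ≤ omg p v := by
  rw [omg_eq hp]
  exact div_nonneg (Frm290.nsq_nonneg _) (nsq_pos' hp).le





theorem omg_smul_vec (p v : EE N) (c : ℂ) : omg p (c • v) = ‖c‖ ^ 2 * omg p v := by
  have h1 : ∑ i, ‖(c • v) i‖ ^ 2 = ‖c‖ ^ 2 * ∑ i, ‖v i‖ ^ 2 := by
    simp only [Pi.smul_apply, smul_eq_mul, norm_mul, mul_pow, Finset.mul_sum]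
  have h2 : ∑ i, (c • v) i * conj (p i) = c * ∑ i, v i * conj (p i) := by
    simp only [Pi.smul_apply, smul_eq_mul, Finset.mul_sum, mul_assoc]
  rw [omg, omg, h1, h2, norm_mul, mul_pow]
  ring


/-- **AM-GM** -/
theorem amgm {p : EE N} (hp : p ≠ 0) (b : Fin n → EE N) :
    (n : ℝ) * DD p b ^ ((n : ℝ)⁻¹) ≤ ∑ i, omg p (b i) := by
  rcases Nat.eq_zero_or_pos n with rfl | hn
  · simp
  · have : Nonempty (Fin n) := ⟨⟨0, hn⟩⟩
    have h1 := Frm290.card_mul_le_trace hp (colM b)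
    rw [Fintype.card_fin, ← DD_eq_D hp] at h1
    refine h1.trans (le_of_eq ?_)
    rw [Matrix.trace, Complex.re_sum]
    refine Finset.sum_congr rfl fun i _ => ?_
    have h2 : (Frm290.gram p (colM b)).diag i = star (b i) ⬝ᵥ (Frm290.gmat p *ᵥ (b i)) := by
      simp only [Matrix.diag, Frm290.gram]
      rw [Matrix.mul_assoc, Matrix.mul_apply]
      simp only [dotProduct, Pi.star_apply, Matrix.conjTranspose_apply, Matrix.mulVec,
        Matrix.mul_apply, colM_apply]
    rw [h2, omg_eq_gmat hp, Complex.ofReal_re]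

/-! ### `Rep` -/

variable {a : EE N → VV N} {p : EE N} {b b' : Fin n → EE N}

theorem rep_iff : Rep I a p b ↔ (∀ i, b i ∈ HTan I p) ∧ toM (a p) = colM b * (colM b)ᴴ := by
  constructor
  · rintro ⟨h1, h2, h3⟩
    refine ⟨fun i => ⟨h1 i, by rw [star_dot_eq]; exact h2 i⟩, ?_⟩
    ext j k
    rw [colM_mul_conjTranspose]
    exact h3 j k
  · rintro ⟨h1, h2⟩
    refine ⟨fun i => (h1 i).1, fun i => by rw [← star_dot_eq]; exact (h1 i).2, fun j k => ?_⟩
    rw [← colM_mul_conjTranspose, ← h2]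
    rfl

theorem rep_mem_HTan (h : Rep I a p b) (i : Fin n) : b i ∈ HTan I p := (rep_iff.1 h).1 i

theorem rep_toM_eq (h : Rep I a p b) : toM (a p) = colM b * (colM b)ᴴ := (rep_iff.1 h).2

theorem isRep_iff (hp : p ≠ 0) : IsRep I p (a p) b ↔ Rep I a p b ∧ 0 < DD p b := by
  rw [rep_iff, DD_eq_D hp]
  constructor
  · intro h
    exact ⟨⟨h.mem_HTan, h.eq⟩, h.pos⟩
  · rintro ⟨⟨h1, h2⟩, h3⟩
    exact ⟨fun i => (h1 i).1, fun i => (h1 i).2, h3, h2⟩


theorem rep_DD_eq (hp : p ≠ 0) (h : Rep I a p b) (h' : Rep I a p b') : DD p b' = DD p b := by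
  have key : ∀ {b b' : Fin n → EE N}, Rep I a p b → Rep I a p b' → 0 < DD p b →
      DD p b' = DD p b := by
    intro b b' h h' h0
    have hu : IsUnit ((colM b)ᴴ * colM b).det :=
      isUnit_det_of_pos hp (fun i => (rep_mem_HTan h i).2) (by rw [← DD_eq_D hp]; exact h0)
    have h1 := det_gram_congr hu (B' := colM b') (by rw [← rep_toM_eq h, ← rep_toM_eq h'])
    rw [D_hor hp fun i => (rep_mem_HTan h i).2, D_hor hp fun i => (rep_mem_HTan h' i).2,
      Complex.ofReal_inj, ← DD_eq_D hp, ← DD_eq_D hp] at h1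
    exact mul_left_cancel₀ (pow_ne_zero _ (nsq_pos' hp).ne') h1
  rcases (DD_nonneg hp b).lt_or_eq with h0 | h0
  · exact key h h' h0
  · rcases (DD_nonneg hp b').lt_or_eq with h1 | h1
    · exact (key h' h h1).symm
    · rw [← h0, ← h1]

theorem rep_DD_pos {a : EE N → VV N} (ha : PosField I n a) (hp : p ∈ Cone I)
    (h : Rep I a p b) : 0 < DD p b := by
  obtain ⟨b₀, h1, h2⟩ := ha.rep p hp
  rw [rep_DD_eq hp.2 h1 h]
  exact h2

end

end Crest.Agent.R269.FldD_620
end

-- ▼ part R269/FldE_620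

/-!
# R269 (S0411), leaf FLD, part E (helper620): smooth functions and fields

* `smX_const`, `smX_add`, `smX_mul`, `smX_comp`, `smX_inv`, `smX_rpow`, `smX_log`, `smX_exp` ...
* `PiD`, `exists_PiD` : the smooth projector onto the tangent spaces; `QQ` = projector onto
  `Tan I p ∩ pᗮ`
* `exists_detF` : `PosField I n a → ∃ D, SmX I D ∧ 0 < D ∧ ∀ Rep, DD p b = D p`
* `posField_smul`, `posField_add`, `posField_gInv`, `exists_posField_frame`
-/

set_option autoImplicit false
set_option linter.unusedSectionVars false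

open Matrix Crest.AlgGeometry.ProjEmb
open scoped ComplexConjugate ComplexOrder MatrixOrder ContDiff

namespace Crest.Agent.R269.FldE_620

open Crest.Agent.R269.Geo_328 Crest.Agent.R269.FldA_620 Crest.Agent.R269.FldB_620
open Crest.Agent.R269.FldC_620 Crest.Agent.R269.FldD_620 Crest.Agent.R269.Defs_58
open Crest.Agent.R269

noncomputable section

variable {N n : ℕ} {I : Ideal (HomCoordRing N)}

/-! ### smooth functions -/

theorem smX_const (c : ℝ) : SmX I (fun _ => c) :=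
  ⟨fun _ _ => contDiffAt_const, fun _ _ _ _ => rfl⟩

theorem smX_add {u v : EE N → ℝ} (hu : SmX I u) (hv : SmX I v) : SmX I (fun p => u p + v p) :=
  ⟨fun p hp => (hu.1 p hp).add (hv.1 p hp), fun p hp c hc => by
    simp only [hu.2 p hp c hc, hv.2 p hp c hc]⟩




theorem smX_comp {u : EE N → ℝ} (hu : SmX I u) {g : ℝ → ℝ}
    (hg : ∀ p ∈ Cone I, ContDiffAt ℝ ∞ g (u p)) : SmX I (fun p => g (u p)) :=
  ⟨fun p hp => ContDiffAt.comp p (hg p hp) (hu.1 p hp), fun p hp c hc => by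
    simp only [hu.2 p hp c hc]⟩



theorem smX_rpow {u : EE N → ℝ} (hu : SmX I u) (h0 : ∀ p ∈ Cone I, 0 < u p) (s : ℝ) :
    SmX I (fun p => u p ^ s) :=
  smX_comp hu (g := fun x => x ^ s) fun p hp => Real.contDiffAt_rpow_const_of_ne (h0 p hp).ne'

theorem smX_log {u : EE N → ℝ} (hu : SmX I u) (h0 : ∀ p ∈ Cone I, 0 < u p) :
    SmX I (fun p => Real.log (u p)) :=
  smX_comp hu fun p hp => Real.contDiffAt_log.2 (h0 p hp).ne'


/-! ### the projectors -/

/-- a smooth family of orthogonal projectors onto the tangent spaces of the cone -/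
structure PiD (I : Ideal (HomCoordRing N)) (Pi : EE N → VV N) : Prop where
  smooth : ∀ p ∈ Cone I, ContDiffAt ℝ ∞ Pi p
  inv : ∀ p ∈ Cone I, ∀ c : ℂ, c ≠ 0 → Pi (c • p) = Pi p
  mem : ∀ p ∈ Cone I, ∀ v : EE N, toM (Pi p) *ᵥ v ∈ Tan I p
  id : ∀ p ∈ Cone I, ∀ v ∈ Tan I p, toM (Pi p) *ᵥ v = v
  herm : ∀ p ∈ Cone I, (toM (Pi p)).IsHermitian

theorem exists_PiD (hI : I.IsPrime) (hX : IsSmoothProjective I n) :
    ∃ Pi : EE N → VV N, PiD I Pi := by
  obtain ⟨O, Pi, hO, hCO, hs, hinv, h⟩ := projStmt N n I hI hX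
  refine ⟨Pi, ⟨fun p hp => hs.contDiffAt (hO.mem_nhds (hCO hp)),
    fun p hp c hc => (hinv c hc p (hCO hp)).2, fun p hp v => (h p hp).1 v,
    fun p hp v hv => (h p hp).2.1 v hv, fun p hp => ?_⟩⟩
  ext i j
  exact (h p hp).2.2 j i

/-- projector onto the horizontal tangent space `Tan I p ∩ pᗮ` -/
def QQ (Pi : EE N → VV N) (p : EE N) : VV N := fun i j => Pi p i j - PP p i j

theorem toM_QQ (Pi : EE N → VV N) (p : EE N) : toM (QQ Pi p) = toM (Pi p) - toM (PP p) := rfl

theorem PP_mulVec (p v : EE N) : toM (PP p) *ᵥ v = ((nsq p : ℂ)⁻¹ * (star p ⬝ᵥ v)) • p := by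
  ext i
  simp only [toM, Matrix.mulVec, dotProduct, PP, Pi.smul_apply, smul_eq_mul, Pi.star_apply,
    RCLike.star_def, Finset.mul_sum, Finset.sum_mul]
  exact Finset.sum_congr rfl fun j _ => by ring

theorem PP_herm (p : EE N) : (toM (PP p)).IsHermitian := by
  ext i j
  change conj (PP p j i) = PP p i j
  simp only [PP, map_div₀, map_mul, Complex.conj_conj, Complex.conj_ofReal]
  ring

theorem QQ_herm {Pi : EE N → VV N} (h : PiD I Pi) {p : EE N} (hp : p ∈ Cone I) :
    (toM (QQ Pi p)).IsHermitian := (h.herm p hp).sub (PP_herm p)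

theorem QQ_mulVec_mem (hX : IsSmoothProjective I n) {Pi : EE N → VV N} (h : PiD I Pi) {p : EE N}
    (hp : p ∈ Cone I) (v : EE N) : toM (QQ Pi p) *ᵥ v ∈ HTan I p := by
  have hpc : (nsq p : ℂ) ≠ 0 := by exact_mod_cast (nsq_pos' hp.2).ne'
  have hpT : p ∈ Tan I p := self_mem_Tan hX hp.1
  rw [toM_QQ, Matrix.sub_mulVec, PP_mulVec]
  refine ⟨(Tan I p).sub_mem (h.mem p hp v) ((Tan I p).smul_mem _ hpT), ?_⟩
  have h1 : star p ⬝ᵥ (toM (Pi p) *ᵥ v) = star p ⬝ᵥ v := by
    rw [Matrix.dotProduct_mulVec]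
    have h2 : star p ᵥ* toM (Pi p) = star p := by
      have h3 := congrArg star (h.id p hp p hpT)
      rw [Matrix.star_mulVec, (h.herm p hp).eq] at h3
      exact h3
    rw [h2]
  rw [dotProduct_sub, h1, dotProduct_smul, star_dot_self', smul_eq_mul]
  field_simp
  ring

theorem QQ_mulVec_of_mem {Pi : EE N → VV N} (h : PiD I Pi) {p : EE N}
    (hp : p ∈ Cone I) {v : EE N} (hv : v ∈ HTan I p) : toM (QQ Pi p) *ᵥ v = v := by
  rw [toM_QQ, Matrix.sub_mulVec, PP_mulVec, h.id p hp v hv.1, hv.2, mul_zero, zero_smul, sub_zero]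

/-- `QQ` is `E Eᴴ` for every orthonormal basis `E` of `Tan I p ∩ pᗮ` -/
theorem QQ_eq (hX : IsSmoothProjective I n) {Pi : EE N → VV N} (h : PiD I Pi) {p : EE N}
    (hp : p ∈ Cone I) {E : Matrix (Fin (N + 1)) (Fin n) ℂ} (hE : IsOnb I p E) :
    toM (QQ Pi p) = E * Eᴴ := by
  have h1 : toM (QQ Pi p) * E = E := by
    ext j k
    exact congrFun (QQ_mulVec_of_mem h hp (hE.mem k)) j
  have h2 : E * Eᴴ * toM (QQ Pi p) = toM (QQ Pi p) := by
    ext j k
    have h3 := congrFun (hE.id _ (QQ_mulVec_mem hX h hp (_root_.Pi.single k 1))) j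
    rw [Matrix.mulVec_mulVec] at h3
    have h4 : toM (QQ Pi p) *ᵥ (_root_.Pi.single k 1) = fun i => toM (QQ Pi p) i k := by
      ext i
      simp
    rw [h4] at h3
    exact h3
  have h5 := congrArg Matrix.conjTranspose h2
  rw [Matrix.conjTranspose_mul, (QQ_herm h hp).eq, Matrix.conjTranspose_mul,
    Matrix.conjTranspose_conjTranspose, ← Matrix.mul_assoc, h1] at h5
  exact h5.symm

/-! ### smoothness -/

theorem contDiffAt_nsq (p : EE N) : ContDiffAt ℝ ∞ (nsq : EE N → ℝ) p :=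
  contDiff_nsq.contDiffAt

theorem contDiffAt_nsqC (p : EE N) : ContDiffAt ℝ ∞ (fun q : EE N => (nsq q : ℂ)) p :=
  Complex.ofRealCLM.contDiff.contDiffAt.comp p (contDiffAt_nsq p)

theorem contDiffAt_PP {p : EE N} (hp : p ≠ 0) : ContDiffAt ℝ ∞ (PP : EE N → VV N) p := by
  have hpc : (nsq p : ℂ) ≠ 0 := by exact_mod_cast (nsq_pos' hp).ne'
  refine contDiffAt_pi.2 fun i => contDiffAt_pi.2 fun j => ?_
  have h1 : ∀ i, ContDiffAt ℝ ∞ (fun q : EE N => q i) p := fun i => (contDiff_apply ℝ ℂ i).contDiffAt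
  have h2 : ContDiffAt ℝ ∞ (fun q : EE N => conj (q j)) p :=
    Complex.conjCLE.contDiff.contDiffAt.comp p (h1 j)
  have h3 : ContDiffAt ℝ ∞ (fun q : EE N => (nsq q : ℂ)⁻¹) p := (contDiffAt_nsqC p).inv hpc
  exact ((h1 i).mul h2).mul h3

theorem contDiffAt_QQ {Pi : EE N → VV N} (h : PiD I Pi) {p : EE N} (hp : p ∈ Cone I) :
    ContDiffAt ℝ ∞ (QQ Pi) p := (h.smooth p hp).sub (contDiffAt_PP hp.2)

theorem contDiffAt_det {W : Type*} [NormedAddCommGroup W] [NormedSpace ℝ W] {ι : Type*} [Fintype ι]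
    [DecidableEq ι] {M : W → Matrix ι ι ℂ} {x : W} {k : WithTop ℕ∞}
    (h : ∀ a b, ContDiffAt ℝ k (fun w => M w a b) x) : ContDiffAt ℝ k (fun w => (M w).det) x := by
  simp only [Matrix.det_apply]
  refine ContDiffAt.sum fun σ _ => ?_
  exact (contDiffAt_prod fun a _ => h _ _).const_smul _

theorem contDiffAt_apply_apply {W : Type*} [NormedAddCommGroup W] [NormedSpace ℝ W]
    {a : W → VV N} {x : W} {k : WithTop ℕ∞} (h : ContDiffAt ℝ k a x) (i j : Fin (N + 1)) :
    ContDiffAt ℝ k (fun w => a w i j) x :=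
  contDiffAt_pi.1 (contDiffAt_pi.1 h i) j

/-! ### the determinant function -/

/-- `det_g a` by a formula -/
def detF (n : ℕ) (Pi a : EE N → VV N) (p : EE N) : ℝ :=
  ((toM (a p) + (1 - toM (QQ Pi p))).det).re / nsq p ^ n

theorem detF_eq (hX : IsSmoothProjective I n) {Pi a : EE N → VV N} (h : PiD I Pi) {p : EE N}
    (hp : p ∈ Cone I) {b : Fin n → EE N} (hb : Rep I a p b) (h0 : 0 < DD p b) :
    detF n Pi a p = DD p b := by
  obtain ⟨E, hE⟩ := exists_isOnb hX hp
  have h1 := ((isRep_iff hp.2).2 ⟨hb, h0⟩).det_add hp.2 hE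
  rw [detF, QQ_eq hX h hp hE, h1, Complex.ofReal_re, ← DD_eq_D hp.2, mul_comm,
    mul_div_assoc, div_self (pow_ne_zero _ (nsq_pos' hp.2).ne'), mul_one]

theorem rep_smul_point {a : EE N → VV N} {p : EE N} {b : Fin n → EE N} {c : ℂ} (hc : c ≠ 0)
    (hX : IsSmoothProjective I n) (hp : p ∈ Cone I)
    (ha : a (c • p) = ((‖c‖ ^ 2 : ℝ) : ℂ) • a p) (h : Rep I a p b) :
    Rep I a (c • p) (fun i => c • b i) := by
  refine ⟨fun i => ?_, fun i => ?_, fun j k => ?_⟩
  · rw [Tan_smul hX p hc]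
    exact (Tan I p).smul_mem _ (h.1 i)
  · have h1 := h.2.1 i
    have h2 : ∑ k, (c • b i) k * conj ((c • p) k) = (c * conj c) * ∑ k, b i k * conj (p k) := by
      simp only [Pi.smul_apply, smul_eq_mul, map_mul, Finset.mul_sum]
      exact Finset.sum_congr rfl fun k _ => by ring
    rw [h2, h1, mul_zero]
  · rw [ha, Pi.smul_apply, Pi.smul_apply, smul_eq_mul, h.2.2 j k, Finset.mul_sum]
    refine Finset.sum_congr rfl fun i _ => ?_
    simp only [Pi.smul_apply, smul_eq_mul, map_mul]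
    have : (((‖c‖ ^ 2 : ℝ)) : ℂ) = c * conj c := by
      rw [Complex.mul_conj, Complex.normSq_eq_norm_sq]
    rw [this]
    ring

/-- **`det_g a` is a smooth function** -/
theorem smX_detF (hX : IsSmoothProjective I n) {Pi a : EE N → VV N} (h : PiD I Pi)
    (ha : PosField I n a) : SmX I (detF n Pi a) := by
  refine ⟨fun p hp => ?_, fun p hp c hc => ?_⟩
  · have h1 : ContDiffAt ℝ ∞ (fun q => (toM (a q) + (1 - toM (QQ Pi q))).det) p := by
      refine contDiffAt_det fun i j => ?_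
      have e : (fun q => (toM (a q) + (1 - toM (QQ Pi q))) i j) =
          fun q => a q i j + ((1 : Matrix (Fin (N + 1)) (Fin (N + 1)) ℂ) i j - QQ Pi q i j) := rfl
      rw [e]
      exact (contDiffAt_apply_apply (ha.smooth p hp) i j).add
        (contDiffAt_const.sub (contDiffAt_apply_apply (contDiffAt_QQ h hp) i j))
    have h2 : ContDiffAt ℝ ∞ (fun q => ((toM (a q) + (1 - toM (QQ Pi q))).det).re) p :=
      Complex.reCLM.contDiff.contDiffAt.comp p h1
    exact h2.div ((contDiffAt_nsq p).pow n) (pow_ne_zero _ (nsq_pos' hp.2).ne')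
  · obtain ⟨b, hb, h0⟩ := ha.rep p hp
    have h1 := rep_smul_point hc hX hp (ha.hom p hp c hc) hb
    have h2 : DD (c • p) (fun i => c • b i) = DD p b := DD_smul hp.2 hc b
    rw [detF_eq hX h (smul_mem_Cone hX hp hc) h1 (by rw [h2]; exact h0), h2, detF_eq hX h hp hb h0]

theorem exists_detF (hI : I.IsPrime) (hX : IsSmoothProjective I n) {a : EE N → VV N}
    (ha : PosField I n a) : ∃ D : EE N → ℝ, SmX I D ∧ (∀ p ∈ Cone I, 0 < D p) ∧
      ∀ p ∈ Cone I, ∀ b : Fin n → EE N, Rep I a p b → DD p b = D p := by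
  obtain ⟨Pi, h⟩ := exists_PiD hI hX
  refine ⟨detF n Pi a, smX_detF hX h ha, fun p hp => ?_, fun p hp b hb => ?_⟩
  · obtain ⟨b, hb, h0⟩ := ha.rep p hp
    rw [detF_eq hX h hp hb h0]
    exact h0
  · exact (detF_eq hX h hp hb (rep_DD_pos ha hp hb)).symm

end

end Crest.Agent.R269.FldE_620
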