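import Mathlib
import Crest.Agent.R269.Dual_271
import Crest.Agent.R269.AdjLoc_851
import Crest.Agent.R269.DetIneq_271

-- ▼ part R269/DualAsm_128
section

/-!
Row 269, Blueprint Parts 8 and 12: assembly of the duality argument over an abstract interface.

* `Pack` : compact space with a finite measure `dV`, real vector space `Fld` of (smooth Hermitian)
  fields, cone `Pos` of positive fields, the operators `Lop s u = tr (s L u)`, their adjoints
  `rho s`, the density `rt s = (det_g s)^{1/n}`, smooth functions `Fun`.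
* `Pack.exists_measure_MA` : Blueprint (8.2) + (8.3).
* `Pack.exists_measure_pos` : Blueprint (12.1).
-/

set_option autoImplicit false
noncomputable section

open MeasureTheory Set

namespace Crest.Agent.R269.DualAsm_128

/-- The abstract interface: a compact Kaehler manifold seen through its smooth functions and
smooth Hermitian fields. -/
structure Pack (X : Type*) [TopologicalSpace X] [MeasurableSpace X]
    (Fld : Type*) [AddCommGroup Fld] [Module ℝ Fld] where
  /-- the volume measure -/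
  dV : Measure X
  /-- the smooth functions -/
  Fun : Submodule ℝ C(X, ℝ)
  /-- the cone of positive fields -/
  Pos : Set Fld
  /-- the field `g⁻¹` -/
  s0 : Fld
  /-- `(det_g s)^{1/n}` -/
  rt : Fld → C(X, ℝ)
  /-- `tr (s L u)` -/
  Lop : Fld → C(X, ℝ) → C(X, ℝ)
  /-- the adjoint `L_s^* 1` -/
  rho : Fld →ₗ[ℝ] C(X, ℝ)
  fin : IsFiniteMeasure dV
  one_mem : (1 : C(X, ℝ)) ∈ Fun
  s0_mem : s0 ∈ Pos
  add_mem : ∀ a ∈ Pos, ∀ b ∈ Pos, a + b ∈ Pos
  smul_mem : ∀ t : ℝ, 0 < t → ∀ a ∈ Pos, t • a ∈ Pos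
  rt_mem : ∀ a ∈ Pos, rt a ∈ Fun
  rt_smul : ∀ t : ℝ, 0 < t → ∀ a ∈ Pos, rt (t • a) = t • rt a
  rt_add : ∀ a ∈ Pos, ∀ b ∈ Pos, ∀ x, rt a x + rt b x ≤ rt (a + b) x
  rt_s0 : rt s0 = 1
  rho_s0 : rho s0 = 0
  Lop_one : ∀ a ∈ Pos, Lop a 1 = 0
  adj : ∀ a ∈ Pos, ∀ u ∈ Fun, ∫ x, Lop a u x ∂dV = ∫ x, u x * rho a x ∂dV

variable {X : Type*} [TopologicalSpace X] [CompactSpace X] [T2Space X] [MeasurableSpace X]
  [BorelSpace X] {Fld : Type*} [AddCommGroup Fld] [Module ℝ Fld]

omit [T2Space X] in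
/-- continuous functions are integrable for a finite measure on a compact space -/
theorem integrable_cont (μ : Measure X) [IsFiniteMeasure μ] (f : C(X, ℝ)) :
    Integrable (fun x => f x) μ := by
  refine Integrable.mono' (integrable_const ‖f‖) ?_ (Filter.Eventually.of_forall fun x => f.norm_coe_le_norm x)
  exact f.continuous.stronglyMeasurable_of_hasCompactSupport
    (HasCompactSupport.of_compactSpace _) |>.aestronglyMeasurable

namespace Pack

variable (P : Pack X Fld)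

omit [T2Space X] in
/-- The key integral inequality, for the resolvent of the density `rt`. -/
theorem key_MA (tr : Fld →ₗ[ℝ] C(X, ℝ)) (htr : ∀ a ∈ P.Pos, tr a ∈ P.Fun)
    {lam c : ℝ}
    (hres : ∀ a ∈ P.Pos, ∀ h ∈ P.Fun, ∀ δ : ℝ, 0 < δ → ∃ u ∈ P.Fun, ∀ x,
      |lam * P.rt a x * u x - P.Lop a u x - h x| ≤ δ)
    (hcomp : ∀ a ∈ P.Pos, ∀ u ∈ P.Fun,
      (∀ x, tr a x + P.Lop a u x ≤ (c + lam * u x) * P.rt a x) → ∀ x, 0 ≤ u x)
    (a : Fld) (ha : a ∈ P.Pos) (hF : ∀ x, P.rho a x ≤ lam * P.rt a x) :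
    0 ≤ ∫ x, tr a x ∂P.dV - c * ∫ x, P.rt a x ∂P.dV := by
  have hfin := P.fin
  refine le_of_forall_pos_le_add ?_
  intro ε hε
  set vol : ℝ := P.dV.real univ with hvol
  have hvol0 : 0 ≤ vol := measureReal_nonneg
  set δ : ℝ := ε / (2 * (vol + 1)) with hδ
  have hδ0 : 0 < δ := by positivity
  set h : C(X, ℝ) := tr a - c • P.rt a + δ • 1 with hh
  have hmem : h ∈ P.Fun :=
    P.Fun.add_mem (P.Fun.sub_mem (htr a ha) (P.Fun.smul_mem _ (P.rt_mem a ha)))
      (P.Fun.smul_mem _ P.one_mem)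
  obtain ⟨u, hu, hud⟩ := hres a ha h hmem δ hδ0
  have hhx : ∀ x, h x = tr a x - c * P.rt a x + δ := by
    intro x
    simp [hh]
  have hu0 : ∀ x, 0 ≤ u x := by
    apply hcomp a ha u hu
    intro x
    have h1 := (abs_le.mp (hud x)).1
    rw [hhx] at h1
    linarith
  have hup : ∀ x, lam * P.rt a x * u x - P.Lop a u x ≤ tr a x - c * P.rt a x + 2 * δ := by
    intro x
    have h1 := (abs_le.mp (hud x)).2
    rw [hhx] at h1
    linarith
  have i1 := integrable_cont P.dV (lam • (P.rt a * u))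
  have i2 := integrable_cont P.dV (P.Lop a u)
  have i3 := integrable_cont P.dV (tr a)
  have i4 := integrable_cont P.dV (P.rt a)
  have i5 := integrable_cont P.dV (u * P.rho a)
  have e1 : ∫ x, (lam * P.rt a x * u x - P.Lop a u x) ∂P.dV
      = ∫ x, u x * (lam * P.rt a x - P.rho a x) ∂P.dV := by
    have h1 : ∫ x, (lam * P.rt a x * u x - P.Lop a u x) ∂P.dV
        = ∫ x, (lam • (P.rt a * u)) x ∂P.dV - ∫ x, P.Lop a u x ∂P.dV := by
      rw [← integral_sub i1 i2]
      congr 1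
      ext x
      simp [mul_assoc]
    have h2 : ∫ x, u x * (lam * P.rt a x - P.rho a x) ∂P.dV
        = ∫ x, (lam • (P.rt a * u)) x ∂P.dV - ∫ x, (u * P.rho a) x ∂P.dV := by
      rw [← integral_sub i1 i5]
      congr 1
      ext x
      simp only [ContinuousMap.smul_apply, ContinuousMap.mul_apply, smul_eq_mul]
      ring
    rw [h1, h2, P.adj a ha u hu]
    rfl
  have e2 : 0 ≤ ∫ x, u x * (lam * P.rt a x - P.rho a x) ∂P.dV := by
    apply integral_nonneg
    intro x
    exact mul_nonneg (hu0 x) (by have := hF x; linarith)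
  have e3 : ∫ x, (lam * P.rt a x * u x - P.Lop a u x) ∂P.dV
      ≤ ∫ x, (tr a x - c * P.rt a x + 2 * δ) ∂P.dV := by
    apply integral_mono
    · have := i1.sub i2
      refine this.congr (Filter.Eventually.of_forall fun x => ?_)
      simp [mul_assoc]
    · exact (i3.sub (i4.const_mul c)).add (integrable_const _)
    · exact hup
  have e4 : ∫ x, (tr a x - c * P.rt a x + 2 * δ) ∂P.dV
      = ∫ x, tr a x ∂P.dV - c * ∫ x, P.rt a x ∂P.dV + 2 * δ * vol := by
    have h1 : ∫ x, (tr a x - c * P.rt a x) ∂P.dV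
        = ∫ x, tr a x ∂P.dV - c * ∫ x, P.rt a x ∂P.dV := by
      rw [← integral_const_mul]
      exact integral_sub i3 (i4.const_mul c)
    have h2 : ∫ x, (tr a x - c * P.rt a x + 2 * δ) ∂P.dV
        = ∫ x, (tr a x - c * P.rt a x) ∂P.dV + ∫ _x, (2 * δ) ∂P.dV :=
      integral_add (i3.sub (i4.const_mul c)) (integrable_const _)
    rw [h2, h1]
    simp [hvol, mul_comm]
  have e5 : 2 * δ * vol ≤ ε := by
    rw [hδ]
    have : 2 * (ε / (2 * (vol + 1))) * vol = ε * (vol / (vol + 1)) := by field_simp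
    rw [this]
    have h7 : vol / (vol + 1) ≤ 1 := by
      rw [div_le_one (by positivity)]
      linarith
    nlinarith
  rw [e1, e4] at e3
  linarith

/-- **Blueprint (8.2) + (8.3)**: the dual measure. -/
theorem exists_measure_MA (tr : Fld →ₗ[ℝ] C(X, ℝ)) (htr : ∀ a ∈ P.Pos, tr a ∈ P.Fun)
    {lam c : ℝ} (hlam : 0 < lam) (hc : 0 ≤ c)
    (hres : ∀ a ∈ P.Pos, ∀ h ∈ P.Fun, ∀ δ : ℝ, 0 < δ → ∃ u ∈ P.Fun, ∀ x,
      |lam * P.rt a x * u x - P.Lop a u x - h x| ≤ δ)
    (hcomp : ∀ a ∈ P.Pos, ∀ u ∈ P.Fun,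
      (∀ x, tr a x + P.Lop a u x ≤ (c + lam * u x) * P.rt a x) → ∀ x, 0 ≤ u x) :
    ∃ μ : Measure X, μ.Regular ∧ IsFiniteMeasure μ ∧
      μ.real univ ≤ (∫ x, tr P.s0 x ∂P.dV - c * P.dV.real univ) / lam ∧
      ∀ a ∈ P.Pos, c * ∫ x, P.rt a x ∂P.dV + lam * ∫ x, P.rt a x ∂μ
        ≤ ∫ x, tr a x ∂P.dV + ∫ x, P.rho a x ∂μ := by
  have := P.fin
  obtain ⟨μ, hreg, hfin, hmass, hμ⟩ := Dual271.exists_measure_slater (X := X) (V := Fld) P.Pos
    P.add_mem P.smul_mem (fun a => P.rho a - lam • P.rt a)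
    (fun a => ∫ x, tr a x ∂P.dV - c * ∫ x, P.rt a x ∂P.dV)
    (by
      intro a ha b hb
      have i1 := integrable_cont P.dV (tr a)
      have i2 := integrable_cont P.dV (tr b)
      have i3 := integrable_cont P.dV (P.rt a)
      have i4 := integrable_cont P.dV (P.rt b)
      have i5 := integrable_cont P.dV (P.rt (a + b))
      have e1 : ∫ x, tr (a + b) x ∂P.dV = ∫ x, tr a x ∂P.dV + ∫ x, tr b x ∂P.dV := by
        rw [map_add, ← integral_add i1 i2]
        rfl
      have e2 : ∫ x, P.rt a x ∂P.dV + ∫ x, P.rt b x ∂P.dV ≤ ∫ x, P.rt (a + b) x ∂P.dV := by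
        rw [← integral_add i3 i4]
        exact integral_mono (i3.add i4) i5 (P.rt_add a ha b hb)
      have := mul_le_mul_of_nonneg_left e2 hc
      linarith)
    (by
      intro t ht a ha
      have e1 : ∫ x, tr (t • a) x ∂P.dV = t * ∫ x, tr a x ∂P.dV := by
        rw [map_smul, ← integral_const_mul]
        rfl
      have e2 : ∫ x, P.rt (t • a) x ∂P.dV = t * ∫ x, P.rt a x ∂P.dV := by
        rw [P.rt_smul t ht a ha, ← integral_const_mul]
        rfl
      rw [e1, e2]
      ring)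
    (by
      intro a ha b hb x
      have := mul_le_mul_of_nonneg_left (P.rt_add a ha b hb x) hlam.le
      simp only [ContinuousMap.sub_apply, ContinuousMap.smul_apply, map_add,
        ContinuousMap.add_apply, smul_eq_mul]
      linarith)
    (by
      intro t ht a ha x
      simp only [ContinuousMap.sub_apply, ContinuousMap.smul_apply, map_smul, smul_eq_mul,
        P.rt_smul t ht a ha]
      ring)
    P.s0 P.s0_mem lam hlam
    (by
      intro x
      simp [P.rho_s0, P.rt_s0])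
    (by
      intro a ha hF
      refine P.key_MA tr htr hres hcomp a ha ?_
      intro x
      have := hF x
      simp only [ContinuousMap.sub_apply, ContinuousMap.smul_apply, smul_eq_mul] at this
      linarith)
  have := hfin
  refine ⟨μ, hreg, hfin, ?_, ?_⟩
  · have e : ∫ x, P.rt P.s0 x ∂P.dV = P.dV.real univ := by
      rw [P.rt_s0]
      simp
    rw [e] at hmass
    exact hmass
  · intro a ha
    have h1 := hμ a ha
    have i1 := integrable_cont μ (P.rho a)
    have i2 := integrable_cont μ (P.rt a)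
    have e : ∫ x, (P.rho a - lam • P.rt a) x ∂μ
        = ∫ x, P.rho a x ∂μ - lam * ∫ x, P.rt a x ∂μ := by
      rw [← integral_const_mul, ← integral_sub i1 (i2.const_mul lam)]
      rfl
    rw [e] at h1
    linarith

omit [T2Space X] in
/-- The total mass of the adjoint density vanishes. -/
theorem integral_rho (a : Fld) (ha : a ∈ P.Pos) : ∫ x, P.rho a x ∂P.dV = 0 := by
  have h1 := P.adj a ha 1 P.one_mem
  rw [P.Lop_one a ha] at h1
  simpa using h1.symm

omit [T2Space X] in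
/-- The key integral inequality of Part 12, `M > 0`. -/
theorem key_pos (tr : Fld →ₗ[ℝ] C(X, ℝ)) (htr : ∀ a ∈ P.Pos, tr a ∈ P.Fun) {C3 : ℝ}
    (hres : ∀ a ∈ P.Pos, ∀ m : ℝ, 0 < m → ∀ h ∈ P.Fun, ∀ δ : ℝ, 0 < δ → ∃ u ∈ P.Fun, ∀ x,
      |m * u x - P.Lop a u x - h x| ≤ δ)
    (hcomp : ∀ a ∈ P.Pos, ∀ m : ℝ, 0 < m → ∀ u ∈ P.Fun,
      (∀ x, tr a x + P.Lop a u x ≤ m * u x) → ∀ x, -C3 ≤ u x)
    (a : Fld) (ha : a ∈ P.Pos) (m : ℝ) (hm : 0 < m) (hF : ∀ x, P.rho a x ≤ m) :
    0 ≤ ∫ x, tr a x ∂P.dV + C3 * P.dV.real univ * m := by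
  have hfin := P.fin
  refine le_of_forall_pos_le_add ?_
  intro ε hε
  set vol : ℝ := P.dV.real univ with hvol
  have hvol0 : 0 ≤ vol := measureReal_nonneg
  set δ : ℝ := ε / (2 * (vol + 1)) with hδ
  have hδ0 : 0 < δ := by positivity
  set h : C(X, ℝ) := tr a + δ • 1 with hh
  have hmem : h ∈ P.Fun :=
    P.Fun.add_mem (htr a ha) (P.Fun.smul_mem _ P.one_mem)
  obtain ⟨u, hu, hud⟩ := hres a ha m hm h hmem δ hδ0
  have hhx : ∀ x, h x = tr a x + δ := by
    intro x
    simp [hh]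
  have hu0 : ∀ x, -C3 ≤ u x := by
    apply hcomp a ha m hm u hu
    intro x
    have h1 := (abs_le.mp (hud x)).1
    rw [hhx] at h1
    linarith
  have hup : ∀ x, m * u x - P.Lop a u x ≤ tr a x + 2 * δ := by
    intro x
    have h1 := (abs_le.mp (hud x)).2
    rw [hhx] at h1
    linarith
  have i1 := integrable_cont P.dV (m • u)
  have i2 := integrable_cont P.dV (P.Lop a u)
  have i3 := integrable_cont P.dV (tr a)
  have i4 := integrable_cont P.dV (P.rho a)
  have i5 := integrable_cont P.dV (u * P.rho a)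
  have e1 : ∫ x, (m * u x - P.Lop a u x) ∂P.dV
      = ∫ x, u x * (m - P.rho a x) ∂P.dV := by
    have h1 : ∫ x, (m * u x - P.Lop a u x) ∂P.dV
        = ∫ x, (m • u) x ∂P.dV - ∫ x, P.Lop a u x ∂P.dV := by
      rw [← integral_sub i1 i2]
      rfl
    have h2 : ∫ x, u x * (m - P.rho a x) ∂P.dV
        = ∫ x, (m • u) x ∂P.dV - ∫ x, (u * P.rho a) x ∂P.dV := by
      rw [← integral_sub i1 i5]
      congr 1
      ext x
      simp only [ContinuousMap.smul_apply, ContinuousMap.mul_apply, smul_eq_mul]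
      ring
    rw [h1, h2, P.adj a ha u hu]
    rfl
  have e2 : ∫ x, (-C3) * (m - P.rho a x) ∂P.dV ≤ ∫ x, u x * (m - P.rho a x) ∂P.dV := by
    apply integral_mono
    · exact ((integrable_const m).sub i4).const_mul _
    · have := i1.sub i5
      refine this.congr (Filter.Eventually.of_forall fun x => ?_)
      simp only [Pi.sub_apply, ContinuousMap.smul_apply, ContinuousMap.mul_apply, smul_eq_mul]
      ring
    · intro x
      exact mul_le_mul_of_nonneg_right (hu0 x) (by have := hF x; linarith)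
  have e2' : ∫ x, (-C3) * (m - P.rho a x) ∂P.dV = -(C3 * vol * m) := by
    rw [integral_const_mul, integral_sub (integrable_const m) i4, P.integral_rho a ha]
    simp [hvol]
    ring
  have e3 : ∫ x, (m * u x - P.Lop a u x) ∂P.dV ≤ ∫ x, (tr a x + 2 * δ) ∂P.dV := by
    apply integral_mono
    · exact i1.sub i2
    · exact i3.add (integrable_const _)
    · exact hup
  have e4 : ∫ x, (tr a x + 2 * δ) ∂P.dV = ∫ x, tr a x ∂P.dV + 2 * δ * vol := by
    have h2 : ∫ x, (tr a x + 2 * δ) ∂P.dV = ∫ x, tr a x ∂P.dV + ∫ _x, (2 * δ) ∂P.dV :=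
      integral_add i3 (integrable_const _)
    rw [h2]
    simp [hvol, mul_comm]
  have e5 : 2 * δ * vol ≤ ε := by
    rw [hδ]
    have : 2 * (ε / (2 * (vol + 1))) * vol = ε * (vol / (vol + 1)) := by field_simp
    rw [this]
    have h7 : vol / (vol + 1) ≤ 1 := by
      rw [div_le_one (by positivity)]
      linarith
    nlinarith
  rw [e1, e4] at e3
  rw [e2'] at e2
  linarith

/-- **Blueprint (12.1)**: the dual measure for the positivity of `K_X`. -/
theorem exists_measure_pos (tr : Fld →ₗ[ℝ] C(X, ℝ)) (htr : ∀ a ∈ P.Pos, tr a ∈ P.Fun) {C3 : ℝ}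
    (hC3 : 0 ≤ C3)
    (hres : ∀ a ∈ P.Pos, ∀ m : ℝ, 0 < m → ∀ h ∈ P.Fun, ∀ δ : ℝ, 0 < δ → ∃ u ∈ P.Fun, ∀ x,
      |m * u x - P.Lop a u x - h x| ≤ δ)
    (hcomp : ∀ a ∈ P.Pos, ∀ m : ℝ, 0 < m → ∀ u ∈ P.Fun,
      (∀ x, tr a x + P.Lop a u x ≤ m * u x) → ∀ x, -C3 ≤ u x) :
    ∃ μ : Measure X, μ.Regular ∧ IsFiniteMeasure μ ∧ μ.real univ ≤ C3 * P.dV.real univ ∧
      ∀ a ∈ P.Pos, 0 ≤ ∫ x, tr a x ∂P.dV + ∫ x, P.rho a x ∂μ := by
  have := P.fin
  have hB : 0 ≤ C3 * P.dV.real univ := mul_nonneg hC3 measureReal_nonneg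
  obtain ⟨μ, hreg, hfin, hmass, hμ⟩ := Dual271.exists_measure (X := X) (V := Fld) P.Pos
    ⟨P.s0, P.s0_mem⟩ P.add_mem P.smul_mem P.rho (fun a => ∫ x, tr a x ∂P.dV)
    (by
      intro a _ b _
      rw [map_add, ← integral_add (integrable_cont P.dV (tr a)) (integrable_cont P.dV (tr b))]
      exact le_rfl)
    (by
      intro t _ a _
      rw [map_smul, ← integral_const_mul]
      rfl)
    (C3 * P.dV.real univ) hB
    (by
      intro a ha M hM hF
      refine le_of_forall_pos_le_add ?_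
      intro ε hε
      set m : ℝ := M + ε / (C3 * P.dV.real univ + 1) with hm
      have hm0 : 0 < ε / (C3 * P.dV.real univ + 1) := by positivity
      have h1 := P.key_pos tr htr hres hcomp a ha m (by positivity) (fun x => by
        have := hF x
        linarith)
      have h2 : C3 * P.dV.real univ * (ε / (C3 * P.dV.real univ + 1)) ≤ ε := by
        have h3 : C3 * P.dV.real univ * (ε / (C3 * P.dV.real univ + 1))
            = ε * (C3 * P.dV.real univ / (C3 * P.dV.real univ + 1)) := by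
          ring
        rw [h3]
        have h7 : C3 * P.dV.real univ / (C3 * P.dV.real univ + 1) ≤ 1 := by
          rw [div_le_one (by positivity)]
          linarith
        nlinarith
      rw [hm, mul_add] at h1
      linarith)
  exact ⟨μ, hreg, hfin, hmass, hμ⟩

end Pack

end Crest.Agent.R269.DualAsm_128
end
end

-- ▼ part R269/Part8_271
section

/-!
Row 269, Parts 8 and 12 of Blueprint_646: from (T) and the resolvent (7.1) to the measure `U`,
against an abstract interface `FieldData` (compact space, fields `s`, operators `L_s`, adjoints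
`rho_s`).
-/

set_option autoImplicit false
noncomputable section

open MeasureTheory Set

namespace Crest.Agent.R269.Part8_271

open Crest.Agent.R269.Dual271

/-- Abstract interface for "smooth Hermitian fields on the cotangent space of a compact Kähler
manifold `X`".  `𝒮` = smooth functions, `V` = smooth Hermitian fields, `pos` = positive definite
fields, `L s u = tr (s (i∂∂̄ u))`, `rho s = L_s^* 1`, `dt s = (det_g s)^{1/n}`, `g0 = g⁻¹`. -/
structure FieldData (X : Type*) [TopologicalSpace X] [CompactSpace X] [T2Space X]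
    [MeasurableSpace X] [BorelSpace X] (V : Type*) [AddCommGroup V] [Module ℝ V] where
  /-- the volume measure -/
  vol : Measure X
  vol_fin : IsFiniteMeasure vol
  /-- smooth functions -/
  Sm : Submodule ℝ C(X, ℝ)
  one_mem : (1 : C(X, ℝ)) ∈ Sm
  /-- positive definite fields -/
  pos : Set V
  pos_add : ∀ a ∈ pos, ∀ b ∈ pos, a + b ∈ pos
  pos_smul : ∀ t : ℝ, 0 < t → ∀ a ∈ pos, t • a ∈ pos
  /-- the operator `L_s` -/
  L : V →ₗ[ℝ] (Sm →ₗ[ℝ] C(X, ℝ))
  L_one : ∀ s, L s ⟨1, one_mem⟩ = 0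
  /-- the adjoint applied to `1` -/
  rho : V →ₗ[ℝ] C(X, ℝ)
  integral_L : ∀ (s : V) (u : Sm), ∫ x, L s u x ∂vol = ∫ x, (u : C(X, ℝ)) x * rho s x ∂vol
  /-- `(det_g s)^{1/n}` -/
  dt : V → C(X, ℝ)
  dt_add : ∀ a ∈ pos, ∀ b ∈ pos, ∀ x, dt a x + dt b x ≤ dt (a + b) x
  dt_smul : ∀ t : ℝ, 0 < t → ∀ a ∈ pos, ∀ x, dt (t • a) x = t * dt a x
  dt_nonneg : ∀ a ∈ pos, ∀ x, 0 ≤ dt a x
  /-- `g⁻¹` -/
  g0 : V
  g0_pos : g0 ∈ pos
  rho_g0 : rho g0 = 0
  dt_g0 : ∀ x, dt g0 x = 1

namespace FieldData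

variable {X : Type*} [TopologicalSpace X] [CompactSpace X] [T2Space X] [MeasurableSpace X]
  [BorelSpace X] {V : Type*} [AddCommGroup V] [Module ℝ V]

omit [T2Space X] in
theorem integrable (μ : Measure X) [IsFiniteMeasure μ] (f : C(X, ℝ)) : Integrable f μ := by
  have h1 : HasCompactSupport (f : X → ℝ) := HasCompactSupport.of_compactSpace f
  exact f.continuous.integrable_of_hasCompactSupport h1

variable (𝓕 : FieldData X V)

/-- `J(s) = ∫ tr(s θ) - N ∫ (det_g s)^{1/n}`, `θ` a smooth form, `tb s = tr (s θ)`. -/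
def J (tb : V →ₗ[ℝ] C(X, ℝ)) (N : ℝ) (s : V) : ℝ :=
  ∫ x, tb s x ∂𝓕.vol - N * ∫ x, 𝓕.dt s x ∂𝓕.vol







end FieldData

end Crest.Agent.R269.Part8_271
end
end

-- ▼ part R269/Inst_851

/-!
# R269 (S0411), leaf GEO-ADJ, part 4 (helper851): the instances

* `pack K P : DualAsm_128.Pack M (Fld A)`
* `fieldData K P : Part8_271.FieldData M (Fld A)`
* `trC K β` : `s ↦ tr (s β)` as a linear map `Fld A →ₗ C(M, ℝ)`
-/

set_option autoImplicit false
set_option linter.unusedSectionVars false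

open Set Filter Topology Complex MeasureTheory
open scoped ContDiff Matrix ComplexConjugate ComplexOrder

namespace Crest.Agent.R269.Inst_851

open Crest.Agent.R275 Crest.Agent.R275.Geo Crest.Agent.R275.Core144 Crest.Agent.R275.EDR890
open Crest.Agent.R275.Pai323 Crest.Agent.R275.C1d194
open Crest.Agent.R273.Defs_333 Crest.Agent.R273.Hess_333 Crest.Agent.R273.HessB_333
open Crest.Agent.R273.HM_333 Crest.Agent.R273.Kah_333 Crest.Agent.R273.Vol_333
open Crest.Agent.R273.Vm_333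
open Crest.Agent.R273.Green_5 Crest.Agent.R273.GreenM_5
open Crest.Agent.R269.Fld_851 Crest.Agent.R269.Adj_851 Crest.Agent.R269.AdjLoc_851
open Crest.Agent.R269

noncomputable section

variable {n : ℕ} {M : Type} [TopologicalSpace M] {A : Atl n M}

theorem Sm.add {u v : M → ℝ} (hu : A.Sm u) (hv : A.Sm v) : A.Sm (fun x => u x + v x) :=
  fun i => ContDiffOn.add (hu i) (hv i)

theorem Sm.cmul (c : ℝ) {u : M → ℝ} (hu : A.Sm u) : A.Sm (fun x => c * u x) :=
  fun i => ContDiffOn.mul contDiffOn_const (hu i)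

theorem Sm.const (c : ℝ) : A.Sm (fun _ : M => c) := fun _ => contDiffOn_const

/-- the smooth functions in `C(M, ℝ)` -/
def FunS (A : Atl n M) : Submodule ℝ C(M, ℝ) where
  carrier := {u | A.Sm (fun x => u x)}
  add_mem' := fun hu hv => Sm.add hu hv
  zero_mem' := Sm.const 0
  smul_mem' := fun c _ hu => Sm.cmul c hu


/-- the positive fields -/
def PosS (A : Atl n M) : Set (Fld A) := {s | ∀ i, ∀ x ∈ (A.e i).source, (s.1 i x).PosDef}

theorem PosS_add {s t : Fld A} (hs : s ∈ PosS A) (ht : t ∈ PosS A) : s + t ∈ PosS A :=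
  fun i x hx => (hs i x hx).add (ht i x hx)

theorem PosS_smul {c : ℝ} (hc : 0 < c) {s : Fld A} (hs : s ∈ PosS A) : c • s ∈ PosS A := by
  intro i x hx
  have h1 : (c • s).1 i x = (c : ℂ) • s.1 i x := by
    ext a b
    simp [Complex.real_smul]
  rw [h1]
  exact (hs i x hx).smul (by exact_mod_cast hc)

theorem gIF_mem (K : Kah A) : gIF K ∈ PosS A := fun _ _ hx => gI_posDef K hx

theorem rtF_dn (K : Kah A) {s : A.ι → M → Matrix (Fin n) (Fin n) ℂ} (hs : Tc A s) {i : A.ι} {x : M}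
    (hx : x ∈ (A.e i).source) (h : (s i x).PosSemidef) :
    rtF K s x = DetIneq271.dn (s i x) * DetIneq271.dn (K.g i x) := by
  unfold rtF DetIneq271.dn
  rw [dtF_mul K hs hx h.1, Fintype.card_fin, one_div,
    Real.mul_rpow (DetIneq271.det_re_nonneg h) (DetIneq271.det_re_pos (K.pos i x hx)).le]


theorem rtF_pos (K : Kah A) {s : A.ι → M → Matrix (Fin n) (Fin n) ℂ} (hs : Tc A s) {i : A.ι}
    {x : M} (hx : x ∈ (A.e i).source) (h : (s i x).PosDef) : 0 < rtF K s x :=
  Real.rpow_pos_of_pos (dtF_pos K hs hx h) _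

/-- Minkowski's inequality -/
theorem rtF_add [NeZero n] (K : Kah A) {s t : A.ι → M → Matrix (Fin n) (Fin n) ℂ} (hs : Tc A s)
    (ht : Tc A t) (hst : Tc A (s + t)) {i : A.ι} {x : M} (hx : x ∈ (A.e i).source)
    (h : (s i x).PosSemidef) (h' : (t i x).PosSemidef) :
    rtF K s x + rtF K t x ≤ rtF K (s + t) x := by
  have : Nonempty (Fin n) := ⟨0⟩
  have h2 : ((s + t) i x).PosSemidef := h.add h'
  rw [rtF_dn K hs hx h, rtF_dn K ht hx h', rtF_dn K hst hx h2, ← add_mul]
  exact mul_le_mul_of_nonneg_right (DetIneq271.dn_add h h')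
    (DetIneq271.dn_nonneg (K.pos i x hx).posSemidef)

theorem rtF_smul [NeZero n] (K : Kah A) {c : ℝ} (hc : 0 ≤ c)
    (s : A.ι → M → Matrix (Fin n) (Fin n) ℂ) {x : M} (h : 0 ≤ dtF K s x) :
    rtF K (c • s) x = c * rtF K s x := by
  unfold rtF
  rw [dtF_smul, Real.mul_rpow (pow_nonneg hc _) h, one_div,
    Real.pow_rpow_inv_natCast hc (NeZero.ne n)]

theorem sm_rtF (K : Kah A) {s : Fld A} (hs : s ∈ PosS A) : A.Sm (rtF K s.1) := by
  intro i
  have h1 : ContDiffOn ℝ ∞ (fun z => (dtF K s.1 ((A.e i).symm z)) ^ ((1 : ℝ) / n))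
      (A.e i).target :=
    ContDiffOn.rpow_const_of_ne (sm_dtF K s.2.tc s.2.sm i) fun z hz =>
      (dtF_pos K s.2.tc ((A.e i).map_target hz) (hs i _ ((A.e i).map_target hz))).ne'
  exact h1

section top

theorem smc {W : Type*} [NormedAddCommGroup W] [NormedSpace ℝ W] {f : M → W} (hf : A.Sm f) :
    Continuous f := by
  rw [continuous_iff_continuousAt]
  intro x
  obtain ⟨i, hi⟩ := A.cover x
  have h1 : ContinuousAt (fun z => f ((A.e i).symm z)) (A.e i x) :=
    (hf i).continuousOn.continuousAt ((A.e i).open_target.mem_nhds ((A.e i).map_source hi))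
  have h2 : ContinuousAt (fun y => f ((A.e i).symm (A.e i y))) x :=
    ContinuousAt.comp (g := fun z => f ((A.e i).symm z)) h1 ((A.e i).continuousAt hi)
  refine h2.congr ?_
  filter_upwards [(A.e i).open_source.mem_nhds hi] with y hy
  rw [(A.e i).left_inv hy]

theorem continuous_rtF (K : Kah A) (s : Fld A) : Continuous (rtF K s.1) := by
  have h1 : Continuous (dtF K s.1) := smc (sm_dtF K s.2.tc s.2.sm)
  exact h1.rpow_const fun _ => Or.inr (by positivity)

/-- `(det_g s)^{1/n}` as a continuous function -/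
def rtC (K : Kah A) (s : Fld A) : C(M, ℝ) := ⟨rtF K s.1, continuous_rtF K s⟩

@[simp] theorem rtC_apply (K : Kah A) (s : Fld A) (x : M) : rtC K s x = rtF K s.1 x := rfl

end top

section meas

variable [T2Space M] [CompactSpace M] [MeasurableSpace M] [BorelSpace M] [Finite A.ι]

open Classical in
/-- `tr (s ∂∂̄u)` -/
def LopC (s : Fld A) (u : C(M, ℝ)) : C(M, ℝ) :=
  if h : A.Sm (fun x => u x) then ⟨Lop s.1 (fun x => u x), smc (sm_Lop s.2 h)⟩ else 0

theorem LopC_apply (s : Fld A) {u : C(M, ℝ)} (h : A.Sm (fun x => u x)) (x : M) :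
    LopC s u x = Lop s.1 (fun x => u x) x := by
  unfold LopC
  rw [dif_pos h]
  rfl

/-- the linear map `s ↦ tr (s β)` -/
def trC {β : A.ι → M → Matrix (Fin n) (Fin n) ℂ} (hβ : Tn A β)
    (hβ' : ∀ i a b, A.SmAt i (fun x => β i x a b)) : Fld A →ₗ[ℝ] C(M, ℝ) where
  toFun s := ⟨trF s.1 β, smc (sm_trF s.2.tc hβ s.2.sm hβ')⟩
  map_add' s t := by
    ext x
    exact trF_add_left s.1 t.1 β x
  map_smul' c s := by
    ext x
    exact trF_smul_left c s.1 β x

@[simp] theorem trC_apply {β : A.ι → M → Matrix (Fin n) (Fin n) ℂ} (hβ : Tn A β)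
    (hβ' : ∀ i a b, A.SmAt i (fun x => β i x a b)) (s : Fld A) (x : M) :
    trC hβ hβ' s x = trF s.1 β x := rfl

theorem trC_mem {β : A.ι → M → Matrix (Fin n) (Fin n) ℂ} (hβ : Tn A β)
    (hβ' : ∀ i a b, A.SmAt i (fun x => β i x a b)) (s : Fld A) : trC hβ hβ' s ∈ FunS A :=
  sm_trF s.2.tc hβ s.2.sm hβ'

/-- `s ↦ ρ_s` -/
def rhoL (K : Kah A) (P : Part A) : Fld A →ₗ[ℝ] C(M, ℝ) where
  toFun s := ⟨rho K P s.1, continuous_rho K P s.2⟩
  map_add' s t := by
    ext x
    exact rho_add K P s.2 t.2 x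
  map_smul' c s := by
    ext x
    exact rho_smul K P c s.2 x

@[simp] theorem rhoL_apply (K : Kah A) (P : Part A) (s : Fld A) (x : M) :
    rhoL K P s x = rho K P s.1 x := rfl


/-- **the instance of helper128's interface** -/
def pack [NeZero n] (K : Kah A) (P : Part A) : DualAsm_128.Pack M (Fld A) where
  dV := vm (volK K)
  Fun := FunS A
  Pos := PosS A
  s0 := gIF K
  rt := rtC K
  Lop := LopC
  rho := rhoL K P
  fin := isFinite_vm (volK K)
  one_mem := Sm.const 1
  s0_mem := gIF_mem K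
  add_mem _ ha _ hb := PosS_add ha hb
  smul_mem _ ht _ ha := PosS_smul ht ha
  rt_mem _ ha := sm_rtF K ha
  rt_smul t ht a ha := by
    ext x
    obtain ⟨i, hi⟩ := A.cover x
    exact rtF_smul K ht.le a.1 (dtF_nonneg K a.2.tc hi (ha i x hi).posSemidef)
  rt_add a ha b hb x := by
    obtain ⟨i, hi⟩ := A.cover x
    exact rtF_add K a.2.tc b.2.tc (a + b).2.tc hi (ha i x hi).posSemidef (hb i x hi).posSemidef
  rt_s0 := by
    ext x
    exact rtF_gI K x
  rho_s0 := by
    ext x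
    exact rho_gI K P x
  Lop_one a _ := by
    ext x
    rw [LopC_apply a (Sm.const 1)]
    exact Lop_const a.1 1 x
  adj a _ u hu := by
    have h1 := integral_Lop K P a.2 (u := fun x => u x) hu
    have h2 : (fun x => LopC a u x) = Lop a.1 (fun x => u x) := funext fun x => LopC_apply a hu x
    rw [h2]
    exact h1


end meas

end

end Crest.Agent.R269.Inst_851
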