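import Crest.Agent.R269.Defs_58
import Mathlib
import Crest.Agent.R269.GlueB_390
import Crest.Agent.R269.RegStmt_848
import Crest.Agent.R275.C1d_194
import Crest.Agent.R273.Levi_145
import Crest.Agent.R273.Vol_333

-- ▼ part R269/Red2_58
section

/-!
# R269: variant of the red theorem without `SolvStmt` (the resolvent is supplied on the atlas by helper19)
-/

set_option autoImplicit false

open Crest.AlgGeometry.ProjEmb Crest.Agent.R269.Geo_328 Crest.Agent.R269.Defs_58

namespace Crest.Agent.R269.Red2_58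

/-- Parts 7, 8, 9 together -/
def MAStmt2 : Prop := ∀ (N n : ℕ) (I : Ideal (HomCoordRing N)), I.IsPrime →
  IsSmoothProjective I n → 1 ≤ n → TP I n → MAP I n

/-- Parts 7, 12 together -/
def PosStmt2 : Prop := ∀ (N n : ℕ) (I : Ideal (HomCoordRing N)), I.IsPrime →
  IsSmoothProjective I n → 1 ≤ n → TDelP I n → PosP I n



/-- THE RED THEOREM, second form -/
theorem of_all2 (hT : TStmt) (hM : MAStmt2) (hB : BigStmt) (hD : TDelStmt)
    (hP : PosStmt2) (hA : AmpStmt) (N n : ℕ) (I : Ideal (HomCoordRing N)) [hI : I.IsPrime]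
    (hX : IsSmoothProjective I n) (hn : 1 ≤ n) (hc : EntireCurvesConstant I) :
    IsCanonicallyAmple I n := by
  have h2 := hM N n I hI hX hn (hT N n I hI hX hn hc)
  have h3 := hB N n I hI hX hn h2
  exact hA N n I hX hn (hP N n I hI hX hn (hD N n I hI hX hn hc h3))

end Crest.Agent.R269.Red2_58
end

-- ▼ part R269/GlueA_390
section

/-!
# R269 (S0411), leaf L8, part G1 (helper390): determinants and the linear characterisation

`DB c H` : `n c |det b|^{2/n} ≤ Re tr (bᴴ H b)` for all square matrices `b`.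
It is equivalent to `H ≥ 0` and `cⁿ ≤ det H` (for Hermitian `H`, `c ≥ 0`).
-/

set_option autoImplicit false

open Matrix Finset
open scoped ComplexOrder Matrix MatrixOrder

namespace Crest.Agent.R269.GlueA_390

noncomputable section


variable {n : ℕ}

/-- the linear form of the determinant inequality -/
def DB (c : ℝ) (H : Matrix (Fin n) (Fin n) ℂ) : Prop :=
  ∀ b : Matrix (Fin n) (Fin n) ℂ, n * c * (‖b.det‖ ^ 2) ^ ((1 : ℝ) / n) ≤ (bᴴ * H * b).trace.re


theorem det_re_eq {H : Matrix (Fin n) (Fin n) ℂ} (hH : H.PosSemidef) : (H.det.re : ℂ) = H.det := by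
  have h1 : H.det = ((∏ i, hH.isHermitian.eigenvalues i : ℝ) : ℂ) := by
    rw [hH.isHermitian.det_eq_prod_eigenvalues]
    push_cast
    rfl
  rw [h1, Complex.ofReal_re]



theorem DB.psd {H : Matrix (Fin n) (Fin n) ℂ} (hH : H.IsHermitian) {c : ℝ} (hc : 0 ≤ c)
    (h : DB c H) : H.PosSemidef := by
  classical
  refine Matrix.PosSemidef.of_dotProduct_mulVec_nonneg hH fun x => ?_
  rcases Nat.eq_zero_or_pos n with h0 | h0
  · subst h0
    simp [dotProduct]
  have : NeZero n := ⟨h0.ne'⟩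
  let j0 : Fin n := ⟨0, h0⟩
  let b : Matrix (Fin n) (Fin n) ℂ := fun i j => if j = j0 then x i else 0
  have h1 := h b
  have hb1 : ∀ i, b i j0 = x i := fun i => by simp [b]
  have hb2 : ∀ i j, j ≠ j0 → b i j = 0 := fun i j hj => by simp [b, hj]
  have h2 : (bᴴ * H * b).trace = star x ⬝ᵥ (H *ᵥ x) := by
    rw [Matrix.mul_assoc, Matrix.trace]
    simp only [Matrix.diag_apply, Matrix.mul_apply, Matrix.conjTranspose_apply, dotProduct,
      Matrix.mulVec]
    rw [Finset.sum_eq_single j0]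
    · simp only [hb1, Pi.star_apply]
    · intro j _ hj
      refine Finset.sum_eq_zero fun i _ => ?_
      rw [hb2 i j hj, star_zero, zero_mul]
    · simp
  have h3 : 0 ≤ (star x ⬝ᵥ (H *ᵥ x)).re := by
    rw [← h2]
    refine le_trans ?_ h1
    positivity
  have h4 : (star x ⬝ᵥ (H *ᵥ x)).im = 0 := hH.im_star_dotProduct_mulVec_self x
  exact Complex.nonneg_iff.2 ⟨h3, h4.symm⟩

theorem DB.det {H : Matrix (Fin n) (Fin n) ℂ} (hH : H.IsHermitian) {c : ℝ} (hc : 0 ≤ c)
    (h : DB c H) : c ^ n ≤ H.det.re := by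
  classical
  rcases Nat.eq_zero_or_pos n with h0 | h0
  · subst h0
    simp
  have : NeZero n := ⟨h0.ne'⟩
  have hn : (0 : ℝ) < n := by exact_mod_cast h0
  have hp := h.psd hH hc
  have key : ∀ τ : ℝ, 0 < τ → c ^ n ≤ (H + (τ : ℂ) • (1 : Matrix (Fin n) (Fin n) ℂ)).det.re := by
    intro τ hτ
    set K : Matrix (Fin n) (Fin n) ℂ := H + (τ : ℂ) • 1 with hK
    have hτ1 : ((τ : ℂ) • (1 : Matrix (Fin n) (Fin n) ℂ)).PosDef :=
      Matrix.PosDef.one.smul (by exact_mod_cast hτ)
    have hKp : K.PosDef := hτ1.posSemidef_add hp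
    have hKi : K⁻¹.PosSemidef := hKp.inv.posSemidef
    obtain ⟨B, hB⟩ : ∃ B : Matrix (Fin n) (Fin n) ℂ, K⁻¹ = Bᴴ * B :=
      CStarAlgebra.nonneg_iff_eq_star_mul_self.mp hKi.nonneg
    have hu : IsUnit K.det := (Matrix.isUnit_iff_isUnit_det _).1 hKp.isUnit
    have h1 := h Bᴴ
    rw [conjTranspose_conjTranspose] at h1
    have e1 : (B * K * Bᴴ).trace = (n : ℂ) := by
      rw [Matrix.trace_mul_comm, ← Matrix.mul_assoc, ← hB, Matrix.nonsing_inv_mul _ hu,
        Matrix.trace_one, Fintype.card_fin]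
    have e2 : (B * K * Bᴴ).trace = (B * H * Bᴴ).trace + (τ : ℂ) * (B * Bᴴ).trace := by
      rw [hK, Matrix.mul_add, Matrix.add_mul, Matrix.trace_add, Matrix.mul_smul, Matrix.mul_one,
        Matrix.smul_mul, Matrix.trace_smul, smul_eq_mul]
    have e3 : 0 ≤ (B * Bᴴ).trace.re :=
      (Complex.nonneg_iff.1 (Matrix.posSemidef_self_mul_conjTranspose B).trace_nonneg).1
    have e4 : (B * H * Bᴴ).trace.re ≤ n := by
      have := congrArg Complex.re (e1.symm.trans e2)
      rw [Complex.add_re, Complex.re_ofReal_mul, Complex.natCast_re] at this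
      nlinarith
    have e5 : ‖Bᴴ.det‖ ^ 2 = (K.det.re)⁻¹ := by
      have h2 : (Bᴴ * B).det = K.det⁻¹ := by
        rw [← hB, Matrix.det_nonsing_inv, Ring.inverse_eq_inv']
      rw [det_mul, det_conjTranspose] at h2
      have h3 : star B.det * B.det = ((‖B.det‖ ^ 2 : ℝ) : ℂ) := by
        rw [Complex.star_def, ← Complex.normSq_eq_conj_mul_self, Complex.normSq_eq_norm_sq]
      rw [h3, ← det_re_eq hKp.posSemidef, ← Complex.ofReal_inv, Complex.ofReal_inj] at h2
      rw [det_conjTranspose, norm_star]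
      exact h2
    have hKd : 0 < K.det.re := by
      have := hKp.det_pos
      exact (Complex.pos_iff.1 this).1
    have h6 : (n : ℝ) * c * ((K.det.re)⁻¹) ^ ((1 : ℝ) / n) ≤ n := by
      rw [← e5]
      exact h1.trans e4
    have h7 : c ≤ K.det.re ^ ((1 : ℝ) / n) := by
      rw [Real.inv_rpow hKd.le, mul_assoc] at h6
      have h8 : c * (K.det.re ^ ((1 : ℝ) / n))⁻¹ ≤ 1 := by
        by_contra hcon
        push_neg at hcon
        nlinarith
      have h9 : 0 < K.det.re ^ ((1 : ℝ) / n) := Real.rpow_pos_of_pos hKd _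
      rwa [← div_eq_mul_inv, div_le_one h9] at h8
    calc c ^ n ≤ (K.det.re ^ ((1 : ℝ) / n)) ^ n := pow_le_pow_left₀ hc h7 n
      _ = K.det.re := by
        rw [← Real.rpow_natCast, ← Real.rpow_mul hKd.le, one_div_mul_cancel hn.ne', Real.rpow_one]
  have hcont : Continuous fun τ : ℝ => (H + (τ : ℂ) • (1 : Matrix (Fin n) (Fin n) ℂ)).det.re := by
    refine Complex.continuous_re.comp (Continuous.matrix_det ?_)
    fun_prop
  have hlim : Filter.Tendsto (fun τ : ℝ => (H + (τ : ℂ) • (1 : Matrix (Fin n) (Fin n) ℂ)).det.re)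
      (nhdsWithin 0 (Set.Ioi 0)) (nhds (H + ((0 : ℝ) : ℂ) • (1 : Matrix (Fin n) (Fin n) ℂ)).det.re) :=
    (hcont.tendsto 0).mono_left nhdsWithin_le_nhds
  rw [Complex.ofReal_zero, zero_smul, add_zero] at hlim
  exact ge_of_tendsto hlim (Filter.eventually_of_mem self_mem_nhdsWithin fun τ hτ => key τ hτ)


theorem DB.add {c c' : ℝ} {H H' : Matrix (Fin n) (Fin n) ℂ} (h : DB c H) (h' : DB c' H') :
    DB (c + c') (H + H') := by
  intro b
  have := h b
  have := h' b
  rw [Matrix.mul_add, Matrix.add_mul, Matrix.trace_add, Complex.add_re]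
  nlinarith

theorem DB.smul {c t : ℝ} {H : Matrix (Fin n) (Fin n) ℂ} (ht : 0 ≤ t) (h : DB c H) :
    DB (t * c) ((t : ℂ) • H) := by
  intro b
  have := mul_le_mul_of_nonneg_left (h b) ht
  rw [Matrix.mul_smul, Matrix.smul_mul, Matrix.trace_smul, smul_eq_mul, Complex.re_ofReal_mul]
  calc n * (t * c) * (‖b.det‖ ^ 2) ^ ((1 : ℝ) / n) = t * (n * c * (‖b.det‖ ^ 2) ^ ((1 : ℝ) / n)) := by
        ring
    _ ≤ _ := this


end

end Crest.Agent.R269.GlueA_390
end

-- ▼ part R269/GlueC_390
section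

/-!
# R269 (S0411), leaf L8, part G2 (helper390): mollification of functions and measures on `ℂⁿ`

`cv ν f ρ x = ∫ f t * ρ (x - t) ∂ν t`; smoothness, `lv` under the integral sign; the linear
determinant inequality passes from the weak form to the mollification.
-/

set_option autoImplicit false
set_option linter.unusedSectionVars false

open MeasureTheory Set Metric Filter Topology
open scoped ContDiff Pointwise

namespace Crest.Agent.R269.GlueC_390

open Crest.Agent.R273.C0d_390 Crest.Agent.R269.GlueB_390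

noncomputable section

variable {n : ℕ}

section Conv

variable {F : Type*} [NormedAddCommGroup F] [NormedSpace ℝ F]

/-- convolution of a function against a measure -/
def cv (ν : Measure (V n)) (f : V n → ℝ) (ρ : V n → F) (x : V n) : F := ∫ t, f t • ρ (x - t) ∂ν

theorem cv_integrable {ν : Measure (V n)} {f : V n → ℝ}
    (hf : LocallyIntegrable f ν) {ρ : V n → F} (hρ : Continuous ρ) (hc : HasCompactSupport ρ)
    (x : V n) : Integrable (fun t => f t • ρ (x - t)) ν := by
  have hc' : HasCompactSupport (fun t => ρ (x - t)) := hc.comp_homeomorph (Homeomorph.subLeft x)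
  exact hf.integrable_smul_right_of_hasCompactSupport (by fun_prop) hc'

theorem cv_hasFDerivAt [CompleteSpace F] {ν : Measure (V n)} {f : V n → ℝ}
    (hf : LocallyIntegrable f ν) {ρ : V n → F} (hρ : ContDiff ℝ 1 ρ) (hc : HasCompactSupport ρ)
    (x : V n) : HasFDerivAt (cv ν f ρ) (cv ν f (fderiv ℝ ρ) x) x := by
  have hd : Continuous (fderiv ℝ ρ) := hρ.continuous_fderiv one_ne_zero
  have hcd : HasCompactSupport (fderiv ℝ ρ) := hc.fderiv ℝ
  obtain ⟨C, hC⟩ := hd.bounded_above_of_compact_support hcd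
  let K' : Set (V n) := -tsupport (fderiv ℝ ρ) + closedBall x 1
  have hK' : IsCompact K' := hcd.isCompact.neg.add (isCompact_closedBall x 1)
  have hint := cv_integrable hf hρ.continuous hc
  have hint' := cv_integrable hf hd hcd
  have hC0 : 0 ≤ C := (norm_nonneg _).trans (hC 0)
  refine hasFDerivAt_integral_of_dominated_of_fderiv_le (μ := ν)
    (F := fun x t => f t • ρ (x - t)) (F' := fun x t => f t • fderiv ℝ ρ (x - t)) (x₀ := x)
    (bound := K'.indicator fun t => ‖f t‖ * C) (ball_mem_nhds x one_pos)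
    (Eventually.of_forall fun y => (hint y).aestronglyMeasurable) (hint x)
    (hint' x).aestronglyMeasurable ?_ ?_ ?_
  · refine Eventually.of_forall fun t y hy => ?_
    by_cases ht : t ∈ K'
    · rw [indicator_of_mem ht, norm_smul]
      exact mul_le_mul_of_nonneg_left (hC _) (norm_nonneg _)
    · rw [indicator_of_notMem ht]
      have : fderiv ℝ ρ (y - t) = 0 := by
        by_contra h
        refine ht ⟨-(y - t), ?_, y, ball_subset_closedBall hy, by simp⟩
        rw [Set.mem_neg, neg_neg]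
        exact subset_tsupport _ h
      rw [this, smul_zero, norm_zero]
  · rw [integrable_indicator_iff hK'.measurableSet]
    exact ((hf.integrableOn_isCompact hK').norm.mul_const _)
  · refine Eventually.of_forall fun t y _ => ?_
    have h1 : HasFDerivAt (fun y : V n => y - t) (ContinuousLinearMap.id ℝ (V n)) y :=
      (hasFDerivAt_id y).sub_const t
    have h2 := ((hρ.differentiable one_ne_zero) (y - t)).hasFDerivAt.comp y h1
    exact h2.const_smul (f t)


theorem cv_contDiff {ν : Measure (V n)} {f : V n → ℝ} (hf : LocallyIntegrable f ν)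
    {ρ : V n → ℝ} (hρ : ContDiff ℝ ∞ ρ) (hc : HasCompactSupport ρ) : ContDiff ℝ ∞ (cv ν f ρ) :=
  HasCompactSupport.contDiff_convolution_right (𝕜 := ℝ) (n := ⊤) (ContinuousLinearMap.lsmul ℝ ℝ)
    hc hf hρ

theorem cv_fderiv_apply {ν : Measure (V n)} {f : V n → ℝ}
    (hf : LocallyIntegrable f ν) {ρ : V n → ℝ} (hρ : ContDiff ℝ 1 ρ) (hc : HasCompactSupport ρ)
    (x a : V n) :
    fderiv ℝ (cv ν f ρ) x a = cv ν f (fun y => fderiv ℝ ρ y a) x := by
  have hi := cv_integrable hf (hρ.continuous_fderiv one_ne_zero) (hc.fderiv ℝ) x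
  rw [(cv_hasFDerivAt hf hρ hc x).fderiv, cv, ContinuousLinearMap.integral_apply hi]
  rfl

theorem fderiv2_apply {u : V n → ℝ} {x : V n} (hu : ContDiffAt ℝ 2 u x) (a b : V n) :
    fderiv ℝ (fderiv ℝ u) x b a = fderiv ℝ (fun y => fderiv ℝ u y a) x b := by
  have h1 : DifferentiableAt ℝ (fderiv ℝ u) x :=
    (hu.fderiv_right (m := 1) (by norm_num)).differentiableAt (by norm_num)
  have h2 := h1.hasFDerivAt.clm_apply (hasFDerivAt_const a x)
  rw [h2.fderiv]
  simp

theorem cv_lv {ν : Measure (V n)} {f : V n → ℝ} (hf : LocallyIntegrable f ν)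
    {ρ : V n → ℝ} (hρ : ContDiff ℝ ∞ ρ) (hc : HasCompactSupport ρ) (x ξ : V n) :
    lv (cv ν f ρ) x ξ = ∫ t, f t * lv ρ (x - t) ξ ∂ν := by
  have h0 : ContDiff ℝ 2 ρ := hρ.of_le (by norm_cast)
  have h1 : ContDiff ℝ 1 ρ := h0.of_le (by norm_num)
  have hu : ContDiff ℝ 2 (cv ν f ρ) := (cv_contDiff hf hρ hc).of_le (by norm_cast)
  have ha1 : ∀ a : V n, ContDiff ℝ 1 (fun y => fderiv ℝ ρ y a) := fun a =>
    (h0.fderiv_right (m := 1) (by norm_num)).clm_apply contDiff_const
  have hac : ∀ a : V n, HasCompactSupport (fun y => fderiv ℝ ρ y a) := fun a =>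
    hc.fderiv_apply ℝ a
  have key : ∀ a : V n, fderiv ℝ (fderiv ℝ (cv ν f ρ)) x a a
      = cv ν f (fun y => fderiv ℝ (fderiv ℝ ρ) y a a) x := by
    intro a
    rw [fderiv2_apply hu.contDiffAt]
    have e1 : (fun y => fderiv ℝ (cv ν f ρ) y a) = cv ν f (fun y => fderiv ℝ ρ y a) := by
      funext y
      exact cv_fderiv_apply hf h1 hc y a
    rw [e1, cv_fderiv_apply hf (ha1 a) (hac a)]
    congr 1
    funext y
    rw [fderiv2_apply h0.contDiffAt]
  have hi : ∀ a : V n, Integrable (fun t => f t • fderiv ℝ (fderiv ℝ ρ) (x - t) a a) ν := by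
    intro a
    have e2 : (fun y => fderiv ℝ (fderiv ℝ ρ) y a a)
        = fun y => fderiv ℝ (fun y => fderiv ℝ ρ y a) y a := by
      funext y
      rw [fderiv2_apply h0.contDiffAt]
    have h3 : Continuous (fun y => fderiv ℝ (fderiv ℝ ρ) y a a) := by
      rw [e2]
      exact ((ha1 a).continuous_fderiv one_ne_zero).clm_apply continuous_const
    have h4 : HasCompactSupport (fun y => fderiv ℝ (fderiv ℝ ρ) y a a) := by
      rw [e2]
      exact (hac a).fderiv_apply ℝ a
    exact cv_integrable hf h3 h4 x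
  unfold lv
  rw [key, key, cv, cv, ← integral_add (hi _) (hi _)]
  refine integral_congr_ae (Eventually.of_forall fun t => ?_)
  simp only [smul_eq_mul]
  ring

end Conv

/-- reflected translate of a test function -/
theorem lv_refl {ρ : V n → ℝ} (hρ : ContDiff ℝ 2 ρ) (x t ξ : V n) :
    lv (fun t => ρ (x - t)) t ξ = lv ρ (x - t) ξ := by
  have hd : ∀ s : V n, HasFDerivAt (fun s : V n => x - s) (-ContinuousLinearMap.id ℝ (V n)) s :=
    fun s => (hasFDerivAt_id s).const_sub x
  have h1 : fderiv ℝ (fun t => ρ (x - t)) = fun t => (fderiv ℝ ρ (x - t)).comp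
      (-ContinuousLinearMap.id ℝ (V n)) := by
    funext s
    exact (((hρ.differentiable (by norm_num)) (x - s)).hasFDerivAt.comp s (hd s)).fderiv
  have h2 : Differentiable ℝ (fderiv ℝ ρ) := (hρ.fderiv_right (m := 1) (by norm_num)).differentiable
    (by norm_num)
  have h3 : HasFDerivAt (fun t => (fderiv ℝ ρ (x - t)).comp (-ContinuousLinearMap.id ℝ (V n)))
      _ t := ((h2 (x - t)).hasFDerivAt.comp t (hd t)).clm_comp
        (hasFDerivAt_const (-ContinuousLinearMap.id ℝ (V n)) t)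
  unfold lv
  rw [h1, h3.fderiv]
  simp

end

end Crest.Agent.R269.GlueC_390
end

-- ▼ part R269/GlueD_390
section

/-!
# R269 (S0411), leaf L8, part G3 (helper390): mollification of bounded plurisubharmonic functions

* `rho n δ`  : mollifier supported in `closedBall 0 δ`, `moll f δ = f * rho δ`
* `le_moll`  : `v q ≤ moll v δ p + C B / log (R / δ)` for `q ∈ closedBall p (L δ)`, `v` smooth psh
* `ess_le`   : the same for a bounded measurable function whose mollifications are psh
-/

set_option autoImplicit false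
set_option linter.unusedSectionVars false

open MeasureTheory Set Metric Filter Topology Module
open scoped ContDiff Pointwise

namespace Crest.Agent.R269.GlueD_390

open Crest.Agent.R273.C0d_390 Crest.Agent.R269.GlueB_390 Crest.Agent.R269.GlueC_390

noncomputable section

variable {n : ℕ}

/-- the bump of radius `δ` -/
def bmp (n : ℕ) {δ : ℝ} (h : 0 < δ) : ContDiffBump (0 : V n) :=
  ⟨δ / 2, δ, half_pos h, half_lt_self h⟩

/-- the mollifier of radius `δ` -/
def rho (n : ℕ) (δ : ℝ) : V n → ℝ := if h : 0 < δ then (bmp n h).normed volume else 0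

theorem rho_eq {δ : ℝ} (h : 0 < δ) : rho n δ = (bmp n h).normed volume := dif_pos h

theorem rho_nonneg (δ : ℝ) (x : V n) : 0 ≤ rho n δ x := by
  by_cases h : 0 < δ
  · rw [rho_eq h]
    exact (bmp n h).nonneg_normed x
  · rw [rho, dif_neg h]
    exact le_rfl

theorem rho_contDiff (δ : ℝ) : ContDiff ℝ ∞ (rho n δ) := by
  by_cases h : 0 < δ
  · rw [rho_eq h]
    exact (bmp n h).contDiff_normed
  · rw [rho, dif_neg h]
    exact contDiff_const

theorem rho_cpt (δ : ℝ) : HasCompactSupport (rho n δ) := by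
  by_cases h : 0 < δ
  · rw [rho_eq h]
    exact (bmp n h).hasCompactSupport_normed
  · rw [rho, dif_neg h]
    exact HasCompactSupport.zero

theorem rho_support {δ : ℝ} (h : 0 < δ) : Function.support (rho n δ) = ball 0 δ := by
  rw [rho_eq h, (bmp n h).support_normed_eq]
  rfl


theorem rho_zero {δ : ℝ} (h : 0 < δ) {x t : V n} (ht : t ∉ ball x δ) : rho n δ (x - t) = 0 := by
  by_contra hne
  have h1 : x - t ∈ ball (0 : V n) δ := by
    rw [← rho_support h]
    exact hne
  rw [mem_ball_zero_iff] at h1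
  rw [mem_ball, dist_eq_norm, norm_sub_rev] at ht
  exact ht h1


theorem rho_integral {δ : ℝ} (h : 0 < δ) : ∫ x, rho n δ x = 1 := by
  rw [rho_eq h]
  exact (bmp n h).integral_normed

theorem rho_integral' {δ : ℝ} (h : 0 < δ) (x : V n) : ∫ t, rho n δ (x - t) = 1 := by
  rw [integral_sub_left_eq_self (fun t => rho n δ t) volume x]
  exact rho_integral h

theorem rho_le {δ : ℝ} (h : 0 < δ) (x : V n) :
    rho n δ x ≤ 2 ^ finrank ℝ (V n) / volume.real (closedBall (0 : V n) δ) := by
  rw [rho_eq h]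
  refine (bmp n h).normed_le_div_measure_closedBall_rOut volume 2 ?_ x
  change δ ≤ 2 * (δ / 2)
  linarith

theorem rho_ge {δ : ℝ} (h : 0 < δ) {x : V n} (hx : ‖x‖ ≤ δ / 2) :
    1 / volume.real (closedBall (0 : V n) δ) ≤ rho n δ x := by
  rw [rho_eq h, ContDiffBump.normed_def]
  have h1 : (bmp n h) x = 1 := (bmp n h).one_of_mem_closedBall (by
    rw [mem_closedBall_zero_iff]
    exact hx)
  rw [h1]
  exact one_div_le_one_div_of_le (bmp n h).integral_pos
    ((bmp n h).integral_le_measure_closedBall volume)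

/-- mollification -/
def moll (f : V n → ℝ) (δ : ℝ) : V n → ℝ := cv volume f (rho n δ)

theorem moll_eq (f : V n → ℝ) (δ : ℝ) (x : V n) : moll f δ x = ∫ t, f t * rho n δ (x - t) := rfl

theorem moll_contDiff {f : V n → ℝ} (hf : LocallyIntegrable f) (δ : ℝ) :
    ContDiff ℝ ∞ (moll f δ) := cv_contDiff hf (rho_contDiff δ) (rho_cpt δ)

theorem moll_integrable {f : V n → ℝ} (hf : LocallyIntegrable f) (δ : ℝ) (x : V n) :
    Integrable fun t => f t * rho n δ (x - t) :=
  cv_integrable hf (rho_contDiff δ).continuous (rho_cpt δ) x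

theorem moll_const {δ : ℝ} (h : 0 < δ) (b : ℝ) (x : V n) : moll (fun _ => b) δ x = b := by
  rw [moll_eq, integral_const_mul, rho_integral' h, mul_one]

theorem moll_mono {f g : V n → ℝ} (hf : LocallyIntegrable f) (hg : LocallyIntegrable g) {δ : ℝ}
    (h : 0 < δ) {x : V n} (hb : ∀ᵐ t, t ∈ ball x δ → f t ≤ g t) : moll f δ x ≤ moll g δ x := by
  refine integral_mono_ae (moll_integrable hf δ x) (moll_integrable hg δ x) ?_
  filter_upwards [hb] with t ht
  by_cases htb : t ∈ ball x δ
  · exact mul_le_mul_of_nonneg_right (ht htb) (rho_nonneg δ _)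
  · change f t * rho n δ (x - t) ≤ g t * rho n δ (x - t)
    rw [rho_zero h htb, mul_zero, mul_zero]

theorem locInt_const (b : ℝ) : LocallyIntegrable (fun _ : V n => b) :=
  continuous_const.locallyIntegrable

theorem moll_le {f : V n → ℝ} (hf : LocallyIntegrable f) {δ b : ℝ} (h : 0 < δ) {x : V n}
    (hb : ∀ᵐ t, t ∈ ball x δ → f t ≤ b) : moll f δ x ≤ b := by
  have := moll_mono hf (locInt_const b) h hb
  rwa [moll_const h] at this

theorem le_moll' {f : V n → ℝ} (hf : LocallyIntegrable f) {δ b : ℝ} (h : 0 < δ) {x : V n}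
    (hb : ∀ᵐ t, t ∈ ball x δ → b ≤ f t) : b ≤ moll f δ x := by
  have := moll_mono (locInt_const b) hf h hb
  rwa [moll_const h] at this


/-- the constant of the comparison -/
def Cst (n : ℕ) (L : ℝ) : ℝ := 2 * (4 ^ finrank ℝ (V n) * Real.log 3 + Real.log L)


/-- growth from a small ball -/
theorem le_of_small {v : V n → ℝ} {p q : V n} {R δ L B a : ℝ} (hδ : 0 < δ) (hδR : δ < R)
    (hv : ∀ x ∈ closedBall p R, ContDiffAt ℝ 2 v x)
    (hp : ∀ x ∈ closedBall p R, ∀ ξ, 0 ≤ lv v x ξ) (hB : ∀ x ∈ closedBall p R, |v x| ≤ B)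
    (ha : ∀ x ∈ closedBall p δ, v x ≤ a) (haB : -B ≤ a) (hL : 1 ≤ L) (hLR : L * δ ≤ R)
    (hq : q ∈ closedBall p (L * δ)) : v q ≤ a + 2 * B * (Real.log L / Real.log (R / δ)) := by
  have hlog : 0 < Real.log (R / δ) := Real.log_pos ((one_lt_div hδ).2 hδR)
  have hB0 : 0 ≤ B := (abs_nonneg _).trans (hB p (mem_closedBall_self (hδ.trans hδR).le))
  have hlL : 0 ≤ Real.log L := Real.log_nonneg hL
  rw [mem_closedBall, dist_eq_norm] at hq
  by_cases hqδ : ‖q - p‖ ≤ δ
  · have h1 := ha q (by rwa [mem_closedBall, dist_eq_norm])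
    have h2 : 0 ≤ 2 * B * (Real.log L / Real.log (R / δ)) := by positivity
    linarith
  push Not at hqδ
  have h1 := shell (a := a) (b := B) hδ hδR hv hp (fun x hx => ha x (sphere_subset_closedBall hx))
    (fun x hx => (abs_le.1 (hB x (sphere_subset_closedBall hx))).2) hqδ.le (hq.trans hLR)
  refine h1.trans ?_
  have h2 : Real.log (‖q - p‖ / δ) ≤ Real.log L := by
    refine Real.log_le_log (div_pos (hδ.trans hqδ) hδ) ?_
    rw [div_le_iff₀ hδ]
    exact hq
  have h3 : 0 ≤ Real.log (‖q - p‖ / δ) := Real.log_nonneg ((one_le_div hδ).2 hqδ.le)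
  have h4 : (B - a) * (Real.log (‖q - p‖ / δ) / Real.log (R / δ))
      ≤ 2 * B * (Real.log L / Real.log (R / δ)) := by
    refine mul_le_mul (by linarith) (by gcongr) (by positivity) (by positivity)
  linarith

/-- comparison of the values on `closedBall p (L δ)` with the mollification at `p` -/
theorem le_moll {v : V n → ℝ} {p q : V n} {R δ L B : ℝ} (hvc : ContDiff ℝ 2 v) (hδ : 0 < δ)
    (h3 : 3 * δ ≤ R) (hp : ∀ x ∈ closedBall p R, ∀ ξ, 0 ≤ lv v x ξ)
    (hB : ∀ x ∈ closedBall p R, |v x| ≤ B) (hL : 1 ≤ L) (hLR : L * δ ≤ R)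
    (hq : q ∈ closedBall p (L * δ)) :
    v q ≤ moll v δ p + Cst n L * B / Real.log (R / δ) := by
  have hδR : δ < R := by linarith
  have hlog : 0 < Real.log (R / δ) := Real.log_pos ((one_lt_div hδ).2 hδR)
  have hB0 : 0 ≤ B := (abs_nonneg _).trans (hB p (mem_closedBall_self (hδ.trans hδR).le))
  have hl3 : 0 < Real.log 3 := Real.log_pos (by norm_num)
  obtain ⟨y, hy, hymax⟩ := (isCompact_closedBall p δ).exists_isMaxOn
    ⟨p, mem_closedBall_self hδ.le⟩ hvc.continuous.continuousOn
  set a := v y with ha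
  have hamax : ∀ x ∈ closedBall p δ, v x ≤ a := fun x hx => hymax hx
  have hyR : y ∈ closedBall p R := closedBall_subset_closedBall hδR.le hy
  have haB := abs_le.1 (hB y hyR)
  set b := a + 2 * B * (Real.log 3 / Real.log (R / δ)) with hb
  have hbv : ∀ z ∈ closedBall p (3 * δ), v z ≤ b := fun z hz =>
    le_of_small hδ hδR (fun x _ => hvc.contDiffAt) hp hB hamax haB.1 (by norm_num) h3 hz
  have hsub : closedBall p (3 * δ) ⊆ closedBall p R := closedBall_subset_closedBall h3
  have hH := harnack volume hδ (fun z _ => hvc.contDiffAt) (fun z hz => hp z (hsub hz)) hbv hy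
  -- average
  have hvi : LocallyIntegrable v := hvc.continuous.locallyIntegrable
  have hcd : Continuous fun t => b - v t := continuous_const.sub hvc.continuous
  have h5 : b - moll v δ p ≤ 4 ^ finrank ℝ (V n) * (b - a) := by
    have e1 : b - moll v δ p = ∫ t, (b - v t) * rho n δ (p - t) := by
      have e0 : b - moll v δ p = (∫ t, b * rho n δ (p - t)) - ∫ t, v t * rho n δ (p - t) := by
        have := moll_const hδ b p
        rw [moll_eq] at this
        rw [this, moll_eq]
      rw [e0, ← integral_sub (moll_integrable (locInt_const b) δ p) (moll_integrable hvi δ p)]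
      refine integral_congr_ae (Eventually.of_forall fun t => ?_)
      change b * rho n δ (p - t) - v t * rho n δ (p - t) = (b - v t) * rho n δ (p - t)
      ring
    have e2 : ∫ t, (b - v t) * rho n δ (p - t)
        = ∫ t in ball p δ, (b - v t) * rho n δ (p - t) := by
      rw [setIntegral_eq_integral_of_forall_compl_eq_zero]
      intro t ht
      rw [rho_zero hδ ht, mul_zero]
    set D := 2 ^ finrank ℝ (V n) / volume.real (closedBall (0 : V n) δ) with hD
    have hV : 0 < volume.real (closedBall (0 : V n) δ) :=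
      ENNReal.toReal_pos (measure_closedBall_pos _ _ hδ).ne' measure_closedBall_lt_top.ne
    have hIo : IntegrableOn (fun t => b - v t) (ball p δ) :=
      (hcd.locallyIntegrable.integrableOn_isCompact (isCompact_closedBall p δ)).mono_set
        ball_subset_closedBall
    have e3 : ∫ t in ball p δ, (b - v t) * rho n δ (p - t)
        ≤ ∫ t in ball p δ, (b - v t) * D := by
      refine setIntegral_mono_on ?_ (hIo.mul_const D) measurableSet_ball fun t ht => ?_
      · have hc2 : Continuous fun t => (b - v t) * rho n δ (p - t) :=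
          hcd.mul ((rho_contDiff δ).continuous.comp (by fun_prop))
        exact (hc2.locallyIntegrable.integrableOn_isCompact (isCompact_closedBall p δ)).mono_set
          ball_subset_closedBall
      · refine mul_le_mul_of_nonneg_left (rho_le hδ _) ?_
        have := hamax t (ball_subset_closedBall ht)
        have h0 : 0 ≤ 2 * B * (Real.log 3 / Real.log (R / δ)) := by positivity
        linarith
    rw [e1, e2]
    refine e3.trans ?_
    rw [integral_mul_const]
    have h6 : (∫ z in ball p δ, (b - v z)) * D ≤ (b - v y) * volume.real (ball y (2 * δ)) * D :=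
      mul_le_mul_of_nonneg_right hH (by positivity)
    refine h6.trans ?_
    have h7 : volume.real (ball y (2 * δ)) ≤ 2 ^ finrank ℝ (V n) * volume.real (closedBall (0 : V n) δ) := by
      rw [measureReal_def, measureReal_def, Measure.addHaar_ball_mul_of_pos volume y (by norm_num),
        ENNReal.toReal_mul, ENNReal.toReal_ofReal (by positivity)]
      exact mul_le_mul_of_nonneg_left (ENNReal.toReal_mono measure_closedBall_lt_top.ne
        (measure_mono ball_subset_closedBall)) (by positivity)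
    have h8 : (4 : ℝ) ^ finrank ℝ (V n) = 2 ^ finrank ℝ (V n) * 2 ^ finrank ℝ (V n) := by
      rw [← mul_pow]
      norm_num
    have hba : 0 ≤ b - v y := by
      have h0 : 0 ≤ 2 * B * (Real.log 3 / Real.log (R / δ)) := by positivity
      linarith
    calc (b - v y) * volume.real (ball y (2 * δ)) * D
        ≤ (b - v y) * (2 ^ finrank ℝ (V n) * volume.real (closedBall (0 : V n) δ)) * D := by gcongr
      _ = _ := by
        rw [hD, ← ha, h8]
        field_simp
  have hmain := le_of_small hδ hδR (fun x _ => hvc.contDiffAt) hp hB hamax haB.1 hL hLR hq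
  refine hmain.trans ?_
  have h9 : b - a = 2 * B * (Real.log 3 / Real.log (R / δ)) := by rw [hb]; ring
  have h10 : a ≤ b := by
    have h0 : 0 ≤ 2 * B * (Real.log 3 / Real.log (R / δ)) := by positivity
    linarith
  rw [h9] at h5
  have h11 : Cst n L * B / Real.log (R / δ) = 4 ^ finrank ℝ (V n) *
      (2 * B * (Real.log 3 / Real.log (R / δ))) + 2 * B * (Real.log L / Real.log (R / δ)) := by
    unfold Cst
    field_simp
  rw [h11]
  linarith

theorem locInt_bdd {f : V n → ℝ} (hf : AEStronglyMeasurable f) {B : ℝ} (hB : ∀ t, |f t| ≤ B) :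
    LocallyIntegrable f := by
  refine (locInt_const B).mono hf (Eventually.of_forall fun t => ?_)
  rw [Real.norm_eq_abs, Real.norm_eq_abs]
  exact (hB t).trans (le_abs_self _)

theorem moll_abs_le {f : V n → ℝ} (hf : LocallyIntegrable f) {δ B : ℝ} (h : 0 < δ)
    (hB : ∀ t, |f t| ≤ B) (x : V n) : |moll f δ x| ≤ B :=
  abs_le.2 ⟨le_moll' hf h (Eventually.of_forall fun t _ => (abs_le.1 (hB t)).1),
    moll_le hf h (Eventually.of_forall fun t _ => (abs_le.1 (hB t)).2)⟩

theorem moll_swap (f : V n → ℝ) (δ : ℝ) (x : V n) : moll f δ x = ∫ t, rho n δ t * f (x - t) := by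
  rw [moll_eq, ← integral_sub_left_eq_self (fun t => rho n δ t * f (x - t)) volume x]
  refine integral_congr_ae (Eventually.of_forall fun t => ?_)
  simp only [sub_sub_cancel]
  ring

theorem moll_ae_tendsto {f : V n → ℝ} (hf : LocallyIntegrable f) :
    ∀ᵐ x, Tendsto (fun k : ℕ => moll f (1 / ((k : ℝ) + 1)) x) atTop (𝓝 (f x)) := by
  have hpos : ∀ k : ℕ, 0 < 1 / ((k : ℝ) + 1) := fun k => Nat.one_div_pos_of_nat
  have h := ContDiffBump.ae_convolution_tendsto_right_of_locallyIntegrable (μ := volume)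
    (φ := fun k : ℕ => bmp n (hpos k)) (l := atTop) (K := 2) (g := f)
    tendsto_one_div_add_atTop_nhds_zero_nat (Eventually.of_forall fun k => by
      change 1 / ((k : ℝ) + 1) ≤ 2 * ((1 / ((k : ℝ) + 1)) / 2)
      linarith) hf
  filter_upwards [h] with x hx
  have e : ∀ k : ℕ, moll f (1 / ((k : ℝ) + 1)) x
      = MeasureTheory.convolution ((bmp n (hpos k)).normed volume) f
        (ContinuousLinearMap.lsmul ℝ ℝ) volume x := by
    intro k
    rw [moll_swap, rho_eq (hpos k)]
    rfl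
  simp only [e]
  exact hx

/-- **comparison for bounded functions** -/
theorem ess_le {f : V n → ℝ} (hf : AEStronglyMeasurable f) {B : ℝ} (hB : ∀ t, |f t| ≤ B)
    {p : V n} {R δ L κ : ℝ} (hκ : 0 < κ)
    (hp : ∀ κ', 0 < κ' → κ' < κ → ∀ x ∈ closedBall p R, ∀ ξ, 0 ≤ lv (moll f κ') x ξ)
    (hδ : 0 < δ) (h3 : 3 * δ ≤ R) (hL : 1 ≤ L) (hLR : L * δ ≤ R) :
    ∀ᵐ q, q ∈ closedBall p (L * δ) → f q ≤ moll f δ p + Cst n L * B / Real.log (R / δ) := by
  have hfl := locInt_bdd hf hB
  have hpos : ∀ k : ℕ, 0 < 1 / ((k : ℝ) + 1) := fun k => Nat.one_div_pos_of_nat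
  have hae := moll_ae_tendsto hfl
  -- the mollifications at `p`
  have hlim : Tendsto (fun k : ℕ => moll (moll f (1 / ((k : ℝ) + 1))) δ p) atTop
      (𝓝 (moll f δ p)) := by
    refine tendsto_integral_of_dominated_convergence (fun t => B * rho n δ (p - t)) ?_ ?_ ?_ ?_
    · intro k
      exact (moll_integrable (moll_contDiff hfl _).continuous.locallyIntegrable δ p).aestronglyMeasurable
    · exact moll_integrable (locInt_const B) δ p
    · intro k
      refine Eventually.of_forall fun t => ?_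
      rw [norm_smul, Real.norm_eq_abs, Real.norm_eq_abs, abs_of_nonneg (rho_nonneg δ (p - t))]
      exact mul_le_mul_of_nonneg_right (moll_abs_le hfl (hpos k) hB t) (rho_nonneg δ _)
    · filter_upwards [hae] with t ht
      exact ht.smul_const _
  filter_upwards [hae] with q hq hqm
  have hev : ∀ᶠ k : ℕ in atTop, moll f (1 / ((k : ℝ) + 1)) q
      ≤ moll (moll f (1 / ((k : ℝ) + 1))) δ p + Cst n L * B / Real.log (R / δ) := by
    have h1 : ∀ᶠ k : ℕ in atTop, 1 / ((k : ℝ) + 1) < κ :=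
      tendsto_one_div_add_atTop_nhds_zero_nat.eventually (gt_mem_nhds hκ)
    filter_upwards [h1] with k hk
    exact le_moll ((moll_contDiff hfl _).of_le (by norm_cast)) hδ h3 (hp _ (hpos k) hk)
      (fun x _ => moll_abs_le hfl (hpos k) hB x) hL hLR hqm
  exact le_of_tendsto_of_tendsto hq (hlim.add_const _) hev

end

end Crest.Agent.R269.GlueD_390
end

-- ▼ part R269/GlueE_390
section

/-!
# R269 (S0411), leaf L8, part G1 (helper390): measures with `lv ≥ 0` weakly have bounded densities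

* `ibp`      : `∫ χ lv w = ∫ w lv χ`
* `meas_le`  : local upper bound of the measure by Lebesgue measure
-/

set_option autoImplicit false
set_option linter.unusedSectionVars false

open MeasureTheory Set Metric Filter Topology Module
open scoped ContDiff Pointwise ENNReal NNReal Manifold

namespace Crest.Agent.R269.GlueE_390

open Crest.Agent.R273.C0d_390 Crest.Agent.R269.GlueB_390 Crest.Agent.R269.GlueC_390
open Crest.Agent.R269.GlueD_390

noncomputable section

variable {n : ℕ}

/-- smooth cut-off near a compact set -/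
theorem exists_cut {K Ω : Set (V n)} (hK : IsCompact K) (hΩ : IsOpen Ω) (h : K ⊆ Ω) :
    ∃ θ : V n → ℝ, ContDiff ℝ ∞ θ ∧ HasCompactSupport θ ∧ tsupport θ ⊆ Ω ∧
      (∀ᶠ x in 𝓝ˢ K, θ x = 1) ∧ ∀ x, θ x ∈ Icc (0 : ℝ) 1 := by
  obtain ⟨T, hT, hKT, hTΩ⟩ := exists_compact_between hK hΩ h
  obtain ⟨f, h1, h0, h01⟩ := exists_contMDiffMap_one_nhds_of_subset_interior (n := (⊤ : ℕ∞))
    𝓘(ℝ, V n) hK.isClosed hKT
  have hsub : tsupport (f : V n → ℝ) ⊆ T := by
    refine closure_minimal (fun x hx => ?_) hT.isClosed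
    by_contra hxT
    exact hx (h0 x hxT)
  exact ⟨f, f.contMDiff.contDiff, HasCompactSupport.of_support_subset_isCompact hT
    ((subset_tsupport _).trans hsub), hsub.trans hTΩ, h1, h01⟩

theorem lv_congr {u w : V n → ℝ} {x : V n} (h : u =ᶠ[𝓝 x] w) (ξ : V n) : lv u x ξ = lv w x ξ := by
  unfold lv
  have h1 : fderiv ℝ u =ᶠ[𝓝 x] fderiv ℝ w := h.fderiv
  rw [h1.fderiv_eq]

theorem lv_zero_of_notMem {χ : V n → ℝ} {z : V n} (h : z ∉ tsupport χ) (ξ : V n) :
    lv χ z ξ = 0 := by
  have h1 : χ =ᶠ[𝓝 z] fun _ => 0 := notMem_tsupport_iff_eventuallyEq.1 h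
  rw [lv_congr h1]
  unfold lv
  simp

theorem lv_continuous {u : V n → ℝ} (hu : ContDiff ℝ 2 u) (ξ : V n) :
    Continuous fun z => lv u z ξ := by
  have h1 : Continuous (fderiv ℝ (fderiv ℝ u)) :=
    (hu.fderiv_right (m := 1) (by norm_num)).continuous_fderiv one_ne_zero
  unfold lv
  exact ((h1.clm_apply continuous_const).clm_apply continuous_const).add
    ((h1.clm_apply continuous_const).clm_apply continuous_const)

theorem cv_comm (f g : V n → ℝ) : cv volume f g = cv volume g f := by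
  funext x
  unfold cv
  rw [← integral_sub_left_eq_self (fun t => g t • f (x - t)) volume x]
  refine integral_congr_ae (Eventually.of_forall fun t => ?_)
  simp only [sub_sub_cancel, smul_eq_mul]
  ring

theorem ibp_cpt {f g : V n → ℝ} (hf : ContDiff ℝ ∞ f) (hfc : HasCompactSupport f)
    (hg : ContDiff ℝ ∞ g) (hgc : HasCompactSupport g) (ξ : V n) :
    ∫ z, f z * lv g z ξ = ∫ z, g z * lv f z ξ := by
  set g' : V n → ℝ := fun t => g (-t) with hg'
  have hg's : ContDiff ℝ ∞ g' := hg.comp contDiff_neg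
  have hg'c : HasCompactSupport g' := hgc.comp_homeomorph (Homeomorph.neg (V n))
  have e1 := cv_lv (ν := volume) hf.continuous.locallyIntegrable hg's hg'c 0 ξ
  have e2 := cv_lv (ν := volume) hg's.continuous.locallyIntegrable hf hfc 0 ξ
  rw [cv_comm f g'] at e1
  have e3 : (fun t : V n => g' (0 - t)) = g := by
    funext t
    simp [hg']
  have e4 : ∀ t, lv g' (0 - t) ξ = lv g t ξ := by
    intro t
    rw [← lv_refl (hg's.of_le (by norm_cast)) 0 t ξ, e3]
  simp only [e4] at e1
  rw [← e1, e2, ← integral_neg_eq_self (fun z => g z * lv f z ξ) volume]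
  refine integral_congr_ae (Eventually.of_forall fun t => ?_)
  simp [hg']

/-- integration by parts -/
theorem ibp {χ w : V n → ℝ} {Ω : Set (V n)} (ho : IsOpen Ω) (hχ : ContDiff ℝ ∞ χ)
    (hc : HasCompactSupport χ) (hs : tsupport χ ⊆ Ω) (hw : ContDiffOn ℝ ∞ w Ω) (ξ : V n) :
    ∫ z, χ z * lv w z ξ = ∫ z, w z * lv χ z ξ := by
  obtain ⟨θ, hθ, hθc, hθs, hθ1, -⟩ := exists_cut hc ho hs
  set w' : V n → ℝ := fun z => θ z * w z with hw'
  have hw's : ContDiff ℝ ∞ w' := by
    rw [contDiff_iff_contDiffAt]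
    intro z
    by_cases hz : z ∈ Ω
    · exact hθ.contDiffAt.mul (hw.contDiffAt (ho.mem_nhds hz))
    · have h1 : w' =ᶠ[𝓝 z] fun _ => 0 := by
        filter_upwards [notMem_tsupport_iff_eventuallyEq.1 (fun h => hz (hθs h))] with y hy
        simp [hw', hy]
      exact contDiffAt_const.congr_of_eventuallyEq h1
  have hw'c : HasCompactSupport w' := hθc.mul_right
  have hev : ∀ z ∈ tsupport χ, w' =ᶠ[𝓝 z] w := by
    intro z hz
    filter_upwards [(eventually_nhdsSet_iff_forall.1 hθ1) z hz] with y hy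
    simp [hw', hy]
  have e1 : ∫ z, χ z * lv w z ξ = ∫ z, χ z * lv w' z ξ := by
    refine integral_congr_ae (Eventually.of_forall fun z => ?_)
    by_cases hz : z ∈ tsupport χ
    · change χ z * lv w z ξ = χ z * lv w' z ξ
      rw [lv_congr (hev z hz)]
    · change χ z * lv w z ξ = χ z * lv w' z ξ
      rw [image_eq_zero_of_notMem_tsupport hz, zero_mul, zero_mul]
  have e2 : ∫ z, w z * lv χ z ξ = ∫ z, w' z * lv χ z ξ := by
    refine integral_congr_ae (Eventually.of_forall fun z => ?_)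
    by_cases hz : z ∈ tsupport χ
    · change w z * lv χ z ξ = w' z * lv χ z ξ
      rw [(hev z hz).eq_of_nhds]
    · change w z * lv χ z ξ = w' z * lv χ z ξ
      rw [lv_zero_of_notMem hz, mul_zero, mul_zero]
  rw [e1, e2]
  exact ibp_cpt hχ hc hw's hw'c ξ

/-! ### translates of the mollifier as test functions -/

/-- the test function `t ↦ ρ_δ (x - t)` -/
def tf (δ : ℝ) (x : V n) : V n → ℝ := fun t => rho n δ (x - t)

theorem tf_contDiff (δ : ℝ) (x : V n) : ContDiff ℝ ∞ (tf δ x) :=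
  (rho_contDiff δ).comp (contDiff_const.sub contDiff_id)

theorem tf_tsupport {δ : ℝ} (h : 0 < δ) (x : V n) : tsupport (tf δ x) ⊆ closedBall x δ := by
  refine closure_minimal (fun t ht => ?_) isClosed_closedBall
  by_contra hn
  exact ht (rho_zero h fun h' => hn (ball_subset_closedBall h'))

theorem tf_cpt {δ : ℝ} (h : 0 < δ) (x : V n) : HasCompactSupport (tf δ x) :=
  HasCompactSupport.of_support_subset_isCompact (isCompact_closedBall x δ)
    ((subset_tsupport _).trans (tf_tsupport h x))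

theorem tf_nonneg (δ : ℝ) (x t : V n) : 0 ≤ tf δ x t := rho_nonneg δ _

theorem tf_lv (δ : ℝ) (x t ξ : V n) : lv (tf δ x) t ξ = lv (rho n δ) (x - t) ξ :=
  lv_refl ((rho_contDiff δ).of_le (by norm_cast)) x t ξ

theorem lv_tf_zero {δ : ℝ} (h : 0 < δ) {x t : V n} (ht : t ∉ closedBall x δ) (ξ : V n) :
    lv (tf δ x) t ξ = 0 := lv_zero_of_notMem (fun h' => ht (tf_tsupport h x h')) ξ

theorem lv_moll {f : V n → ℝ} (hf : LocallyIntegrable f) (δ : ℝ) (x ξ : V n) :
    lv (moll f δ) x ξ = ∫ t, f t * lv (tf δ x) t ξ := by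
  rw [moll, cv_lv hf (rho_contDiff δ) (rho_cpt δ)]
  simp only [tf_lv]

/-- the weak inequality `lv ≥ 0` for the sum of a measure and a function -/
def WP (Ω : Set (V n)) (m : Measure (V n)) (d w : V n → ℝ) : Prop :=
  ∀ χ : V n → ℝ, ContDiff ℝ ∞ χ → HasCompactSupport χ → tsupport χ ⊆ Ω → (∀ z, 0 ≤ χ z) →
    ∀ ξ : V n, 0 ≤ (∫ z, lv χ z ξ / d z ∂m) + ∫ z, w z * lv χ z ξ

/-- **local bound of the measure** -/
theorem meas_le {Ω : Set (V n)} (hΩ : IsOpen Ω) (m : Measure (V n)) [IsFiniteMeasure m]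
    {d w : V n → ℝ} (hd : ContinuousOn d Ω) (hd0 : ∀ z ∈ Ω, 0 < d z) (hw : ContinuousOn w Ω)
    (H : WP Ω m d w) {z0 : V n} (hz0 : z0 ∈ Ω) :
    ∃ r > 0, ∃ C : ℝ≥0, ∀ E ⊆ ball z0 r, m E ≤ C * volume E := by
  obtain ⟨ε, hε, hsub⟩ := Metric.isOpen_iff.1 hΩ z0 hz0
  set r := ε / 4 with hr
  have hr0 : 0 < r := by positivity
  have h3Ω : closedBall z0 (3 * r) ⊆ Ω := by
    refine Subset.trans (closedBall_subset_ball ?_) hsub
    rw [hr]
    linarith
  set K := closedBall z0 (3 * r) with hK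
  have hKc : IsCompact K := isCompact_closedBall _ _
  have hKne : K.Nonempty := ⟨z0, mem_closedBall_self (by positivity)⟩
  have hdi : ContinuousOn (fun z => 1 / d z) K :=
    continuousOn_const.div (hd.mono h3Ω) fun z hz => (hd0 z (h3Ω hz)).ne'
  obtain ⟨zm, hzm, hmin⟩ := hKc.exists_isMinOn hKne hdi
  set f0 := 1 / d zm with hf0
  have hf0p : 0 < f0 := one_div_pos.2 (hd0 zm (h3Ω hzm))
  have hf0le : ∀ z ∈ K, f0 ≤ 1 / d z := fun z hz => hmin hz
  obtain ⟨G, hG⟩ := hKc.exists_bound_of_continuousOn (hw.mono h3Ω)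
  have hG0 : 0 ≤ G := (norm_nonneg _).trans (hG z0 (mem_closedBall_self (by positivity)))
  set f : V n → ℝ := K.indicator fun z => 1 / d z with hf
  set g : V n → ℝ := K.indicator w with hg
  have hf_nn : ∀ t, 0 ≤ f t := fun t => indicator_nonneg (fun z hz =>
    (one_div_pos.2 (hd0 z (h3Ω hz))).le) t
  have hg_le : ∀ t, |g t| ≤ G := by
    intro t
    by_cases ht : t ∈ K
    · rw [hg, indicator_of_mem ht]
      exact hG t ht
    · rw [hg, indicator_of_notMem ht, abs_zero]
      exact hG0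
  have hfi : Integrable f m := by
    rw [hf, integrable_indicator_iff hKc.measurableSet]
    exact hdi.integrableOn_compact hKc
  have hgi : Integrable g := by
    rw [hg, integrable_indicator_iff hKc.measurableSet]
    exact (hw.mono h3Ω).integrableOn_compact hKc
  have hfl := hfi.locallyIntegrable
  have hgl := hgi.locallyIntegrable
  set If := ∫ z, f z ∂m with hIf
  have hIf0 : 0 ≤ If := integral_nonneg hf_nn
  have hVr : 0 < volume.real (ball (0 : V n) r) :=
    ENNReal.toReal_pos (measure_ball_pos _ _ hr0).ne' measure_ball_lt_top.ne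
  set C1 := If / volume.real (ball (0 : V n) r) + 2 * G with hC1
  have hC10 : 0 ≤ C1 := by positivity
  -- upper bound of the mollification
  have key : ∀ δ, 0 < δ → δ < r → ∀ x ∈ closedBall z0 r, cv m f (rho n δ) x ≤ C1 := by
    intro δ hδ hδr x hx
    set u : V n → ℝ := fun y => cv m f (rho n δ) y + moll g δ y with hu
    have hc1 : ContDiff ℝ ∞ (cv m f (rho n δ)) := cv_contDiff hfl (rho_contDiff δ) (rho_cpt δ)
    have hc2 : ContDiff ℝ ∞ (moll g δ) := moll_contDiff hgl δ
    have hxr : closedBall x r ⊆ closedBall z0 (2 * r) := by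
      refine closedBall_subset_closedBall' ?_
      rw [mem_closedBall] at hx
      linarith
    have hlev : ∀ y ∈ closedBall x r, ∀ v, -((0 : ℝ) * ‖v‖ ^ 2) ≤ lv u y v := by
      intro y hy ξ
      have hyK : closedBall y δ ⊆ K := by
        refine closedBall_subset_closedBall' ?_
        have := hxr hy
        rw [mem_closedBall] at this
        linarith
      have hH := H (tf δ y) (tf_contDiff δ y) (tf_cpt hδ y)
        ((tf_tsupport hδ y).trans (hyK.trans h3Ω)) (tf_nonneg δ y) ξ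
      rw [zero_mul, neg_zero, hu, lv_add (hc1.contDiffAt.of_le (by norm_cast))
        (hc2.contDiffAt.of_le (by norm_cast)), lv_moll hgl, cv_lv hfl (rho_contDiff δ) (rho_cpt δ)]
      simp only [← tf_lv]
      refine hH.trans (le_of_eq ?_)
      congr 1
      · refine integral_congr_ae (Eventually.of_forall fun t => ?_)
        change lv (tf δ y) t ξ / d t = f t * lv (tf δ y) t ξ
        by_cases ht : t ∈ K
        · rw [hf, indicator_of_mem ht]
          ring
        · rw [lv_tf_zero hδ (fun h => ht (hyK h)), zero_div, mul_zero]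
      · refine integral_congr_ae (Eventually.of_forall fun t => ?_)
        change w t * lv (tf δ y) t ξ = g t * lv (tf δ y) t ξ
        by_cases ht : t ∈ K
        · rw [hg, indicator_of_mem ht]
        · rw [lv_tf_zero hδ (fun h => ht (hyK h)), mul_zero, mul_zero]
    have hsm := submean volume hr0.le le_rfl (u := u) (z := x) (fun y _ =>
      ((hc1.add hc2).contDiffAt.of_le (by norm_cast))) hlev
    have hball : volume.real (ball x r) = volume.real (ball (0 : V n) r) := by
      rw [measureReal_def, measureReal_def, Measure.addHaar_ball_center]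
    rw [hball] at hsm
    have hint1 : Integrable (cv m f (rho n δ)) :=
      (Integrable.convolution_integrand (μ := volume) (ν := m) (ContinuousLinearMap.lsmul ℝ ℝ) hfi
        ((rho_contDiff δ).continuous.integrable_of_hasCompactSupport
          (rho_cpt (n := n) δ))).integral_prod_left
    have hcv_nn : ∀ y, 0 ≤ cv m f (rho n δ) y := fun y =>
      integral_nonneg fun t => mul_nonneg (hf_nn t) (rho_nonneg δ _)
    have hI1 : ∫ y, cv m f (rho n δ) y = If := by
      have := integral_convolution (ContinuousLinearMap.lsmul ℝ ℝ) (μ := volume) hfi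
        ((rho_contDiff δ).continuous.integrable_of_hasCompactSupport (rho_cpt (n := n) δ))
      rw [rho_integral hδ] at this
      rw [hIf]
      refine Eq.trans ?_ (this.trans ?_)
      · rfl
      · simp
    have hI2 : ∫ y in ball x r, cv m f (rho n δ) y ≤ If := by
      rw [← hI1]
      exact setIntegral_le_integral hint1 (Eventually.of_forall hcv_nn)
    have hml : ∀ y, |moll g δ y| ≤ G := fun y => moll_abs_le hgl hδ hg_le y
    have hI3 : ∫ y in ball x r, moll g δ y ≤ G * volume.real (ball (0 : V n) r) := by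
      rw [← hball]
      have h1 : ∫ y in ball x r, moll g δ y ≤ ∫ y in ball x r, G := by
        refine setIntegral_mono_on ?_ (integrableOn_const measure_ball_lt_top.ne)
          measurableSet_ball fun y _ => (abs_le.1 (hml y)).2
        exact (hc2.continuous.locallyIntegrable.integrableOn_isCompact
          (isCompact_closedBall x r)).mono_set ball_subset_closedBall
      refine h1.trans (le_of_eq ?_)
      rw [setIntegral_const, smul_eq_mul, mul_comm]
    have hI4 : ∫ y in ball x r, u y = (∫ y in ball x r, cv m f (rho n δ) y)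
        + ∫ y in ball x r, moll g δ y :=
      integral_add hint1.integrableOn
        ((hc2.continuous.locallyIntegrable.integrableOn_isCompact
          (isCompact_closedBall x r)).mono_set ball_subset_closedBall)
    rw [hI4] at hsm
    have h5 : u x ≤ If / volume.real (ball (0 : V n) r) + G := by
      rw [div_add' _ _ _ hVr.ne', le_div_iff₀ hVr]
      linarith
    have h6 := (abs_le.1 (hml x)).1
    have h7 : u x = cv m f (rho n δ) x + moll g δ x := rfl
    rw [hC1]
    linarith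
  -- balls
  set N : ℝ := 2 ^ finrank ℝ (V n) with hN
  set C2 : ℝ≥0 := Real.toNNReal (C1 * N / f0) with hC2
  have hC2r : (C2 : ℝ) = C1 * N / f0 := Real.coe_toNNReal _ (by positivity)
  have hballs : ∀ x ∈ ball z0 r, ∀ s, 0 < s → 2 * s < r →
      m (closedBall x s) ≤ (C2 • (volume : Measure (V n))) (closedBall x s) := by
    intro x hx s hs hsr
    have h1 := key (2 * s) (by positivity) hsr x (ball_subset_closedBall hx)
    have hV2 : 0 < volume.real (closedBall (0 : V n) (2 * s)) :=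
      ENNReal.toReal_pos (measure_closedBall_pos _ _ (by positivity)).ne'
        measure_closedBall_lt_top.ne
    have hxK : closedBall x s ⊆ K := by
      refine closedBall_subset_closedBall' ?_
      rw [mem_ball] at hx
      linarith
    have h2 : f0 / volume.real (closedBall (0 : V n) (2 * s)) * m.real (closedBall x s)
        ≤ cv m f (rho n (2 * s)) x := by
      have e1 : ∫ t in closedBall x s, f0 / volume.real (closedBall (0 : V n) (2 * s)) ∂m
          ≤ ∫ t in closedBall x s, f t • rho n (2 * s) (x - t) ∂m := by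
        refine setIntegral_mono_on (integrableOn_const (measure_ne_top _ _))
          (cv_integrable hfl (rho_contDiff _).continuous (rho_cpt _) x).integrableOn
          measurableSet_closedBall fun t ht => ?_
        have h3 : f0 ≤ f t := by
          rw [hf, indicator_of_mem (hxK ht)]
          exact hf0le t (hxK ht)
        have h4 : 1 / volume.real (closedBall (0 : V n) (2 * s)) ≤ rho n (2 * s) (x - t) := by
          refine rho_ge (by positivity) ?_
          rw [mem_closedBall, dist_eq_norm, norm_sub_rev] at ht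
          linarith
        rw [div_eq_mul_one_div, smul_eq_mul]
        exact mul_le_mul h3 h4 (by positivity) (hf_nn t)
      rw [setIntegral_const, smul_eq_mul, mul_comm] at e1
      refine e1.trans ?_
      exact setIntegral_le_integral (cv_integrable hfl (rho_contDiff _).continuous (rho_cpt _) x)
        (Eventually.of_forall fun t => mul_nonneg (hf_nn t) (rho_nonneg _ _))
    have h3 : m.real (closedBall x s) ≤ C2 * volume.real (closedBall x s) := by
      have h4 : f0 * m.real (closedBall x s) ≤ C1 * volume.real (closedBall (0 : V n) (2 * s)) := by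
        have h5 := h2.trans h1
        rw [div_mul_eq_mul_div, div_le_iff₀ hV2] at h5
        exact h5
      have h6 : volume.real (closedBall (0 : V n) (2 * s)) = N * volume.real (closedBall x s) := by
        rw [measureReal_def, measureReal_def, Measure.addHaar_closedBall_mul volume 0 (by norm_num)
          hs.le, ENNReal.toReal_mul, ENNReal.toReal_ofReal (by positivity),
          Measure.addHaar_closedBall_center volume x s]
      rw [h6] at h4
      rw [hC2r, div_mul_eq_mul_div, le_div_iff₀ hf0p]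
      linarith
    rw [Measure.smul_apply, ENNReal.smul_def, smul_eq_mul]
    rw [measureReal_def, measureReal_def] at h3
    rw [← ENNReal.toReal_le_toReal (measure_ne_top _ _)
      (ENNReal.mul_ne_top ENNReal.coe_ne_top measure_closedBall_lt_top.ne), ENNReal.toReal_mul]
    exact h3
  refine ⟨r, hr0, C2, fun E hE => ?_⟩
  have h8 := (Besicovitch.vitaliFamily m).measure_le_of_frequently_le (ρ := m)
    (C2 • (volume : Measure (V n))) Measure.AbsolutelyContinuous.rfl E fun x hx => by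
      have h9 : ∀ᶠ s in 𝓝[>] (0 : ℝ), m (closedBall x s)
          ≤ (C2 • (volume : Measure (V n))) (closedBall x s) := by
        filter_upwards [Ioo_mem_nhdsGT (show (0 : ℝ) < r / 2 by positivity)] with s hs
        exact hballs x (hE hx) s hs.1 (by linarith [hs.2])
      exact (Besicovitch.tendsto_filterAt m x).frequently h9.frequently
  refine h8.trans (le_of_eq ?_)
  rw [Measure.smul_apply, ENNReal.smul_def, smul_eq_mul]

end

end Crest.Agent.R269.GlueE_390
end

-- ▼ part R269/GlueF_390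
section

/-!
# R269 (S0411), leaf L8, part G2 (helper390): density of the measure and the mollified inequality
in one chart
-/

set_option autoImplicit false
set_option linter.unusedSectionVars false

open MeasureTheory Set Metric Filter Topology Module
open scoped ContDiff Pointwise ENNReal NNReal

namespace Crest.Agent.R269.GlueF_390

open Crest.Agent.R273.C0d_390 Crest.Agent.R269.GlueB_390 Crest.Agent.R269.GlueC_390
open Crest.Agent.R269.GlueD_390 Crest.Agent.R269.GlueE_390 Crest.Agent.R269.RegStmt_848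

noncomputable section

variable {n : ℕ} {Ω K : Set (V n)} {m : Measure (V n)} {d w f : V n → ℝ} {c : ℝ}

instance hld (m : Measure (V n)) [IsFiniteMeasure m] : m.HaveLebesgueDecomposition volume :=
  Measure.haveLebesgueDecomposition_of_sigmaFinite _ _

/-- the full weak inequality in a chart -/
def WB (Ω : Set (V n)) (m : Measure (V n)) (d w : V n → ℝ) (c : ℝ) : Prop :=
  ∀ χ : V n → ℝ, ContDiff ℝ ∞ χ → HasCompactSupport χ → tsupport χ ⊆ Ω → (∀ z, 0 ≤ χ z) →
    ∀ b : Matrix (Fin n) (Fin n) ℂ,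
      n * c * ∫ z, χ z * (‖b.det‖ ^ 2 * d z) ^ ((1 : ℝ) / n) ≤
        ∑ k, ((∫ z, lv χ z (col b k) / d z ∂m) + ∫ z, w z * lv χ z (col b k)) / 4

theorem lv_zero_right (u : V n → ℝ) (z : V n) : lv u z 0 = 0 := by
  unfold lv
  simp

theorem WB.wp [NeZero n] (hc : 0 ≤ c) (hd0 : ∀ z ∈ Ω, 0 < d z) (H : WB Ω m d w c) :
    WP Ω m d w := by
  intro χ hχ hχc hχs hχ0 ξ
  set b : Matrix (Fin n) (Fin n) ℂ := Matrix.of fun a k => if k = 0 then ξ a else 0 with hb
  have hb0 : col b 0 = ξ := by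
    ext a
    simp [col, hb]
  have hbk : ∀ k, k ≠ 0 → col b k = 0 := by
    intro k hk
    ext a
    simp [col, hb, hk]
  have h1 := H χ hχ hχc hχs hχ0 b
  have h2 : 0 ≤ n * c * ∫ z, χ z * (‖b.det‖ ^ 2 * d z) ^ ((1 : ℝ) / n) := by
    refine mul_nonneg (by positivity) (integral_nonneg fun z => ?_)
    by_cases hz : z ∈ tsupport χ
    · exact mul_nonneg (hχ0 z) (Real.rpow_nonneg (mul_nonneg (by positivity) (hd0 z (hχs hz)).le) _)
    · change 0 ≤ χ z * _
      rw [image_eq_zero_of_notMem_tsupport hz, zero_mul]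
  have h3 := h2.trans h1
  rw [Finset.sum_eq_single 0 (fun k _ hk => ?_) (fun h => absurd (Finset.mem_univ _) h)] at h3
  · rw [hb0] at h3
    linarith
  · rw [hbk k hk]
    simp [lv_zero_right]

theorem ac (hΩ : IsOpen Ω) [IsFiniteMeasure m] (hd : ContinuousOn d Ω) (hd0 : ∀ z ∈ Ω, 0 < d z)
    (hw : ContinuousOn w Ω) (H : WP Ω m d w) (h0 : m Ωᶜ = 0) : m ≪ volume := by
  intro s hs
  have h1 : m (s ∩ Ω) = 0 := by
    refine measure_null_of_locally_null _ fun x hx => ?_
    obtain ⟨r, hr, C, hC⟩ := meas_le hΩ m hd hd0 hw H hx.2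
    refine ⟨s ∩ Ω ∩ ball x r, inter_mem self_mem_nhdsWithin
      (mem_nhdsWithin_of_mem_nhds (ball_mem_nhds x hr)), ?_⟩
    have h2 := hC (s ∩ Ω ∩ ball x r) inter_subset_right
    have h3 : volume (s ∩ Ω ∩ ball x r) = 0 :=
      measure_mono_null (inter_subset_left.trans inter_subset_left) hs
    rw [h3, mul_zero] at h2
    exact le_antisymm h2 zero_le
  have h2 : m s ≤ m (s ∩ Ω) + m Ωᶜ := by
    refine (measure_mono fun x hx => ?_).trans (measure_union_le _ _)
    by_cases h : x ∈ Ω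
    · exact Or.inl ⟨hx, h⟩
    · exact Or.inr h
  rw [h1, h0, add_zero] at h2
  exact le_antisymm h2 zero_le

theorem dens_ball [IsFiniteMeasure m] (hac : m ≪ volume) {z0 : V n} {r : ℝ} {C : ℝ≥0}
    (hC : ∀ E ⊆ ball z0 r, m E ≤ C * volume E) :
    ∀ᵐ z, z ∈ ball z0 r → m.rnDeriv volume z ≤ C := by
  rw [← ae_restrict_iff' measurableSet_ball]
  refine ae_le_of_forall_setLIntegral_le_of_sigmaFinite (Measure.measurable_rnDeriv _ _)
    (g := fun _ => (C : ℝ≥0∞)) fun s hs _ => ?_
  rw [Measure.restrict_restrict hs, Measure.setLIntegral_rnDeriv hac, setLIntegral_const]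
  exact hC _ inter_subset_right

theorem dens_le (hΩ : IsOpen Ω) [IsFiniteMeasure m] (hd : ContinuousOn d Ω)
    (hd0 : ∀ z ∈ Ω, 0 < d z) (hw : ContinuousOn w Ω) (H : WP Ω m d w) (h0 : m Ωᶜ = 0)
    (hK : IsCompact K) (hKΩ : K ⊆ Ω) :
    ∃ C : ℝ≥0, ∀ᵐ z, z ∈ K → m.rnDeriv volume z ≤ C := by
  have hac := ac hΩ hd hd0 hw H h0
  refine hK.induction_on (p := fun K => ∃ C : ℝ≥0, ∀ᵐ z, z ∈ K → m.rnDeriv volume z ≤ C) ?_ ?_ ?_ ?_
  · exact ⟨0, Eventually.of_forall fun z hz => absurd hz (notMem_empty z)⟩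
  · rintro s t hst ⟨C, hC⟩
    exact ⟨C, hC.mono fun z hz hzs => hz (hst hzs)⟩
  · rintro s t ⟨C, hC⟩ ⟨C', hC'⟩
    refine ⟨max C C', ?_⟩
    filter_upwards [hC, hC'] with z hz hz' hzs
    rcases hzs with h | h
    · exact (hz h).trans (by exact_mod_cast le_max_left C C')
    · exact (hz' h).trans (by exact_mod_cast le_max_right C C')
  · intro x hx
    obtain ⟨r, hr, C, hC⟩ := meas_le hΩ m hd hd0 hw H (hKΩ hx)
    exact ⟨ball x r, mem_nhdsWithin_of_mem_nhds (ball_mem_nhds x hr), C, dens_ball hac hC⟩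

/-- `f` is a bounded representative of `U + w` on `K` -/
structure Rep (K : Set (V n)) (m : Measure (V n)) (d w f : V n → ℝ) (B : ℝ) : Prop where
  meas : AEStronglyMeasurable f
  bdd : ∀ t, |f t| ≤ B
  ae : ∀ᵐ z, z ∈ K → f z = (m.rnDeriv volume z).toReal / d z + w z

theorem exists_rep (hΩ : IsOpen Ω) [IsFiniteMeasure m] (hd : ContinuousOn d Ω)
    (hd0 : ∀ z ∈ Ω, 0 < d z) (hw : ContinuousOn w Ω) (H : WP Ω m d w) (h0 : m Ωᶜ = 0)
    (hK : IsCompact K) (hKΩ : K ⊆ Ω) : ∃ (f : V n → ℝ) (B : ℝ), Rep K m d w f B := by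
  obtain ⟨C, hC⟩ := dens_le hΩ hd hd0 hw H h0 hK hKΩ
  have hdi : ContinuousOn (fun z => (d z)⁻¹) K :=
    (hd.mono hKΩ).inv₀ fun z hz => (hd0 z (hKΩ hz)).ne'
  obtain ⟨F, hF⟩ := hK.exists_bound_of_continuousOn hdi
  obtain ⟨G, hG⟩ := hK.exists_bound_of_continuousOn (hw.mono hKΩ)
  set D : V n → ℝ := fun z => (min (m.rnDeriv volume z) (C : ℝ≥0∞)).toReal with hD
  have hDm : Measurable D := ((Measure.measurable_rnDeriv m volume).min measurable_const).ennreal_toReal
  have hD0 : ∀ z, 0 ≤ D z := fun z => ENNReal.toReal_nonneg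
  have hDC : ∀ z, D z ≤ C := fun z => by
    have := ENNReal.toReal_mono ENNReal.coe_ne_top (min_le_right (m.rnDeriv volume z) (C : ℝ≥0∞))
    simpa using this
  refine ⟨K.indicator fun z => D z * (d z)⁻¹ + w z, C * |F| + |G|, ?_, ?_, ?_⟩
  · rw [aestronglyMeasurable_indicator_iff hK.measurableSet]
    exact ((hDm.aestronglyMeasurable).mul (hdi.aestronglyMeasurable hK.measurableSet)).add
      ((hw.mono hKΩ).aestronglyMeasurable hK.measurableSet)
  · intro t
    by_cases ht : t ∈ K
    · rw [indicator_of_mem ht]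
      refine (abs_add_le _ _).trans (add_le_add ?_ ((hG t ht).trans (le_abs_self G)))
      rw [abs_mul, abs_of_nonneg (hD0 t)]
      exact mul_le_mul (hDC t) ((hF t ht).trans (le_abs_self F)) (abs_nonneg _) C.2
    · rw [indicator_of_notMem ht, abs_zero]
      positivity
  · filter_upwards [hC] with z hz hzK
    rw [indicator_of_mem hzK, hD]
    simp only [min_eq_left (hz hzK)]
    rfl

/-- the weak form in terms of the representative -/
theorem Rep.transfer {B : ℝ} (hf : Rep K m d w f B) (hac : m ≪ volume) [IsFiniteMeasure m]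
    (hK : IsCompact K) (hKΩ : K ⊆ Ω) (hd : ContinuousOn d Ω) (hd0 : ∀ z ∈ Ω, 0 < d z)
    (hw : ContinuousOn w Ω)
    {χ : V n → ℝ} (hχ : ContDiff ℝ ∞ χ) (hχs : tsupport χ ⊆ K) (ξ : V n) :
    (∫ z, lv χ z ξ / d z ∂m) + ∫ z, w z * lv χ z ξ = ∫ z, f z * lv χ z ξ := by
  have hlc : Continuous fun z => lv χ z ξ := lv_continuous (hχ.of_le (by norm_cast)) ξ
  have hout : ∀ z ∉ K, lv χ z ξ = 0 := fun z hz => lv_zero_of_notMem (fun h => hz (hχs h)) ξ
  have e1 : (fun z => lv χ z ξ / d z) = K.indicator fun z => lv χ z ξ / d z := by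
    funext z
    by_cases hz : z ∈ K
    · rw [indicator_of_mem hz]
    · rw [indicator_of_notMem hz, hout z hz, zero_div]
  have e2 : (fun z => w z * lv χ z ξ) = K.indicator fun z => w z * lv χ z ξ := by
    funext z
    by_cases hz : z ∈ K
    · rw [indicator_of_mem hz]
    · rw [indicator_of_notMem hz, hout z hz, mul_zero]
  have i1 : Integrable (fun z => lv χ z ξ / d z) m := by
    rw [e1, integrable_indicator_iff hK.measurableSet]
    exact (hlc.continuousOn.div (hd.mono hKΩ) fun z hz => (hd0 z (hKΩ hz)).ne').integrableOn_compact hK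
  have i2 : Integrable (fun z => w z * lv χ z ξ) := by
    rw [e2, integrable_indicator_iff hK.measurableSet]
    exact ((hw.mono hKΩ).mul hlc.continuousOn).integrableOn_compact hK
  rw [← integral_rnDeriv_smul hac, ← integral_add ((integrable_rnDeriv_smul_iff hac).2 i1) i2]
  refine integral_congr_ae ?_
  filter_upwards [hf.ae] with z hz
  by_cases hzK : z ∈ K
  · rw [hz hzK, smul_eq_mul]
    ring
  · rw [hout z hzK, zero_div, smul_zero, mul_zero, mul_zero, add_zero]

/-- `lv ≥ 0` for the mollification -/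
theorem Rep.lv_nonneg {B : ℝ} (hf : Rep K m d w f B) (hac : m ≪ volume) [IsFiniteMeasure m]
    (hK : IsCompact K) (hKΩ : K ⊆ Ω) (hd : ContinuousOn d Ω) (hd0 : ∀ z ∈ Ω, 0 < d z)
    (hw : ContinuousOn w Ω) (H : WP Ω m d w) {δ : ℝ} (hδ : 0 < δ) {x : V n}
    (hx : closedBall x δ ⊆ K) (ξ : V n) : 0 ≤ lv (moll f δ) x ξ := by
  have h1 := H (tf δ x) (tf_contDiff δ x) (tf_cpt hδ x)
    ((tf_tsupport hδ x).trans (hx.trans hKΩ)) (tf_nonneg δ x) ξ
  rw [hf.transfer hac hK hKΩ hd hd0 hw (tf_contDiff δ x) ((tf_tsupport hδ x).trans hx)] at h1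
  rw [lv_moll (locInt_bdd hf.meas hf.bdd)]
  exact h1

/-- the determinant inequality for the mollification -/
theorem Rep.ma {B : ℝ} (hf : Rep K m d w f B) (hac : m ≪ volume) [IsFiniteMeasure m]
    (hK : IsCompact K) (hKΩ : K ⊆ Ω) (hd : ContinuousOn d Ω) (hd0 : ∀ z ∈ Ω, 0 < d z)
    (hw : ContinuousOn w Ω) (hc : 0 ≤ c) (H : WB Ω m d w c) {δ : ℝ} (hδ : 0 < δ) {x : V n}
    (hx : closedBall x δ ⊆ K) {η : ℝ} (hη : 0 ≤ η) (hηd : ∀ t ∈ closedBall x δ, η ≤ d t)
    (b : Matrix (Fin n) (Fin n) ℂ) :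
    n * c * (‖b.det‖ ^ 2 * η) ^ ((1 : ℝ) / n) ≤ trb (moll f δ) x b := by
  have h1 := H (tf δ x) (tf_contDiff δ x) (tf_cpt hδ x)
    ((tf_tsupport hδ x).trans (hx.trans hKΩ)) (tf_nonneg δ x) b
  have e : ∀ k, ((∫ z, lv (tf δ x) z (col b k) / d z ∂m) + ∫ z, w z * lv (tf δ x) z (col b k)) / 4
      = lv (moll f δ) x (col b k) / 4 := by
    intro k
    rw [hf.transfer hac hK hKΩ hd hd0 hw (tf_contDiff δ x) ((tf_tsupport hδ x).trans hx),
      lv_moll (locInt_bdd hf.meas hf.bdd)]
  simp only [e] at h1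
  refine le_trans ?_ h1
  refine mul_le_mul_of_nonneg_left ?_ (by positivity)
  have hn0 : (0 : ℝ) ≤ 1 / n := by positivity
  have hcb : ContinuousOn (fun t => (‖b.det‖ ^ 2 * d t) ^ ((1 : ℝ) / n)) K :=
    (continuousOn_const.mul (hd.mono hKΩ)).rpow_const fun z _ => Or.inr hn0
  have hg : Integrable (K.indicator fun t => tf δ x t * (‖b.det‖ ^ 2 * d t) ^ ((1 : ℝ) / n)) := by
    rw [integrable_indicator_iff hK.measurableSet]
    exact ((tf_contDiff δ x).continuous.continuousOn.mul hcb).integrableOn_compact hK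
  have hout : ∀ z ∉ K, tf δ x z = 0 := fun z hz =>
    image_eq_zero_of_notMem_tsupport fun h => hz (hx (tf_tsupport hδ x h))
  have e2 : (K.indicator fun t => tf δ x t * (‖b.det‖ ^ 2 * d t) ^ ((1 : ℝ) / n))
      = fun t => tf δ x t * (‖b.det‖ ^ 2 * d t) ^ ((1 : ℝ) / n) := by
    funext z
    by_cases hz : z ∈ K
    · rw [indicator_of_mem hz]
    · rw [indicator_of_notMem hz, hout z hz, zero_mul]
  rw [e2] at hg
  have e3 : (‖b.det‖ ^ 2 * η) ^ ((1 : ℝ) / n)
      = ∫ t, tf δ x t * (‖b.det‖ ^ 2 * η) ^ ((1 : ℝ) / n) := by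
    rw [integral_mul_const]
    unfold tf
    rw [rho_integral' hδ, one_mul]
  rw [e3]
  refine integral_mono_ae ?_ hg (Eventually.of_forall fun t => ?_)
  · refine Integrable.mul_const ?_ _
    exact (tf_contDiff δ x).continuous.integrable_of_hasCompactSupport (tf_cpt hδ x)
  · by_cases ht : t ∈ closedBall x δ
    · refine mul_le_mul_of_nonneg_left (Real.rpow_le_rpow (by positivity) ?_ hn0) (tf_nonneg δ x t)
      exact mul_le_mul_of_nonneg_left (hηd t ht) (by positivity)
    · have h0 : tf δ x t = 0 := image_eq_zero_of_notMem_tsupport fun h => ht (tf_tsupport hδ x h)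
      change tf δ x t * _ ≤ tf δ x t * _
      rw [h0, zero_mul, zero_mul]

end

end Crest.Agent.R269.GlueF_390
end

-- ▼ part R269/GlueG_390
section

/-!
# R269 (S0411), leaf L8, part G0 (helper390): changes of charts
-/

set_option autoImplicit false
set_option linter.unusedSectionVars false

open MeasureTheory Set Metric Filter Topology Module
open scoped ContDiff Pointwise ENNReal NNReal Matrix ComplexConjugate

namespace Crest.Agent.R269.GlueG_390

open Crest.Agent.R275.Geo Crest.Agent.R275.Core144 Crest.Agent.R275.EDR890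
open Crest.Agent.R273.Kah_333 Crest.Agent.R273.Vol_333
open Crest.Agent.R273.C0d_390 Crest.Agent.R269.GlueB_390 Crest.Agent.R269.GlueC_390
open Crest.Agent.R269.GlueD_390 Crest.Agent.R269.GlueE_390 Crest.Agent.R269.GlueF_390
open Crest.Agent.R269.RegStmt_848

noncomputable section

variable {n : ℕ} {M : Type} [TopologicalSpace M] {A : Atl n M}

/-- the change of charts -/
def TT (A : Atl n M) (i j : A.ι) (z : Cn n) : Cn n := A.e j ((A.e i).symm z)

theorem TT_analytic {i j : A.ι} {z : Cn n} (hz : z ∈ A.ov i j) : AnalyticAt ℂ (TT A i j) z :=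
  Crest.Agent.R266.SCV.analyticOnNhd_of_differentiableOn (isOpen_ov i j) (A.holo i j) z hz

theorem TT_contDiffAt {i j : A.ι} {z : Cn n} (hz : z ∈ A.ov i j) (k : WithTop ℕ∞) :
    ContDiffAt ℝ k (TT A i j) z := (TT_analytic hz).contDiffAt.restrict_scalars ℝ

theorem TT_mem {i j : A.ι} {z : Cn n} (hz : z ∈ A.ov i j) : TT A i j z ∈ A.ov j i := by
  refine ⟨(A.e j).map_source hz.2, ?_⟩
  unfold TT
  rw [(A.e j).left_inv hz.2]
  exact (A.e i).map_target hz.1

theorem TT_symm {i j : A.ι} {z : Cn n} (hz : z ∈ A.ov i j) :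
    (A.e j).symm (TT A i j z) = (A.e i).symm z := (A.e j).left_inv hz.2

theorem TT_inv {i j : A.ι} {z : Cn n} (hz : z ∈ A.ov i j) : TT A j i (TT A i j z) = z := by
  change A.e i ((A.e j).symm (TT A i j z)) = z
  rw [TT_symm hz, (A.e i).right_inv hz.1]

theorem TT_injOn (i j : A.ι) : InjOn (TT A i j) (A.ov i j) := fun x hx y hy h => by
  rw [← TT_inv hx, ← TT_inv hy, h]

theorem TT_hasFDerivAt {i j : A.ι} {z : Cn n} (hz : z ∈ A.ov i j) :
    HasFDerivAt (TT A i j) ((fderiv ℂ (TT A i j) z).restrictScalars ℝ) z :=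
  (TT_analytic hz).differentiableAt.hasFDerivAt.restrictScalars ℝ

theorem TT_differentiableAt {i j : A.ι} {z : Cn n} (hz : z ∈ A.ov i j) :
    DifferentiableAt ℝ (TT A i j) z := (TT_hasFDerivAt hz).differentiableAt

theorem TT_continuousOn (i j : A.ι) : ContinuousOn (TT A i j) (A.ov i j) := fun _ hz =>
  (TT_hasFDerivAt hz).continuousAt.continuousWithinAt

/-- the derivative is the Jacobian matrix -/
theorem fderiv_TT_apply {i j : A.ι} {z : Cn n} (hz : z ∈ (A.e i).target) (v : Cn n) (b : Fin n) :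
    (fderiv ℂ (TT A i j) z v) b = ∑ a, Jm A i j ((A.e i).symm z) b a * v a := by
  have hv : v = ∑ c, v c • (EuclideanSpace.single c (1 : ℂ) : Cn n) := by
    ext d
    simp [Finset.sum_apply, Pi.single_apply]
  conv_lhs => rw [hv, map_sum]
  simp only [map_smul, PiLp.smul_apply, WithLp.ofLp_sum, Finset.sum_apply, smul_eq_mul,
    Jm_apply, Atl.J, (A.e i).right_inv hz]
  refine Finset.sum_congr rfl fun a _ => ?_
  rw [mul_comm]
  rfl

theorem fderiv_TT_col {i j : A.ι} {z : Cn n} (hz : z ∈ (A.e i).target)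
    (b : Matrix (Fin n) (Fin n) ℂ) (k : Fin n) :
    fderiv ℂ (TT A i j) z (col b k) = col (Jm A i j ((A.e i).symm z) * b) k := by
  ext a
  rw [fderiv_TT_apply hz]
  simp [col, Matrix.mul_apply]

theorem det_TT {i j : A.ι} {z : Cn n} (hz : z ∈ (A.e i).target) :
    |((fderiv ℂ (TT A i j) z).restrictScalars ℝ).det| = ‖(Jm A i j ((A.e i).symm z)).det‖ ^ 2 := by
  set L := fderiv ℂ (TT A i j) z with hL
  have h1 : LinearMap.det (L : Cn n →ₗ[ℂ] Cn n) = (Jm A i j ((A.e i).symm z)).det := by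
    rw [← LinearMap.det_toMatrix (EuclideanSpace.basisFun (Fin n) ℂ).toBasis]
    congr 1
    ext b a
    rw [LinearMap.toMatrix_apply]
    simp only [OrthonormalBasis.coe_toBasis, EuclideanSpace.basisFun_apply,
      OrthonormalBasis.coe_toBasis_repr_apply, EuclideanSpace.basisFun_repr]
    change (fderiv ℂ (TT A i j) z (EuclideanSpace.single a 1)) b = _
    rw [fderiv_TT_apply hz]
    simp [Pi.single_apply]
  have h2 : (L.restrictScalars ℝ).det = Algebra.norm ℝ (LinearMap.det (L : Cn n →ₗ[ℂ] Cn n)) := by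
    rw [← LinearMap.det_restrictScalars]
    rfl
  rw [h2, h1, Algebra.norm_complex_apply, Complex.normSq_eq_norm_sq, abs_of_nonneg (by positivity)]

theorem dg_tr (K : Kah A) {i j : A.ι} {z : Cn n} (hz : z ∈ A.ov i j) :
    dg K i z = ‖(Jm A i j ((A.e i).symm z)).det‖ ^ 2 * dg K j (TT A i j z) := by
  have hx : (A.e i).symm z ∈ (A.e i).source ∩ (A.e j).source := ⟨(A.e i).map_target hz.1, hz.2⟩
  unfold dg
  rw [TT_symm hz, K.tr i j _ hx, Matrix.det_mul, Matrix.det_mul, Matrix.det_transpose]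
  have h1 : ((Jm A i j ((A.e i).symm z)).map conj).det = conj (Jm A i j ((A.e i).symm z)).det :=
    (RingHom.map_det (starRingEnd ℂ) _).symm
  rw [h1]
  set D := (Jm A i j ((A.e i).symm z)).det
  rw [mul_comm D, mul_assoc, Complex.mul_conj, Complex.normSq_eq_norm_sq, Complex.re_mul_ofReal,
    mul_comm]

theorem dg_pos (K : Kah A) {i : A.ι} {z : Cn n} (hz : z ∈ (A.e i).target) : 0 < dg K i z :=
  det_re_pos (K.pos i _ ((A.e i).map_target hz))

theorem dg_continuousOn (K : Kah A) (i : A.ι) : ContinuousOn (dg K i) (A.e i).target := by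
  have h1 : ContDiffOn ℝ ∞ (fun z => (K.g i ((A.e i).symm z)).det) (A.e i).target :=
    smAt_det (K.sm i)
  exact Complex.continuous_re.comp_continuousOn h1.continuousOn

theorem om_tr (K : Kah A) {i j : A.ι} {z : Cn n} (hz : z ∈ A.ov i j) (v : Cn n) :
    om K i z v = om K j (TT A i j z) (fderiv ℂ (TT A i j) z v) := by
  have hx : (A.e i).symm z ∈ (A.e i).source ∩ (A.e j).source := ⟨(A.e i).map_target hz.1, hz.2⟩
  unfold om
  rw [TT_symm hz]
  have h1 : ∀ a b, K.g i ((A.e i).symm z) a b = ∑ c, ∑ d, K.g j ((A.e i).symm z) c d *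
      Jm A i j ((A.e i).symm z) c a * conj (Jm A i j ((A.e i).symm z) d b) := by
    intro a b
    rw [K.tr i j _ hx]
    simp only [Matrix.mul_apply, Matrix.transpose_apply, Matrix.map_apply, Finset.sum_mul]
    rw [Finset.sum_comm]
    refine Finset.sum_congr rfl fun c _ => Finset.sum_congr rfl fun d _ => ?_
    ring
  simp only [h1]
  rw [Crest.Agent.R273.Levi_145.quad_change (fun c d => K.g j ((A.e i).symm z) c d)
    (fun c a => Jm A i j ((A.e i).symm z) c a) (fun a => v a)]
  simp only [fderiv_TT_apply hz.1]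
  simp only [mul_comm]

theorem lv_comp_hol {u : Cn n → ℝ} {i j : A.ι} {z : Cn n} (hz : z ∈ A.ov i j)
    (hu : ContDiffAt ℝ 2 u (TT A i j z)) (v : Cn n) :
    lv (fun w => u (TT A i j w)) z v = lv u (TT A i j z) (fderiv ℂ (TT A i j) z v) := by
  have h := Crest.Agent.R273.Levi_145.lev_comp (TT_analytic hz) hu v
  unfold Crest.Agent.R273.Levi_145.lev at h
  unfold lv
  linarith

/-- null sets are preserved -/
theorem ae_TT {P : Cn n → Prop} (hP : ∀ᵐ y, P y) (i j : A.ι) :
    ∀ᵐ z, z ∈ A.ov i j → P (TT A i j z) := by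
  rw [ae_iff] at hP ⊢
  have h1 : volume (TT A j i '' ({y | ¬ P y} ∩ A.ov j i)) = 0 := by
    refine addHaar_image_eq_zero_of_differentiableOn_of_addHaar_eq_zero volume
      (fun y hy => (TT_differentiableAt hy.2).differentiableWithinAt) ?_
    exact measure_mono_null inter_subset_left hP
  refine measure_mono_null ?_ h1
  intro z hz
  simp only [mem_ofPred_eq, not_forall] at hz
  obtain ⟨hz1, hz2⟩ := hz
  exact ⟨TT A i j z, ⟨hz2, TT_mem hz1⟩, TT_inv hz1⟩

section Meas

variable [MeasurableSpace M] [BorelSpace M] (μ : Measure M) [IsFiniteMeasure μ]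

/-- the measure in the chart `i` -/
def mi (A : Atl n M) (μ : Measure M) (i : A.ι) : Measure (Cn n) :=
  (μ.restrict (A.e i).source).map (A.e i)

theorem aem (i : A.ι) : AEMeasurable (A.e i) (μ.restrict (A.e i).source) :=
  (A.e i).continuousOn.aemeasurable (A.e i).open_source.measurableSet

instance (i : A.ι) : IsFiniteMeasure (mi A μ i) := by
  unfold mi
  infer_instance

theorem mi_apply (i : A.ι) {s : Set (Cn n)} (hs : MeasurableSet s) :
    mi A μ i s = μ ((A.e i).source ∩ (A.e i) ⁻¹' s) := by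
  unfold mi
  have h0 : NullMeasurableSet ((A.e i) ⁻¹' s) (μ.restrict (A.e i).source) :=
    (aem μ i).nullMeasurable hs
  rw [Measure.map_apply_of_aemeasurable (aem μ i) hs, Measure.restrict_apply₀ h0, inter_comm]

theorem mi_compl (i : A.ι) : mi A μ i ((A.e i).target)ᶜ = 0 := by
  rw [mi_apply μ i (A.e i).open_target.measurableSet.compl]
  have : (A.e i).source ∩ (A.e i) ⁻¹' ((A.e i).target)ᶜ = ∅ := by
    ext x
    simp only [mem_inter_iff, mem_preimage, mem_compl_iff, mem_empty_iff_false, iff_false, not_and,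
      not_not]
    exact fun hx => (A.e i).map_source hx
  rw [this, measure_empty]

variable {μ}

theorem dens_compat {i j : A.ι} (hi : mi A μ i ≪ volume) (hj : mi A μ j ≪ volume) :
    ∀ᵐ z, z ∈ A.ov i j → (mi A μ i).rnDeriv volume z =
      ENNReal.ofReal |((fderiv ℂ (TT A i j) z).restrictScalars ℝ).det| *
        (mi A μ j).rnDeriv volume (TT A i j z) := by
  have ho : MeasurableSet (A.ov i j) := (isOpen_ov i j).measurableSet
  rw [← ae_restrict_iff' ho]
  have hdc : ContinuousOn (fun z => ((fderiv ℂ (TT A i j) z).restrictScalars ℝ).det) (A.ov i j) := by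
    intro z hz
    have h1 : ContinuousAt (fderiv ℂ (TT A i j)) z := (TT_analytic hz).fderiv.continuousAt
    have h2 : Continuous fun L : Cn n →L[ℂ] Cn n => (L.restrictScalars ℝ).det := by
      exact ContinuousLinearMap.continuous_det.comp
        (ContinuousLinearMap.continuous_restrictScalars ℝ)
    exact (h2.continuousAt.comp h1).continuousWithinAt
  have hm2 : AEMeasurable (fun z => ENNReal.ofReal |((fderiv ℂ (TT A i j) z).restrictScalars ℝ).det| *
        (mi A μ j).rnDeriv volume (TT A i j z)) (volume.restrict (A.ov i j)) := by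
    refine AEMeasurable.mul ?_ ?_
    · exact ((continuous_abs.comp_continuousOn hdc).aemeasurable ho).ennreal_ofReal
    · exact (Measure.measurable_rnDeriv _ _).comp_aemeasurable ((TT_continuousOn i j).aemeasurable ho)
  refine ae_eq_of_forall_setLIntegral_eq_of_sigmaFinite₀
    (Measure.measurable_rnDeriv _ _).aemeasurable hm2 fun s hs _ => ?_
  rw [Measure.restrict_restrict hs]
  set s' := s ∩ A.ov i j with hs'
  have hs'm : MeasurableSet s' := hs.inter ho
  have hs'o : s' ⊆ A.ov i j := inter_subset_right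
  rw [Measure.setLIntegral_rnDeriv hi]
  have hinj : InjOn (TT A i j) s' := (TT_injOn i j).mono hs'o
  have himg : MeasurableSet (TT A i j '' s') :=
    measurable_image_of_fderivWithin hs'm (fun x hx => (TT_hasFDerivAt (hs'o hx)).hasFDerivWithinAt)
      hinj
  have h1 := lintegral_image_eq_lintegral_abs_det_fderiv_mul volume hs'm
    (fun x hx => (TT_hasFDerivAt (hs'o hx)).hasFDerivWithinAt) hinj
    (fun y => (mi A μ j).rnDeriv volume y)
  rw [← h1, Measure.setLIntegral_rnDeriv hj, mi_apply μ i hs'm, mi_apply μ j himg]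
  congr 1
  ext x
  simp only [mem_inter_iff, mem_preimage, mem_image]
  constructor
  · rintro ⟨hx, hxs⟩
    have hxo := hs'o hxs
    have e1 : (A.e i).symm (A.e i x) = x := (A.e i).left_inv hx
    have hxj : x ∈ (A.e j).source := by
      have := hxo.2
      rwa [e1] at this
    exact ⟨hxj, A.e i x, hxs, by unfold TT; rw [e1]⟩
  · rintro ⟨hxj, y, hys, hyx⟩
    have hyo := hs'o hys
    have e1 : x = (A.e i).symm y := by
      have h3 := TT_symm hyo
      rw [hyx, (A.e j).left_inv hxj] at h3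
      exact h3
    rw [e1, (A.e i).right_inv hyo.1]
    exact ⟨(A.e i).map_target hyo.1, hys⟩

/-- the density with respect to `dV` does not depend on the chart -/
theorem U_compat (K : Kah A) {i j : A.ι} (hi : mi A μ i ≪ volume) (hj : mi A μ j ≪ volume) :
    ∀ᵐ z, z ∈ A.ov i j → ((mi A μ i).rnDeriv volume z).toReal / dg K i z =
      ((mi A μ j).rnDeriv volume (TT A i j z)).toReal / dg K j (TT A i j z) := by
  filter_upwards [dens_compat hi hj] with z hz hzo
  have h0 : 0 < dg K i z := dg_pos K hzo.1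
  have h1 : 0 < dg K j (TT A i j z) := dg_pos K (TT_mem hzo).1
  have h2 := dg_tr K hzo
  rw [hz hzo, ENNReal.toReal_mul, ENNReal.toReal_ofReal (abs_nonneg _), det_TT hzo.1]
  have h3 : ‖(Jm A i j ((A.e i).symm z)).det‖ ^ 2 ≠ 0 := by
    intro h
    rw [h, zero_mul] at h2
    exact h0.ne' h2
  rw [h2, mul_div_mul_left _ _ h3]

end Meas

end

end Crest.Agent.R269.GlueG_390
end

-- ▼ part R269/GlueH_390
section

/-!
# R269 (S0411), leaf L8, part G3 (helper390): the weak inequality in charts, comparison of the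
mollifications in two charts
-/

set_option autoImplicit false
set_option linter.unusedSectionVars false

open MeasureTheory Set Metric Filter Topology Module
open scoped ContDiff Pointwise NNReal Matrix ComplexConjugate

namespace Crest.Agent.R269.GlueH_390

open Crest.Agent.R275.Geo Crest.Agent.R275.Core144 Crest.Agent.R275.EDR890
open Crest.Agent.R273.Kah_333 Crest.Agent.R273.Vol_333
open Crest.Agent.R273.C0d_390 Crest.Agent.R269.GlueB_390 Crest.Agent.R269.GlueC_390
open Crest.Agent.R269.GlueD_390 Crest.Agent.R269.GlueE_390 Crest.Agent.R269.GlueF_390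
open Crest.Agent.R269.GlueG_390 Crest.Agent.R269.RegStmt_848

noncomputable section

variable {n : ℕ} {M : Type} [TopologicalSpace M] {A : Atl n M}
variable [MeasurableSpace M] [BorelSpace M] {μ : Measure M} [IsFiniteMeasure μ]

theorem lv_continuousAt {u : Cn n → ℝ} {z : Cn n} (hu : ContDiffAt ℝ 2 u z) (ξ : Cn n) :
    ContinuousAt (fun y => lv u y ξ) z := by
  have h1 : ContinuousAt (fderiv ℝ (fderiv ℝ u)) z :=
    ((hu.fderiv_right (m := 1) (by norm_num)).fderiv_right (m := 0) (by norm_num)).continuousAt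
  unfold lv
  exact ((h1.clm_apply continuousAt_const).clm_apply continuousAt_const).add
    ((h1.clm_apply continuousAt_const).clm_apply continuousAt_const)

theorem two_le_inf : (2 : WithTop ℕ∞) ≤ ∞ := WithTop.coe_le_coe.2 (le_top : (2 : ℕ∞) ≤ ⊤)

theorem w_at (γ : Pot A) {i : A.ι} {z : Cn n} (hz : z ∈ (A.e i).target) {k : WithTop ℕ∞}
    (hk : k ≤ ∞) : ContDiffAt ℝ k (γ.w i) z :=
  ((γ.sm i).contDiffAt ((A.e i).open_target.mem_nhds hz)).of_le hk

/-- the weak inequality in a chart -/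
theorem weak_wb {K : Kah A} {γ : Pot A} {c : ℝ} (H : Weak K γ c μ) (i : A.ι) :
    WB (A.e i).target (mi A μ i) (dg K i) (γ.w i) c := by
  intro χ hχ hχc hχs hχ0 b
  refine (H i χ hχ hχc hχs hχ0 b).trans (le_of_eq ?_)
  have hlc : ∀ ξ, Continuous fun z => lv χ z ξ := lv_continuous (hχ.of_le two_le_inf)
  have hout : ∀ z ∉ tsupport χ, ∀ ξ, lv χ z ξ = 0 := fun z hz ξ => lv_zero_of_notMem hz ξ
  have hK : IsCompact (tsupport χ) := hχc
  have hdc := (dg_continuousOn K i).mono hχs
  have hd0 : ∀ z ∈ tsupport χ, dg K i z ≠ 0 := fun z hz => (dg_pos K (hχs hz)).ne'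
  have i1 : ∀ ξ, Integrable (fun z => lv χ z ξ / dg K i z) (mi A μ i) := by
    intro ξ
    have e1 : (fun z => lv χ z ξ / dg K i z)
        = (tsupport χ).indicator fun z => lv χ z ξ / dg K i z := by
      funext z
      by_cases hz : z ∈ tsupport χ
      · rw [indicator_of_mem hz]
      · rw [indicator_of_notMem hz, hout z hz, zero_div]
    rw [e1, integrable_indicator_iff hK.measurableSet]
    exact ((hlc ξ).continuousOn.div hdc hd0).integrableOn_compact hK
  have i2 : ∀ ξ, Integrable (fun z => χ z * lv (γ.w i) z ξ) := by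
    intro ξ
    have e1 : (fun z => χ z * lv (γ.w i) z ξ)
        = (tsupport χ).indicator fun z => χ z * lv (γ.w i) z ξ := by
      funext z
      by_cases hz : z ∈ tsupport χ
      · rw [indicator_of_mem hz]
      · rw [indicator_of_notMem hz, image_eq_zero_of_notMem_tsupport hz, zero_mul]
    rw [e1, integrable_indicator_iff hK.measurableSet]
    have hcw : ContinuousOn (fun z => lv (γ.w i) z ξ) (tsupport χ) := fun z hz =>
      (lv_continuousAt (w_at γ (hχs hz) two_le_inf) ξ).continuousWithinAt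
    exact (hχ.continuous.continuousOn.mul hcw).integrableOn_compact hK
  have e1 : ∫ x in (A.e i).source, trb χ (A.e i x) b / dg K i (A.e i x) ∂μ
      = ∑ k, (∫ z, lv χ z (col b k) / dg K i z ∂(mi A μ i)) / 4 := by
    have e2 : ∀ z, trb χ z b / dg K i z = ∑ k, lv χ z (col b k) / dg K i z / 4 := by
      intro z
      unfold trb
      rw [Finset.sum_div]
      exact Finset.sum_congr rfl fun k _ => by ring
    have i3 : Integrable (fun z => trb χ z b / dg K i z) (mi A μ i) := by
      simp only [e2]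
      exact integrable_finsetSum _ fun k _ => (i1 _).div_const 4
    have e3 := integral_map (aem μ i) i3.aestronglyMeasurable
    rw [← e3]
    change ∫ z, trb χ z b / dg K i z ∂(mi A μ i) = _
    simp only [e2]
    rw [integral_finsetSum _ fun k _ => (i1 _).div_const 4]
    exact Finset.sum_congr rfl fun k _ => integral_div _ _
  have e4 : ∫ z, χ z * trb (γ.w i) z b = ∑ k, (∫ z, γ.w i z * lv χ z (col b k)) / 4 := by
    have e5 : ∀ z, χ z * trb (γ.w i) z b = ∑ k, χ z * lv (γ.w i) z (col b k) / 4 := by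
      intro z
      unfold trb
      rw [Finset.mul_sum]
      exact Finset.sum_congr rfl fun k _ => by ring
    simp only [e5]
    rw [integral_finsetSum _ fun k _ => (i2 _).div_const 4]
    refine Finset.sum_congr rfl fun k _ => ?_
    rw [integral_div, ibp (A.e i).open_target hχ hχc hχs (γ.sm i)]
  rw [e1, e4, ← Finset.sum_add_distrib]
  exact Finset.sum_congr rfl fun k _ => by ring

/-- local data for a chart: a bounded representative on a compact set -/
structure Loc (A : Atl n M) (K : Kah A) (γ : Pot A) (μ : Measure M) (i : A.ι) where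
  Z : Set (Cn n)
  f : Cn n → ℝ
  B : ℝ
  cpt : IsCompact Z
  sub : Z ⊆ (A.e i).target
  rep : Rep Z (mi A μ i) (dg K i) (γ.w i) f B

theorem Loc.locInt {K : Kah A} {γ : Pot A} {i : A.ι} (D : Loc A K γ μ i) :
    LocallyIntegrable D.f := locInt_bdd D.rep.meas D.rep.bdd


/-- absolute continuity in a chart -/
theorem mi_ac [NeZero n] {K : Kah A} {γ : Pot A} {c : ℝ} (hc : 0 ≤ c) (H : Weak K γ c μ)
    (i : A.ι) : mi A μ i ≪ volume :=
  ac (A.e i).open_target (dg_continuousOn K i) (fun _ hz => dg_pos K hz) (γ.sm i).continuousOn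
    ((weak_wb H i).wp hc fun _ hz => dg_pos K hz) (mi_compl μ i)

theorem exists_loc [NeZero n] {K : Kah A} {γ : Pot A} {c : ℝ} (hc : 0 ≤ c) (H : Weak K γ c μ)
    (i : A.ι) {Z : Set (Cn n)} (hZ : IsCompact Z) (hZt : Z ⊆ (A.e i).target) :
    ∃ D : Loc A K γ μ i, D.Z = Z := by
  obtain ⟨f, B, hf⟩ := exists_rep (A.e i).open_target (dg_continuousOn K i)
    (fun _ hz => dg_pos K hz) (γ.sm i).continuousOn
    ((weak_wb H i).wp hc fun _ hz => dg_pos K hz) (mi_compl μ i) hZ hZt
  exact ⟨⟨Z, f, B, hZ, hZt, hf⟩, rfl⟩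

theorem Loc.lv_nonneg [NeZero n] {K : Kah A} {γ : Pot A} {c : ℝ} (hc : 0 ≤ c) (H : Weak K γ c μ)
    {i : A.ι} (D : Loc A K γ μ i) {δ : ℝ} (hδ : 0 < δ) {x : Cn n} (hx : closedBall x δ ⊆ D.Z)
    (ξ : Cn n) : 0 ≤ lv (moll D.f δ) x ξ :=
  D.rep.lv_nonneg (mi_ac hc H i) D.cpt D.sub (dg_continuousOn K i) (fun _ hz => dg_pos K hz)
    (γ.sm i).continuousOn ((weak_wb H i).wp hc fun _ hz => dg_pos K hz) hδ hx ξ

theorem Loc.ma [NeZero n] {K : Kah A} {γ : Pot A} {c : ℝ} (hc : 0 ≤ c) (H : Weak K γ c μ)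
    {i : A.ι} (D : Loc A K γ μ i) {δ : ℝ} (hδ : 0 < δ) {x : Cn n} (hx : closedBall x δ ⊆ D.Z)
    {η : ℝ} (hη : 0 ≤ η) (hηd : ∀ t ∈ closedBall x δ, η ≤ dg K i t)
    (b : Matrix (Fin n) (Fin n) ℂ) :
    n * c * (‖b.det‖ ^ 2 * η) ^ ((1 : ℝ) / n) ≤ trb (moll D.f δ) x b :=
  D.rep.ma (mi_ac hc H i) D.cpt D.sub (dg_continuousOn K i) (fun _ hz => dg_pos K hz)
    (γ.sm i).continuousOn hc (weak_wb H i) hδ hx hη hηd b

/-- the local regularisation, as a function of the chart coordinate -/
def reg {K : Kah A} {γ : Pot A} {i : A.ι} (D : Loc A K γ μ i) (δ : ℝ) (z : Cn n) : ℝ :=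
  moll D.f δ z - γ.w i z

/-- pointwise comparison in two charts -/
theorem cmp_point [NeZero n] {K : Kah A} {γ : Pot A} {c : ℝ} (hc : 0 ≤ c) (H : Weak K γ c μ)
    {i j : A.ι} (D : Loc A K γ μ i) (D' : Loc A K γ μ j) {x : Cn n} {δ R L L' κ : ℝ}
    (hκ : 0 < κ) (hδ : 0 < δ) (h3 : 3 * δ ≤ R) (hL : 1 ≤ L) (hLR : L * δ ≤ R)
    (hxo : closedBall x δ ⊆ A.ov i j) (hxZ : closedBall x δ ⊆ D.Z)
    (hp : closedBall (TT A i j x) (R + κ) ⊆ D'.Z)
    (hT : ∀ z ∈ closedBall x δ, dist (TT A i j z) (TT A i j x) ≤ L * dist z x)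
    (hh : ∀ z ∈ closedBall x δ, |(γ.w j (TT A i j z) - γ.w i z)
      - (γ.w j (TT A i j x) - γ.w i x)| ≤ L' * dist z x) :
    reg D δ x ≤ reg D' δ (TT A i j x) + (|L'| * δ + Cst n L * D'.B / Real.log (R / δ)) := by
  set p := TT A i j x with hpdef
  have hlev : ∀ κ', 0 < κ' → κ' < κ → ∀ y ∈ closedBall p R, ∀ ξ, 0 ≤ lv (moll D'.f κ') y ξ := by
    intro κ' h0 h1 y hy ξ
    refine D'.lv_nonneg hc H h0 (Subset.trans (closedBall_subset_closedBall' ?_) hp) ξ
    rw [mem_closedBall] at hy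
    linarith
  have h1 := ess_le D'.rep.meas D'.rep.bdd hκ hlev hδ h3 hL hLR
  have h2 := ae_TT h1 i j
  have h3' := ae_TT D'.rep.ae i j
  have h4 := U_compat (μ := μ) K (mi_ac hc H i) (mi_ac hc H j)
  have h5 : ∀ᵐ z, z ∈ ball x δ → D.f z ≤ moll D'.f δ p + Cst n L * D'.B / Real.log (R / δ)
      - (γ.w j p - γ.w i x) + |L'| * δ := by
    filter_upwards [h2, h3', h4, D.rep.ae] with z hz2 hz3 hz4 hz5 hzb
    have hzc : z ∈ closedBall x δ := ball_subset_closedBall hzb
    have hzo := hxo hzc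
    have hd : dist z x ≤ δ := hzc
    have hTz : TT A i j z ∈ closedBall p (L * δ) := by
      rw [mem_closedBall]
      exact (hT z hzc).trans (mul_le_mul_of_nonneg_left hd (by linarith))
    have hTZ : TT A i j z ∈ D'.Z := hp (closedBall_subset_closedBall (by linarith) hTz)
    have e1 := hz2 hzo hTz
    have e2 := hz3 hzo hTZ
    have e3 := hz4 hzo
    have e4 := hz5 (hxZ hzc)
    have e5 := (abs_le.1 (hh z hzc)).1
    have e6 : L' * dist z x ≤ |L'| * δ :=
      mul_le_mul (le_abs_self L') hd dist_nonneg (abs_nonneg _)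
    rw [e4, e3]
    linarith
  have h6 := moll_le D.locInt hδ h5
  unfold reg
  linarith

end

end Crest.Agent.R269.GlueH_390
end

-- ▼ part R269/GlueI_390
section

/-!
# R269 (S0411), leaf L8, part G4a (helper390): uniform comparison, log-sum-exp, bounds on compacts
-/

set_option autoImplicit false
set_option linter.unusedSectionVars false

open MeasureTheory Set Metric Filter Topology Module
open scoped ContDiff Pointwise NNReal Matrix ComplexConjugate ComplexOrder

namespace Crest.Agent.R269.GlueI_390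

open Crest.Agent.R275.Geo Crest.Agent.R275.Core144 Crest.Agent.R275.EDR890
open Crest.Agent.R273.Kah_333 Crest.Agent.R273.Vol_333
open Crest.Agent.R273.C0d_390 Crest.Agent.R269.GlueB_390 Crest.Agent.R269.GlueC_390
open Crest.Agent.R269.GlueD_390 Crest.Agent.R269.GlueE_390 Crest.Agent.R269.GlueF_390
open Crest.Agent.R269.GlueG_390 Crest.Agent.R269.GlueH_390 Crest.Agent.R269.RegStmt_848

noncomputable section

variable {n : ℕ} {M : Type} [TopologicalSpace M] {A : Atl n M}

section Cmp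

variable [MeasurableSpace M] [BorelSpace M] {μ : Measure M} [IsFiniteMeasure μ]

theorem fderiv_bound {F : Type*} [NormedAddCommGroup F] [NormedSpace ℝ F] {u : Cn n → F}
    {X : Set (Cn n)} (hX : IsCompact X) (hu : ∀ z ∈ X, ContDiffAt ℝ 1 u z) :
    ∃ L : ℝ, 1 ≤ L ∧ ∀ z ∈ X, ‖fderiv ℝ u z‖ ≤ L := by
  have h1 : ContinuousOn (fderiv ℝ u) X := fun z hz =>
    ((hu z hz).fderiv_right (m := 0) (by norm_num)).continuousAt.continuousWithinAt
  obtain ⟨L, hL⟩ := hX.exists_bound_of_continuousOn h1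
  exact ⟨max 1 L, le_max_left _ _, fun z hz => (hL z hz).trans (le_max_right _ _)⟩

theorem err_tendsto {R : ℝ} (hR : 0 < R) (a b : ℝ) :
    Tendsto (fun δ : ℝ => a * δ + b / Real.log (R / δ)) (𝓝[>] 0) (𝓝 0) := by
  have h1 : Tendsto (fun δ : ℝ => R / δ) (𝓝[>] 0) atTop := by
    simp only [div_eq_mul_inv]
    exact tendsto_inv_nhdsGT_zero.const_mul_atTop hR
  have h2 : Tendsto (fun δ : ℝ => b / Real.log (R / δ)) (𝓝[>] 0) (𝓝 0) :=
    tendsto_const_nhds.div_atTop (Real.tendsto_log_atTop.comp h1)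
  have h3 : Tendsto (fun δ : ℝ => a * δ) (𝓝[>] 0) (𝓝 (a * 0)) :=
    (tendsto_id.mono_left nhdsWithin_le_nhds).const_mul a
  rw [mul_zero] at h3
  simpa using h3.add h2

/-- **uniform comparison of the regularisations in two charts** -/
theorem cmp_unif [NeZero n] {K : Kah A} {γ : Pot A} {c : ℝ} (hc : 0 ≤ c) (H : Weak K γ c μ)
    {i j : A.ι} (D : Loc A K γ μ i) (D' : Loc A K γ μ j) {S : Set M} (hS : IsCompact S)
    (hi : S ⊆ (A.e i).source) (hj : S ⊆ (A.e j).source) (hiZ : A.e i '' S ⊆ interior D.Z)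
    (hjZ : A.e j '' S ⊆ interior D'.Z) {ε : ℝ} (hε : 0 < ε) :
    ∀ᶠ δ in 𝓝[>] (0 : ℝ), ∀ y ∈ S, reg D δ (A.e i y) ≤ reg D' δ (A.e j y) + ε := by
  set X := A.e i '' S with hX
  have hXc : IsCompact X := hS.image_of_continuousOn ((A.e i).continuousOn.mono hi)
  have hYc : IsCompact (A.e j '' S) := hS.image_of_continuousOn ((A.e j).continuousOn.mono hj)
  have hXo : X ⊆ A.ov i j ∩ interior D.Z := by
    refine subset_inter ?_ hiZ
    rintro _ ⟨y, hy, rfl⟩
    exact mem_ov ⟨hi hy, hj hy⟩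
  obtain ⟨r1, hr1, hr1s⟩ := hXc.exists_cthickening_subset_open
    ((isOpen_ov i j).inter isOpen_interior) hXo
  obtain ⟨r2, hr2, hr2s⟩ := hYc.exists_cthickening_subset_open isOpen_interior hjZ
  set X' := cthickening r1 X with hX'
  have hX'c : IsCompact X' := hXc.cthickening
  have hX'o : X' ⊆ A.ov i j := hr1s.trans inter_subset_left
  obtain ⟨L, hL1, hL⟩ := fderiv_bound (u := TT A i j) hX'c fun z hz => TT_contDiffAt (hX'o hz) 1
  obtain ⟨L', hL'1, hL'⟩ := fderiv_bound (u := fun z => γ.w j (TT A i j z) - γ.w i z) hX'c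
    fun z hz => by
      have h1 : ContDiffAt ℝ 1 (γ.w j) (TT A i j z) :=
        w_at γ (TT_mem (hX'o hz)).1 (by exact_mod_cast le_top)
      exact (h1.comp z (TT_contDiffAt (hX'o hz) 1)).sub
        (w_at γ (hX'o hz).1 (by exact_mod_cast le_top))
  have hev1 := (err_tendsto (half_pos hr2) |L'| (Cst n L * D'.B)).eventually (gt_mem_nhds hε)
  have hδ1 : ∀ᶠ δ in 𝓝[>] (0 : ℝ), δ < r1 := nhdsWithin_le_nhds (gt_mem_nhds hr1)
  have hδ2 : ∀ᶠ δ in 𝓝[>] (0 : ℝ), δ < r2 / 2 / 3 :=
    nhdsWithin_le_nhds (gt_mem_nhds (by positivity))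
  have hδ3 : ∀ᶠ δ in 𝓝[>] (0 : ℝ), δ < r2 / 2 / L :=
    nhdsWithin_le_nhds (gt_mem_nhds (by positivity))
  filter_upwards [hev1, hδ1, hδ2, hδ3, self_mem_nhdsWithin] with δ h1 h2 h3 h4 hδ y hy
  have hδ0 : 0 < δ := hδ
  set x := A.e i y with hx
  have hxX : x ∈ X := mem_image_of_mem _ hy
  have hbX' : closedBall x δ ⊆ X' :=
    (closedBall_subset_cthickening hxX δ).trans (cthickening_mono h2.le X)
  have hTx : TT A i j x = A.e j y := by
    change A.e j ((A.e i).symm (A.e i y)) = A.e j y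
    rw [(A.e i).left_inv (hi hy)]
  have hconv : Convex ℝ (closedBall x δ) := convex_closedBall x δ
  have hxm : x ∈ closedBall x δ := mem_closedBall_self hδ0.le
  have hcmp := cmp_point hc H D D' (x := x) (δ := δ) (R := r2 / 2) (L := L) (L' := L')
    (κ := r2 / 2) (half_pos hr2) hδ0 (by linarith) hL1 (by
      rw [lt_div_iff₀ (by linarith)] at h4
      linarith) (hbX'.trans hX'o) (hbX'.trans ((hr1s.trans inter_subset_right).trans interior_subset))
    (by
      rw [hTx, add_halves]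
      exact (closedBall_subset_cthickening (mem_image_of_mem _ hy) r2).trans
        (hr2s.trans interior_subset))
    (fun z hz => by
      rw [dist_eq_norm, dist_eq_norm]
      exact hconv.norm_image_sub_le_of_norm_fderiv_le
        (fun w hw => TT_differentiableAt (hX'o (hbX' hw))) (fun w hw => hL w (hbX' hw)) hxm hz)
    (fun z hz => by
      rw [dist_eq_norm, ← Real.norm_eq_abs]
      refine hconv.norm_image_sub_le_of_norm_fderiv_le (f := fun z => γ.w j (TT A i j z) - γ.w i z)
        (fun w hw => ?_) (fun w hw => hL' w (hbX' hw)) hxm hz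
      have hwo := hX'o (hbX' hw)
      have h1 : ContDiffAt ℝ 1 (γ.w j) (TT A i j w) :=
        w_at γ (TT_mem hwo).1 (by exact_mod_cast le_top)
      exact ((h1.comp w (TT_contDiffAt hwo 1)).sub
        (w_at γ hwo.1 (by exact_mod_cast le_top))).differentiableAt one_ne_zero)
  rw [hTx] at hcmp
  linarith

end Cmp

/-! ### log-sum-exp -/

theorem lv_sum {ι : Type*} (s : Finset ι) {a : ι → V n → ℝ} {z : V n}
    (ha : ∀ k ∈ s, ContDiffAt ℝ 2 (a k) z) (v : V n) :
    lv (fun y => ∑ k ∈ s, a k y) z v = ∑ k ∈ s, lv (a k) z v := by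
  classical
  induction s using Finset.induction_on with
  | empty =>
    simp only [Finset.sum_empty]
    unfold lv
    simp
  | insert k s hk ih =>
    simp only [Finset.sum_insert hk]
    rw [lv_add (ha k (Finset.mem_insert_self k s)) (ContDiffAt.sum fun j hj =>
      ha j (Finset.mem_insert_of_mem hj)), ih fun j hj => ha j (Finset.mem_insert_of_mem hj)]

theorem lse {ι : Type*} (s : Finset ι) {a : ι → V n → ℝ} {S : V n → ℝ} {z0 : V n}
    (ha : ∀ k ∈ s, ContDiffAt ℝ 2 (a k) z0) (ha0 : ∀ k ∈ s, 0 < a k z0)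
    (hS : ContDiffAt ℝ 2 S z0) (hS0 : 0 < S z0) (hle : ∀ᶠ z in 𝓝 z0, ∑ k ∈ s, a k z ≤ S z)
    (heq : ∑ k ∈ s, a k z0 = S z0) (v : V n) :
    ∑ k ∈ s, a k z0 / S z0 * lv (fun z => Real.log (a k z)) z0 v
      ≤ lv (fun z => Real.log (S z)) z0 v := by
  set p : ι → ℝ := fun k => a k z0 / S z0 with hp
  have hp0 : ∀ k ∈ s, 0 ≤ p k := fun k hk => (div_pos (ha0 k hk) hS0).le
  have hp1 : ∑ k ∈ s, p k = 1 := by
    rw [hp]
    simp only
    rw [← Finset.sum_div, heq, div_self hS0.ne']
  have hlog : ∀ k ∈ s, ContDiffAt ℝ 2 (fun z => Real.log (a k z)) z0 := fun k hk =>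
    (ha k hk).log (ha0 k hk).ne'
  have hplog : ∀ k ∈ s, ContDiffAt ℝ 2 (fun z => p k * Real.log (a k z)) z0 := fun k hk =>
    contDiffAt_const.mul (hlog k hk)
  have hSlog : ContDiffAt ℝ 2 (fun z => Real.log (S z)) z0 := hS.log hS0.ne'
  set u : V n → ℝ := fun z => (∑ k ∈ s, p k * Real.log (a k z)) + (-1) * Real.log (S z) with hu
  have hmax : IsLocalMax u z0 := by
    have h1 : ∀ᶠ z in 𝓝 z0, ∀ k ∈ s, 0 < a k z := by
      rw [Finset.eventually_all]
      intro k hk
      exact (ha k hk).continuousAt.eventually (lt_mem_nhds (ha0 k hk))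
    have h2 : ∀ᶠ z in 𝓝 z0, 0 < S z := hS.continuousAt.eventually (lt_mem_nhds hS0)
    filter_upwards [h1, h2, hle] with z hz1 hz2 hz3
    have hne : s.Nonempty := by
      by_contra hcon
      rw [Finset.not_nonempty_iff_eq_empty] at hcon
      rw [hcon, Finset.sum_empty] at hp1
      exact zero_ne_one hp1
    have hj := strictConcaveOn_log_Ioi.concaveOn.le_map_sum (t := s) (w := p)
      (p := fun k => a k z / a k z0) hp0 hp1 fun k hk => div_pos (hz1 k hk) (ha0 k hk)
    simp only [smul_eq_mul] at hj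
    have e1 : ∑ k ∈ s, p k * (a k z / a k z0) = (∑ k ∈ s, a k z) / S z0 := by
      rw [Finset.sum_div]
      refine Finset.sum_congr rfl fun k hk => ?_
      rw [hp]
      have := (ha0 k hk).ne'
      field_simp
    rw [e1] at hj
    have e2 : ∀ k ∈ s, p k * Real.log (a k z / a k z0)
        = p k * Real.log (a k z) - p k * Real.log (a k z0) := by
      intro k hk
      rw [Real.log_div (hz1 k hk).ne' (ha0 k hk).ne']
      ring
    rw [Finset.sum_congr rfl e2, Finset.sum_sub_distrib] at hj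
    have hpos : 0 < ∑ k ∈ s, a k z := Finset.sum_pos hz1 hne
    have e3 : Real.log ((∑ k ∈ s, a k z) / S z0) ≤ Real.log (S z) - Real.log (S z0) := by
      rw [← Real.log_div hz2.ne' hS0.ne']
      exact Real.log_le_log (div_pos hpos hS0) (div_le_div_of_nonneg_right hz3 hS0.le)
    change (∑ k ∈ s, p k * Real.log (a k z)) + (-1) * Real.log (S z)
      ≤ (∑ k ∈ s, p k * Real.log (a k z0)) + (-1) * Real.log (S z0)
    linarith
  have hcu : ContDiffAt ℝ 2 u z0 :=
    (ContDiffAt.sum fun k hk => hplog k hk).add (contDiffAt_const.mul hSlog)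
  have h3 := lv_nonpos hcu hmax v
  have e4 : lv u z0 v = (∑ k ∈ s, p k * lv (fun z => Real.log (a k z)) z0 v)
      + (-1) * lv (fun z => Real.log (S z)) z0 v := by
    rw [hu, lv_add (ContDiffAt.sum fun k hk => hplog k hk) (contDiffAt_const.mul hSlog),
      lv_sum s hplog, lv_const_mul hSlog]
    congr 1
    exact Finset.sum_congr rfl fun k hk => lv_const_mul (hlog k hk) (p k) v
  rw [e4] at h3
  linarith

/-! ### quadratic bounds on compacts -/

theorem quad_bound {X : Set (Cn n)} (hX : IsCompact X) {f g : Cn n → Cn n → ℝ}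
    (hf : ContinuousOn (fun p : Cn n × Cn n => f p.1 p.2) (X ×ˢ univ))
    (hg : ContinuousOn (fun p : Cn n × Cn n => g p.1 p.2) (X ×ˢ univ))
    (hf2 : ∀ z ∈ X, ∀ (t : ℝ) v, f z (t • v) = t ^ 2 * f z v)
    (hg2 : ∀ z ∈ X, ∀ (t : ℝ) v, g z (t • v) = t ^ 2 * g z v)
    (hg0 : ∀ z ∈ X, ∀ v, v ≠ 0 → 0 < g z v) :
    ∃ C : ℝ, 0 ≤ C ∧ ∀ z ∈ X, ∀ v, f z v ≤ C * g z v := by
  have hK : IsCompact (X ×ˢ sphere (0 : Cn n) 1) := hX.prod (isCompact_sphere 0 1)
  have hsub : X ×ˢ sphere (0 : Cn n) 1 ⊆ X ×ˢ univ := prod_mono_right (subset_univ _)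
  have hne : ∀ p ∈ X ×ˢ sphere (0 : Cn n) 1, g p.1 p.2 ≠ 0 := by
    rintro ⟨z, v⟩ ⟨hz, hv⟩
    refine (hg0 z hz v ?_).ne'
    rintro rfl
    simp at hv
  have hq : ContinuousOn (fun p : Cn n × Cn n => f p.1 p.2 / g p.1 p.2)
      (X ×ˢ sphere (0 : Cn n) 1) := (hf.mono hsub).div (hg.mono hsub) hne
  obtain ⟨C, hC⟩ := hK.exists_bound_of_continuousOn hq
  refine ⟨|C|, abs_nonneg C, fun z hz v => ?_⟩
  by_cases hv : v = 0
  · subst hv
    have h1 := hf2 z hz 0 0
    have h2 := hg2 z hz 0 0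
    rw [smul_zero] at h1 h2
    rw [h1, h2]
    simp
  · have hn : 0 < ‖v‖ := norm_pos_iff.2 hv
    set w : Cn n := ‖v‖⁻¹ • v with hw
    have hwv : v = ‖v‖ • w := by rw [hw, smul_inv_smul₀ hn.ne']
    have hws : w ∈ sphere (0 : Cn n) 1 := by
      rw [mem_sphere_zero_iff_norm, hw, norm_smul, norm_inv, norm_norm, inv_mul_cancel₀ hn.ne']
    have h1 := hC (z, w) ⟨hz, hws⟩
    have hgw : 0 < g z w := hg0 z hz w (by rintro h0; rw [h0] at hws; simp at hws)
    have h2 : f z w ≤ |C| * g z w := by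
      have h3 : f z w / g z w ≤ |C| := (le_abs_self _).trans (h1.trans (le_abs_self C))
      rwa [div_le_iff₀ hgw] at h3
    rw [hwv, hf2 z hz, hg2 z hz]
    nlinarith [mul_le_mul_of_nonneg_left h2 (sq_nonneg ‖v‖)]

theorem lv_smul_real (u : V n → ℝ) (z v : V n) (t : ℝ) : lv u z (t • v) = t ^ 2 * lv u z v := by
  unfold lv
  rw [smul_comm Complex.I t v]
  simp only [map_smul, _root_.smul_apply, smul_eq_mul]
  ring

theorem gn_smul_real (u : V n → ℝ) (z v : V n) (t : ℝ) : gn u z (t • v) = t ^ 2 * gn u z v := by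
  unfold gn
  rw [smul_comm Complex.I t v]
  simp only [map_smul, smul_eq_mul]
  ring

theorem om_smul_real (K : Kah A) (i : A.ι) (z v : Cn n) (t : ℝ) :
    om K i z (t • v) = t ^ 2 * om K i z v := by
  unfold om
  rw [← Complex.re_ofReal_mul]
  congr 1
  rw [Finset.mul_sum]
  refine Finset.sum_congr rfl fun a _ => ?_
  rw [Finset.mul_sum]
  refine Finset.sum_congr rfl fun b _ => ?_
  simp only [PiLp.smul_apply, Complex.real_smul, map_mul, Complex.conj_ofReal]
  push_cast
  ring

theorem om_pos (K : Kah A) {i : A.ι} {z : Cn n} (hz : z ∈ (A.e i).target) {v : Cn n}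
    (hv : v ≠ 0) : 0 < om K i z v := by
  have h1 := (K.pos i _ ((A.e i).map_target hz))
  have h2 := h1.dotProduct_mulVec_pos (x := fun a => conj (v a)) (by
    intro h
    apply hv
    ext a
    have := congrFun h a
    simpa using this)
  have h3 : om K i z v = (star (fun a => conj (v a)) ⬝ᵥ (K.g i ((A.e i).symm z) *ᵥ
      fun a => conj (v a))).re := by
    unfold om
    congr 1
    simp only [dotProduct, Matrix.mulVec, Pi.star_apply, RCLike.star_def, Complex.conj_conj]
    refine Finset.sum_congr rfl fun a _ => ?_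
    rw [Finset.mul_sum]
    refine Finset.sum_congr rfl fun b _ => ?_
    ring
  rw [h3]
  exact (Complex.lt_def.1 h2).1

theorem om_nonneg (K : Kah A) {i : A.ι} {z : Cn n} (hz : z ∈ (A.e i).target) (v : Cn n) :
    0 ≤ om K i z v := by
  by_cases hv : v = 0
  · subst hv
    have := om_smul_real K i z 0 0
    rw [smul_zero] at this
    rw [this]
    simp
  · exact (om_pos K hz hv).le

theorem om_continuousOn (K : Kah A) (i : A.ι) :
    ContinuousOn (fun p : Cn n × Cn n => om K i p.1 p.2) ((A.e i).target ×ˢ univ) := by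
  unfold om
  refine Complex.continuous_re.comp_continuousOn ?_
  refine continuousOn_finsetSum _ fun a _ => continuousOn_finsetSum _ fun b _ => ?_
  have h1 : ContinuousOn (fun p : Cn n × Cn n => K.g i ((A.e i).symm p.1) a b)
      ((A.e i).target ×ˢ univ) := by
    have h2 : ContinuousOn (fun z : Cn n => K.g i ((A.e i).symm z) a b) (A.e i).target :=
      (K.sm i a b).continuousOn
    exact h2.comp continuous_fst.continuousOn fun p hp => hp.1
  have h3 : Continuous fun p : Cn n × Cn n => p.2 a :=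
    (EuclideanSpace.proj a : Cn n →L[ℂ] ℂ).continuous.comp continuous_snd
  have h4 : Continuous fun p : Cn n × Cn n => conj (p.2 b) :=
    Complex.continuous_conj.comp ((EuclideanSpace.proj b : Cn n →L[ℂ] ℂ).continuous.comp continuous_snd)
  exact (h1.mul h3.continuousOn).mul h4.continuousOn

theorem lv_continuousOn₂ {u : V n → ℝ} {X : Set (V n)} (hu : ∀ z ∈ X, ContDiffAt ℝ 2 u z) :
    ContinuousOn (fun p : V n × V n => lv u p.1 p.2) (X ×ˢ univ) := by
  rintro ⟨z, v⟩ ⟨hz, -⟩
  have h1 : ContinuousAt (fderiv ℝ (fderiv ℝ u)) z :=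
    (((hu z hz).fderiv_right (m := 1) (by norm_num)).fderiv_right (m := 0)
      (by norm_num)).continuousAt
  have h2 : ContinuousAt (fun p : V n × V n => fderiv ℝ (fderiv ℝ u) p.1) (z, v) :=
    ContinuousAt.comp (g := fderiv ℝ (fderiv ℝ u)) h1 continuousAt_fst
  have h3 : ContinuousAt (fun p : V n × V n => p.2) (z, v) := continuousAt_snd
  have h4 : ContinuousAt (fun p : V n × V n => Complex.I • p.2) (z, v) :=
    (continuous_const_smul Complex.I).continuousAt.comp h3
  unfold lv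
  exact (((h2.clm_apply h3).clm_apply h3).add ((h2.clm_apply h4).clm_apply h4)).continuousWithinAt

theorem gn_continuousOn₂ {u : V n → ℝ} {X : Set (V n)} (hu : ∀ z ∈ X, ContDiffAt ℝ 2 u z) :
    ContinuousOn (fun p : V n × V n => gn u p.1 p.2) (X ×ˢ univ) := by
  rintro ⟨z, v⟩ ⟨hz, -⟩
  have h1 : ContinuousAt (fderiv ℝ u) z :=
    ((hu z hz).fderiv_right (m := 1) (by norm_num)).continuousAt
  have h2 : ContinuousAt (fun p : V n × V n => fderiv ℝ u p.1) (z, v) :=
    ContinuousAt.comp (g := fderiv ℝ u) h1 continuousAt_fst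
  have h3 : ContinuousAt (fun p : V n × V n => p.2) (z, v) := continuousAt_snd
  have h4 : ContinuousAt (fun p : V n × V n => Complex.I • p.2) (z, v) :=
    (continuous_const_smul Complex.I).continuousAt.comp h3
  unfold gn
  exact (((h2.clm_apply h3).pow 2).add ((h2.clm_apply h4).pow 2)).continuousWithinAt

/-- `θ² lv (log θ²) ≥ - C ω` on compacts -/
theorem cut_bound (K : Kah A) (i : A.ι) {θ : Cn n → ℝ} {X : Set (Cn n)} (hX : IsCompact X)
    (hXt : X ⊆ (A.e i).target) (hθ : ∀ z ∈ X, ContDiffAt ℝ 2 θ z) :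
    ∃ C : ℝ, 0 ≤ C ∧ ∀ z ∈ X, θ z ≠ 0 → ∀ v,
      -(C * om K i z v) ≤ θ z ^ 2 * lv (fun y => Real.log (θ y ^ 2)) z v := by
  have h2 : ∀ z ∈ X, ContDiffAt ℝ 2 (fun y => θ y ^ 2) z := fun z hz => (hθ z hz).pow 2
  obtain ⟨C, hC0, hC⟩ := quad_bound hX
    (f := fun z v => 4 * gn θ z v - lv (fun y => θ y ^ 2) z v) (g := om K i)
    ((continuousOn_const.mul (gn_continuousOn₂ hθ)).sub (lv_continuousOn₂ h2))
    ((om_continuousOn K i).mono (prod_mono_left hXt))
    (fun z _ t v => by rw [gn_smul_real, lv_smul_real]; ring)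
    (fun z _ t v => om_smul_real K i z v t) (fun z hz v hv => om_pos K (hXt hz) hv)
  refine ⟨C, hC0, fun z hz h0 v => ?_⟩
  have h3 := hC z hz v
  have h4 := lv_log (u := fun y => θ y ^ 2) (pow_ne_zero 2 h0) (h2 z hz) v
  have h5 : gn (fun y => θ y ^ 2) z v = 4 * θ z ^ 2 * gn θ z v := by
    have hd : DifferentiableAt ℝ θ z := (hθ z hz).differentiableAt (by norm_num)
    have h6 : fderiv ℝ (fun y => θ y ^ 2) z = (2 * θ z) • fderiv ℝ θ z := by
      have := hd.hasFDerivAt.pow 2
      rw [this.fderiv]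
      simp
    unfold gn
    rw [h6]
    simp only [_root_.smul_apply, smul_eq_mul]
    ring
  rw [h4, h5]
  have h7 : θ z ^ 2 * (lv (fun y => θ y ^ 2) z v / θ z ^ 2 - 4 * θ z ^ 2 * gn θ z v / (θ z ^ 2) ^ 2)
      = lv (fun y => θ y ^ 2) z v - 4 * gn θ z v := by
    field_simp
  rw [h7]
  linarith

/-- `dg` varies little on small balls -/
theorem dg_unif (K : Kah A) (i : A.ι) {X : Set (Cn n)} (hX : IsCompact X)
    (hXt : X ⊆ (A.e i).target) {q : ℝ} (hq : q < 1) :
    ∀ᶠ δ in 𝓝[>] (0 : ℝ), ∀ z ∈ X, ∀ t ∈ closedBall z δ, q * dg K i z ≤ dg K i t := by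
  obtain ⟨r, hr, hrs⟩ := hX.exists_cthickening_subset_open (A.e i).open_target hXt
  set Y := cthickening r X with hY
  have hYc : IsCompact Y := hX.cthickening
  by_cases hne : X.Nonempty
  swap
  · rw [not_nonempty_iff_eq_empty] at hne
    subst hne
    exact Eventually.of_forall fun δ z hz => absurd hz (notMem_empty z)
  obtain ⟨z1, hz1, hmin⟩ := hX.exists_isMinOn hne ((dg_continuousOn K i).mono hXt)
  set m0 := dg K i z1 with hm0
  have hm0p : 0 < m0 := dg_pos K (hXt hz1)
  have huc : UniformContinuousOn (dg K i) Y :=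
    hYc.uniformContinuousOn_of_continuous ((dg_continuousOn K i).mono hrs)
  rw [Metric.uniformContinuousOn_iff] at huc
  obtain ⟨δ0, hδ0, hδ0s⟩ := huc ((1 - q) * m0) (mul_pos (by linarith) hm0p)
  have hd1 : ∀ᶠ δ in 𝓝[>] (0 : ℝ), δ < δ0 := nhdsWithin_le_nhds (gt_mem_nhds hδ0)
  have hd2 : ∀ᶠ δ in 𝓝[>] (0 : ℝ), δ < r := nhdsWithin_le_nhds (gt_mem_nhds hr)
  filter_upwards [hd1, hd2] with δ h1 h2 z hz t ht
  have hzY : z ∈ Y := self_subset_cthickening X hz
  have htY : t ∈ Y := (closedBall_subset_cthickening hz δ).trans (cthickening_mono h2.le X) ht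
  have h3 := hδ0s t htY z hzY (lt_of_le_of_lt ht h1)
  rw [Real.dist_eq, abs_lt] at h3
  have h4 : m0 ≤ dg K i z := hmin hz
  nlinarith [mul_le_mul_of_nonneg_left h4 (by linarith : (0 : ℝ) ≤ 1 - q)]

end

end Crest.Agent.R269.GlueI_390
end

-- ▼ part R269/GlueJ_390
section

/-!
# R269 (S0411), leaf L8 (helper390): THEOREM REG, proof of `RegStmt`

`regStmt : RegStmt`
-/

set_option autoImplicit false
set_option linter.unusedSectionVars false

open MeasureTheory Set Metric Filter Topology Module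
open scoped ContDiff Pointwise NNReal Matrix ComplexConjugate ComplexOrder

namespace Crest.Agent.R269.GlueJ_390

open Crest.Agent.R275.Geo Crest.Agent.R275.Core144 Crest.Agent.R275.EDR890
open Crest.Agent.R273.Kah_333 Crest.Agent.R273.Vol_333 Crest.Agent.R275.C1d194
open Crest.Agent.R273.C0d_390 Crest.Agent.R269.GlueB_390 Crest.Agent.R269.GlueC_390
open Crest.Agent.R269.GlueD_390 Crest.Agent.R269.GlueE_390 Crest.Agent.R269.GlueF_390
open Crest.Agent.R269.GlueG_390 Crest.Agent.R269.GlueH_390 Crest.Agent.R269.GlueI_390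
open Crest.Agent.R269.RegStmt_848

noncomputable section

variable {n : ℕ} {M : Type} [TopologicalSpace M] {A : Atl n M}
variable [MeasurableSpace M] [BorelSpace M] {μ : Measure M} [IsFiniteMeasure μ]
variable (P : Part A) {K : Kah A} {γ : Pot A} (D : ∀ i, Loc A K γ μ i) (s δ : ℝ)

/-- a summand of the soft maximum -/
def ak (k : A.ι) (x : M) : ℝ := P.χ k x ^ 2 * Real.exp (reg (D k) δ (A.e k x) / s)

theorem ak_nonneg (k : A.ι) (x : M) : 0 ≤ ak P D s δ k x :=
  mul_nonneg (sq_nonneg _) (Real.exp_pos _).le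

theorem ak_pos {k : A.ι} {x : M} (h : P.χ k x ≠ 0) : 0 < ak P D s δ k x :=
  mul_pos (by positivity) (Real.exp_pos _)

theorem reg_contDiffOn (k : A.ι) : ContDiffOn ℝ ∞ (reg (D k) δ) (A.e k).target :=
  (moll_contDiff (D k).locInt δ).contDiffOn.sub (γ.sm k)

theorem reg_at {k : A.ι} {z : Cn n} (hz : z ∈ (A.e k).target) : ContDiffAt ℝ 2 (reg (D k) δ) z :=
  ((reg_contDiffOn D δ k).contDiffAt ((A.e k).open_target.mem_nhds hz)).of_le two_le_inf

/-- the summand in its own chart -/
def Ak (k : A.ι) (y : Cn n) : ℝ :=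
  P.χ k ((A.e k).symm y) ^ 2 * Real.exp (reg (D k) δ y / s)

theorem Ak_contDiffOn (k : A.ι) : ContDiffOn ℝ ∞ (Ak P D s δ k) (A.e k).target :=
  ((P.χ_sm k k).pow 2).mul (((reg_contDiffOn D δ k).div_const s).exp)

theorem ak_sm (k : A.ι) : A.Sm (ak P D s δ k) := by
  refine sm_of_smAt (j := k) ?_ (isClosed_tsupport (P.χ k)) (P.χ_sub k) fun x hx => ?_
  · refine (Ak_contDiffOn P D s δ k).congr fun z hz => ?_
    unfold ak Ak
    rw [(A.e k).right_inv hz]
  · unfold ak
    rw [image_eq_zero_of_notMem_tsupport hx]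
    ring

variable [Fintype A.ι]

/-- the sum -/
def Sk (x : M) : ℝ := ∑ k, ak P D s δ k x

theorem Sk_sm : A.Sm (Sk P D s δ) := by
  intro i
  have h : ContDiffOn ℝ ∞ (fun z => ∑ k, ak P D s δ k ((A.e i).symm z)) (A.e i).target :=
    ContDiffOn.sum fun k _ => ak_sm P D s δ k i
  exact h

omit [MeasurableSpace M] [BorelSpace M] in
theorem exists_one (x : M) : ∃ l, x ∈ tsupport (P.χ l) ∧ P.χ l x = 1 := by
  have h1 : ∃ l, P.ψ l x ≠ 0 := by
    by_contra hcon
    push Not at hcon
    have := P.sum_one x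
    simp only [hcon, finsum_zero] at this
    exact zero_ne_one this
  obtain ⟨l, hl⟩ := h1
  have h2 : P.χ l x = 1 := (P.χ_one l x (subset_tsupport _ hl)).self_of_nhds
  refine ⟨l, subset_tsupport _ ?_, h2⟩
  rw [Function.mem_support, h2]
  exact one_ne_zero

theorem Sk_pos (x : M) : 0 < Sk P D s δ x := by
  obtain ⟨l, -, hl⟩ := exists_one P x
  exact Finset.sum_pos' (fun k _ => ak_nonneg P D s δ k x) ⟨l, Finset.mem_univ l,
    ak_pos P D s δ (by rw [hl]; exact one_ne_zero)⟩

/-- the regularisation -/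
def phi (x : M) : ℝ := s * Real.log (Sk P D s δ x)

theorem phi_sm : A.Sm (phi P D s δ) := fun i =>
  contDiffOn_const.mul ((Sk_sm P D s δ i).log fun _ _ => (Sk_pos P D s δ _).ne')

open Classical in
/-- the active charts -/
def act (x : M) : Finset A.ι := Finset.univ.filter fun k => P.χ k x ≠ 0

theorem mem_act {x : M} {k : A.ι} : k ∈ act P x ↔ P.χ k x ≠ 0 := by
  classical
  simp [act]

theorem sum_act (x : M) : ∑ k ∈ act P x, ak P D s δ k x = Sk P D s δ x := by
  classical
  refine Finset.sum_subset (Finset.subset_univ _) fun k _ hk => ?_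
  rw [mem_act, not_not] at hk
  unfold ak
  rw [hk]
  ring

/-- the weights -/
def pk (k : A.ι) (x : M) : ℝ := ak P D s δ k x / Sk P D s δ x

theorem pk_nonneg (k : A.ι) (x : M) : 0 ≤ pk P D s δ k x :=
  div_nonneg (ak_nonneg P D s δ k x) (Sk_pos P D s δ x).le

theorem sum_pk (x : M) : ∑ k ∈ act P x, pk P D s δ k x = 1 := by
  unfold pk
  rw [← Finset.sum_div, sum_act, div_self (Sk_pos P D s δ x).ne']

variable {s δ}

/-- the comparison hypothesis -/
def Cmp (s δ : ℝ) : Prop := ∀ k l, ∀ y ∈ tsupport (P.χ k) ∩ tsupport (P.χ l),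
  reg (D k) δ (A.e k y) ≤ reg (D l) δ (A.e l y) + s

theorem q_le (hs : 0 < s) (hcmp : Cmp P D s δ) {x : M} {k : A.ι} (hk : x ∈ tsupport (P.χ k)) :
    Real.exp (reg (D k) δ (A.e k x) / s) ≤ 3 * Sk P D s δ x := by
  obtain ⟨l, hl, hl1⟩ := exists_one P x
  have h1 := hcmp k l x ⟨hk, hl⟩
  have h2 : ak P D s δ l x ≤ Sk P D s δ x :=
    Finset.single_le_sum (f := fun k => ak P D s δ k x) (fun k _ => ak_nonneg P D s δ k x)
      (Finset.mem_univ l)
  unfold ak at h2
  rw [hl1, one_pow, one_mul] at h2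
  have h3 : reg (D k) δ (A.e k x) / s ≤ 1 + reg (D l) δ (A.e l x) / s := by
    have h4 := div_le_div_of_nonneg_right h1 hs.le
    rw [add_div, div_self hs.ne'] at h4
    linarith
  calc Real.exp (reg (D k) δ (A.e k x) / s)
      ≤ Real.exp (1 + reg (D l) δ (A.e l x) / s) := Real.exp_le_exp.2 h3
    _ = Real.exp 1 * Real.exp (reg (D l) δ (A.e l x) / s) := Real.exp_add _ _
    _ ≤ 3 * Sk P D s δ x := mul_le_mul Real.exp_one_lt_three.le h2 (Real.exp_pos _).le (by norm_num)

/-- `lv` of `log` of one summand -/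
theorem lv_log_ak (hs : 0 < s) {i k : A.ι} {z0 : Cn n} (hz0 : z0 ∈ (A.e i).target)
    (hk : P.χ k ((A.e i).symm z0) ≠ 0) (v : Cn n) :
    s * lv (fun z => Real.log (ak P D s δ k ((A.e i).symm z))) z0 v
      = s * lv (fun y => Real.log (P.χ k ((A.e k).symm y) ^ 2)) (TT A i k z0)
          (fderiv ℂ (TT A i k) z0 v)
        + (lv (moll (D k).f δ) (TT A i k z0) (fderiv ℂ (TT A i k) z0 v) - lv (γ.w i) z0 v) := by
  have hxs : (A.e i).symm z0 ∈ (A.e k).source := P.χ_sub k (subset_tsupport _ hk)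
  have hzo : z0 ∈ A.ov i k := ⟨hz0, hxs⟩
  set y0 := TT A i k z0 with hy0
  set ξ := fderiv ℂ (TT A i k) z0 v with hξ
  have hy0t : y0 ∈ (A.e k).target := (TT_mem hzo).1
  have hsy : (A.e k).symm y0 = (A.e i).symm z0 := TT_symm hzo
  have hAk : ContDiffAt ℝ 2 (Ak P D s δ k) y0 :=
    ((Ak_contDiffOn P D s δ k).contDiffAt ((A.e k).open_target.mem_nhds hy0t)).of_le two_le_inf
  have hθ : ContDiffAt ℝ 2 (fun y => P.χ k ((A.e k).symm y)) y0 :=
    ((P.χ_sm k k).contDiffAt ((A.e k).open_target.mem_nhds hy0t)).of_le two_le_inf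
  have hθ0 : P.χ k ((A.e k).symm y0) ≠ 0 := by rwa [hsy]
  have hAk0 : Ak P D s δ k y0 ≠ 0 := mul_ne_zero (pow_ne_zero 2 hθ0) (Real.exp_pos _).ne'
  have e1 : (fun z => Real.log (ak P D s δ k ((A.e i).symm z))) =ᶠ[𝓝 z0]
      fun z => Real.log (Ak P D s δ k (TT A i k z)) := by
    filter_upwards [(isOpen_ov i k).mem_nhds hzo] with z hz
    unfold ak Ak
    rw [TT_symm hz]
    rfl
  rw [lv_congr e1, lv_comp_hol (u := fun y => Real.log (Ak P D s δ k y)) hzo (hAk.log hAk0), ← hξ,
    ← hy0]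
  have e2 : (fun y => Real.log (Ak P D s δ k y)) =ᶠ[𝓝 y0]
      fun y => Real.log (P.χ k ((A.e k).symm y) ^ 2) + s⁻¹ * reg (D k) δ y := by
    filter_upwards [hθ.continuousAt.eventually_ne hθ0] with y hy
    unfold Ak
    rw [Real.log_mul (pow_ne_zero 2 hy) (Real.exp_pos _).ne', Real.log_exp]
    ring
  have hlogθ : ContDiffAt ℝ 2 (fun y => Real.log (P.χ k ((A.e k).symm y) ^ 2)) y0 :=
    (hθ.pow 2).log (pow_ne_zero 2 hθ0)
  have hreg := reg_at D δ hy0t
  have hm : ContDiffAt ℝ 2 (moll (D k).f δ) y0 :=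
    ((moll_contDiff (D k).locInt δ).contDiffAt).of_le two_le_inf
  have hw : ContDiffAt ℝ 2 (γ.w k) y0 := w_at γ hy0t two_le_inf
  have e3 : lv (reg (D k) δ) y0 ξ = lv (moll (D k).f δ) y0 ξ - lv (γ.w k) y0 ξ := by
    have e4 : reg (D k) δ = fun y => moll (D k).f δ y + (-1) * γ.w k y := by
      funext y
      unfold reg
      ring
    rw [e4, lv_add hm (contDiffAt_const.mul hw), lv_const_mul hw]
    ring
  have e5 : lv (γ.w i) z0 v = lv (γ.w k) y0 ξ := γ.tr i k z0 hzo v
  rw [lv_congr e2, lv_add hlogθ (contDiffAt_const.mul hreg), lv_const_mul hreg, e3, e5]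
  field_simp

/-- **the core inequality** -/
theorem core (hs : 0 < s) (hcmp : Cmp P D s δ) {C : A.ι → ℝ} (hC0 : ∀ k, 0 ≤ C k)
    (hC : ∀ k, ∀ z ∈ A.e k '' tsupport (P.χ k), P.χ k ((A.e k).symm z) ≠ 0 → ∀ v,
      -(C k * om K k z v) ≤ P.χ k ((A.e k).symm z) ^ 2 *
        lv (fun y => Real.log (P.χ k ((A.e k).symm y) ^ 2)) z v)
    {i : A.ι} {z0 : Cn n} (hz0 : z0 ∈ (A.e i).target) (v : Cn n) :
    (∑ k ∈ act P ((A.e i).symm z0), pk P D s δ k ((A.e i).symm z0) *
      lv (moll (D k).f δ) (TT A i k z0) (fderiv ℂ (TT A i k) z0 v))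
      - 3 * s * (∑ k, C k) * om K i z0 v
      ≤ lv (fun y => γ.w i y + phi P D s δ ((A.e i).symm y)) z0 v := by
  classical
  set x0 := (A.e i).symm z0 with hx0
  have hSat : ContDiffAt ℝ 2 (fun z => Sk P D s δ ((A.e i).symm z)) z0 :=
    ((Sk_sm P D s δ i).contDiffAt ((A.e i).open_target.mem_nhds hz0)).of_le two_le_inf
  have haat : ∀ k, ContDiffAt ℝ 2 (fun z => ak P D s δ k ((A.e i).symm z)) z0 := fun k =>
    ((ak_sm P D s δ k i).contDiffAt ((A.e i).open_target.mem_nhds hz0)).of_le two_le_inf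
  have hS0 : 0 < Sk P D s δ x0 := Sk_pos P D s δ x0
  have hlogS : ContDiffAt ℝ 2 (fun z => Real.log (Sk P D s δ ((A.e i).symm z))) z0 :=
    hSat.log hS0.ne'
  have hwi : ContDiffAt ℝ 2 (γ.w i) z0 := w_at γ hz0 two_le_inf
  have e0 : lv (fun y => γ.w i y + phi P D s δ ((A.e i).symm y)) z0 v
      = lv (γ.w i) z0 v + s * lv (fun z => Real.log (Sk P D s δ ((A.e i).symm z))) z0 v := by
    unfold phi
    rw [lv_add hwi (contDiffAt_const.mul hlogS), lv_const_mul hlogS]
  have hL := lse (act P x0) (a := fun k z => ak P D s δ k ((A.e i).symm z))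
    (S := fun z => Sk P D s δ ((A.e i).symm z)) (fun k _ => haat k)
    (fun k hk => ak_pos P D s δ ((mem_act P).1 hk)) hSat hS0
    (Eventually.of_forall fun z => Finset.sum_le_sum_of_subset_of_nonneg (Finset.subset_univ _)
      fun k _ _ => ak_nonneg P D s δ k _) (sum_act P D s δ x0) v
  have hL2 : ∑ k ∈ act P x0, pk P D s δ k x0 *
      (s * lv (fun z => Real.log (ak P D s δ k ((A.e i).symm z))) z0 v)
      ≤ s * lv (fun z => Real.log (Sk P D s δ ((A.e i).symm z))) z0 v := by
    have := mul_le_mul_of_nonneg_left hL hs.le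
    rw [Finset.mul_sum] at this
    refine le_trans (le_of_eq ?_) this
    refine Finset.sum_congr rfl fun k _ => ?_
    change ak P D s δ k x0 / Sk P D s δ x0 * _ = s * (ak P D s δ k x0 / Sk P D s δ x0 * _)
    ring
  have hterm : ∀ k ∈ act P x0, pk P D s δ k x0 *
      lv (moll (D k).f δ) (TT A i k z0) (fderiv ℂ (TT A i k) z0 v)
      - pk P D s δ k x0 * lv (γ.w i) z0 v - 3 * s * C k * om K i z0 v
      ≤ pk P D s δ k x0 * (s * lv (fun z => Real.log (ak P D s δ k ((A.e i).symm z))) z0 v) := by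
    intro k hk
    have hχ := (mem_act P).1 hk
    have hxt : x0 ∈ tsupport (P.χ k) := subset_tsupport _ hχ
    have hzo : z0 ∈ A.ov i k := ⟨hz0, P.χ_sub k hxt⟩
    rw [lv_log_ak P D hs hz0 hχ v]
    have hsy : (A.e k).symm (TT A i k z0) = x0 := TT_symm hzo
    have hyX : TT A i k z0 ∈ A.e k '' tsupport (P.χ k) := ⟨x0, hxt, rfl⟩
    have h1 := hC k _ hyX (by rwa [hsy]) (fderiv ℂ (TT A i k) z0 v)
    rw [hsy, ← om_tr K hzo v] at h1
    set Λ := lv (fun y => Real.log (P.χ k ((A.e k).symm y) ^ 2)) (TT A i k z0)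
      (fderiv ℂ (TT A i k) z0 v) with hΛ
    set E := Real.exp (reg (D k) δ (A.e k x0) / s) with hE
    have hq : E ≤ 3 * Sk P D s δ x0 := q_le P D hs hcmp hxt
    have hpk : pk P D s δ k x0 = P.χ k x0 ^ 2 * (E / Sk P D s δ x0) := by
      unfold pk ak
      ring
    have hq0 : 0 ≤ E / Sk P D s δ x0 := div_nonneg (Real.exp_pos _).le hS0.le
    have hq1 : E / Sk P D s δ x0 ≤ 3 := by rwa [div_le_iff₀ hS0]
    have hom : 0 ≤ om K i z0 v := om_nonneg K hz0 v
    have h2 : -(3 * (C k * om K i z0 v)) ≤ pk P D s δ k x0 * Λ := by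
      have h3 := mul_le_mul_of_nonneg_left h1 hq0
      have h4 : E / Sk P D s δ x0 * (C k * om K i z0 v) ≤ 3 * (C k * om K i z0 v) :=
        mul_le_mul_of_nonneg_right hq1 (mul_nonneg (hC0 k) hom)
      rw [hpk]
      nlinarith
    have h5 : -(3 * s * C k * om K i z0 v) ≤ pk P D s δ k x0 * (s * Λ) := by
      have := mul_le_mul_of_nonneg_left h2 hs.le
      linarith
    linarith
  have hsum := Finset.sum_le_sum hterm
  rw [Finset.sum_sub_distrib, Finset.sum_sub_distrib, ← Finset.sum_mul, sum_pk, one_mul] at hsum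
  have hCs : ∑ k ∈ act P x0, 3 * s * C k * om K i z0 v ≤ 3 * s * (∑ k, C k) * om K i z0 v := by
    have h6 : ∑ k ∈ act P x0, 3 * s * C k * om K i z0 v
        = 3 * s * (∑ k ∈ act P x0, C k) * om K i z0 v := by
      rw [Finset.mul_sum, Finset.sum_mul]
    rw [h6]
    have h7 : ∑ k ∈ act P x0, C k ≤ ∑ k, C k :=
      Finset.sum_le_sum_of_subset_of_nonneg (Finset.subset_univ _) fun k _ _ => hC0 k
    exact mul_le_mul_of_nonneg_right (mul_le_mul_of_nonneg_left h7 (by positivity))
      (om_nonneg K hz0 v)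
  rw [e0]
  linarith

end

end Crest.Agent.R269.GlueJ_390
end

-- ▼ part R269/RegProof_390

/-!
# R269 (S0411), leaf L8 (helper390): THEOREM REG (Part 9), `regStmt : RegStmt`
-/

set_option autoImplicit false
set_option linter.unusedSectionVars false

open MeasureTheory Set Metric Filter Topology Module
open scoped ContDiff Pointwise NNReal Matrix ComplexConjugate ComplexOrder

namespace Crest.Agent.R269.RegProof_390

open Crest.Agent.R275.Geo Crest.Agent.R275.Core144 Crest.Agent.R275.EDR890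
open Crest.Agent.R273.Kah_333 Crest.Agent.R273.Vol_333 Crest.Agent.R275.C1d194
open Crest.Agent.R273.C0d_390 Crest.Agent.R269.GlueB_390 Crest.Agent.R269.GlueC_390
open Crest.Agent.R269.GlueD_390 Crest.Agent.R269.GlueE_390 Crest.Agent.R269.GlueF_390
open Crest.Agent.R269.GlueG_390 Crest.Agent.R269.GlueH_390 Crest.Agent.R269.GlueI_390
open Crest.Agent.R269.GlueJ_390 Crest.Agent.R269.RegStmt_848

noncomputable section

variable {n : ℕ} {M : Type} [TopologicalSpace M] {A : Atl n M}
variable [MeasurableSpace M] [BorelSpace M] {μ : Measure M} [IsFiniteMeasure μ]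
variable (P : Part A) {K : Kah A} {γ : Pot A} (D : ∀ i, Loc A K γ μ i) {s δ c e τ : ℝ}
variable [Fintype A.ι]

/-- the determinant inequality of the glued function -/
theorem ma_glue [NeZero n] (hc : 0 ≤ c) (H : Weak K γ c μ) (hs : 0 < s) (hδ : 0 < δ)
    (hcmp : Cmp P D s δ) {C : A.ι → ℝ} (hC0 : ∀ k, 0 ≤ C k)
    (hC : ∀ k, ∀ z ∈ A.e k '' tsupport (P.χ k), P.χ k ((A.e k).symm z) ≠ 0 → ∀ v,
      -(C k * om K k z v) ≤ P.χ k ((A.e k).symm z) ^ 2 *
        lv (fun y => Real.log (P.χ k ((A.e k).symm y) ^ 2)) z v)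
    (hτ0 : 0 < τ) (hτ1 : τ < 1)
    (hdg : ∀ k, ∀ z ∈ A.e k '' tsupport (P.χ k), ∀ t ∈ closedBall z δ,
      (1 - τ) ^ n * dg K k z ≤ dg K k t)
    (hZ : ∀ k, ∀ z ∈ A.e k '' tsupport (P.χ k), closedBall z δ ⊆ (D k).Z)
    {i : A.ι} {z0 : Cn n} (hz0 : z0 ∈ (A.e i).target) (b : Matrix (Fin n) (Fin n) ℂ) :
    n * c * ((1 - τ) * (‖b.det‖ ^ 2 * dg K i z0) ^ ((1 : ℝ) / n))
      - 3 / 4 * s * (∑ k, C k) * ∑ k, om K i z0 (col b k)
      ≤ trb (fun y => γ.w i y + phi P D s δ ((A.e i).symm y)) z0 b := by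
  set x0 := (A.e i).symm z0 with hx0
  have hn : (n : ℝ) ≠ 0 := Nat.cast_ne_zero.2 (NeZero.ne n)
  have h1 : ∀ k, _ := fun k => core P D hs hcmp hC0 hC hz0 (col b k)
  have h2 : ∑ k, ((∑ l ∈ act P x0, pk P D s δ l x0 * lv (moll (D l).f δ) (TT A i l z0)
      (fderiv ℂ (TT A i l) z0 (col b k))) - 3 * s * (∑ l, C l) * om K i z0 (col b k)) / 4
      ≤ trb (fun y => γ.w i y + phi P D s δ ((A.e i).symm y)) z0 b := by
    unfold trb
    refine Finset.sum_le_sum fun k _ => ?_
    have := h1 k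
    linarith
  refine le_trans ?_ h2
  have e1 : ∑ k, ((∑ l ∈ act P x0, pk P D s δ l x0 * lv (moll (D l).f δ) (TT A i l z0)
      (fderiv ℂ (TT A i l) z0 (col b k))) - 3 * s * (∑ l, C l) * om K i z0 (col b k)) / 4
      = (∑ l ∈ act P x0, pk P D s δ l x0 *
          trb (moll (D l).f δ) (TT A i l z0) (Jm A i l x0 * b))
        - 3 / 4 * s * (∑ l, C l) * ∑ k, om K i z0 (col b k) := by
    have e2 : ∀ k, ((∑ l ∈ act P x0, pk P D s δ l x0 * lv (moll (D l).f δ) (TT A i l z0)
        (fderiv ℂ (TT A i l) z0 (col b k))) - 3 * s * (∑ l, C l) * om K i z0 (col b k)) / 4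
        = (∑ l ∈ act P x0, pk P D s δ l x0 * (lv (moll (D l).f δ) (TT A i l z0)
          (col (Jm A i l x0 * b) k) / 4)) - 3 / 4 * s * (∑ l, C l) * om K i z0 (col b k) := by
      intro k
      rw [sub_div, Finset.sum_div]
      congr 1
      · refine Finset.sum_congr rfl fun l _ => ?_
        rw [fderiv_TT_col hz0]
        ring
      · ring
    simp only [e2]
    rw [Finset.sum_sub_distrib, ← Finset.mul_sum, Finset.sum_comm]
    congr 1
    refine Finset.sum_congr rfl fun l _ => ?_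
    unfold trb
    rw [Finset.mul_sum]
  rw [e1]
  refine sub_le_sub_right ?_ _
  -- each active chart
  have h3 : ∀ l ∈ act P x0, n * c * ((1 - τ) * (‖b.det‖ ^ 2 * dg K i z0) ^ ((1 : ℝ) / n))
      ≤ trb (moll (D l).f δ) (TT A i l z0) (Jm A i l x0 * b) := by
    intro l hl
    have hχ := (mem_act P).1 hl
    have hxt : x0 ∈ tsupport (P.χ l) := subset_tsupport _ hχ
    have hzo : z0 ∈ A.ov i l := ⟨hz0, P.χ_sub l hxt⟩
    have hyX : TT A i l z0 ∈ A.e l '' tsupport (P.χ l) := ⟨x0, hxt, rfl⟩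
    have hdp : 0 < dg K l (TT A i l z0) := dg_pos K (TT_mem hzo).1
    have h4 := (D l).ma hc H hδ (hZ l _ hyX)
      (mul_nonneg (pow_nonneg (by linarith) n) hdp.le) (hdg l _ hyX) (Jm A i l x0 * b)
    refine le_trans (le_of_eq ?_) h4
    congr 1
    have e3 : ‖(Jm A i l x0 * b).det‖ ^ 2 * ((1 - τ) ^ n * dg K l (TT A i l z0))
        = (1 - τ) ^ n * (‖b.det‖ ^ 2 * dg K i z0) := by
      rw [dg_tr K hzo, Matrix.det_mul, norm_mul]
      ring
    rw [e3, Real.mul_rpow (pow_nonneg (by linarith) n)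
      (mul_nonneg (by positivity) (dg_pos K hz0).le)]
    congr 1
    rw [one_div, Real.pow_rpow_inv_natCast (by linarith) (NeZero.ne n)]
  calc n * c * ((1 - τ) * (‖b.det‖ ^ 2 * dg K i z0) ^ ((1 : ℝ) / n))
      = ∑ l ∈ act P x0, pk P D s δ l x0 *
          (n * c * ((1 - τ) * (‖b.det‖ ^ 2 * dg K i z0) ^ ((1 : ℝ) / n))) := by
        rw [← Finset.sum_mul, sum_pk, one_mul]
    _ ≤ _ := Finset.sum_le_sum fun l hl =>
        mul_le_mul_of_nonneg_left (h3 l hl) (pk_nonneg P D s δ l x0)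

/-- positivity of the glued form -/
theorem pos_glue [NeZero n] (hc : 0 ≤ c) (H : Weak K γ c μ) (hs : 0 < s) (hδ : 0 < δ)
    (hcmp : Cmp P D s δ) {C : A.ι → ℝ} (hC0 : ∀ k, 0 ≤ C k)
    (hC : ∀ k, ∀ z ∈ A.e k '' tsupport (P.χ k), P.χ k ((A.e k).symm z) ≠ 0 → ∀ v,
      -(C k * om K k z v) ≤ P.χ k ((A.e k).symm z) ^ 2 *
        lv (fun y => Real.log (P.χ k ((A.e k).symm y) ^ 2)) z v)
    (hZ : ∀ k, ∀ z ∈ A.e k '' tsupport (P.χ k), closedBall z δ ⊆ (D k).Z)
    {i : A.ι} {z0 : Cn n} (hz0 : z0 ∈ (A.e i).target) (v : Cn n) :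
    -(3 * s * (∑ k, C k) * om K i z0 v)
      ≤ lv (fun y => γ.w i y + phi P D s δ ((A.e i).symm y)) z0 v := by
  have h1 := core P D hs hcmp hC0 hC hz0 v
  have h2 : 0 ≤ ∑ k ∈ act P ((A.e i).symm z0), pk P D s δ k ((A.e i).symm z0) *
      lv (moll (D k).f δ) (TT A i k z0) (fderiv ℂ (TT A i k) z0 v) := by
    refine Finset.sum_nonneg fun k hk => mul_nonneg (pk_nonneg P D s δ k _) ?_
    have hχ := (mem_act P).1 hk
    have hyX : TT A i k z0 ∈ A.e k '' tsupport (P.χ k) := ⟨_, subset_tsupport _ hχ, rfl⟩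
    exact (D k).lv_nonneg hc H hδ (hZ k _ hyX) _
  linarith

/-- **THEOREM REG** -/
theorem regStmt : RegStmt := by
  intro n _ M _ _ _ _ _ A _ hP K γ c hc μ _ H e he
  obtain ⟨P⟩ := hP
  have : Fintype A.ι := Fintype.ofFinite A.ι
  have hXc : ∀ k, IsCompact (A.e k '' tsupport (P.χ k)) := fun k =>
    (P.χ_cpt k).image_of_continuousOn ((A.e k).continuousOn.mono (P.χ_sub k))
  have hXt : ∀ k, A.e k '' tsupport (P.χ k) ⊆ (A.e k).target := by
    rintro k _ ⟨x, hx, rfl⟩
    exact (A.e k).map_source (P.χ_sub k hx)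
  have hD : ∀ k, ∃ D : Loc A K γ μ k, A.e k '' tsupport (P.χ k) ⊆ interior D.Z := by
    intro k
    obtain ⟨Z, hZ, hXZ, hZt⟩ := exists_compact_between (hXc k) (A.e k).open_target (hXt k)
    obtain ⟨D, hD⟩ := exists_loc hc H k hZ hZt
    exact ⟨D, by rw [hD]; exact hXZ⟩
  choose D hDZ using hD
  have hCk : ∀ k, ∃ C : ℝ, 0 ≤ C ∧ ∀ z ∈ A.e k '' tsupport (P.χ k),
      P.χ k ((A.e k).symm z) ≠ 0 → ∀ v, -(C * om K k z v) ≤ P.χ k ((A.e k).symm z) ^ 2 *
        lv (fun y => Real.log (P.χ k ((A.e k).symm y) ^ 2)) z v := fun k =>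
    cut_bound K k (θ := fun y => P.χ k ((A.e k).symm y)) (hXc k) (hXt k) fun z hz =>
      ((P.χ_sm k k).contDiffAt ((A.e k).open_target.mem_nhds (hXt k hz))).of_le two_le_inf
  choose C hC0 hC using hCk
  set Ct := ∑ k, C k with hCt
  have hCt0 : 0 ≤ Ct := Finset.sum_nonneg fun k _ => hC0 k
  set s := e / (Ct + 1) with hs
  have hs0 : 0 < s := div_pos he (by linarith)
  have hsC : s * Ct ≤ e := by
    rw [hs, div_mul_eq_mul_div, div_le_iff₀ (by linarith)]
    nlinarith
  set τ := min (1 / 2) (e / (c + 1)) with hτ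
  have hτ0 : 0 < τ := lt_min (by norm_num) (div_pos he (by linarith))
  have hτ1 : τ < 1 := lt_of_le_of_lt (min_le_left _ _) (by norm_num)
  have hcτ : c * τ ≤ e := by
    have h1 : τ ≤ e / (c + 1) := min_le_right _ _
    have h2 : c * τ ≤ c * (e / (c + 1)) := mul_le_mul_of_nonneg_left h1 hc
    refine h2.trans ?_
    rw [mul_div_assoc', div_le_iff₀ (by linarith)]
    nlinarith
  have hq : (1 - τ) ^ n < 1 := pow_lt_one₀ (by linarith) (by linarith) (NeZero.ne n)
  -- choice of `δ`
  have hE1 : ∀ᶠ δ in 𝓝[>] (0 : ℝ), Cmp P D s δ := by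
    unfold Cmp
    rw [eventually_all]
    intro k
    rw [eventually_all]
    intro l
    refine cmp_unif hc H (D k) (D l) ?_ ?_ ?_ ?_ ?_ hs0
    · exact (P.χ_cpt k).inter_right (isClosed_tsupport _)
    · exact inter_subset_left.trans (P.χ_sub k)
    · exact inter_subset_right.trans (P.χ_sub l)
    · exact (image_mono inter_subset_left).trans (hDZ k)
    · exact (image_mono inter_subset_right).trans (hDZ l)
  have hE2 : ∀ᶠ δ in 𝓝[>] (0 : ℝ), ∀ k, ∀ z ∈ A.e k '' tsupport (P.χ k), ∀ t ∈ closedBall z δ,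
      (1 - τ) ^ n * dg K k z ≤ dg K k t := by
    rw [eventually_all]
    exact fun k => dg_unif K k (hXc k) (hXt k) hq
  have hE3 : ∀ᶠ δ in 𝓝[>] (0 : ℝ), ∀ k, ∀ z ∈ A.e k '' tsupport (P.χ k),
      closedBall z δ ⊆ (D k).Z := by
    rw [eventually_all]
    intro k
    obtain ⟨r, hr, hrs⟩ := (hXc k).exists_cthickening_subset_open isOpen_interior (hDZ k)
    have h1 : ∀ᶠ δ in 𝓝[>] (0 : ℝ), δ < r := nhdsWithin_le_nhds (gt_mem_nhds hr)
    filter_upwards [h1] with δ hδ z hz
    exact (closedBall_subset_cthickening hz δ).trans ((cthickening_mono hδ.le _).trans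
      (hrs.trans interior_subset))
  have hE4 : ∀ᶠ δ in 𝓝[>] (0 : ℝ), 0 < δ := self_mem_nhdsWithin
  obtain ⟨δ, hcmp, hdg, hZ, hδ⟩ := (hE1.and (hE2.and (hE3.and hE4))).exists
  refine ⟨phi P D s δ, phi_sm P D s δ, ?_, ?_⟩
  · intro i z0 hz0 b
    have h1 := ma_glue P D hc H hs0 hδ hcmp hC0 hC hτ0 hτ1 hdg hZ hz0 b
    set X := (‖b.det‖ ^ 2 * dg K i z0) ^ ((1 : ℝ) / n) with hX
    have hX0 : 0 ≤ X := Real.rpow_nonneg (mul_nonneg (by positivity) (dg_pos K hz0).le) _
    have hO : 0 ≤ ∑ k, om K i z0 (col b k) := Finset.sum_nonneg fun k _ => om_nonneg K hz0 _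
    have h2 : (n : ℝ) * (c - e) * X ≤ n * c * ((1 - τ) * X) := by
      have h3 : 0 ≤ (n : ℝ) * X := by positivity
      nlinarith [mul_le_mul_of_nonneg_left hcτ h3]
    have h4 : 3 / 4 * s * Ct * ∑ k, om K i z0 (col b k) ≤ e * ∑ k, om K i z0 (col b k) := by
      refine mul_le_mul_of_nonneg_right ?_ hO
      have : 0 ≤ s * Ct := by positivity
      linarith
    linarith
  · intro i z0 hz0 v hv
    have h1 := pos_glue P D hc H hs0 hδ hcmp hC0 hC hZ hz0 v
    have hO : 0 < om K i z0 v := om_pos K hz0 hv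
    have h2 : 3 * s * Ct * om K i z0 v ≤ 3 * e * om K i z0 v := by
      refine mul_le_mul_of_nonneg_right ?_ hO.le
      linarith
    nlinarith [mul_pos he hO]

end

end Crest.Agent.R269.RegProof_390
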