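import Mathlib
import Crest.Agent.R269.Fib_402
import Crest.Agent.R269.Hardy_142
import Crest.Agent.R269.Wold_290
import Crest.Agent.R269.Geo0_632

/-!
# R269 (S0411), Line B, WOLD-INST: the module `M(H)` (helper402)

`VQ Y H c z = (∑ c_j(z) X_j(H z)) ∧ H z`; `Bdy F Q`: `Q` is the `H²` boundary function of `F`;
`MM Y H` = closure in `L²(circle; FF N)` of the boundary functions of the `VQ Y H c`.
-/

set_option autoImplicit false

open MvPolynomial Crest.AlgGeometry.ProjEmb Crest.Agent.R269.Geo_328 Crest.Agent.R269.DefsS_731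
open Crest.Agent.R269.Fib_402 Crest.Agent.R269.Hardy_142 MeasureTheory Filter Metric Set
open scoped ContDiff Topology ComplexConjugate ENNReal

namespace Crest.Agent.R269.Mod_402

noncomputable section

variable {N n : ℕ} {I : Ideal (HomCoordRing N)}

/-! ### Hardy space: functionals on `L²` -/

section L2

variable {E : Type*} [NormedAddCommGroup E] [InnerProductSpace ℂ E] [FiniteDimensional ℂ E]

omit [InnerProductSpace ℂ E] [FiniteDimensional ℂ E] in
theorem integral_norm_le (f : Lp E 2 mu) : ∫ t, ‖f t‖ ∂mu ≤ ‖f‖ := by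
  have h1 : ‖f‖ = (eLpNorm f 2 mu).toReal := Lp.norm_def f
  have h2 : ∫ t, ‖f t‖ ∂mu = (eLpNorm f 1 mu).toReal := by
    rw [eLpNorm_one_eq_lintegral_enorm]
    rw [integral_norm_eq_lintegral_enorm (Lp.aestronglyMeasurable f)]
  rw [h1, h2]
  refine ENNReal.toReal_mono (Lp.eLpNorm_ne_top f) ?_
  exact eLpNorm_le_eLpNorm_of_exponent_le (by norm_num) (Lp.aestronglyMeasurable f)

omit [InnerProductSpace ℂ E] [FiniteDimensional ℂ E] in
theorem integrable_Lp (f : Lp E 2 mu) : Integrable f mu := (Lp.memLp f).integrable (by norm_num)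

/-- evaluation at a point of the disc, as a continuous linear map -/
def evL (w : ℂ) (hw : ‖w‖ < 1) : Lp E 2 mu →L[ℂ] E :=
  LinearMap.mkContinuous
    { toFun := fun f => ext f w
      map_add' := fun f g => by
        have := FiniteDimensional.complete ℂ E
        rw [← ext_add (integrable_Lp f) (integrable_Lp g) hw]
        exact congrFun (ext_congr (Lp.coeFn_add f g)) w
      map_smul' := fun c f => by
        rw [RingHom.id_apply, ← ext_const_smul c f w]
        exact congrFun (ext_congr (Lp.coeFn_smul c f)) w }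
    ((1 - ‖w‖)⁻¹) (fun f => by
      have h1 := norm_ext_le (integrable_Lp f) hw
      have h2 : 0 ≤ (1 - ‖w‖)⁻¹ := inv_nonneg.mpr (by linarith)
      exact h1.trans (mul_le_mul_of_nonneg_left (integral_norm_le f) h2))

@[simp] theorem evL_apply (w : ℂ) (hw : ‖w‖ < 1) (f : Lp E 2 mu) : evL w hw f = ext f w := rfl

/-- Fourier coefficient as a continuous linear map -/
def fcL (k : ℤ) : Lp E 2 mu →L[ℂ] E :=
  LinearMap.mkContinuous
    { toFun := fun f => fourierCoeff f k
      map_add' := fun f g => by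
        have := FiniteDimensional.complete ℂ E
        rw [fourierCoeff_congr_ae (Lp.coeFn_add f g)]
        exact congrFun (fourierCoeff.add (integrable_Lp f) (integrable_Lp g)) k
      map_smul' := fun c f => by
        rw [RingHom.id_apply, fourierCoeff_congr_ae (Lp.coeFn_smul c f)]
        exact fourierCoeff.const_smul (f : TT → E) c k }
    1 (fun f => by
      rw [one_mul]
      exact (norm_fourierCoeff_le (f : TT → E) k).trans (integral_norm_le f))

@[simp] theorem fcL_apply (k : ℤ) (f : Lp E 2 mu) : fcL k f = fourierCoeff f k := rfl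

/-- the Hardy space as a closed submodule -/
def HH (E : Type*) [NormedAddCommGroup E] [InnerProductSpace ℂ E] [FiniteDimensional ℂ E] :
    Submodule ℂ (Lp E 2 mu) := ⨅ k : {k : ℤ // k < 0}, LinearMap.ker (fcL (E := E) k.1).toLinearMap

theorem mem_HH {f : Lp E 2 mu} : f ∈ HH E ↔ IsH2 (f : TT → E) := by
  simp only [HH, Submodule.mem_iInf, LinearMap.mem_ker]
  constructor
  · intro h
    exact ⟨Lp.memLp f, fun k hk => h ⟨k, hk⟩⟩
  · intro h k
    exact h.coeff k.1 k.2

theorem isClosed_HH : IsClosed (HH E : Set (Lp E 2 mu)) := by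
  have : (HH E : Set (Lp E 2 mu)) = ⋂ k : {k : ℤ // k < 0}, {f | fcL (E := E) k.1 f = 0} := by
    ext f
    simp [HH]
  rw [this]
  exact isClosed_iInter fun k => isClosed_eq (fcL (E := E) k.1).continuous continuous_const

/-! ### multiplication by the coordinate -/

omit [FiniteDimensional ℂ E] in
theorem fourierCoeff_zt_smul (Q : TT → E) (k : ℤ) :
    fourierCoeff (fun t => zt t • Q t) k = fourierCoeff Q (k - 1) := by
  unfold fourierCoeff
  congr 1
  funext t
  rw [smul_smul]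
  congr 1
  have h1 : zt t = fourier 1 t := by
    have := fourier_nat 1 t
    simpa using this.symm
  have h2 : -k + 1 = -(k - 1) := by ring
  rw [h1, ← fourier_add, h2]

omit [FiniteDimensional ℂ E] in
theorem IsH2_zt_smul {Q : TT → E} (hQ : IsH2 Q) : IsH2 (fun t => zt t • Q t) := by
  refine ⟨?_, fun k hk => ?_⟩
  · refine MemLp.of_le hQ.memLp
      (continuous_zt.aestronglyMeasurable.smul hQ.memLp.aestronglyMeasurable) ?_
    refine Eventually.of_forall fun t => ?_
    rw [norm_smul, norm_zt, one_mul]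
  · rw [fourierCoeff_zt_smul]
    exact hQ.coeff _ (by omega)

theorem ext_zt_smul {Q : TT → E} (hQ : IsH2 Q) {w : ℂ} (hw : ‖w‖ < 1) :
    ext (fun t => zt t • Q t) w = w • ext Q w := by
  have hc := FiniteDimensional.complete ℂ E
  have h1 : ∀ t, (1 - w * conj (zt t))⁻¹ • zt t • Q t
      = zt t • Q t + w • (1 - w * conj (zt t))⁻¹ • Q t := by
    intro t
    have h2 : (1 - w * conj (zt t)) ≠ 0 := by
      intro h0
      have h3 : w * conj (zt t) = 1 := (sub_eq_zero.mp h0).symm
      have h4 := congrArg norm h3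
      rw [norm_mul, RCLike.norm_conj, norm_zt, mul_one, norm_one] at h4
      linarith
    have h5 : zt t * conj (zt t) = 1 := by
      rw [Complex.mul_conj, Complex.normSq_eq_norm_sq, norm_zt]; simp
    rw [smul_smul, smul_smul, ← add_smul]
    congr 1
    field_simp
    linear_combination w * h5
  have hi : Integrable (fun t => zt t • Q t) mu := (IsH2_zt_smul hQ).integrable
  unfold Hardy_142.ext
  simp only [h1]
  have hi2 : Integrable (fun t => w • (1 - w * conj (zt t))⁻¹ • Q t) mu :=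
    (integrable_kernel_smul hQ.integrable hw).smul w
  rw [integral_add hi hi2, integral_smul]
  have h6 : ∫ t, zt t • Q t ∂mu = 0 := by
    have h7 := hQ.coeff (-1) (by norm_num)
    unfold fourierCoeff at h7
    have h8 : ∀ t : TT, fourier (-(-1 : ℤ)) t = zt t := by
      intro t
      have := fourier_nat 1 t
      simpa using this
    simpa only [h8] using h7
  rw [h6, zero_add]

/-- multiplication by the coordinate on `L²` -/
abbrev mzT : Lp E 2 mu →ₗᵢ[ℂ] Lp E 2 mu := Wold290.mz (Wold290.uz_addCircle (T := 2 * Real.pi))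

omit [FiniteDimensional ℂ E] in
theorem coeFn_mzT (f : Lp E 2 mu) : (mzT f : TT → E) =ᵐ[mu] fun t => zt t • f t := by
  have h := Wold290.coeFn_mz (Wold290.uz_addCircle (T := 2 * Real.pi)) f
  filter_upwards [h] with t ht
  rw [ht]
  have := fourier_nat 1 t
  congr 1
  simpa using this

theorem mzT_mem_HH {f : Lp E 2 mu} (hf : f ∈ HH E) : mzT f ∈ HH E := by
  rw [mem_HH] at hf ⊢
  exact (IsH2_zt_smul hf).congr (coeFn_mzT f).symm

theorem ext_mzT {f : Lp E 2 mu} (hf : f ∈ HH E) {w : ℂ} (hw : ‖w‖ < 1) :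
    ext (mzT f : TT → E) w = w • ext (f : TT → E) w := by
  rw [ext_congr (coeFn_mzT f)]
  exact ext_zt_smul (mem_HH.mp hf) hw


end L2

/-! ### the module -/

/-- boundary function of `F` (an element of `H²`) -/
def Bdy (F : ℂ → FF N) (f : Lp (FF N) 2 mu) : Prop :=
  f ∈ HH (FF N) ∧ ∀ w : ℂ, ‖w‖ < 1 → ext (f : TT → FF N) w = F w

/-- `(∑ c_j(z) X_j(H z)) ∧ H z` -/
def VQ (Y : Flds I) (H : ℂ → EE N) (c : Fin Y.M → Polynomial ℂ) (z : ℂ) : FF N :=
  wE (Y.var c z (H z)) (H z)

theorem VQ_eq (Y : Flds I) (H : ℂ → EE N) (c : Fin Y.M → Polynomial ℂ) (z : ℂ) :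
    VQ Y H c z = ∑ j, (c j).eval z • wE (Y.at j (H z)) (H z) := by
  unfold VQ Flds.var
  rw [← wL_apply, map_sum]
  simp only [map_smul, wL_apply]

theorem VQ_add (Y : Flds I) (H : ℂ → EE N) (c d : Fin Y.M → Polynomial ℂ) (z : ℂ) :
    VQ Y H (c + d) z = VQ Y H c z + VQ Y H d z := by
  simp only [VQ_eq, Pi.add_apply, Polynomial.eval_add, add_smul, Finset.sum_add_distrib]

theorem VQ_smul (Y : Flds I) (H : ℂ → EE N) (a : ℂ) (c : Fin Y.M → Polynomial ℂ) (z : ℂ) :
    VQ Y H (a • c) z = a • VQ Y H c z := by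
  simp only [VQ_eq, Pi.smul_apply, Polynomial.eval_smul, smul_eq_mul, mul_smul, Finset.smul_sum]

theorem VQ_zero (Y : Flds I) (H : ℂ → EE N) (z : ℂ) : VQ Y H 0 z = 0 := by
  simp [VQ_eq]

theorem VQ_X (Y : Flds I) (H : ℂ → EE N) (c : Fin Y.M → Polynomial ℂ) (z : ℂ) :
    VQ Y H (fun j => Polynomial.X * c j) z = z • VQ Y H c z := by
  simp only [VQ_eq, Polynomial.eval_mul, Polynomial.eval_X, mul_smul, Finset.smul_sum]

/-- `VQ` has values in the fibres -/
theorem VQ_mem (Y : Flds I) (H : ℂ → EE N) (c : Fin Y.M → Polynomial ℂ) (z : ℂ)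
    (hz : H z ∈ Cone I) : VQ Y H c z ∈ Fib I (H z) := by
  rw [VQ_eq]
  refine Submodule.sum_mem _ fun j _ => Submodule.smul_mem _ _ ?_
  refine mem_Fib_iff.mpr ⟨Y.at j (H z), ?_, rfl⟩
  rw [← Y.span (H z) hz]
  exact Submodule.subset_span ⟨j, rfl⟩

theorem at_differentiable (Y : Flds I) (j : Fin Y.M) {H : ℂ → EE N} {s : Set ℂ}
    (hH : DifferentiableOn ℂ H s) : DifferentiableOn ℂ (fun z => Y.at j (H z)) s := by
  rw [differentiableOn_pi]
  intro k
  have h1 : Differentiable ℂ (fun p : EE N => MvPolynomial.eval p (Y.X j k)) :=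
    (Geo0_632.contDiff_eval (m := 1) (Y.X j k)).differentiable (by norm_num)
  exact h1.comp_differentiableOn hH

theorem wE_differentiable {V H : ℂ → EE N} {s : Set ℂ} (hV : DifferentiableOn ℂ V s)
    (hH : DifferentiableOn ℂ H s) : DifferentiableOn ℂ (fun z => wE (V z) (H z)) s := by
  have h1 : DifferentiableOn ℂ (fun z => (fun ij : Fin (N + 1) × Fin (N + 1) =>
      V z ij.1 * H z ij.2 - V z ij.2 * H z ij.1)) s := by
    rw [differentiableOn_pi] at hV hH ⊢
    intro ij
    exact ((hV ij.1).mul (hH ij.2)).sub ((hV ij.2).mul (hH ij.1))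
  exact ((EuclideanSpace.equiv (Fin (N + 1) × Fin (N + 1)) ℂ).symm.toContinuousLinearMap
    ).differentiable.comp_differentiableOn h1

theorem VQ_differentiable (Y : Flds I) {H : ℂ → EE N} (hH : IsDisc I H)
    (c : Fin Y.M → Polynomial ℂ) : DifferentiableOn ℂ (VQ Y H c) (ball 0 1) := by
  have h1 : (VQ Y H c) = fun z => ∑ j, (c j).eval z • wE (Y.at j (H z)) (H z) := by
    funext z
    exact VQ_eq Y H c z
  rw [h1]
  refine DifferentiableOn.fun_sum fun j _ => ?_
  exact (Polynomial.differentiable (c j)).differentiableOn.smul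
    (wE_differentiable (at_differentiable Y j hH.hol) hH.hol)

theorem isCompact_nsq_le : IsCompact {p : EE N | nsq p ≤ 1} := by
  have hc : Continuous (nsq : EE N → ℝ) := by
    unfold nsq
    fun_prop
  refine Metric.isCompact_of_isClosed_isBounded (isClosed_le hc continuous_const) ?_
  refine (Metric.isBounded_closedBall (x := (0 : EE N)) (r := 1)).subset fun p hp => ?_
  rw [mem_closedBall_zero_iff, pi_norm_le_iff_of_nonneg zero_le_one]
  intro i
  have h1 : ‖p i‖ ^ 2 ≤ 1 :=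
    (Finset.single_le_sum (f := fun i => ‖p i‖ ^ 2) (fun j _ => by positivity)
      (Finset.mem_univ i)).trans hp
  nlinarith [norm_nonneg (p i)]

theorem at_continuous (Y : Flds I) (j : Fin Y.M) : Continuous (fun p : EE N => Y.at j p) := by
  refine continuous_pi fun k => ?_
  exact MvPolynomial.continuous_eval (Y.X j k)

/-- uniform bound of the elementary sections -/
theorem exists_bound (Y : Flds I) : ∃ B : ℝ, 0 ≤ B ∧ ∀ p : EE N, nsq p ≤ 1 → ∀ j,
    ‖wE (Y.at j p) p‖ ≤ B := by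
  have h1 : ∀ j, ∃ B : ℝ, ∀ p : EE N, nsq p ≤ 1 → ‖wE (Y.at j p) p‖ ≤ B := by
    intro j
    have hc : Continuous (fun p : EE N => wE (Y.at j p) p) := by
      rw [continuous_iff_continuousAt]
      intro p
      exact tendsto_wE ((at_continuous Y j).tendsto p) tendsto_id
    obtain ⟨B, hB⟩ := (isCompact_nsq_le (N := N)).exists_bound_of_continuousOn hc.continuousOn
    exact ⟨B, fun p hp => hB p hp⟩
  choose B hB using h1
  refine ⟨∑ j, |B j|, Finset.sum_nonneg fun j _ => abs_nonneg _, fun p hp j => ?_⟩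
  exact (hB j p hp).trans ((le_abs_self _).trans
    (Finset.single_le_sum (f := fun j => |B j|) (fun j _ => abs_nonneg _) (Finset.mem_univ j)))

theorem exists_bound_VQ (Y : Flds I) (c : Fin Y.M → Polynomial ℂ) : ∃ B : ℝ, 0 ≤ B ∧
    ∀ (H : ℂ → EE N) (z : ℂ), ‖z‖ < 1 → nsq (H z) ≤ 1 → ‖VQ Y H c z‖ ≤ B := by
  obtain ⟨B, hB0, hB⟩ := exists_bound Y
  have h1 : ∀ j, ∃ C : ℝ, ∀ z : ℂ, ‖z‖ < 1 → ‖(c j).eval z‖ ≤ C := by
    intro j
    obtain ⟨C, hC⟩ := (isCompact_closedBall (0 : ℂ) 1).exists_bound_of_continuousOn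
      (Polynomial.continuous (c j)).continuousOn
    exact ⟨C, fun z hz => hC z (by rw [mem_closedBall_zero_iff]; exact hz.le)⟩
  choose C hC using h1
  refine ⟨∑ j, |C j| * B, Finset.sum_nonneg fun j _ => by positivity, fun H z hz hH => ?_⟩
  rw [VQ_eq]
  refine (norm_sum_le _ _).trans (Finset.sum_le_sum fun j _ => ?_)
  rw [norm_smul]
  exact mul_le_mul ((hC j z hz).trans (le_abs_self _)) (hB _ hH j) (norm_nonneg _) (abs_nonneg _)

/-- boundary functions exist -/
theorem exists_bdy (Y : Flds I) {H : ℂ → EE N} (hH : IsDisc I H)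
    (h1 : ∀ z ∈ ball (0 : ℂ) 1, nsq (H z) ≤ 1) (c : Fin Y.M → Polynomial ℂ) :
    ∃ f, Bdy (VQ Y H c) f := by
  obtain ⟨B, hB0, hB⟩ := exists_bound_VQ Y c
  obtain ⟨Q, hQ, hQe⟩ := exists_boundary (F := VQ Y H c) (VQ_differentiable Y hH c) (M := B ^ 2)
    (fun r hr => by
      have h2 : ∀ t : TT, ‖VQ Y H c (r * zt t)‖ ^ 2 ≤ B ^ 2 := by
        intro t
        have h3 : ‖(r : ℂ) * zt t‖ < 1 := by
          rw [norm_mul, norm_zt, mul_one, Complex.norm_real, Real.norm_eq_abs, abs_of_pos hr.1]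
          exact hr.2
        exact pow_le_pow_left₀ (norm_nonneg _)
          (hB H _ h3 (h1 _ (mem_ball_zero_iff.mpr h3))) 2
      calc ∫ t, ‖VQ Y H c (r * zt t)‖ ^ 2 ∂mu ≤ ∫ _t : TT, B ^ 2 ∂mu := by
            refine integral_mono_of_nonneg (Eventually.of_forall fun t => by positivity)
              (integrable_const _) (Eventually.of_forall h2)
        _ = B ^ 2 := by simp)
  refine ⟨hQ.memLp.toLp Q, ?_, fun w hw => ?_⟩
  · rw [mem_HH]
    exact hQ.congr hQ.memLp.coeFn_toLp.symm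
  · rw [ext_congr hQ.memLp.coeFn_toLp]
    exact hQe w hw

/-- polynomial combinations of the fields -/
def M0 (Y : Flds I) (H : ℂ → EE N) : Submodule ℂ (Lp (FF N) 2 mu) where
  carrier := {f | ∃ c, Bdy (VQ Y H c) f}
  add_mem' := by
    rintro f g ⟨c, hf, hc⟩ ⟨d, hg, hd⟩
    refine ⟨c + d, (HH (FF N)).add_mem hf hg, fun w hw => ?_⟩
    rw [VQ_add, ← hc w hw, ← hd w hw]
    exact (evL w hw).map_add f g
  zero_mem' := by
    refine ⟨0, (HH (FF N)).zero_mem, fun w hw => ?_⟩
    rw [VQ_zero]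
    exact (evL w hw).map_zero
  smul_mem' := by
    rintro a f ⟨c, hf, hc⟩
    refine ⟨a • c, (HH (FF N)).smul_mem a hf, fun w hw => ?_⟩
    rw [VQ_smul, ← hc w hw]
    exact (evL w hw).map_smul a f

/-- the module `M(H)` -/
def MM (Y : Flds I) (H : ℂ → EE N) : Submodule ℂ (Lp (FF N) 2 mu) := (M0 Y H).topologicalClosure

theorem isClosed_MM (Y : Flds I) (H : ℂ → EE N) : IsClosed (MM Y H : Set (Lp (FF N) 2 mu)) :=
  (M0 Y H).isClosed_topologicalClosure

theorem M0_le_HH (Y : Flds I) (H : ℂ → EE N) : M0 Y H ≤ HH (FF N) := by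
  rintro f ⟨c, hf, -⟩
  exact hf

theorem MM_le_HH (Y : Flds I) (H : ℂ → EE N) : MM Y H ≤ HH (FF N) :=
  (M0 Y H).topologicalClosure_minimal (M0_le_HH Y H) isClosed_HH

theorem mzT_mem_M0 {Y : Flds I} {H : ℂ → EE N} {f : Lp (FF N) 2 mu} (hf : f ∈ M0 Y H) :
    mzT f ∈ M0 Y H := by
  obtain ⟨c, hf1, hf2⟩ := hf
  refine ⟨fun j => Polynomial.X * c j, mzT_mem_HH hf1, fun w hw => ?_⟩
  rw [ext_mzT hf1 hw, VQ_X, hf2 w hw]

theorem mzT_mem_MM {Y : Flds I} {H : ℂ → EE N} {f : Lp (FF N) 2 mu} (hf : f ∈ MM Y H) :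
    mzT f ∈ MM Y H := by
  have h1 : MapsTo (mzT : Lp (FF N) 2 mu → Lp (FF N) 2 mu) (M0 Y H) (M0 Y H) :=
    fun g hg => mzT_mem_M0 hg
  exact h1.closure mzT.continuous hf

/-- values in the fibres inside the disc -/
theorem ext_mem_Fib {Y : Flds I} {H : ℂ → EE N} (hH : IsDisc I H) {f : Lp (FF N) 2 mu}
    (hf : f ∈ MM Y H) {w : ℂ} (hw : ‖w‖ < 1) : ext (f : TT → FF N) w ∈ Fib I (H w) := by
  have hcl : IsClosed {g : Lp (FF N) 2 mu | evL w hw g ∈ Fib I (H w)} :=
    (Submodule.closed_of_finiteDimensional (Fib I (H w))).preimage (evL w hw).continuous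
  have hsub : (M0 Y H : Set (Lp (FF N) 2 mu)) ⊆ {g | evL w hw g ∈ Fib I (H w)} := by
    rintro g ⟨c, -, hg⟩
    change ext (g : TT → FF N) w ∈ Fib I (H w)
    rw [hg w hw]
    exact VQ_mem Y H c w (hH.cone w (mem_ball_zero_iff.mpr hw))
  exact hcl.closure_subset_iff.mpr hsub hf

end

end Crest.Agent.R269.Mod_402
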