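import Crest.Agent.R271.G3b_792
import Crest.Agent.R276.LM3_976
import Crest.Agent.R271.Engine_51
import Crest.Agent.R271.T7a_297
import Crest.Agent.R271.L0_934
import Crest.Agent.R269.Amp3_243
import Crest.Agent.R269.Lev_901
import Crest.Agent.R269.Defs_58
import Crest.Agent.R269.GeoP_328

-- ▼ part R269/Peak1_976
section

/-!
# R269, leaf PK (helper976): peak sections, part 1: scalar functions and Levi forms

`exists_eta`  : concave smooth truncation of the identity with small second derivative.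
`exists_theta`: cutoff.
`lev_eta_lg_ge` : Levi form of `η (log (|f|² + δ))`.
`db_theta`    : `∂̄ (θ(|f|²) E)`, `E` holomorphic.
-/

set_option autoImplicit false
set_option linter.unusedSectionVars false

noncomputable section

open Set Filter Topology Complex MeasureTheory Metric
open scoped ENNReal ComplexConjugate

namespace Crest.Agent.R269.Peak1_976

open Crest.Agent.R271.Ho51 hiding Hol
open Crest.Agent.R271.W792

/-- derivative of the smooth transition is bounded -/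
theorem exists_bound_deriv_st : ∃ C : ℝ, 0 < C ∧ ∀ t, |deriv Real.smoothTransition t| ≤ C := by
  have hcd : ContDiff ℝ (⊤ : ℕ∞) Real.smoothTransition := Real.smoothTransition.contDiff
  have hc : Continuous (deriv Real.smoothTransition) :=
    (contDiff_infty_iff_deriv.1 hcd).2.continuous
  obtain ⟨C, hC⟩ := isCompact_Icc.exists_bound_of_continuousOn (s := Icc (0 : ℝ) 1) hc.continuousOn
  refine ⟨max C 1, by positivity, fun t => ?_⟩
  by_cases ht : t ∈ Icc (0 : ℝ) 1
  · exact (hC t ht).trans (le_max_left _ _)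
  · have h0 : deriv Real.smoothTransition t = 0 := by
      rw [mem_Icc, not_and_or, not_le, not_le] at ht
      rcases ht with ht | ht
      · have : Real.smoothTransition =ᶠ[𝓝 t] fun _ => 0 := by
          filter_upwards [Iio_mem_nhds ht] with s hs
          exact Real.smoothTransition.zero_of_nonpos hs.le
        rw [this.deriv_eq, deriv_const]
      · have : Real.smoothTransition =ᶠ[𝓝 t] fun _ => 1 := by
          filter_upwards [Ioi_mem_nhds ht] with s hs
          exact Real.smoothTransition.one_of_one_le hs.le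
        rw [this.deriv_eq, deriv_const]
    rw [h0, abs_zero]; positivity

/-- concave truncation of the identity -/
theorem exists_eta {κ : ℝ} (hκ : 0 < κ) : ∃ (T : ℝ) (η η' η'' : ℝ → ℝ), 0 < T ∧
    ContDiff ℝ (⊤ : ℕ∞) η ∧ ContDiff ℝ (⊤ : ℕ∞) η' ∧ (∀ t, HasDerivAt η (η' t) t) ∧
    (∀ t, HasDerivAt η' (η'' t) t) ∧ (∀ t ≤ 0, η t = t) ∧ (∀ t, T ≤ t → η t = η T) ∧
    (∀ t, 0 ≤ η' t) ∧ (∀ t, -κ ≤ η'' t) ∧ (∀ t ≤ 0, η'' t = 0) ∧ (∀ t, η t ≤ T) ∧
    Monotone η := by
  obtain ⟨C, hC, hCb⟩ := exists_bound_deriv_st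
  set T : ℝ := C / κ with hT
  have hT0 : 0 < T := by positivity
  have hcd : ContDiff ℝ (⊤ : ℕ∞) Real.smoothTransition := Real.smoothTransition.contDiff
  set η' : ℝ → ℝ := fun t => 1 - Real.smoothTransition (t / T) with hη'
  have hη's : ContDiff ℝ (⊤ : ℕ∞) η' :=
    contDiff_const.sub (hcd.comp (contDiff_id.div_const T))
  set η : ℝ → ℝ := fun t => ∫ s in (0 : ℝ)..t, η' s with hη
  have hηd : ∀ t, HasDerivAt η (η' t) t := fun t =>
    intervalIntegral.integral_hasDerivAt_right (hη's.continuous.intervalIntegrable _ _)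
      hη's.continuous.stronglyMeasurable.stronglyMeasurableAtFilter hη's.continuous.continuousAt
  have hηs : ContDiff ℝ (⊤ : ℕ∞) η := by
    rw [contDiff_infty_iff_deriv]
    refine ⟨fun t => (hηd t).differentiableAt, ?_⟩
    have : deriv η = η' := funext fun t => (hηd t).deriv
    rw [this]; exact hη's
  set η'' : ℝ → ℝ := fun t => -(deriv Real.smoothTransition (t / T) * (1 / T)) with hη''
  have hη''d : ∀ t, HasDerivAt η' (η'' t) t := by
    intro t
    have h1 : HasDerivAt Real.smoothTransition (deriv Real.smoothTransition (t / T)) (t / T) :=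
      (hcd.differentiable (by simp) _).hasDerivAt
    have h2 : HasDerivAt (fun t : ℝ => t / T) (1 / T) t := (hasDerivAt_id' t).div_const T
    exact (h1.comp t h2).const_sub 1
  have hη'0 : ∀ t, 0 ≤ η' t := fun t => by
    simp only [hη']; linarith [Real.smoothTransition.le_one (t / T)]
  have hη'1 : ∀ t, η' t ≤ 1 := fun t => by
    simp only [hη']; linarith [Real.smoothTransition.nonneg (t / T)]
  have hmono : Monotone η := monotone_of_deriv_nonneg (fun t => (hηd t).differentiableAt)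
    (fun t => by rw [(hηd t).deriv]; exact hη'0 t)
  have hconst : ∀ t, T ≤ t → η t = η T := by
    intro t ht
    have h1 : η t - η T = ∫ s in T..t, η' s := by
      simp only [hη]
      rw [intervalIntegral.integral_interval_sub_left (hη's.continuous.intervalIntegrable _ _)
        (hη's.continuous.intervalIntegrable _ _)]
    have h2 : ∫ s in T..t, η' s = 0 := by
      apply intervalIntegral.integral_zero_ae
      filter_upwards with s hs
      rw [uIoc_of_le ht] at hs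
      simp only [hη']
      rw [Real.smoothTransition.one_of_one_le, sub_self]
      rw [le_div_iff₀ hT0]; linarith [hs.1]
    linarith
  have hηT : η T ≤ T := by
    simp only [hη]
    calc ∫ s in (0 : ℝ)..T, η' s ≤ ∫ s in (0 : ℝ)..T, (1 : ℝ) :=
          intervalIntegral.integral_mono_on hT0.le (hη's.continuous.intervalIntegrable _ _)
            (continuous_const.intervalIntegrable _ _) (fun s _ => hη'1 s)
      _ = T := by simp
  refine ⟨T, η, η', η'', hT0, hηs, hη's, hηd, hη''d, ?_, hconst, hη'0, ?_, ?_, ?_, hmono⟩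
  · intro t ht
    simp only [hη]
    rw [intervalIntegral.integral_symm]
    have : ∫ s in t..0, η' s = ∫ s in t..0, (1 : ℝ) := by
      apply intervalIntegral.integral_congr
      intro s hs
      rw [uIcc_of_le ht] at hs
      simp only [hη']
      rw [Real.smoothTransition.zero_of_nonpos, sub_zero]
      exact div_nonpos_of_nonpos_of_nonneg hs.2 hT0.le
    rw [this]; simp
  · intro t
    simp only [hη'']
    have h1 := (abs_le.1 (hCb (t / T))).2
    have h2 : C * (1 / T) = κ := by rw [hT]; field_simp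
    have h3 : deriv Real.smoothTransition (t / T) * (1 / T) ≤ C * (1 / T) := by gcongr
    linarith
  · intro t ht
    simp only [hη'']
    have h1 : deriv Real.smoothTransition (t / T) = 0 := by
      rcases ht.lt_or_eq with ht | ht
      · have : Real.smoothTransition =ᶠ[𝓝 (t / T)] fun _ => 0 := by
          filter_upwards [Iio_mem_nhds (div_neg_of_neg_of_pos ht hT0)] with s hs
          exact Real.smoothTransition.zero_of_nonpos hs.le
        rw [this.deriv_eq, deriv_const]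
      · -- at `0`: the derivative is a limit of zeros
        rw [ht, zero_div]
        have hc : Continuous (deriv Real.smoothTransition) :=
          (contDiff_infty_iff_deriv.1 hcd).2.continuous
        have hz : ∀ s ∈ Iio (0 : ℝ), deriv Real.smoothTransition s = 0 := by
          intro s hs
          have : Real.smoothTransition =ᶠ[𝓝 s] fun _ => 0 := by
            filter_upwards [Iio_mem_nhds hs] with u hu
            exact Real.smoothTransition.zero_of_nonpos hu.le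
          rw [this.deriv_eq, deriv_const]
        have h2 : Tendsto (deriv Real.smoothTransition) (𝓝[<] 0)
            (𝓝 (deriv Real.smoothTransition 0)) := hc.continuousAt.continuousWithinAt
        have h3 : Tendsto (deriv Real.smoothTransition) (𝓝[<] 0) (𝓝 0) := by
          refine tendsto_const_nhds.congr' ?_
          filter_upwards [self_mem_nhdsWithin] with s hs
          exact (hz s hs).symm
        exact tendsto_nhds_unique h2 h3
    rw [h1]; simp
  · intro t
    rcases le_total T t with h | h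
    · rw [hconst t h]; exact hηT
    · exact (hmono h).trans hηT

/-- cutoff function -/
theorem exists_theta : ∃ (C : ℝ) (θ θ' : ℝ → ℝ), 0 < C ∧ ContDiff ℝ (⊤ : ℕ∞) θ ∧
    (∀ t, HasDerivAt θ (θ' t) t) ∧ (∀ t ≤ 1, θ t = 1) ∧ (∀ t, 4 ≤ t → θ t = 0) ∧
    (∀ t, 0 ≤ θ t ∧ θ t ≤ 1) ∧ (∀ t, |θ' t| ≤ C) ∧ (∀ t < 1, θ' t = 0) ∧
    (∀ t, 4 < t → θ' t = 0) := by
  obtain ⟨C, hC, hCb⟩ := exists_bound_deriv_st
  have hcd : ContDiff ℝ (⊤ : ℕ∞) Real.smoothTransition := Real.smoothTransition.contDiff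
  set θ : ℝ → ℝ := fun t => Real.smoothTransition ((4 - t) / 3) with hθ
  set θ' : ℝ → ℝ := fun t => deriv Real.smoothTransition ((4 - t) / 3) * (-1 / 3) with hθ'
  have hd : ∀ t, HasDerivAt θ (θ' t) t := by
    intro t
    have h1 : HasDerivAt Real.smoothTransition (deriv Real.smoothTransition ((4 - t) / 3))
        ((4 - t) / 3) := (hcd.differentiable (by simp) _).hasDerivAt
    have h2 : HasDerivAt (fun t : ℝ => (4 - t) / 3) (-1 / 3) t :=
      ((hasDerivAt_id' t).const_sub 4).div_const 3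
    exact h1.comp t h2
  refine ⟨C, θ, θ', hC, ?_, hd, ?_, ?_, ?_, ?_, ?_, ?_⟩
  · exact hcd.comp ((contDiff_const.sub contDiff_id).div_const 3)
  · intro t ht
    exact Real.smoothTransition.one_of_one_le (by linarith)
  · intro t ht
    exact Real.smoothTransition.zero_of_nonpos (by linarith)
  · intro t
    exact ⟨Real.smoothTransition.nonneg _, Real.smoothTransition.le_one _⟩
  · intro t
    simp only [hθ']
    rw [abs_mul]
    have h1 := hCb ((4 - t) / 3)
    have h2 : |(-1 / 3 : ℝ)| = 1 / 3 := by norm_num [abs_of_neg]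
    rw [h2]
    nlinarith [abs_nonneg (deriv Real.smoothTransition ((4 - t) / 3))]
  · intro t ht
    have h1 : θ =ᶠ[𝓝 t] fun _ => 1 := by
      filter_upwards [Iio_mem_nhds ht] with s hs
      exact Real.smoothTransition.one_of_one_le (by
        have : s < 1 := hs
        linarith)
    have h2 := (hd t).deriv
    rw [h1.deriv_eq, deriv_const] at h2
    exact h2.symm
  · intro t ht
    have h1 : θ =ᶠ[𝓝 t] fun _ => 0 := by
      filter_upwards [Ioi_mem_nhds ht] with s hs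
      exact Real.smoothTransition.zero_of_nonpos (by
        have : 4 < s := hs
        linarith)
    have h2 := (hd t).deriv
    rw [h1.deriv_eq, deriv_const] at h2
    exact h2.symm

variable {n : ℕ} {M : Type*} [TopologicalSpace M] [RDom n M]

lemma D_congr' {f g : M → ℝ} {x : M} (h : f =ᶠ[𝓝 x] g) (w : Fin n → ℂ) :
    D (fun y => D f y w) x = D (fun y => D g y w) x := by
  apply D_congr
  filter_upwards [h.eventuallyEq_nhds] with y hy
  rw [D_congr hy]

lemma lev_congr {f g : M → ℝ} {x : M} (h : f =ᶠ[𝓝 x] g) (w : Fin n → ℂ) :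
    lev f x w = lev g x w := by
  unfold lev
  rw [D_congr' h, D_congr' h]

lemma dsq_lg_le {ι : Type*} [Fintype ι] {f : ι → M → ℂ} (hf : ∀ j, Hol (f j)) {δ : ℝ}
    (hδ : 0 < δ) (x : M) (w : Fin n → ℂ) :
    dsq (lg f δ) x w ≤ nT f x w / (nS f x + δ) := by
  have hsm : ∀ j, Sm (f j) := fun j => (hf j).sm
  have hnS := nS_nonneg f x
  have hpos : 0 < nS f x + δ := by linarith
  have hd : ∀ v : Fin n → ℂ, D (lg f δ) x v = (nS f x + δ)⁻¹ * D (nS f) x v := by
    intro v
    have h0 : HasDerivAt (fun t : ℝ => t + δ) 1 (nS f x) := (hasDerivAt_id' _).add_const δ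
    have h5 : HasDerivAt (fun t : ℝ => Real.log (t + δ)) ((nS f x + δ)⁻¹) (nS f x) := by
      simpa [one_div] using h0.log hpos.ne'
    exact D_comp_real (sm_nS hsm) x h5 v
  have h1 : dsq (lg f δ) x w = (nS f x + δ)⁻¹ ^ 2 * dsq (nS f) x w := by
    unfold dsq
    rw [hd, hd]; ring
  rw [h1, dsq_nS hf]
  have h2 := nA_le f x w
  have h3 := nT_nonneg f x w
  have h4 : nS f x * nT f x w ≤ (nS f x + δ) * nT f x w := by nlinarith
  rw [le_div_iff₀ hpos]
  have h5 : (nS f x + δ)⁻¹ ^ 2 * ‖nA f x w‖ ^ 2 ≤ (nS f x + δ)⁻¹ ^ 2 * ((nS f x + δ) * nT f x w) := by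
    gcongr
    exact h2.trans h4
  calc (nS f x + δ)⁻¹ ^ 2 * ‖nA f x w‖ ^ 2 * (nS f x + δ)
      ≤ (nS f x + δ)⁻¹ ^ 2 * ((nS f x + δ) * nT f x w) * (nS f x + δ) := by gcongr
    _ = nT f x w := by field_simp

/-- Levi form of `η (log (|f|² + δ))` -/
lemma lev_eta_lg_ge {ι : Type*} [Fintype ι] {f : ι → M → ℂ} (hf : ∀ j, Hol (f j)) {δ κ : ℝ}
    (hδ : 0 < δ) (hκ : 0 ≤ κ) {η η' η'' : ℝ → ℝ} (hη's : ContDiff ℝ (⊤ : ℕ∞) η')
    (hη : ∀ t, HasDerivAt η (η' t) t) (hη' : ∀ t, HasDerivAt η' (η'' t) t)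
    (h0 : ∀ t, 0 ≤ η' t) (h1 : ∀ t, -κ ≤ η'' t) (h2 : ∀ t ≤ 0, η'' t = 0)
    (x : M) (w : Fin n → ℂ) :
    -κ * nT f x w ≤ lev (fun y => η (lg f δ y)) x w := by
  have hsm : ∀ j, Sm (f j) := fun j => (hf j).sm
  have hp : ∀ x, 0 < nS f x + δ := fun x => by linarith [nS_nonneg f x]
  have hlgs : Sm (lg f δ) := sm_lg hsm hp
  rw [lev_comp hlgs x (Eventually.of_forall hη) (hη' _) w (Sm.comp hη's hlgs)]
  have hl := lev_lg_nonneg hf hδ.le hp x w
  have hT := nT_nonneg f x w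
  have hd := dsq_nonneg (lg f δ) x w
  have h3 : 0 ≤ η' (lg f δ x) * lev (lg f δ) x w := mul_nonneg (h0 _) hl
  have h4 : -κ * nT f x w ≤ η'' (lg f δ x) * dsq (lg f δ) x w := by
    rcases le_or_gt (lg f δ x) 0 with h | h
    · rw [h2 _ h, zero_mul]
      nlinarith
    · have h5 : 1 ≤ nS f x + δ := by
        by_contra hc
        push Not at hc
        have : lg f δ x ≤ 0 := Real.log_nonpos (hp x).le hc.le
        linarith
      have h6 := dsq_lg_le hf hδ x w
      have h7 : nT f x w / (nS f x + δ) ≤ nT f x w := div_le_self hT h5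
      have h8 : dsq (lg f δ) x w ≤ nT f x w := h6.trans h7
      have h9 := h1 (lg f δ x)
      nlinarith
  linarith

/-- `|Σ ∂̄_j φ \bar w_j|² = dsq φ w` for a real function -/
lemma norm_db_real {φ : M → ℝ} (hφ : Sm φ) (x : M) (w : Fin n → ℂ) :
    ‖∑ j, db j (fun y => (φ y : ℂ)) x * (starRingEnd ℂ) (w j)‖ ^ 2 = dsq φ x w := by
  set Z := ∑ j, db j (fun y => (φ y : ℂ)) x * (starRingEnd ℂ) (w j) with hZ
  have hconj : ∀ j, dz j (fun y => (φ y : ℂ)) x = (starRingEnd ℂ) (db j (fun y => (φ y : ℂ)) x) := by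
    intro j
    rw [db_ofReal hφ, Complex.conj_conj]
  have hD : ∀ v : Fin n → ℂ, (D φ x v : ℂ) = D (fun y => (φ y : ℂ)) x v := by
    intro v
    rw [D_ofReal hφ]
  have h1 : (D φ x w : ℂ) = Z + (starRingEnd ℂ) Z := by
    rw [hD, D_wirtinger, hZ, map_sum, ← Finset.sum_add_distrib]
    refine Finset.sum_congr rfl fun j _ => ?_
    rw [hconj, map_mul, Complex.conj_conj]
    ring
  have h2 : (D φ x (I • w) : ℂ) = -I * Z + I * (starRingEnd ℂ) Z := by
    rw [hD, D_wirtinger, hZ, map_sum, Finset.mul_sum, Finset.mul_sum, ← Finset.sum_add_distrib]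
    refine Finset.sum_congr rfl fun j _ => ?_
    rw [hconj, map_mul, Complex.conj_conj, Pi.smul_apply, smul_eq_mul, map_mul, Complex.conj_I]
    ring
  have h3 : D φ x w = 2 * Z.re := by
    have := congrArg Complex.re h1
    simp only [Complex.ofReal_re, Complex.add_re, Complex.conj_re] at this
    linarith
  have h4 : D φ x (I • w) = 2 * Z.im := by
    have := congrArg Complex.re h2
    simp only [Complex.ofReal_re, Complex.add_re, Complex.mul_re, Complex.neg_re, Complex.neg_im,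
      Complex.I_re, Complex.I_im, Complex.conj_re, Complex.conj_im] at this
    linarith
  unfold dsq
  rw [h3, h4, ← Complex.normSq_eq_norm_sq, Complex.normSq_apply]
  ring

/-- `∂̄` of a holomorphic function vanishes -/
lemma db_hol {E : M → ℂ} (hE : Hol E) (j : Fin n) (x : M) : db j E x = 0 := by
  rw [db_eq]
  have h1 : (Pi.single j Complex.I : Fin n → ℂ) = I • (Pi.single j 1 : Fin n → ℂ) := by
    rw [← Pi.single_smul, smul_eq_mul, mul_one]
  rw [h1, hE.cl, ← mul_assoc, I_mul_I]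
  ring

/-- `∂̄ (θ(|f|²) E)` -/
lemma db_theta {ι : Type*} [Fintype ι] {f : ι → M → ℂ} (hf : ∀ j, Hol (f j)) {E : M → ℂ}
    (hE : Hol E) {θ θ' : ℝ → ℝ} (hθs : ContDiff ℝ (⊤ : ℕ∞) θ) (hθ : ∀ t, HasDerivAt θ (θ' t) t)
    (x : M) (w : Fin n → ℂ) :
    ‖∑ j, db j (fun y => ((θ (nS f y) : ℝ) : ℂ) * E y) x * (starRingEnd ℂ) (w j)‖ ^ 2 ≤
      (θ' (nS f x)) ^ 2 * ‖E x‖ ^ 2 * (nS f x * nT f x w) := by
  have hsm : ∀ j, Sm (f j) := fun j => (hf j).sm
  have hS : Sm (nS f) := sm_nS hsm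
  have hθS : Sm (fun y => θ (nS f y)) := Sm.comp hθs hS
  have h1 : ∀ j, db j (fun y => ((θ (nS f y) : ℝ) : ℂ) * E y) x =
      (θ' (nS f x) : ℂ) * E x * db j (fun y => (nS f y : ℂ)) x := by
    intro j
    rw [db_mul hθS.ofReal hE.sm, db_hol hE, db_comp_real hS hθS x (hθ _) j]
    ring
  have h2 : ∑ j, db j (fun y => ((θ (nS f y) : ℝ) : ℂ) * E y) x * (starRingEnd ℂ) (w j) =
      (θ' (nS f x) : ℂ) * E x * ∑ j, db j (fun y => (nS f y : ℂ)) x * (starRingEnd ℂ) (w j) := by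
    rw [Finset.mul_sum]
    refine Finset.sum_congr rfl fun j _ => ?_
    rw [h1]; ring
  rw [h2, norm_mul, norm_mul, mul_pow, mul_pow, norm_db_real hS, dsq_nS hf, Complex.norm_real,
    Real.norm_eq_abs, sq_abs]
  gcongr
  exact nA_le f x w

end Crest.Agent.R269.Peak1_976
end
end

-- ▼ part R269/Peak2_976
section

/-!
# R269, leaf PK (helper976): peak sections, part 2: the core theorem `pk_core`
-/

set_option autoImplicit false
set_option linter.unusedSectionVars false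

noncomputable section

open Set Filter Topology Complex MeasureTheory Metric
open scoped ENNReal ComplexConjugate Matrix

namespace Crest.Agent.R269.Peak2_976

open Crest.Agent.R271.Ho51 hiding Hol
open Crest.Agent.R271.W792 Crest.Agent.R269.Peak1_976

variable {n : ℕ} {M : Type*} [TopologicalSpace M] [RDom n M]

section basic

variable {G : Type*} [NormedAddCommGroup G] [NormedSpace ℝ G]

lemma D_of_coord (g : (Fin n → ℂ) → G) (x : M) : D (fun y : M => g (cp y)) x = fderiv ℝ g (cp x) := by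
  have h1 : ((fun y : M => g (cp y)) ∘ (ch x).symm) =ᶠ[𝓝 (cp x)] g := by
    filter_upwards [(ch x).open_target.mem_nhds ((isCh_ch x).cp_mem (mem_ch x))] with z hz
    simp [(isCh_ch x).cp_symm hz]
  unfold D
  exact h1.fderiv_eq

lemma hol_of_coord {g : (Fin n → ℂ) → ℂ} (hg : ContDiff ℂ (⊤ : ℕ∞) g) :
    Hol (fun x : M => g (cp x)) where
  sm := Sm.of_coord (hg.restrict_scalars ℝ)
  cl := by
    intro x w
    rw [D_of_coord]
    have h1 : DifferentiableAt ℂ g (cp x) := (hg.differentiable (by simp)) _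
    rw [h1.fderiv_restrictScalars ℝ]
    simp

/-- the affine functions of the coordinates -/
def fG (Gm : Matrix (Fin n) (Fin n) ℂ) (z0 : Fin n → ℂ) (i : Fin n) (x : M) : ℂ :=
  (Gm *ᵥ (cp x - z0)) i

lemma fG_contDiff (Gm : Matrix (Fin n) (Fin n) ℂ) (z0 : Fin n → ℂ) (i : Fin n) :
    ContDiff ℂ (⊤ : ℕ∞) (fun v : Fin n → ℂ => (Gm *ᵥ (v - z0)) i) := by
  simp only [Matrix.mulVec, dotProduct]
  refine ContDiff.sum fun j _ => ?_
  refine contDiff_const.mul ?_
  simp only [Pi.sub_apply]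
  exact (contDiff_apply ℂ ℂ j).sub contDiff_const

lemma hol_fG (Gm : Matrix (Fin n) (Fin n) ℂ) (z0 : Fin n → ℂ) (i : Fin n) :
    Hol (fG (M := M) Gm z0 i) := hol_of_coord (fG_contDiff Gm z0 i)

lemma D_fG (Gm : Matrix (Fin n) (Fin n) ℂ) (z0 : Fin n → ℂ) (i : Fin n) (x : M)
    (w : Fin n → ℂ) : D (fG (M := M) Gm z0 i) x w = (Gm *ᵥ w) i := by
  have h0 : D (fG (M := M) Gm z0 i) x = fderiv ℝ (fun v : Fin n → ℂ => (Gm *ᵥ (v - z0)) i) (cp x) :=
    D_of_coord (M := M) (fun v : Fin n → ℂ => (Gm *ᵥ (v - z0)) i) x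
  let L : (Fin n → ℂ) →L[ℝ] ℂ := LinearMap.toContinuousLinearMap
    (((LinearMap.proj i).comp (Matrix.toLin' Gm)).restrictScalars ℝ)
  have hL : ∀ v, L v = (Gm *ᵥ v) i := fun v => rfl
  have h1 : HasFDerivAt (fun v : Fin n → ℂ => (Gm *ᵥ (v - z0)) i) L (cp x) := by
    have h2 : HasFDerivAt (fun v : Fin n → ℂ => L (v - z0)) L (cp x) := by
      have h3 := (L.hasFDerivAt (x := cp x - z0)).comp (cp x) ((hasFDerivAt_id (cp x)).sub_const z0)
      rw [ContinuousLinearMap.comp_id] at h3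
      exact h3
    exact h2
  rw [h0, h1.fderiv, hL]

/-- the quadratic form `|G v|²` -/
def qG (Gm : Matrix (Fin n) (Fin n) ℂ) (v : Fin n → ℂ) : ℝ := ∑ i, ‖(Gm *ᵥ v) i‖ ^ 2

lemma qG_nonneg (Gm : Matrix (Fin n) (Fin n) ℂ) (v : Fin n → ℂ) : 0 ≤ qG Gm v :=
  Finset.sum_nonneg fun _ _ => by positivity

lemma qG_cont (Gm : Matrix (Fin n) (Fin n) ℂ) : Continuous (qG Gm) := by
  unfold qG
  refine continuous_finsetSum _ fun i _ => ?_
  have h1 : Continuous fun v : Fin n → ℂ => (Gm *ᵥ v) i :=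
    (continuous_apply i).comp (Continuous.matrix_mulVec continuous_const continuous_id)
  exact h1.norm.pow 2

omit [TopologicalSpace M] [RDom n M] in
lemma nS_fG [TopologicalSpace M] [RDom n M] (Gm : Matrix (Fin n) (Fin n) ℂ) (z0 : Fin n → ℂ)
    (x : M) : nS (fG Gm z0) x = qG Gm (cp x - z0) := rfl

lemma nT_fG (Gm : Matrix (Fin n) (Fin n) ℂ) (z0 : Fin n → ℂ) (x : M) (w : Fin n → ℂ) :
    nT (fG (M := M) Gm z0) x w = qG Gm w := by
  unfold nT qG
  exact Finset.sum_congr rfl fun i _ => by rw [D_fG]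

lemma qG_le (Gm : Matrix (Fin n) (Fin n) ℂ) : ∃ C : ℝ, 0 < C ∧ ∀ v, qG Gm v ≤ C * ‖v‖ ^ 2 := by
  let L : (Fin n → ℂ) →L[ℂ] (Fin n → ℂ) := LinearMap.toContinuousLinearMap (Matrix.toLin' Gm)
  refine ⟨n * ‖L‖ ^ 2 + 1, by positivity, fun v => ?_⟩
  have h1 : ∀ i, ‖(Gm *ᵥ v) i‖ ≤ ‖L‖ * ‖v‖ := fun i =>
    (norm_le_pi_norm (L v) i).trans (L.le_opNorm v)
  have h2 : qG Gm v ≤ ∑ _i : Fin n, (‖L‖ * ‖v‖) ^ 2 := by
    unfold qG
    exact Finset.sum_le_sum fun i _ => by gcongr; exact h1 i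
  rw [Finset.sum_const, Finset.card_univ, Fintype.card_fin, nsmul_eq_mul] at h2
  nlinarith [sq_nonneg ‖v‖]

open Classical in
/-- localisation: `g` on `A`, the constant `c` outside -/
def loc (A : Set M) (g : M → G) (c : G) (x : M) : G := if x ∈ A then g x else c

omit [TopologicalSpace M] [RDom n M] in
lemma loc_mem {A : Set M} {g : M → G} {c : G} {x : M} (hx : x ∈ A) : loc A g c x = g x := by
  simp [loc, hx]

omit [TopologicalSpace M] [RDom n M] in
lemma loc_notMem {A : Set M} {g : M → G} {c : G} {x : M} (hx : x ∉ A) : loc A g c x = c := by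
  simp [loc, hx]

omit [RDom n M] in
lemma loc_eq_mem {A : Set M} (hA : IsOpen A) {g : M → G} {c : G} {x : M} (hx : x ∈ A) :
    loc A g c =ᶠ[𝓝 x] g := by
  filter_upwards [hA.mem_nhds hx] with y hy using loc_mem hy

omit [RDom n M] in
lemma loc_eq_notMem {A K : Set M} (hK : IsClosed K) {g : M → G} {c : G}
    (hg : ∀ x ∈ A, x ∉ K → g x = c) {x : M} (hx : x ∉ K) : loc A g c =ᶠ[𝓝 x] fun _ => c := by
  filter_upwards [hK.isOpen_compl.mem_nhds hx] with y hy
  by_cases h : y ∈ A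
  · rw [loc_mem h, hg y h hy]
  · exact loc_notMem h

lemma loc_sm {A K : Set M} (hA : IsOpen A) (hK : IsClosed K) (hKA : K ⊆ A) {g : M → G} {c : G}
    (hgs : Sm g) (hg : ∀ x ∈ A, x ∉ K → g x = c) : Sm (loc A g c) := by
  refine Sm.of_locally fun x => ?_
  by_cases hx : x ∈ A
  · exact ⟨g, hgs, loc_eq_mem hA hx⟩
  · exact ⟨fun _ => c, Sm.const c, loc_eq_notMem hK hg fun h => hx (hKA h)⟩

end basic

/-- `|x - y|² ` splitting -/
theorem ofReal_sq_le (a b : ℂ) : ENNReal.ofReal (‖a‖ ^ 2) ≤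
    2 * ENNReal.ofReal (‖a - b‖ ^ 2) + 2 * ENNReal.ofReal (‖b‖ ^ 2) := by
  have h2 : (2 : ℝ≥0∞) = ENNReal.ofReal 2 := by simp
  rw [h2, ← ENNReal.ofReal_mul (by norm_num), ← ENNReal.ofReal_mul (by norm_num),
    ← ENNReal.ofReal_add (by positivity) (by positivity)]
  refine ENNReal.ofReal_le_ofReal ?_
  have h3 : ‖a‖ ≤ ‖a - b‖ + ‖b‖ := by
    calc ‖a‖ = ‖(a - b) + b‖ := by ring_nf
      _ ≤ _ := norm_add_le _ _
  nlinarith [norm_nonneg a, norm_nonneg b, norm_nonneg (a - b), sq_nonneg (‖a - b‖ - ‖b‖)]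

end Crest.Agent.R269.Peak2_976
end
end

-- ▼ part R269/Peak3_976
section

/-!
# R269, leaf PK (helper976): peak sections, part 3: the core theorem `pk_core`
-/

set_option autoImplicit false
set_option linter.unusedSectionVars false

noncomputable section

open Set Filter Topology Complex MeasureTheory Metric
open scoped ENNReal ComplexConjugate Matrix

namespace Crest.Agent.R269.Peak3_976

open Crest.Agent.R271.Ho51 hiding Hol
open Crest.Agent.R271.W792 Crest.Agent.R269.Peak1_976 Crest.Agent.R269.Peak2_976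

/-- a pole of order `2n` forces the value at the centre -/
theorem value_zero {n : ℕ} (hn : 0 < n) {M : Type*} [TopologicalSpace M] [RDom n M]
    [MeasurableSpace M] [BorelSpace M] {μ : Measure M} (hμ : IsLeb μ)
    {e : OpenPartialHomeomorph M (Fin n → ℂ)} (he : IsCh e) {z0 : Fin n → ℂ} (hz0 : z0 ∈ e.target)
    {u : M → ℂ} (hu : Continuous u) {g : M → ℝ≥0∞} (hg : Measurable g) {r c b : ℝ}
    (hr : 0 < r) (hc : 0 < c) (hb : 0 < b)
    (hgl : ∀ z ∈ ball z0 r, z ∈ e.target → ENNReal.ofReal c *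
      (ENNReal.ofReal (b * ‖z - z0‖ ^ 2)) ^ (-(n : ℝ)) ≤ g (e.symm z))
    (hfin : ∫⁻ x, ENNReal.ofReal (‖u x‖ ^ 2) * g x ∂μ ≠ ∞) : u (e.symm z0) = 0 := by
  by_contra hne
  have hd : 0 < ‖u (e.symm z0)‖ ^ 2 := by positivity
  have hcont : ContinuousAt (fun z => ‖u (e.symm z)‖ ^ 2) z0 := by
    have h1 : ContinuousAt e.symm z0 := e.symm.continuousAt (by simpa using hz0)
    exact ((hu.continuousAt.comp h1).norm).pow 2
  have hev : ∀ᶠ z in 𝓝 z0, ‖u (e.symm z0)‖ ^ 2 / 2 < ‖u (e.symm z)‖ ^ 2 :=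
    hcont.eventually (lt_mem_nhds (half_lt_self hd))
  have hev2 : ∀ᶠ z in 𝓝 z0, z ∈ e.target := e.open_target.mem_nhds hz0
  obtain ⟨r', hr', hball⟩ := Metric.eventually_nhds_iff_ball.1 (hev.and hev2)
  set s := min r r' with hs
  have hs0 : 0 < s := lt_min hr hr'
  set a : ℝ := ‖u (e.symm z0)‖ ^ 2 / 2 with ha
  have ha0 : 0 < a := by positivity
  have hf : Measurable (fun x => ENNReal.ofReal (‖u x‖ ^ 2) * g x) :=
    ((hu.norm.pow 2).measurable.ennreal_ofReal).mul hg
  have hfr : (Module.finrank ℝ (Fin n → ℂ) : ℝ) = 2 * n := by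
    rw [finrank_real_of_complex, Module.finrank_fin_fun]; push_cast; ring
  have h1 : ∫⁻ z in ball z0 s, ENNReal.ofReal a * (ENNReal.ofReal c *
      (ENNReal.ofReal (b * ‖z - z0‖ ^ 2)) ^ (-(n : ℝ))) ≤
      ∫⁻ x, ENNReal.ofReal (‖u x‖ ^ 2) * g x ∂μ := by
    calc _ ≤ ∫⁻ z in ball z0 s, ENNReal.ofReal (‖u (e.symm z)‖ ^ 2) * g (e.symm z) := by
          refine setLIntegral_mono' measurableSet_ball fun z hz => ?_
          have hz1 : z ∈ ball z0 r := ball_subset_ball (min_le_left _ _) hz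
          have hz2 := hball z (ball_subset_ball (min_le_right _ _) hz)
          gcongr
          · exact hz2.1.le
          · exact hgl z hz1 hz2.2
      _ ≤ ∫⁻ z in e.target, ENNReal.ofReal (‖u (e.symm z)‖ ^ 2) * g (e.symm z) :=
          lintegral_mono_set fun z hz => (hball z (ball_subset_ball (min_le_right _ _) hz)).2
      _ = ∫⁻ x in e.source, ENNReal.ofReal (‖u x‖ ^ 2) * g x ∂μ :=
          (lintegral_chart hμ he hf.aemeasurable).symm
      _ ≤ _ := setLIntegral_le_lintegral _ _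
  have h2 : ∫⁻ z in ball z0 s, ENNReal.ofReal a * (ENNReal.ofReal c *
      (ENNReal.ofReal (b * ‖z - z0‖ ^ 2)) ^ (-(n : ℝ))) = ∞ := by
    have h3 : ∀ z : Fin n → ℂ, ENNReal.ofReal a * (ENNReal.ofReal c *
        (ENNReal.ofReal (b * ‖z - z0‖ ^ 2)) ^ (-(n : ℝ))) =
        (ENNReal.ofReal a * ENNReal.ofReal c * ENNReal.ofReal b ^ (-(n : ℝ))) *
          (ENNReal.ofReal ‖z - z0‖) ^ (-(Module.finrank ℝ (Fin n → ℂ) : ℝ)) := by
      intro z
      rw [ENNReal.ofReal_mul hb.le, hfr, ENNReal.ofReal_pow (norm_nonneg _)]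
      rw [ENNReal.mul_rpow_of_ne_top ENNReal.ofReal_ne_top (by finiteness), mul_assoc, mul_assoc]
      congr 3
      rw [← ENNReal.rpow_natCast, ← ENNReal.rpow_mul]
      congr 1
      push_cast; ring
    have h4 : ∫⁻ z in ball z0 s, (ENNReal.ofReal ‖z - z0‖) ^
        (-(Module.finrank ℝ (Fin n → ℂ) : ℝ)) = ∞ := by
      have h5 := Crest.Agent.R271.L934.lintegral_ball_norm_eq_top (V := Fin n → ℂ) volume
        (by rw [finrank_real_of_complex, Module.finrank_fin_fun]; omega) hs0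
      rw [← h5, ← lintegral_indicator measurableSet_ball, ← lintegral_indicator measurableSet_ball]
      have h6 := lintegral_sub_right_eq_self (μ := (volume : Measure (Fin n → ℂ)))
        ((ball (0 : Fin n → ℂ) s).indicator fun x : Fin n → ℂ =>
          ENNReal.ofReal ‖x‖ ^ (-(Module.finrank ℝ (Fin n → ℂ) : ℝ))) z0
      rw [← h6]
      refine lintegral_congr fun z => ?_
      by_cases hz : z ∈ ball z0 s
      · have hz' : z - z0 ∈ ball (0 : Fin n → ℂ) s := by
          rw [mem_ball_zero_iff]; rwa [mem_ball, dist_eq_norm] at hz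
        rw [indicator_of_mem hz, indicator_of_mem hz']
      · have hz' : z - z0 ∉ ball (0 : Fin n → ℂ) s := by
          rw [mem_ball_zero_iff]; rwa [mem_ball, dist_eq_norm] at hz
        rw [indicator_of_notMem hz, indicator_of_notMem hz']
    rw [lintegral_congr h3, lintegral_const_mul' _ _ (by
      refine ENNReal.mul_ne_top (by finiteness) ?_
      rw [ENNReal.rpow_neg]
      refine ENNReal.inv_ne_top.2 ?_
      have : ENNReal.ofReal b ≠ 0 := by simpa using hb
      exact (ENNReal.rpow_pos (by positivity) ENNReal.ofReal_ne_top).ne'), h4, ENNReal.mul_top]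
    have h6 : ENNReal.ofReal a ≠ 0 := by simpa using ha0
    have h7 : ENNReal.ofReal c ≠ 0 := by simpa using hc
    have h8 : ENNReal.ofReal b ^ (-(n : ℝ)) ≠ 0 := by
      rw [ENNReal.rpow_neg, ENNReal.inv_ne_zero]
      exact ENNReal.rpow_ne_top_of_nonneg (by positivity) ENNReal.ofReal_ne_top
    exact mul_ne_zero (mul_ne_zero h6 h7) h8
  rw [h2, top_le_iff] at h1
  exact hfin h1

/-- **peak sections, core form** -/
theorem pk_core {n : ℕ} (hn : 0 < n) : ∃ C R : ℝ, 0 < C ∧ 5 ≤ R ∧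
    ∀ (M : Type) [TopologicalSpace M] [T2Space M] [SecondCountableTopology M] [RDom n M]
      [MeasurableSpace M] [BorelSpace M] (μ : Measure M), IsLeb μ →
    ∀ ρ : M → ℝ, Sm ρ → (∀ c, IsCompact {x | ρ x ≤ c}) → (∀ x w, nsq w ≤ Levi ρ x w) →
    ∀ Φ : M → ℝ, Sm Φ → (∀ x w, 0 ≤ Levi Φ x w) →
    ∀ e : OpenPartialHomeomorph M (Fin n → ℂ), IsCh e →
    ∀ (z0 : Fin n → ℂ) (r0 r1 : ℝ), 0 < r0 → r0 < r1 → closedBall z0 r1 ⊆ e.target →
    ∀ Gm : Matrix (Fin n) (Fin n) ℂ, (∀ v, r0 < ‖v‖ → R ≤ qG Gm v) →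
      (∀ z ∈ ball z0 r1, ∀ w, 3 / 4 * qG Gm w ≤ Levi Φ (e.symm z) w) →
    ∀ (c : ℝ) (H : (Fin n → ℂ) → ℂ), ContDiff ℂ (⊤ : ℕ∞) H → H 0 = 0 →
      (∀ v ∈ ball (0 : Fin n → ℂ) r1, qG Gm v ≤ 4 →
        Φ (e.symm z0) + (H v).re - c ≤ Φ (e.symm (z0 + v))) →
      ∃ F : M → ℂ, Crest.Agent.R271.Ho51.Hol F ∧ F (e.symm z0) = 1 ∧
        ∫⁻ x, ENNReal.ofReal (‖F x‖ ^ 2 * Real.exp (-Φ x)) ∂μ ≤
          ENNReal.ofReal (C * Real.exp (c - Φ (e.symm z0))) * volume {v | qG Gm v ≤ 4} := by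
  have hn' : (0 : ℝ) < n := by exact_mod_cast hn
  obtain ⟨T, η, η', η'', hT0, hηs, hη's, hηd, hη'd, hη0, hηc, hη'0, hη''b, hη''0, hηT, hηm⟩ :=
    exists_eta (κ := 1 / (4 * n)) (by positivity)
  obtain ⟨Cθ, θ, θ', hCθ, hθs, hθd, hθ1, hθ4, hθ01, hθb, hθ'1, hθ'4⟩ := exists_theta
  refine ⟨4 * Real.exp (n * T) * (8 * Cθ ^ 2) + 2, max 5 (Real.exp T), by positivity,
    le_max_left _ _, ?_⟩
  intro M _ _ _ _ _ _ μ hμ ρ hρ hρc hρL Φ hΦ hΦL e he z0 r0 r1 hr0 hr01 hB Gm hGR hGL c H hH hH0 hcH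
  -- notation
  set x0 : M := e.symm z0 with hx0
  set A : Set M := e.symm '' ball z0 r1 with hA
  set K : Set M := e.symm '' closedBall z0 r0 with hK
  have hr1 : 0 < r1 := hr0.trans hr01
  have hBt : ball z0 r1 ⊆ e.target := ball_subset_closedBall.trans hB
  have hz0t : z0 ∈ e.target := hBt (mem_ball_self hr1)
  have hAo : IsOpen A := e.isOpen_image_symm_of_subset_target isOpen_ball hBt
  have hKc : IsClosed K := ((isCompact_closedBall z0 r0).image_of_continuousOn
    (e.symm.continuousOn.mono (by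
      rw [e.symm_source]
      exact (closedBall_subset_closedBall hr01.le).trans hB))).isClosed
  have hKA : K ⊆ A := image_mono (closedBall_subset_ball hr01)
  have hAmem : ∀ x ∈ A, x ∈ e.source ∧ cp x ∈ ball z0 r1 ∧ e.symm (cp x) = x := by
    rintro _ ⟨z, hz, rfl⟩
    have h1 := e.map_target (hBt hz)
    refine ⟨h1, ?_, he.symm_cp h1⟩
    rw [he.cp_symm (hBt hz)]; exact hz
  have hx0A : x0 ∈ A := mem_image_of_mem _ (mem_ball_self hr1)
  have hcpx0 : cp x0 = z0 := he.cp_symm hz0t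
  set f : Fin n → M → ℂ := fG Gm z0 with hf
  have hfh : ∀ j, Hol (f j) := fun j => hol_fG Gm z0 j
  have hnS : ∀ x, nS f x = qG Gm (cp x - z0) := fun x => nS_fG Gm z0 x
  have hnS0 : ∀ x, 0 ≤ nS f x := fun x => nS_nonneg f x
  have hnSs : Sm (nS f) := sm_nS fun j => (hfh j).sm
  have hAK : ∀ x ∈ A, x ∉ K → max 5 (Real.exp T) ≤ nS f x := by
    intro x hx hxK
    rw [hnS]
    apply hGR
    by_contra h
    push Not at h
    apply hxK
    refine ⟨cp x, ?_, (hAmem x hx).2.2⟩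
    rw [mem_closedBall, dist_eq_norm]; exact h
  set δ : ℕ → ℝ := fun k => 1 / ((k : ℝ) + 1) with hδ
  have hδ0 : ∀ k, 0 < δ k := fun k => by simp only [hδ]; positivity
  have hp : ∀ k x, 0 < nS f x + δ k := fun k x => by linarith [hnS0 x, hδ0 k]
  have hlgs : ∀ k, Sm (lg f (δ k)) := fun k => sm_lg (fun j => (hfh j).sm) (hp k)
  set ξ : ℕ → M → ℝ := fun k => loc A (fun y => η (lg f (δ k) y)) (η T) with hξ
  have hξc : ∀ k, ∀ x ∈ A, x ∉ K → η (lg f (δ k) x) = η T := by
    intro k x hx hxK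
    apply hηc
    have h1 := hAK x hx hxK
    have h2 : Real.exp T ≤ nS f x + δ k := by linarith [le_max_right 5 (Real.exp T), hδ0 k]
    rw [← Real.log_exp T]
    exact Real.log_le_log (Real.exp_pos T) h2
  have hξs : ∀ k, Sm (ξ k) := fun k =>
    loc_sm hAo hKc hKA (Sm.comp hηs (hlgs k)) (hξc k)
  have hξT : ∀ k x, ξ k x ≤ T := by
    intro k x
    by_cases hx : x ∈ A
    · simp only [hξ, loc_mem hx]; exact hηT _
    · simp only [hξ, loc_notMem hx]; exact hηT _
  have hξanti : ∀ x, Antitone fun k => ξ k x := by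
    intro x k l hkl
    by_cases hx : x ∈ A
    · simp only [hξ, loc_mem hx]
      apply hηm
      apply lg_antitone _ _ _ (hp l x)
      simp only [hδ]
      exact one_div_le_one_div_of_le (by positivity) (by
        have : (k : ℝ) ≤ l := by exact_mod_cast hkl
        linarith)
    · simp only [hξ, loc_notMem hx]; exact le_rfl
  set φ : ℕ → M → ℝ := fun k x => Φ x + n * ξ k x with hφ
  have hnξs : ∀ k, Sm (fun x => (n : ℝ) * ξ k x) := fun k => (Sm.const (n : ℝ)).mulR (hξs k)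
  have hφs : ∀ k, Sm (φ k) := fun k => hΦ.add (hnξs k)
  have hφanti : ∀ x, Antitone fun k => φ k x := by
    intro x k l hkl
    have := hξanti x hkl
    simp only [hφ]
    have h2 : (n : ℝ) * ξ l x ≤ n * ξ k x := by gcongr
    linarith
  have hLevi : ∀ k x w, Levi (φ k) x w = Levi Φ x w + n * lev (ξ k) x w := by
    intro k x w
    rw [Levi_eq_lev (hφs k), Levi_eq_lev hΦ]
    simp only [hφ]
    rw [lev_add hΦ (hnξs k), lev_const_mul (hξs k)]
  have hLeviA : ∀ k, ∀ x ∈ A, ∀ w, 1 / 2 * qG Gm w ≤ Levi (φ k) x w := by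
    intro k x hx w
    rw [hLevi]
    obtain ⟨-, h2, h3⟩ := hAmem x hx
    have h4 := hGL (cp x) h2 w
    rw [h3] at h4
    have h5 : lev (ξ k) x w = lev (fun y => η (lg f (δ k) y)) x w :=
      Peak1_976.lev_congr (loc_eq_mem hAo hx) w
    have h6 := lev_eta_lg_ge hfh (hδ0 k) (κ := 1 / (4 * n)) (by positivity) hη's hηd hη'd hη'0
      hη''b hη''0 x w
    rw [nT_fG] at h6
    rw [h5]
    have h7 : (n : ℝ) * (-(1 / (4 * n)) * qG Gm w) = -(1 / 4) * qG Gm w := by
      field_simp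
    have h8 : (n : ℝ) * (-(1 / (4 * n)) * qG Gm w) ≤
        n * lev (fun y => η (lg f (δ k) y)) x w := by gcongr
    linarith
  have hLevinA : ∀ k, ∀ x ∉ A, ∀ w, Levi (φ k) x w = Levi Φ x w := by
    intro k x hx w
    rw [hLevi]
    have h5 : lev (ξ k) x w = lev (fun _ : M => η T) x w :=
      Peak1_976.lev_congr (loc_eq_notMem hKc (hξc k) fun h => hx (hKA h)) w
    rw [h5, lev_const, mul_zero, add_zero]
  have hφL : ∀ k x w, 0 ≤ Levi (φ k) x w := by
    intro k x w
    by_cases hx : x ∈ A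
    · exact le_trans (by have := qG_nonneg Gm w; positivity) (hLeviA k x hx w)
    · rw [hLevinA k x hx]; exact hΦL x w
  -- the function to be corrected
  set E : M → ℂ := fun x => Complex.exp ((1 / 2 : ℂ) * H (cp x - z0)) with hE
  have hEh : Hol E := by
    refine hol_of_coord (g := fun z => Complex.exp ((1 / 2 : ℂ) * H (z - z0))) ?_
    exact (contDiff_const.mul (hH.comp (contDiff_id.sub contDiff_const))).cexp
  have hEn : ∀ x, ‖E x‖ ^ 2 = Real.exp ((H (cp x - z0)).re) := by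
    intro x
    simp only [hE]
    rw [Complex.norm_exp, ← Real.exp_nat_mul]
    congr 1
    have h1 : (1 / 2 : ℂ) = ((1 / 2 : ℝ) : ℂ) := by push_cast; rfl
    rw [h1, Complex.re_ofReal_mul]; push_cast; ring
  set Gf : M → ℂ := loc A (fun y => ((θ (nS f y) : ℝ) : ℂ) * E y) 0 with hGf
  have hGc : ∀ x ∈ A, x ∉ K → ((θ (nS f x) : ℝ) : ℂ) * E x = 0 := by
    intro x hx hxK
    rw [hθ4 _ (by linarith [le_max_left 5 (Real.exp T), hAK x hx hxK])]; simp
  have hθSs : Sm (fun y => ((θ (nS f y) : ℝ) : ℂ) * E y) := (Sm.comp hθs hnSs).ofReal.mul hEh.sm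
  have hGs : Sm Gf := loc_sm hAo hKc hKA hθSs hGc
  have hbound : ∀ x ∈ A, nS f x ≤ 4 →
      Real.exp ((H (cp x - z0)).re) * Real.exp (-Φ x) ≤ Real.exp (c - Φ x0) := by
    intro x hx hS
    obtain ⟨-, h2, h3⟩ := hAmem x hx
    rw [← Real.exp_add]
    apply Real.exp_le_exp.2
    have h4 := hcH (cp x - z0) (by rw [mem_ball_zero_iff]; rwa [mem_ball, dist_eq_norm] at h2)
      (by rw [← hnS]; exact hS)
    rw [add_sub_cancel, h3] at h4
    linarith
  classical
  set kap : ℕ → M → ℝ := fun _ x => if x ∈ A ∧ 1 ≤ nS f x ∧ nS f x ≤ 4 then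
    8 * Cθ ^ 2 * Real.exp ((H (cp x - z0)).re) else 0 with hkap
  have hkap1 : ∀ k x w, ‖∑ j, db j Gf x * (starRingEnd ℂ) (w j)‖ ^ 2 ≤
      kap k x * Levi (φ k) x w := by
    intro k x w
    by_cases hx : x ∈ A
    · have h1 : ∀ j, db j Gf x = db j (fun y => ((θ (nS f y) : ℝ) : ℂ) * E y) x := fun j =>
        db_congr (loc_eq_mem hAo hx) j
      simp only [h1]
      have h2 := db_theta hfh hEh hθs hθd x w
      refine h2.trans ?_
      rw [nT_fG, hEn]
      have hq := qG_nonneg Gm w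
      by_cases h3 : 1 ≤ nS f x ∧ nS f x ≤ 4
      · have h4 : kap k x = 8 * Cθ ^ 2 * Real.exp ((H (cp x - z0)).re) := by
          simp only [hkap]; rw [if_pos ⟨hx, h3⟩]
        rw [h4]
        have h5 : (θ' (nS f x)) ^ 2 ≤ Cθ ^ 2 := sq_le_sq' (by
          have := (abs_le.1 (hθb (nS f x))).1; linarith) (abs_le.1 (hθb (nS f x))).2
        have h6 := hLeviA k x hx w
        have h7 : nS f x * qG Gm w ≤ 4 * qG Gm w := by nlinarith [h3.2]
        calc (θ' (nS f x)) ^ 2 * Real.exp ((H (cp x - z0)).re) * (nS f x * qG Gm w)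
            ≤ Cθ ^ 2 * Real.exp ((H (cp x - z0)).re) * (4 * qG Gm w) := by
              have := hnS0 x
              gcongr
          _ = 8 * Cθ ^ 2 * Real.exp ((H (cp x - z0)).re) * (1 / 2 * qG Gm w) := by ring
          _ ≤ _ := by gcongr
      · have h4 : θ' (nS f x) = 0 := by
          rw [not_and_or, not_le, not_le] at h3
          rcases h3 with h3 | h3
          · exact hθ'1 _ h3
          · exact hθ'4 _ h3
        rw [h4]
        have h5 : kap k x = 0 := by
          simp only [hkap]; rw [if_neg (fun h => h3 h.2)]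
        rw [h5]; simp
    · have h1 : ∀ j, db j Gf x = 0 := fun j => by
        rw [db_congr (loc_eq_notMem hKc hGc fun h => hx (hKA h)) j, db_const]
      have h5 : kap k x = 0 := by
        simp only [hkap]; rw [if_neg (fun h => hx h.1)]
      simp [h1, h5]
  set S4 : Set M := A ∩ {x | nS f x ≤ 4} with hS4
  have hS4m : MeasurableSet S4 :=
    hAo.measurableSet.inter (isClosed_le hnSs.continuous continuous_const).measurableSet
  set V : ℝ≥0∞ := volume {v : Fin n → ℂ | qG Gm v ≤ 4} with hV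
  have hS4vol : μ S4 ≤ V := by
    have hS4s : S4 ⊆ e.source := fun x hx => (hAmem x hx.1).1
    have h1 : μ S4 = chm e S4 := by
      rw [chm, ← hμ e he, Measure.restrict_apply hS4m, inter_eq_left.2 hS4s]
    rw [h1, chm_apply_sub he hS4m hS4s, hV]
    have h2 : (cp '' S4 : Set (Fin n → ℂ)) ⊆ (fun z => z - z0) ⁻¹' {v | qG Gm v ≤ 4} := by
      rintro _ ⟨x, hx, rfl⟩
      have : nS f x ≤ 4 := hx.2
      rwa [hnS] at this
    refine (measure_mono h2).trans (le_of_eq ?_)
    have h3 := measure_preimage_add_right (volume : Measure (Fin n → ℂ)) (-z0)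
      {v : Fin n → ℂ | qG Gm v ≤ 4}
    simpa only [sub_eq_add_neg] using h3
  have hKint : ∀ k, ∫⁻ x, ENNReal.ofReal (kap k x * Real.exp (-φ k x)) ∂μ ≤
      ENNReal.ofReal (8 * Cθ ^ 2 * Real.exp (c - Φ x0)) * V := by
    intro k
    have h1 : ∀ x, ENNReal.ofReal (kap k x * Real.exp (-φ k x)) ≤
        S4.indicator (fun _ => ENNReal.ofReal (8 * Cθ ^ 2 * Real.exp (c - Φ x0))) x := by
      intro x
      by_cases h2 : x ∈ A ∧ 1 ≤ nS f x ∧ nS f x ≤ 4
      · have hxS : x ∈ S4 := ⟨h2.1, h2.2.2⟩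
        rw [indicator_of_mem hxS]
        apply ENNReal.ofReal_le_ofReal
        simp only [hkap]
        rw [if_pos h2]
        have h3 : 0 ≤ ξ k x := by
          simp only [hξ, loc_mem h2.1]
          have h4 : η 0 ≤ η (lg f (δ k) x) := by
            apply hηm
            exact Real.log_nonneg (by linarith [hδ0 k, h2.2.1])
          rw [hη0 0 le_rfl] at h4
          exact h4
        have h5 : Real.exp (-φ k x) ≤ Real.exp (-Φ x) := by
          apply Real.exp_le_exp.2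
          simp only [hφ]
          have : 0 ≤ (n : ℝ) * ξ k x := by positivity
          linarith
        calc 8 * Cθ ^ 2 * Real.exp ((H (cp x - z0)).re) * Real.exp (-φ k x)
            ≤ 8 * Cθ ^ 2 * Real.exp ((H (cp x - z0)).re) * Real.exp (-Φ x) := by gcongr
          _ = 8 * Cθ ^ 2 * (Real.exp ((H (cp x - z0)).re) * Real.exp (-Φ x)) := by ring
          _ ≤ _ := by
            have := hbound x h2.1 h2.2.2
            gcongr
      · simp only [hkap]
        rw [if_neg h2, zero_mul, ENNReal.ofReal_zero]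
        exact zero_le
    calc _ ≤ ∫⁻ x, S4.indicator (fun _ => ENNReal.ofReal (8 * Cθ ^ 2 * Real.exp (c - Φ x0))) x ∂μ :=
          lintegral_mono h1
      _ ≤ ENNReal.ofReal (8 * Cθ ^ 2 * Real.exp (c - Φ x0)) * μ S4 :=
          lintegral_indicator_const_le _ _
      _ ≤ _ := by gcongr
  obtain ⟨F, hF, hFK⟩ := engineP n M μ hμ ρ hρ hρc hρL φ hφs hφanti hφL Gf hGs kap hkap1 _ hKint
  have hFc : Continuous F := Crest.Agent.R271.T7a297.Hol.continuous hF
  have hGx0 : Gf x0 = 1 := by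
    simp only [hGf, loc_mem hx0A]
    have h1 : nS f x0 = 0 := by
      rw [hnS, hcpx0, sub_self]; simp [qG]
    rw [h1, hθ1 0 (by norm_num)]
    simp only [hE, hcpx0, sub_self, hH0]; simp
  have hGc' : Continuous Gf := hGs.continuous
  have hVfin : V ≠ ∞ := by
    -- the set is bounded
    have h1 : {v : Fin n → ℂ | qG Gm v ≤ 4} ⊆ closedBall 0 r0 := by
      intro v hv
      rw [mem_closedBall_zero_iff]
      by_contra h
      push Not at h
      have h2 := hGR v h
      have h3 : qG Gm v ≤ 4 := hv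
      linarith [le_max_left 5 (Real.exp T)]
    exact ((measure_mono h1).trans_lt measure_closedBall_lt_top).ne
  set sup : M → ℝ≥0∞ := fun x => ⨆ k, ENNReal.ofReal (Real.exp (-φ k x)) with hsup
  have hsupm : Measurable sup := by
    apply Measurable.iSup
    intro k
    exact (Real.continuous_exp.comp (hφs k).continuous.neg).measurable.ennreal_ofReal
  -- the value at the centre
  have hval : F x0 - Gf x0 = 0 := by
    obtain ⟨b, hb, hbq⟩ := qG_le Gm
    have hc1 : ContinuousAt (fun z => Φ (e.symm z)) z0 :=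
      hΦ.continuous.continuousAt.comp (e.symm.continuousAt (by simpa using hz0t))
    have hev1 : ∀ᶠ z in 𝓝 z0, Φ (e.symm z) < Φ x0 + 1 :=
      hc1.eventually (gt_mem_nhds (lt_add_one _))
    have hc2 : ContinuousAt (fun z => qG Gm (z - z0)) z0 :=
      ((qG_cont Gm).comp (continuous_id.sub continuous_const)).continuousAt
    have hev2 : ∀ᶠ z in 𝓝 z0, qG Gm (z - z0) < 1 / 2 := by
      refine hc2.eventually (gt_mem_nhds ?_)
      change qG Gm (z0 - z0) < 1 / 2
      rw [sub_self]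
      simp [qG]
    have hev3 : ∀ᶠ z in 𝓝 z0, z ∈ ball z0 r1 := ball_mem_nhds z0 hr1
    obtain ⟨r, hr, hball⟩ := Metric.eventually_nhds_iff_ball.1 (hev1.and (hev2.and hev3))
    refine value_zero hn hμ he hz0t (u := fun x => F x - Gf x) (hFc.sub hGc') hsupm hr
      (Real.exp_pos (-Φ x0 - 1)) hb ?_ ?_
    · intro z hz hzt
      obtain ⟨h1, h2, h3⟩ := hball z hz
      set x : M := e.symm z with hx
      have hxA : x ∈ A := mem_image_of_mem _ h3
      have hcpx : cp x = z := he.cp_symm hzt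
      have hS : nS f x = qG Gm (z - z0) := by rw [hnS, hcpx]
      have hlim : Tendsto (fun k : ℕ => ENNReal.ofReal (Real.exp (-φ (k + 1) x))) atTop
          (𝓝 (ENNReal.ofReal (Real.exp (-Φ x)) * (ENNReal.ofReal (nS f x)) ^ (-(n : ℝ)))) := by
        have h4 : ∀ k : ℕ, ENNReal.ofReal (Real.exp (-φ (k + 1) x)) =
            ENNReal.ofReal (Real.exp (-Φ x)) *
              (ENNReal.ofReal (nS f x + δ (k + 1))) ^ (-(n : ℝ)) := by
          intro k
          have h5 : δ (k + 1) ≤ 1 / 2 := by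
            simp only [hδ]
            refine one_div_le_one_div_of_le (by norm_num) ?_
            push_cast
            have : (0 : ℝ) ≤ k := Nat.cast_nonneg k
            linarith
          have h6 : lg f (δ (k + 1)) x ≤ 0 :=
            Real.log_nonpos (hp (k + 1) x).le (by rw [hS]; linarith)
          have h7 : φ (k + 1) x = Φ x + n * lg f (δ (k + 1)) x := by
            simp only [hφ, hξ, loc_mem hxA]
            rw [hη0 _ h6]
          rw [h7, neg_add, Real.exp_add, ENNReal.ofReal_mul (Real.exp_pos _).le,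
            Crest.Agent.R271.G792.exp_lg f _ _ x (hp (k + 1) x)]
        simp only [h4]
        refine ENNReal.Tendsto.const_mul ?_ (Or.inr ENNReal.ofReal_ne_top)
        have h5 : Tendsto (fun k : ℕ => nS f x + δ (k + 1)) atTop (𝓝 (nS f x + 0)) := by
          refine tendsto_const_nhds.add ?_
          exact (tendsto_add_atTop_iff_nat (f := δ) 1).2 tendsto_one_div_add_atTop_nhds_zero_nat
        rw [add_zero] at h5
        exact ((ENNReal.continuous_rpow_const (y := -(n : ℝ))).tendsto _).comp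
          ((ENNReal.continuous_ofReal.tendsto _).comp h5)
      have h8 : ENNReal.ofReal (Real.exp (-Φ x)) * (ENNReal.ofReal (nS f x)) ^ (-(n : ℝ)) ≤
          sup x := le_of_tendsto' hlim fun k =>
        le_iSup (fun k => ENNReal.ofReal (Real.exp (-φ k x))) (k + 1)
      refine le_trans ?_ h8
      rw [ENNReal.rpow_neg, ENNReal.rpow_neg]
      gcongr
      · linarith
      · rw [hS]; exact hbq _
    · refine ne_top_of_le_ne_top ?_ hFK
      finiteness
  have hFx0 : F x0 = 1 := by rw [← hGx0]; exact sub_eq_zero.1 hval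
  refine ⟨F, hF, hFx0, ?_⟩
  -- the norm
  have hsupge : ∀ x, ENNReal.ofReal (Real.exp (-Φ x)) ≤
      ENNReal.ofReal (Real.exp (n * T)) * sup x := by
    intro x
    have h1 : ENNReal.ofReal (Real.exp (-φ 0 x)) ≤ sup x :=
      le_iSup (fun k => ENNReal.ofReal (Real.exp (-φ k x))) 0
    calc ENNReal.ofReal (Real.exp (-Φ x))
        ≤ ENNReal.ofReal (Real.exp (n * T) * Real.exp (-φ 0 x)) := by
          apply ENNReal.ofReal_le_ofReal
          rw [← Real.exp_add]
          apply Real.exp_le_exp.2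
          simp only [hφ]
          have : (n : ℝ) * ξ 0 x ≤ n * T := by gcongr; exact hξT 0 x
          linarith
      _ = ENNReal.ofReal (Real.exp (n * T)) * ENNReal.ofReal (Real.exp (-φ 0 x)) :=
          ENNReal.ofReal_mul (Real.exp_pos _).le
      _ ≤ _ := by gcongr
  have hGn : ∀ x, ENNReal.ofReal (‖Gf x‖ ^ 2) * ENNReal.ofReal (Real.exp (-Φ x)) ≤
      S4.indicator (fun _ => ENNReal.ofReal (Real.exp (c - Φ x0))) x := by
    intro x
    by_cases hx : x ∈ S4
    · rw [indicator_of_mem hx, ← ENNReal.ofReal_mul (by positivity)]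
      apply ENNReal.ofReal_le_ofReal
      simp only [hGf, loc_mem hx.1]
      rw [norm_mul, mul_pow, hEn, Complex.norm_real, Real.norm_eq_abs, sq_abs]
      have h1 := hθ01 (nS f x)
      have h2 : θ (nS f x) ^ 2 ≤ 1 := by nlinarith
      have h3 := hbound x hx.1 hx.2
      have h4 : 0 ≤ Real.exp ((H (cp x - z0)).re) * Real.exp (-Φ x) := by positivity
      calc θ (nS f x) ^ 2 * Real.exp ((H (cp x - z0)).re) * Real.exp (-Φ x)
          = θ (nS f x) ^ 2 * (Real.exp ((H (cp x - z0)).re) * Real.exp (-Φ x)) := by ring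
        _ ≤ 1 * (Real.exp ((H (cp x - z0)).re) * Real.exp (-Φ x)) := by gcongr
        _ ≤ _ := by rw [one_mul]; exact h3
    · have h1 : Gf x = 0 := by
        by_cases hxA : x ∈ A
        · simp only [hGf, loc_mem hxA]
          have h2 : 4 ≤ nS f x := by
            by_contra h
            push Not at h
            exact hx ⟨hxA, h.le⟩
          rw [hθ4 _ h2]; simp
        · simp only [hGf, loc_notMem hxA]
      rw [h1]; simp
  have hsplit : ∀ x, ENNReal.ofReal (‖F x‖ ^ 2 * Real.exp (-Φ x)) ≤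
      2 * ENNReal.ofReal (Real.exp (n * T)) * (ENNReal.ofReal (‖F x - Gf x‖ ^ 2) * sup x) +
        2 * S4.indicator (fun _ => ENNReal.ofReal (Real.exp (c - Φ x0))) x := by
    intro x
    rw [ENNReal.ofReal_mul (by positivity)]
    calc ENNReal.ofReal (‖F x‖ ^ 2) * ENNReal.ofReal (Real.exp (-Φ x))
        ≤ (2 * ENNReal.ofReal (‖F x - Gf x‖ ^ 2) + 2 * ENNReal.ofReal (‖Gf x‖ ^ 2)) *
          ENNReal.ofReal (Real.exp (-Φ x)) := by gcongr; exact ofReal_sq_le _ _
      _ = 2 * (ENNReal.ofReal (‖F x - Gf x‖ ^ 2) * ENNReal.ofReal (Real.exp (-Φ x))) +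
          2 * (ENNReal.ofReal (‖Gf x‖ ^ 2) * ENNReal.ofReal (Real.exp (-Φ x))) := by ring
      _ ≤ 2 * (ENNReal.ofReal (‖F x - Gf x‖ ^ 2) * (ENNReal.ofReal (Real.exp (n * T)) * sup x)) +
          2 * S4.indicator (fun _ => ENNReal.ofReal (Real.exp (c - Φ x0))) x := by
          gcongr
          · exact hsupge x
          · exact hGn x
      _ = _ := by ring
  have hm1 : Measurable fun x => ENNReal.ofReal (‖F x - Gf x‖ ^ 2) * sup x :=
    ((((hFc.sub hGc').norm).pow 2).measurable.ennreal_ofReal).mul hsupm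
  have hfinal : ∫⁻ x, ENNReal.ofReal (‖F x‖ ^ 2 * Real.exp (-Φ x)) ∂μ ≤
      2 * ENNReal.ofReal (Real.exp (n * T)) *
        (2 * (ENNReal.ofReal (8 * Cθ ^ 2 * Real.exp (c - Φ x0)) * V)) +
      2 * (ENNReal.ofReal (Real.exp (c - Φ x0)) * V) := by
    calc _ ≤ ∫⁻ x, (2 * ENNReal.ofReal (Real.exp (n * T)) *
          (ENNReal.ofReal (‖F x - Gf x‖ ^ 2) * sup x) +
          2 * S4.indicator (fun _ => ENNReal.ofReal (Real.exp (c - Φ x0))) x) ∂μ :=
          lintegral_mono hsplit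
      _ = 2 * ENNReal.ofReal (Real.exp (n * T)) *
            ∫⁻ x, ENNReal.ofReal (‖F x - Gf x‖ ^ 2) * sup x ∂μ +
          2 * ∫⁻ x, S4.indicator (fun _ => ENNReal.ofReal (Real.exp (c - Φ x0))) x ∂μ := by
          rw [lintegral_add_left (hm1.const_mul _), lintegral_const_mul _ hm1,
            lintegral_const_mul' _ _ (by finiteness)]
      _ ≤ _ := by
          gcongr
          refine (lintegral_indicator_const_le _ _).trans ?_
          gcongr
  refine hfinal.trans (le_of_eq ?_)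
  have e1 : ENNReal.ofReal ((4 * Real.exp (n * T) * (8 * Cθ ^ 2) + 2) * Real.exp (c - Φ x0)) =
      2 * ENNReal.ofReal (Real.exp (n * T)) *
        (2 * (ENNReal.ofReal (8 * Cθ ^ 2 * Real.exp (c - Φ x0)))) +
      2 * (ENNReal.ofReal (Real.exp (c - Φ x0))) := by
    have h2 : (2 : ℝ≥0∞) = ENNReal.ofReal 2 := by simp
    rw [h2, ← ENNReal.ofReal_mul (by norm_num), ← ENNReal.ofReal_mul (by norm_num),
      ← ENNReal.ofReal_mul (by positivity), ← ENNReal.ofReal_mul (by norm_num),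
      ← ENNReal.ofReal_add (by positivity) (by positivity)]
    congr 1; ring
  rw [e1]; ring

end Crest.Agent.R269.Peak3_976
end
end

-- ▼ part R269/Peak4_976
section

/-!
# R269, leaf PK (helper976): peak sections, part 4: `peak` (PK1)
-/

set_option autoImplicit false
set_option linter.unusedSectionVars false

noncomputable section

open Set Filter Topology Complex MeasureTheory Metric
open scoped ENNReal ComplexConjugate Matrix ComplexOrder

namespace Crest.Agent.R269.Peak4_976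

open Crest.Agent.R271.Ho51 hiding Hol
open Crest.Agent.R271.W792 Crest.Agent.R269.Peak1_976 Crest.Agent.R269.Peak2_976
open Crest.Agent.R276.LM2_976 (hpart hpart_zero hpart_re taylor2 lcont qcont)
open Crest.Agent.R276.LM3_976 (hq hq_gram hq_smul exists_gram volume_herm)

theorem hpart_contDiff {E : Type*} [NormedAddCommGroup E] [NormedSpace ℂ E] (l : E →L[ℝ] ℝ)
    (B : E →L[ℝ] E →L[ℝ] ℝ) : ContDiff ℂ (⊤ : ℕ∞) (hpart l B) := by
  have h1 : ContDiff ℂ (⊤ : ℕ∞) (fun w => qcont B w w) :=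
    (qcont B).contDiff.clm_apply contDiff_id
  exact (lcont l).contDiff.add (contDiff_const.mul h1)

variable {n : ℕ} {M : Type*} [TopologicalSpace M] [RDom n M]

/-- the matrix of the Levi form: `hq (PL φ x) w = Levi φ x w` -/
def PL (φ : M → ℝ) (x : M) : Matrix (Fin n) (Fin n) ℂ := Matrix.of fun k j => Lv φ x j k

lemma hq_PL (φ : M → ℝ) (x : M) (w : Fin n → ℂ) : hq (PL φ x) w = Levi φ x w := by
  unfold hq Levi
  congr 1
  simp only [dotProduct, Matrix.mulVec, PL, Matrix.of_apply, Pi.star_apply, Complex.star_def]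
  rw [Finset.sum_comm]
  refine Finset.sum_congr rfl fun k _ => ?_
  rw [Finset.mul_sum]
  refine Finset.sum_congr rfl fun j _ => by ring

lemma PL_herm {φ : M → ℝ} (hφ : Sm φ) (x : M) : (PL φ x).IsHermitian := by
  ext k j
  simp only [PL, Matrix.conjTranspose_apply, Matrix.of_apply, Complex.star_def]
  exact Lv_conj hφ x k j

lemma PL_posDef {φ : M → ℝ} (hφ : Sm φ) {x : M} (h : ∀ w, w ≠ 0 → 0 < Levi φ x w) :
    (PL φ x).PosDef := by
  refine Matrix.PosDef.of_dotProduct_mulVec_pos (PL_herm hφ x) fun w hw => ?_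
  have h1 := h w hw
  rw [← hq_PL] at h1
  have h2 : ((hq (PL φ x) w : ℝ) : ℂ) = star w ⬝ᵥ (PL φ x *ᵥ w) := by
    rw [hq]
    have h3 := Levi_eq hφ x w
    rw [← hq_PL, hq] at h3
    rw [h3]
    simp only [dotProduct, Matrix.mulVec, PL, Matrix.of_apply, Pi.star_apply, Complex.star_def]
    rw [Finset.sum_comm]
    refine Finset.sum_congr rfl fun k _ => ?_
    rw [Finset.mul_sum]
    refine Finset.sum_congr rfl fun j _ => by ring
  rw [← h2]
  exact_mod_cast h1

lemma sm_Lv {φ : M → ℝ} (hφ : Sm φ) (j k : Fin n) : Sm (fun x => Lv φ x j k) :=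
  (hφ.ofReal.db k).dz j

/-- `|Levi φ x w| ≤ (Σ |Lv|) ‖w‖²` -/
lemma Levi_diff_le (φ : M → ℝ) (x y : M) (w : Fin n → ℂ) :
    |Levi φ x w - Levi φ y w| ≤ (∑ j, ∑ k, ‖Lv φ x j k - Lv φ y j k‖) * ‖w‖ ^ 2 := by
  unfold Levi
  rw [← Complex.sub_re]
  refine (Complex.abs_re_le_norm _).trans ?_
  rw [← Finset.sum_sub_distrib, Finset.sum_mul]
  refine (norm_sum_le _ _).trans (Finset.sum_le_sum fun j _ => ?_)
  rw [← Finset.sum_sub_distrib, Finset.sum_mul]
  refine (norm_sum_le _ _).trans (Finset.sum_le_sum fun k _ => ?_)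
  rw [← sub_mul, ← sub_mul, norm_mul, norm_mul, RCLike.norm_conj, mul_assoc]
  have h1 := norm_le_pi_norm w j
  have h2 := norm_le_pi_norm w k
  have h3 : ‖w j‖ * ‖w k‖ ≤ ‖w‖ ^ 2 := by
    rw [sq]; exact mul_le_mul h1 h2 (norm_nonneg _) (norm_nonneg _)
  gcongr

lemma Levi_abs_le (φ : M → ℝ) (x : M) (w : Fin n → ℂ) :
    |Levi φ x w| ≤ (∑ j, ∑ k, ‖Lv φ x j k‖) * ‖w‖ ^ 2 := by
  unfold Levi
  refine (Complex.abs_re_le_norm _).trans ?_
  rw [Finset.sum_mul]
  refine (norm_sum_le _ _).trans (Finset.sum_le_sum fun j _ => ?_)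
  rw [Finset.sum_mul]
  refine (norm_sum_le _ _).trans (Finset.sum_le_sum fun k _ => ?_)
  rw [norm_mul, norm_mul, RCLike.norm_conj, mul_assoc]
  have h1 := norm_le_pi_norm w j
  have h2 := norm_le_pi_norm w k
  have h3 : ‖w j‖ * ‖w k‖ ≤ ‖w‖ ^ 2 := by
    rw [sq]; exact mul_le_mul h1 h2 (norm_nonneg _) (norm_nonneg _)
  gcongr

/-- continuity of the Levi form, uniformly in the direction -/
lemma eventually_Levi {φ : M → ℝ} (hφ : Sm φ) (x : M) {ε : ℝ} (hε : 0 < ε) :
    ∀ᶠ y in 𝓝 x, ∀ w, |Levi φ y w - Levi φ x w| ≤ ε * ‖w‖ ^ 2 := by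
  have hc : Continuous fun y => ∑ j, ∑ k, ‖Lv φ y j k - Lv φ x j k‖ :=
    continuous_finsetSum _ fun j _ => continuous_finsetSum _ fun k _ =>
      ((sm_Lv hφ j k).continuous.sub continuous_const).norm
  have h0 : (fun y => ∑ j, ∑ k, ‖Lv φ y j k - Lv φ x j k‖) x < ε := by simpa using hε
  filter_upwards [hc.continuousAt.eventually (gt_mem_nhds h0)] with y hy w
  exact (Levi_diff_le φ y x w).trans (by gcongr)

/-- second derivatives in a chart and the Levi form -/
lemma Levi_chart {φ : M → ℝ} (hφ : Sm φ) {e : OpenPartialHomeomorph M (Fin n → ℂ)} (he : IsCh e)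
    {z : Fin n → ℂ} (hz : z ∈ e.target) (w : Fin n → ℂ) :
    Levi φ (e.symm z) w = (1 / 4) * (fderiv ℝ (fderiv ℝ (φ ∘ e.symm)) z w w +
      fderiv ℝ (fderiv ℝ (φ ∘ e.symm)) z (Complex.I • w) (Complex.I • w)) := by
  rw [Levi_eq_lev hφ]
  unfold lev
  have h : ∀ v : Fin n → ℂ, D (fun y => D φ y v) (e.symm z) v =
      fderiv ℝ (fderiv ℝ (φ ∘ e.symm)) z v v := by
    intro v
    rw [D_symm he hz]
    have h1 : ((fun y => D φ y v) ∘ e.symm) =ᶠ[𝓝 z] fun y => fderiv ℝ (φ ∘ e.symm) y v := by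
      filter_upwards [e.open_target.mem_nhds hz] with y hy
      simp only [Function.comp_apply]
      rw [D_symm he hy]
    rw [h1.fderiv_eq]
    have h2 : DifferentiableAt ℝ (fderiv ℝ (φ ∘ e.symm)) z := by
      have h3 := hφ.contDiffAt' he hz
      exact ((h3.fderiv_right (m := 1) (by
        rw [one_add_one_eq_two]; exact two_le_top')).differentiableAt (by norm_num))
    have h4 : HasFDerivAt (fun y => fderiv ℝ (φ ∘ e.symm) y v)
        ((ContinuousLinearMap.apply ℝ ℝ v).comp (fderiv ℝ (fderiv ℝ (φ ∘ e.symm)) z)) z :=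
      (ContinuousLinearMap.apply ℝ ℝ v).hasFDerivAt.comp z h2.hasFDerivAt
    rw [h4.fderiv]
    simp
  rw [h, h]

end Crest.Agent.R269.Peak4_976
end
end

-- ▼ part R269/Peak5_976
section

/-!
# R269, leaf PK (helper976): peak sections, part 5: `peak` (PK1)
-/

set_option autoImplicit false
set_option linter.unusedSectionVars false

noncomputable section

open Set Filter Topology Complex MeasureTheory Metric
open scoped ENNReal ComplexConjugate Matrix ComplexOrder

namespace Crest.Agent.R269.Peak5_976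

open Crest.Agent.R271.Ho51 hiding Hol
open Crest.Agent.R271.W792 Crest.Agent.R269.Peak1_976 Crest.Agent.R269.Peak2_976
open Crest.Agent.R269.Peak3_976 Crest.Agent.R269.Peak4_976
open Crest.Agent.R276.LM2_976 (hpart hpart_zero hpart_re taylor2 lcont qcont)
open Crest.Agent.R276.LM3_976 (hq hq_gram hq_smul hq_continuous exists_gram volume_herm)

/-- a positive definite Hermitian form dominates the norm -/
theorem exists_coercive {n : ℕ} (P : Matrix (Fin n) (Fin n) ℂ)
    (hP : ∀ w, w ≠ 0 → 0 < hq P w) : ∃ δ : ℝ, 0 < δ ∧ ∀ w, δ * ‖w‖ ^ 2 ≤ hq P w := by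
  have h0 : hq P 0 = 0 := by
    have := hq_smul P 0 0
    simpa using this
  rcases (sphere (0 : Fin n → ℂ) 1).eq_empty_or_nonempty with hs | hs
  · refine ⟨1, one_pos, fun w => ?_⟩
    by_cases hw : w = 0
    · rw [hw, h0]; simp
    · exfalso
      have hn : ‖w‖ ≠ 0 := norm_ne_zero_iff.2 hw
      have h1 : ((‖w‖⁻¹ : ℝ) : ℂ) • w ∈ sphere (0 : Fin n → ℂ) 1 := by
        rw [mem_sphere_zero_iff_norm, norm_smul, Complex.norm_real, norm_inv, norm_norm,
          inv_mul_cancel₀ hn]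
      rw [hs] at h1
      exact h1
  · obtain ⟨w0, hw0, hmin⟩ := (isCompact_sphere (0 : Fin n → ℂ) 1).exists_isMinOn hs
      (hq_continuous P).continuousOn
    have hw0' : w0 ≠ 0 := by
      intro h
      rw [h] at hw0
      simp at hw0
    refine ⟨hq P w0, hP w0 hw0', fun w => ?_⟩
    by_cases hw : w = 0
    · rw [hw, h0]; simp
    · have hn : ‖w‖ ≠ 0 := norm_ne_zero_iff.2 hw
      have h1 : ((‖w‖⁻¹ : ℝ) : ℂ) • w ∈ sphere (0 : Fin n → ℂ) 1 := by
        rw [mem_sphere_zero_iff_norm, norm_smul, Complex.norm_real, norm_inv, norm_norm,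
          inv_mul_cancel₀ hn]
      have h2 : hq P w0 ≤ hq P (((‖w‖⁻¹ : ℝ) : ℂ) • w) := hmin h1
      rw [hq_smul, Complex.norm_real, norm_inv, norm_norm] at h2
      have h3 : 0 < ‖w‖ ^ 2 := by positivity
      calc hq P w0 * ‖w‖ ^ 2 ≤ (‖w‖⁻¹ ^ 2 * hq P w) * ‖w‖ ^ 2 := by gcongr
        _ = hq P w := by field_simp

/-- volume of the Euclidean unit ball of `ℂⁿ` -/
def vB (n : ℕ) : ℝ≥0∞ := volume {w : Fin n → ℂ | ∑ i, ‖w i‖ ^ 2 < 1}

theorem vB_lt_top (n : ℕ) : vB n < ∞ := by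
  have h1 : {w : Fin n → ℂ | ∑ i, ‖w i‖ ^ 2 < 1} ⊆ closedBall 0 1 := by
    intro w hw
    rw [mem_closedBall_zero_iff, pi_norm_le_iff_of_nonneg zero_le_one]
    intro i
    have h2 : ‖w i‖ ^ 2 ≤ ∑ i, ‖w i‖ ^ 2 :=
      Finset.single_le_sum (f := fun i => ‖w i‖ ^ 2) (fun _ _ => by positivity) (Finset.mem_univ i)
    have h3 : ∑ i, ‖w i‖ ^ 2 < 1 := hw
    nlinarith [norm_nonneg (w i)]
  exact (measure_mono h1).trans_lt measure_closedBall_lt_top

theorem Levi_comb {n : ℕ} {M : Type*} [TopologicalSpace M] [RDom n M] {ψ ψ0 : M → ℝ}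
    (hψ : Sm ψ) (hψ0 : Sm ψ0) (k : ℝ) (x : M) (w : Fin n → ℂ) :
    Levi (fun y => k * ψ y + ψ0 y) x w = k * Levi ψ x w + Levi ψ0 x w := by
  have h1 : Sm (fun y => k * ψ y) := (Sm.const k).mulR hψ
  rw [Levi_eq_lev (h1.add hψ0), Levi_eq_lev hψ, Levi_eq_lev hψ0, lev_add h1 hψ0,
    lev_const_mul hψ]

/-- **PK1: peak sections with the determinant constant.** -/
theorem peak {n : ℕ} (hn : 0 < n) : ∃ C : ℝ, 0 < C ∧
    ∀ (M : Type) [TopologicalSpace M] [T2Space M] [SecondCountableTopology M] [RDom n M]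
      [MeasurableSpace M] [BorelSpace M] (μ : Measure M), IsLeb μ →
    ∀ ρ : M → ℝ, Sm ρ → (∀ c, IsCompact {x | ρ x ≤ c}) → (∀ x w, nsq w ≤ Levi ρ x w) →
    ∀ ψ ψ0 : M → ℝ, Sm ψ → Sm ψ0 → ∀ k1 : ℝ,
      (∀ k : ℝ, k1 ≤ k → ∀ x w, 0 ≤ Levi (fun y => k * ψ y + ψ0 y) x w) →
    ∀ x0 : M, (∀ w, w ≠ 0 → 0 < Levi ψ x0 w) →
      ∃ k0 : ℝ, 0 < k0 ∧ ∀ k : ℝ, k0 ≤ k → ∃ F : M → ℂ, Crest.Agent.R271.Ho51.Hol F ∧ F x0 = 1 ∧
        ∫⁻ x, ENNReal.ofReal (‖F x‖ ^ 2 * Real.exp (-(k * ψ x + ψ0 x))) ∂μ ≤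
          ENNReal.ofReal (C * Real.exp (-(k * ψ x0 + ψ0 x0)) / (k ^ n * (PL ψ x0).det.re)) := by
  obtain ⟨C0, R, hC0, hR, hcore⟩ := pk_core hn
  refine ⟨C0 * Real.exp 2 * 5 ^ n * ((vB n).toReal + 1), by positivity, ?_⟩
  intro M _ _ _ _ _ _ μ hμ ρ hρ hρc hρL ψ ψ0 hψ hψ0 k1 hk1 x0 hpos
  set e := ch x0 with he
  have hech : IsCh e := isCh_ch x0
  set z0 : Fin n → ℂ := cp x0 with hz0
  have hz0t : z0 ∈ e.target := hech.cp_mem (mem_ch x0)
  have hsymm : e.symm z0 = x0 := symm_cp x0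
  have hPD : (PL ψ x0).PosDef := PL_posDef hψ hpos
  obtain ⟨δ, hδ, hδq⟩ := exists_coercive (PL ψ x0) (fun w hw => by rw [hq_PL]; exact hpos w hw)
  obtain ⟨G0, hG0⟩ := exists_gram hPD.posSemidef
  have hqG : ∀ w, qG G0 w = Levi ψ x0 w := by
    intro w
    rw [← hq_PL, hG0, hq_gram]; rfl
  have hδL : ∀ w, δ * ‖w‖ ^ 2 ≤ Levi ψ x0 w := fun w => by rw [← hq_PL]; exact hδq w
  -- the local conditions
  have hct : ContinuousAt e.symm z0 := e.symm.continuousAt (by simpa using hz0t)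
  have hct' : Tendsto e.symm (𝓝 z0) (𝓝 x0) := by
    have := hct
    rwa [ContinuousAt, hsymm] at this
  have hev1 := hct'.eventually (eventually_Levi hψ x0 (ε := δ / 8) (by positivity))
  have hev2 := hct'.eventually (eventually_Levi hψ0 x0 (ε := 1) one_pos)
  have hev3 : ∀ᶠ z in 𝓝 z0, ψ0 x0 - 1 < ψ0 (e.symm z) :=
    hct'.eventually (hψ0.continuous.continuousAt.eventually (lt_mem_nhds (by linarith)))
  have hev4 : ∀ᶠ z in 𝓝 z0, z ∈ e.target := e.open_target.mem_nhds hz0t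
  obtain ⟨ra, hra, hball⟩ := Metric.eventually_nhds_iff_ball.1
    (hev1.and (hev2.and (hev3.and hev4)))
  have hψc : ContDiffOn ℝ 2 (ψ ∘ e.symm) e.target :=
    (hψ.contDiffOn hech).of_le two_le_top'
  obtain ⟨rb, hrb, hT⟩ := taylor2 (K := {z0}) e.open_target isCompact_singleton
    (by simpa using hz0t) hψc (ε := δ / 4) (by positivity)
  set r1 : ℝ := min ra rb / 2 with hr1
  have hr1p : 0 < r1 := by have := lt_min hra hrb; positivity
  have hr1a : r1 < ra := by
    have h1 := min_le_left ra rb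
    have h2 := lt_min hra hrb
    rw [hr1]; linarith
  have hr1b : r1 < rb := by
    have h1 := min_le_right ra rb
    have h2 := lt_min hra hrb
    rw [hr1]; linarith
  set r0 : ℝ := r1 / 2 with hr0
  have hr0p : 0 < r0 := by positivity
  have hr01 : r0 < r1 := by rw [hr0]; linarith
  have hBt : closedBall z0 r1 ⊆ e.target := fun z hz =>
    (hball z (closedBall_subset_ball hr1a hz)).2.2.2
  set C1 : ℝ := ∑ j, ∑ k, ‖Lv ψ0 x0 j k‖ with hC1
  have hC1p : 0 ≤ C1 := Finset.sum_nonneg fun _ _ => Finset.sum_nonneg fun _ _ => norm_nonneg _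
  set k0 : ℝ := max (max k1 1) (max (R / (δ * r0 ^ 2)) (8 * (C1 + 1) / δ)) with hk0
  have hk0p : 0 < k0 := lt_of_lt_of_le one_pos ((le_max_right k1 1).trans (le_max_left _ _))
  refine ⟨k0, hk0p, fun k hk => ?_⟩
  have hkp : 0 < k := hk0p.trans_le hk
  have hkk1 : k1 ≤ k := ((le_max_left k1 1).trans (le_max_left _ _)).trans hk
  have hka : R ≤ k * (δ * r0 ^ 2) := by
    have h1 : R / (δ * r0 ^ 2) ≤ k := ((le_max_left _ _).trans (le_max_right _ _)).trans hk
    rwa [div_le_iff₀ (by positivity)] at h1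
  have hkb : 8 * (C1 + 1) ≤ k * δ := by
    have h1 : 8 * (C1 + 1) / δ ≤ k := ((le_max_right _ _).trans (le_max_right _ _)).trans hk
    rwa [div_le_iff₀ hδ] at h1
  set Gm : Matrix (Fin n) (Fin n) ℂ := ((Real.sqrt k : ℝ) : ℂ) • G0 with hGm
  have hqGm : ∀ w, qG Gm w = k * Levi ψ x0 w := by
    intro w
    rw [← hqG]
    unfold qG
    rw [Finset.mul_sum]
    refine Finset.sum_congr rfl fun i _ => ?_
    rw [hGm, Matrix.smul_mulVec, Pi.smul_apply, norm_smul, mul_pow, Complex.norm_real,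
      Real.norm_eq_abs, sq_abs, Real.sq_sqrt hkp.le]
  set Φ : M → ℝ := fun y => k * ψ y + ψ0 y with hΦ
  have hΦs : Sm Φ := ((Sm.const k).mulR hψ).add hψ0
  set H : (Fin n → ℂ) → ℂ := fun v => (k : ℂ) * hpart (fderiv ℝ (ψ ∘ e.symm) z0)
    (fderiv ℝ (fderiv ℝ (ψ ∘ e.symm)) z0) v with hH
  obtain ⟨F, hF1, hF2, hF3⟩ := hcore M μ hμ ρ hρ hρc hρL Φ hΦs (hk1 k hkk1) e hech z0 r0 r1 hr0p
    hr01 hBt Gm (by
      intro v hv
      rw [hqGm]
      have h1 := hδL v
      have h2 : r0 ^ 2 ≤ ‖v‖ ^ 2 := by gcongr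
      calc R ≤ k * (δ * r0 ^ 2) := hka
        _ ≤ k * (δ * ‖v‖ ^ 2) := by gcongr
        _ ≤ _ := by gcongr) (by
      intro z hz w
      have hz' := hball z (ball_subset_ball hr1a.le hz)
      rw [hqGm, hΦ, Levi_comb hψ hψ0]
      have h1 := (abs_le.1 (hz'.1 w)).1
      have h2 := (abs_le.1 (hz'.2.1 w)).1
      have h3 := (abs_le.1 (Levi_abs_le ψ0 x0 w)).1
      have h4 := hδL w
      rw [← hC1] at h3
      have h5 : 0 ≤ ‖w‖ ^ 2 := by positivity
      have h6 : 8 * (C1 + 1) * ‖w‖ ^ 2 ≤ k * Levi ψ x0 w := by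
        calc 8 * (C1 + 1) * ‖w‖ ^ 2 ≤ (k * δ) * ‖w‖ ^ 2 := by gcongr
          _ = k * (δ * ‖w‖ ^ 2) := by ring
          _ ≤ _ := by gcongr
      have h7 : k * (Levi ψ x0 w - δ / 8 * ‖w‖ ^ 2) ≤ k * Levi ψ (e.symm z) w := by
        apply mul_le_mul_of_nonneg_left _ hkp.le
        linarith
      have h8 : k * (δ / 8 * ‖w‖ ^ 2) ≤ k * Levi ψ x0 w / 8 := by
        have := mul_le_mul_of_nonneg_left h4 hkp.le
        linarith
      nlinarith) 2 H
      (contDiff_const.mul (hpart_contDiff _ _))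
      (by simp [hH, hpart_zero]) (by
      intro v hv hv4
      rw [mem_ball_zero_iff] at hv
      have hvz : z0 + v ∈ ball z0 ra := by
        rw [mem_ball, dist_eq_norm, add_sub_cancel_left]; exact hv.trans hr1a
      have hz' := hball (z0 + v) hvz
      obtain ⟨-, ht⟩ := hT z0 rfl v (hv.trans hr1b)
      have ht1 := (abs_le.1 ht).1
      have hp := hpart_re (fderiv ℝ (ψ ∘ e.symm) z0) (fderiv ℝ (fderiv ℝ (ψ ∘ e.symm)) z0) v
      have hL := Levi_chart hψ hech hz0t v
      rw [hsymm] at hL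
      rw [hqGm] at hv4
      have hre : (H v).re = k * (hpart (fderiv ℝ (ψ ∘ e.symm) z0)
          (fderiv ℝ (fderiv ℝ (ψ ∘ e.symm)) z0) v).re := by
        simp only [hH, Complex.re_ofReal_mul]
      have h1 := hδL v
      simp only [hΦ]
      have h2 : ψ (e.symm z0) + (hpart (fderiv ℝ (ψ ∘ e.symm) z0)
          (fderiv ℝ (fderiv ℝ (ψ ∘ e.symm)) z0) v).re + Levi ψ x0 v - δ / 4 * ‖v‖ ^ 2 ≤
          ψ (e.symm (z0 + v)) := by
        simp only [Function.comp_apply] at ht1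
        linarith
      have h3 := mul_le_mul_of_nonneg_left h2 hkp.le
      have h4 : k * (δ / 4 * ‖v‖ ^ 2) ≤ 1 := by
        have := mul_le_mul_of_nonneg_left h1 hkp.le
        linarith
      have h5 := hz'.2.2.1
      have h6 : 0 ≤ Levi ψ x0 v := le_trans (by positivity) h1
      have h7 : 0 ≤ k * Levi ψ x0 v := by positivity
      rw [hre]
      rw [hsymm] at h3 ⊢
      nlinarith)
  refine ⟨F, hF1, ?_, ?_⟩
  · rw [hsymm] at hF2; exact hF2
  · rw [hsymm] at hF3
    refine hF3.trans ?_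
    -- the volume
    have hdetpos : 0 < (PL ψ x0).det.re := by
      have := hPD.det_pos
      exact (Complex.pos_iff.1 this).1
    have hPk : (((k / 5 : ℝ) : ℂ) • PL ψ x0).PosDef :=
      hPD.smul (by exact_mod_cast (by positivity : (0 : ℝ) < k / 5))
    have hqk : ∀ v, hq (((k / 5 : ℝ) : ℂ) • PL ψ x0) v = k / 5 * Levi ψ x0 v := by
      intro v
      rw [← hq_PL]
      unfold hq
      rw [Matrix.smul_mulVec, dotProduct_smul, smul_eq_mul, Complex.re_ofReal_mul]
    have hsub : {v : Fin n → ℂ | qG Gm v ≤ 4} ⊆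
        {v | hq (((k / 5 : ℝ) : ℂ) • PL ψ x0) v < 1} := by
      intro v hv
      have h1 : qG Gm v ≤ 4 := hv
      rw [hqGm] at h1
      change hq _ v < 1
      rw [hqk]
      linarith
    have hdet : (((k / 5 : ℝ) : ℂ) • PL ψ x0).det.re = (k / 5) ^ n * (PL ψ x0).det.re := by
      rw [Matrix.det_smul, Fintype.card_fin, ← Complex.ofReal_pow, Complex.re_ofReal_mul]
    have hvol : volume {v : Fin n → ℂ | qG Gm v ≤ 4} ≤
        ENNReal.ofReal (5 ^ n / (k ^ n * (PL ψ x0).det.re) * ((vB n).toReal + 1)) := by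
      refine (measure_mono hsub).trans ?_
      rw [volume_herm hPk volume, hdet]
      have h1 : volume {w : Fin n → ℂ | ∑ i, ‖w i‖ ^ 2 < 1} ≤
          ENNReal.ofReal ((vB n).toReal + 1) := by
        have h2 : volume {w : Fin n → ℂ | ∑ i, ‖w i‖ ^ 2 < 1} = ENNReal.ofReal ((vB n).toReal) :=
          (ENNReal.ofReal_toReal (vB_lt_top n).ne).symm
        rw [h2]
        exact ENNReal.ofReal_le_ofReal (by linarith)
      calc _ ≤ ENNReal.ofReal (((k / 5) ^ n * (PL ψ x0).det.re)⁻¹) *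
            ENNReal.ofReal ((vB n).toReal + 1) := by gcongr
        _ = ENNReal.ofReal (((k / 5) ^ n * (PL ψ x0).det.re)⁻¹ * ((vB n).toReal + 1)) :=
            (ENNReal.ofReal_mul (by positivity)).symm
        _ = _ := by
            congr 1
            rw [div_pow]
            field_simp
    calc _ ≤ ENNReal.ofReal (C0 * Real.exp (2 - Φ x0)) *
          ENNReal.ofReal (5 ^ n / (k ^ n * (PL ψ x0).det.re) * ((vB n).toReal + 1)) := by gcongr
      _ = ENNReal.ofReal (C0 * Real.exp (2 - Φ x0) *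
          (5 ^ n / (k ^ n * (PL ψ x0).det.re) * ((vB n).toReal + 1))) :=
          (ENNReal.ofReal_mul (by positivity)).symm
      _ = _ := by
          congr 1
          have : Real.exp (2 - Φ x0) = Real.exp 2 * Real.exp (-(k * ψ x0 + ψ0 x0)) := by
            rw [← Real.exp_add]; congr 1
          rw [this]
          ring

end Crest.Agent.R269.Peak5_976
end
end

-- ▼ part R269/Peak6_976
section

/-!
# R269, leaf PK (helper976): peak sections, part 6: dimension (PK2)
-/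

set_option autoImplicit false
set_option linter.unusedSectionVars false

noncomputable section

open Set Filter Topology Complex MeasureTheory Metric
open scoped ENNReal ComplexConjugate Matrix ComplexOrder

namespace Crest.Agent.R269.Peak6_976

open Crest.Agent.R271.Ho51 hiding Hol
open Crest.Agent.R271.W792 Crest.Agent.R269.Peak1_976 Crest.Agent.R269.Peak2_976
open Crest.Agent.R269.Peak3_976 Crest.Agent.R269.Peak4_976 Crest.Agent.R269.Peak5_976
open Crest.Agent.R276.LM3_976 (nI exists_bergman)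

variable {n : ℕ} {M : Type*} [TopologicalSpace M] [RDom n M]

theorem hol_add {F G : M → ℂ} (hF : Crest.Agent.R271.Ho51.Hol F)
    (hG : Crest.Agent.R271.Ho51.Hol G) : Crest.Agent.R271.Ho51.Hol (F + G) := fun e he =>
  (hF e he).add (hG e he)

theorem hol_smul {F : M → ℂ} (hF : Crest.Agent.R271.Ho51.Hol F) (c : ℂ) :
    Crest.Agent.R271.Ho51.Hol (c • F) := fun e he => (hF e he).const_smul c

theorem hol_zero : Crest.Agent.R271.Ho51.Hol (0 : M → ℂ) := fun _ _ =>
  differentiableOn_const (0 : ℂ)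

variable [MeasurableSpace M] [BorelSpace M]

/-- holomorphic functions with finite weighted `L²` norm -/
def W (μ : Measure M) (Φ : M → ℝ) (hΦ : Measurable Φ) : Submodule ℂ (M → ℂ) where
  carrier := {F | Crest.Agent.R271.Ho51.Hol F ∧
    ∫⁻ x, ENNReal.ofReal (‖F x‖ ^ 2 * Real.exp (-Φ x)) ∂μ < ∞}
  zero_mem' := ⟨hol_zero, by simp⟩
  add_mem' := by
    rintro F G ⟨hF, hF2⟩ ⟨hG, hG2⟩
    refine ⟨hol_add hF hG, ?_⟩
    have h1 : ∀ x, ENNReal.ofReal (‖(F + G) x‖ ^ 2 * Real.exp (-Φ x)) ≤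
        2 * ENNReal.ofReal (‖F x‖ ^ 2 * Real.exp (-Φ x)) +
          2 * ENNReal.ofReal (‖G x‖ ^ 2 * Real.exp (-Φ x)) := by
      intro x
      have h2 : (2 : ℝ≥0∞) = ENNReal.ofReal 2 := by simp
      rw [h2, ← ENNReal.ofReal_mul (by norm_num), ← ENNReal.ofReal_mul (by norm_num),
        ← ENNReal.ofReal_add (by positivity) (by positivity)]
      refine ENNReal.ofReal_le_ofReal ?_
      have h3 : ‖(F + G) x‖ ^ 2 ≤ 2 * ‖F x‖ ^ 2 + 2 * ‖G x‖ ^ 2 := by
        have h4 : ‖(F + G) x‖ ≤ ‖F x‖ + ‖G x‖ := norm_add_le _ _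
        nlinarith [norm_nonneg (F x), norm_nonneg (G x), norm_nonneg ((F + G) x),
          sq_nonneg (‖F x‖ - ‖G x‖)]
      calc _ ≤ (2 * ‖F x‖ ^ 2 + 2 * ‖G x‖ ^ 2) * Real.exp (-Φ x) := by gcongr
        _ = _ := by ring
    have hFc := Crest.Agent.R271.T7a297.Hol.continuous hF
    calc _ ≤ ∫⁻ x, (2 * ENNReal.ofReal (‖F x‖ ^ 2 * Real.exp (-Φ x)) +
          2 * ENNReal.ofReal (‖G x‖ ^ 2 * Real.exp (-Φ x))) ∂μ := lintegral_mono h1
      _ ≤ 2 * ∫⁻ x, ENNReal.ofReal (‖F x‖ ^ 2 * Real.exp (-Φ x)) ∂μ +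
          2 * ∫⁻ x, ENNReal.ofReal (‖G x‖ ^ 2 * Real.exp (-Φ x)) ∂μ := by
          rw [lintegral_add_left, lintegral_const_mul' _ _ (by finiteness),
            lintegral_const_mul' _ _ (by finiteness)]
          refine Measurable.const_mul ?_ _
          exact ((hFc.norm.pow 2).measurable.mul (Real.measurable_exp.comp hΦ.neg)).ennreal_ofReal
      _ < ∞ := by finiteness
  smul_mem' := by
    rintro c F ⟨hF, hF2⟩
    refine ⟨hol_smul hF c, ?_⟩
    have h1 : ∀ x, ENNReal.ofReal (‖(c • F) x‖ ^ 2 * Real.exp (-Φ x)) =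
        ENNReal.ofReal (‖c‖ ^ 2) * ENNReal.ofReal (‖F x‖ ^ 2 * Real.exp (-Φ x)) := by
      intro x
      rw [← ENNReal.ofReal_mul (by positivity), Pi.smul_apply, norm_smul]
      congr 1; ring
    rw [lintegral_congr h1, lintegral_const_mul' _ _ ENNReal.ofReal_ne_top]
    finiteness

/-- nonempty open sets have positive measure -/
theorem leb_pos {μ : Measure M} (hμ : IsLeb μ) {U : Set M} (hU : IsOpen U) (hne : U.Nonempty) :
    0 < μ U := by
  obtain ⟨x, hx⟩ := hne
  set e := ch x with he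
  have hech : IsCh e := isCh_ch x
  set U' : Set M := U ∩ e.source with hU'
  have hU'o : IsOpen U' := hU.inter e.open_source
  have hU's : U' ⊆ e.source := inter_subset_right
  have h1 : μ U' = chm e U' := by
    rw [chm, ← hμ e hech, Measure.restrict_apply hU'o.measurableSet, inter_eq_left.2 hU's]
  have h2 : IsOpen (cp '' U' : Set (Fin n → ℂ)) := by
    rw [← hech.image_eq]
    exact e.isOpen_image_of_subset_source hU'o hU's
  have h3 : 0 < μ U' := by
    rw [h1, chm_apply_sub hech hU'o.measurableSet hU's]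
    exact h2.measure_pos volume ⟨cp x, x, ⟨hx, mem_ch x⟩, rfl⟩
  exact h3.trans_le (measure_mono inter_subset_left)

theorem enorm_weight (z : ℂ) (t : ℝ) :
    ‖z * (Real.exp (-t / 2) : ℂ)‖ₑ ^ 2 = ENNReal.ofReal (‖z‖ ^ 2 * Real.exp (-t)) := by
  rw [← Crest.Agent.R276.LM1_976.enorm_sq_eq]
  congr 1
  rw [norm_mul, mul_pow, Complex.norm_real, Real.norm_eq_abs, abs_of_pos (Real.exp_pos _),
    ← Real.exp_nat_mul]
  congr 2
  push_cast; ring

/-- the Bergman function of `W` -/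
theorem exists_T {μ : Measure M} (hμ : IsLeb μ) {Φ : M → ℝ} (hΦ : Continuous Φ)
    [FiniteDimensional ℂ (W μ Φ hΦ.measurable)] :
    ∃ T : M → ℝ≥0∞, AEMeasurable T μ ∧
      (∫⁻ x, T x ∂μ = Module.finrank ℂ (W μ Φ hΦ.measurable)) ∧
      ∀ x, ∀ F : M → ℂ, Crest.Agent.R271.Ho51.Hol F →
        ∫⁻ x, ENNReal.ofReal (‖F x‖ ^ 2 * Real.exp (-Φ x)) ∂μ < ∞ →
        ENNReal.ofReal (‖F x‖ ^ 2 * Real.exp (-Φ x)) ≤
          T x * ∫⁻ x, ENNReal.ofReal (‖F x‖ ^ 2 * Real.exp (-Φ x)) ∂μ := by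
  let ev : M → W μ Φ hΦ.measurable →ₗ[ℂ] ℂ := fun x =>
    { toFun := fun s => s.1 x * (Real.exp (-Φ x / 2) : ℂ)
      map_add' := by
        intro s t
        simp only [Submodule.coe_add, Pi.add_apply]
        ring
      map_smul' := by
        intro c s
        simp only [Submodule.coe_smul, Pi.smul_apply, smul_eq_mul, RingHom.id_apply]
        ring }
  have hev : ∀ x (s : W μ Φ hΦ.measurable), ev x s = s.1 x * (Real.exp (-Φ x / 2) : ℂ) :=
    fun x s => rfl
  have hcont : ∀ s : W μ Φ hΦ.measurable, Continuous fun x => ev x s := by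
    intro s
    have h1 := Crest.Agent.R271.T7a297.Hol.continuous s.2.1
    simp only [hev]
    exact h1.mul (Complex.continuous_ofReal.comp (Real.continuous_exp.comp (hΦ.neg.div_const 2)))
  have hnI : ∀ s : W μ Φ hΦ.measurable, nI μ (fun x => ev x s) =
      ∫⁻ x, ENNReal.ofReal (‖s.1 x‖ ^ 2 * Real.exp (-Φ x)) ∂μ := by
    intro s
    unfold nI
    exact lintegral_congr fun x => by simp only [hev]; exact enorm_weight _ _
  obtain ⟨T, hT1, hT2, -, hT3, -⟩ := exists_bergman (ν := μ) ev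
    (fun s => (hcont s).measurable.aestronglyMeasurable)
    (fun s => by rw [hnI]; exact s.2.2.ne)
    (fun s hs => by
      rw [hnI] at hs
      have h1 := Crest.Agent.R271.T7a297.Hol.continuous s.2.1
      apply Subtype.ext
      funext x
      by_contra hx
      have hx' : s.1 x ≠ 0 := hx
      have hU : IsOpen {y | s.1 y ≠ 0} := isOpen_ne_fun h1 continuous_const
      have hpos := leb_pos hμ hU ⟨x, hx'⟩
      have hm : Measurable fun x => ENNReal.ofReal (‖s.1 x‖ ^ 2 * Real.exp (-Φ x)) :=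
        ((h1.norm.pow 2).mul (Real.continuous_exp.comp hΦ.neg)).measurable.ennreal_ofReal
      rw [lintegral_eq_zero_iff hm] at hs
      have h2 : μ {y | s.1 y ≠ 0} = 0 := by
        refine measure_mono_null ?_ hs
        intro y hy hy0
        have h3 : ENNReal.ofReal (‖s.1 y‖ ^ 2 * Real.exp (-Φ y)) = 0 := hy0
        rw [ENNReal.ofReal_eq_zero] at h3
        have h4 : 0 < ‖s.1 y‖ ^ 2 * Real.exp (-Φ y) := by
          have : 0 < ‖s.1 y‖ := norm_pos_iff.2 hy
          positivity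
        linarith
      exact hpos.ne' h2)
  refine ⟨T, hT1, hT2, ?_⟩
  intro x F hF hF2
  have h1 := hT3 x ⟨F, hF, hF2⟩
  rw [hnI, hev, enorm_weight] at h1
  exact h1


end Crest.Agent.R269.Peak6_976
end
end

-- ▼ part R269/PAsm1_976
section

/-!
# R269, P10-PEAK-ASM (helper976), part 1: linear algebra

`det_lower` : the linear form of the Monge-Ampère inequality gives positivity and the determinant
bound.
-/

set_option autoImplicit false

open Matrix Finset

noncomputable section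

namespace Crest.Agent.R269.PAsm1_976

open Crest.Agent.R276.LM3_976

variable {n : ℕ}

lemma hq_eigen {P : Matrix (Fin n) (Fin n) ℂ} (hP : P.IsHermitian) (i : Fin n) (s : ℝ) :
    hq P ((s : ℂ) • (WithLp.ofLp (hP.eigenvectorBasis i))) = s ^ 2 * hP.eigenvalues i := by
  have h1 := hP.mulVec_eigenvectorBasis i
  have h2 : star (WithLp.ofLp (hP.eigenvectorBasis i)) ⬝ᵥ (WithLp.ofLp (hP.eigenvectorBasis i)) =
      (1 : ℂ) := by
    have h3 : inner ℂ (hP.eigenvectorBasis i) (hP.eigenvectorBasis i) = (1 : ℂ) := by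
      rw [inner_self_eq_norm_sq_to_K, hP.eigenvectorBasis.norm_eq_one]
      simp
    rw [EuclideanSpace.inner_eq_star_dotProduct] at h3
    rw [dotProduct_comm]
    exact h3
  rw [hq_smul]
  unfold hq
  rw [h1, dotProduct_smul, h2]
  simp

lemma det_rows {P : Matrix (Fin n) (Fin n) ℂ} (hP : P.IsHermitian) (t : Fin n → ℝ)
    (ht : ∀ i, 0 ≤ t i) :
    ‖(Matrix.of fun i => ((t i : ℂ) • (WithLp.ofLp (hP.eigenvectorBasis i)))).det‖ = ∏ i, t i := by
  have h1 : (Matrix.of fun i => ((t i : ℂ) • (WithLp.ofLp (hP.eigenvectorBasis i)))) =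
      Matrix.diagonal (fun i => (t i : ℂ)) * (hP.eigenvectorUnitary : Matrix (Fin n) (Fin n) ℂ)ᵀ := by
    ext i j
    rw [diagonal_mul]
    simp [Matrix.IsHermitian.eigenvectorUnitary_apply]
  have h2 : ‖(hP.eigenvectorUnitary : Matrix (Fin n) (Fin n) ℂ).det‖ = 1 := by
    have h3 := Matrix.det_of_mem_unitary hP.eigenvectorUnitary.2
    exact CStarRing.norm_of_mem_unitary h3
  rw [h1, det_mul, det_diagonal, det_transpose, norm_mul, h2, mul_one, norm_prod]
  exact prod_congr rfl fun i _ => by rw [Complex.norm_real, Real.norm_of_nonneg (ht i)]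

/-- the linear Monge-Ampère inequality, `P` Hermitian -/
theorem det_lower (hn : 0 < n) {P : Matrix (Fin n) (Fin n) ℂ} (hP : P.IsHermitian) {c g : ℝ}
    (hc : 0 < c) (hg : 0 < g)
    (h : ∀ w : Fin n → Fin n → ℂ,
      n * c * (‖(Matrix.of w).det‖ ^ 2 * g) ^ ((n : ℝ)⁻¹) ≤ ∑ i, hq P (w i)) :
    (∀ i, 0 < hP.eigenvalues i) ∧ c ^ n * g ≤ P.det.re := by
  have hnr : (0 : ℝ) < n := by exact_mod_cast hn
  -- the scalar inequality
  have key : ∀ s : Fin n → ℝ, (∀ i, 0 ≤ s i) →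
      n * c * ((∏ i, s i) * g) ^ ((n : ℝ)⁻¹) ≤ ∑ i, s i * hP.eigenvalues i := by
    intro s hs
    have h1 := h fun i => (((Real.sqrt (s i) : ℝ) : ℂ) • (WithLp.ofLp (hP.eigenvectorBasis i)))
    rw [det_rows hP (fun i => Real.sqrt (s i)) fun i => Real.sqrt_nonneg _] at h1
    simp only [hq_eigen, Real.sq_sqrt (hs _)] at h1
    rw [← prod_pow] at h1
    simp only [Real.sq_sqrt (hs _)] at h1
    exact h1
  have hpos : ∀ j, 0 < hP.eigenvalues j := by
    intro j
    by_contra hj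
    push Not at hj
    set K := ∑ i, |hP.eigenvalues i| with hK
    have hK0 : 0 ≤ K := sum_nonneg fun i _ => abs_nonneg _
    -- large multiple in the direction `j`
    set T := ((K + 1) / (n * c)) ^ n / g with hT
    have hT0 : 0 < T := by positivity
    have h1 := key (Function.update (fun _ => (1 : ℝ)) j T) (by
      intro i
      by_cases hi : i = j
      · subst hi; simp [hT0.le]
      · simp [hi])
    have h2 : ∏ i, Function.update (fun _ => (1 : ℝ)) j T i = T := by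
      rw [prod_update_of_mem (mem_univ j)]
      simp
    rw [h2] at h1
    have h3 : n * c * (T * g) ^ ((n : ℝ)⁻¹) = K + 1 := by
      rw [hT, div_mul_cancel₀ _ hg.ne', ← Real.rpow_natCast, ← Real.rpow_mul (by positivity),
        mul_inv_cancel₀ hnr.ne', Real.rpow_one]
      field_simp
    have h4 : ∑ i, Function.update (fun _ => (1 : ℝ)) j T i * hP.eigenvalues i ≤ K := by
      refine sum_le_sum fun i _ => ?_
      by_cases hi : i = j
      · subst hi
        simp only [Function.update_self]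
        exact (mul_nonpos_of_nonneg_of_nonpos hT0.le hj).trans (abs_nonneg _)
      · simp only [Function.update_of_ne hi, one_mul]
        exact le_abs_self _
    linarith
  refine ⟨hpos, ?_⟩
  have h1 := key (fun i => (hP.eigenvalues i)⁻¹) fun i => (inv_pos.2 (hpos i)).le
  have h2 : ∑ i, (hP.eigenvalues i)⁻¹ * hP.eigenvalues i = n := by
    rw [sum_congr rfl fun i _ => inv_mul_cancel₀ (hpos i).ne']
    simp
  rw [h2, prod_inv_distrib] at h1
  have hprod : 0 < ∏ i, hP.eigenvalues i := prod_pos fun i _ => hpos i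
  have h3 : P.det.re = ∏ i, hP.eigenvalues i := by
    rw [hP.det_eq_prod_eigenvalues]
    have : (∏ i, ((hP.eigenvalues i : ℝ) : ℂ)) = ((∏ i, hP.eigenvalues i : ℝ) : ℂ) := by
      push_cast; rfl
    exact (congrArg Complex.re this).trans (Complex.ofReal_re _)
  rw [h3]
  set D := ∏ i, hP.eigenvalues i with hD
  have h4 : c * (D⁻¹ * g) ^ ((n : ℝ)⁻¹) ≤ 1 := by
    have : (n : ℝ) * (c * (D⁻¹ * g) ^ ((n : ℝ)⁻¹)) ≤ n * 1 := by linarith
    exact le_of_mul_le_mul_left this hnr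
  have h5 : (c * (D⁻¹ * g) ^ ((n : ℝ)⁻¹)) ^ n ≤ 1 := pow_le_one₀ (by positivity) h4
  rw [mul_pow, ← Real.rpow_natCast ((D⁻¹ * g) ^ ((n : ℝ)⁻¹)), ← Real.rpow_mul (by positivity),
    inv_mul_cancel₀ hnr.ne', Real.rpow_one] at h5
  have h6 : c ^ n * (D⁻¹ * g) = c ^ n * g / D := by field_simp
  rw [h6, div_le_one hprod] at h5
  exact h5

open scoped ComplexOrder in
/-- positivity of `hq` from the eigenvalues -/
theorem hq_pos {P : Matrix (Fin n) (Fin n) ℂ} (hP : P.IsHermitian)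
    (h : ∀ i, 0 < hP.eigenvalues i) {w : Fin n → ℂ} (hw : w ≠ 0) : 0 < hq P w := by
  have h1 : P.PosDef := hP.posDef_iff_eigenvalues_pos.2 h
  have h2 := h1.dotProduct_mulVec_pos hw
  exact (Complex.pos_iff.1 h2).1

end Crest.Agent.R269.PAsm1_976
end
end

-- ▼ part R269/PAsm2_976
section

/-!
# R269, P10-PEAK-ASM (helper976), part 2: PK2 along the natural numbers
-/

set_option autoImplicit false

open Set Filter MeasureTheory Matrix Topology Metric
open scoped ENNReal ComplexOrder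

noncomputable section

namespace Crest.Agent.R269.PAsm2_976

open Crest.Agent.R276.LM3_976 Crest.Agent.R269.Peak4_976 Crest.Agent.R269.Peak5_976
open Crest.Agent.R269.Peak6_976
open Crest.Agent.R271 Crest.Agent.R271.Ho51

/-- **PK2 for natural exponents, `ψ0 = 0`.** -/
theorem pk2N {n : ℕ} (hn : 0 < n) : ∃ C : ℝ, 0 < C ∧
    ∀ (M : Type) [TopologicalSpace M] [T2Space M] [SecondCountableTopology M] [RDom n M]
      [MeasurableSpace M] [BorelSpace M] (μ : Measure M), IsLeb μ →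
    ∀ ρ : M → ℝ, Sm ρ → (∀ c, IsCompact {x | ρ x ≤ c}) → (∀ x w, nsq w ≤ Levi ρ x w) →
    ∀ (ψ : M → ℝ) (hψ : Sm ψ),
      (∀ k : ℕ, FiniteDimensional ℂ (W μ (fun y => k * ψ y)
        ((Sm.const (k : ℝ)).mulR hψ).continuous.measurable)) →
      (∀ x, ∀ w, w ≠ 0 → 0 < Levi ψ x w) →
    ∀ a : ℝ≥0∞, a < ∫⁻ x, ENNReal.ofReal ((PL ψ x).det.re) ∂μ →
      ∀ᶠ k : ℕ in atTop, ENNReal.ofReal ((k : ℝ) ^ n / C) * a <
        Module.finrank ℂ (W μ (fun y => k * ψ y)
          ((Sm.const (k : ℝ)).mulR hψ).continuous.measurable) := by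
  obtain ⟨C, hC, hpeak⟩ := peak hn
  refine ⟨C, hC, ?_⟩
  intro M _ _ _ _ _ _ μ hμ ρ hρ hρc hρL ψ hψ hfd hSp a ha
  have hcont : ∀ k : ℝ, Continuous fun y => k * ψ y := fun k =>
    ((Sm.const k).mulR hψ).continuous
  have hk1 : ∀ k : ℝ, (0 : ℝ) ≤ k → ∀ x w, 0 ≤ Levi (fun y => k * ψ y + (fun _ => (0 : ℝ)) y) x w := by
    intro k hk x w
    rw [Levi_comb hψ (Sm.const 0)]
    by_cases hw : w = 0
    · subst hw
      simp [Levi]
    have h1 : Levi (fun _ : M => (0 : ℝ)) x w = 0 := by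
      have h2 := Levi_comb (ψ := fun _ : M => (0 : ℝ)) (ψ0 := fun _ : M => (0 : ℝ)) (Sm.const 0)
        (Sm.const 0) 1 x w
      simp only [mul_zero, add_zero, one_mul] at h2
      linarith
    rw [h1, add_zero]
    exact mul_nonneg hk (hSp x w hw).le
  have hT : ∀ k : ℕ, ∃ T : M → ℝ≥0∞, AEMeasurable T μ ∧
      (∫⁻ x, T x ∂μ = Module.finrank ℂ (W μ (fun y => k * ψ y) (hcont k).measurable)) ∧
      ∀ x, ∀ F : M → ℂ, Crest.Agent.R271.Ho51.Hol F →
        ∫⁻ x, ENNReal.ofReal (‖F x‖ ^ 2 * Real.exp (-(k * ψ x))) ∂μ < ∞ →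
        ENNReal.ofReal (‖F x‖ ^ 2 * Real.exp (-(k * ψ x))) ≤
          T x * ∫⁻ x, ENNReal.ofReal (‖F x‖ ^ 2 * Real.exp (-(k * ψ x))) ∂μ := by
    intro k
    have := hfd k
    exact exists_T hμ (hcont k)
  choose T hTm hTk using hT
  -- pointwise lower bound
  have hpt : ∀ x, ENNReal.ofReal (1 / C) * ENNReal.ofReal ((PL ψ x).det.re) ≤
      liminf (fun k : ℕ => T k x * (ENNReal.ofReal ((k : ℝ) ^ n))⁻¹) atTop := by
    intro x
    obtain ⟨k0, hk0, hk⟩ := hpeak M μ hμ ρ hρ hρc hρL ψ (fun _ => 0) hψ (Sm.const 0) 0 hk1 x (hSp x)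
    refine le_liminf_of_le (by isBoundedDefault) ?_
    filter_upwards [tendsto_natCast_atTop_atTop.eventually_ge_atTop k0] with k h1
    have hkp : (0 : ℝ) < k := hk0.trans_le h1
    have hdet : 0 < (PL ψ x).det.re :=
      (Complex.pos_iff.1 (PL_posDef hψ (hSp x)).det_pos).1
    obtain ⟨F, hF, hFx, hFn⟩ := hk k h1
    simp only [add_zero] at hFn
    have h3 := (hTk k).2 x F hF (hFn.trans_lt ENNReal.ofReal_lt_top)
    rw [hFx, norm_one, one_pow, one_mul] at h3
    set E := Real.exp (-(k * ψ x)) with hE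
    have hE0 : 0 < E := Real.exp_pos _
    have h4 : ENNReal.ofReal E ≤ T k x * ENNReal.ofReal (C * E / (k ^ n * (PL ψ x).det.re)) :=
      h3.trans (by gcongr)
    have h5 : ENNReal.ofReal (C * E / (k ^ n * (PL ψ x).det.re)) *
        ENNReal.ofReal ((k ^ n * (PL ψ x).det.re) / (C * E)) = 1 := by
      rw [← ENNReal.ofReal_mul (by positivity), div_mul_div_cancel₀ (by positivity),
        div_self (by positivity), ENNReal.ofReal_one]
    have hkn : ENNReal.ofReal ((k : ℝ) ^ n) ≠ 0 := by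
      have : (0 : ℝ) < (k : ℝ) ^ n := by positivity
      exact (ENNReal.ofReal_pos.2 this).ne'
    rw [← div_eq_mul_inv, ENNReal.le_div_iff_mul_le (Or.inl hkn) (Or.inl ENNReal.ofReal_ne_top)]
    calc ENNReal.ofReal (1 / C) * ENNReal.ofReal ((PL ψ x).det.re) * ENNReal.ofReal ((k : ℝ) ^ n)
        = ENNReal.ofReal E * ENNReal.ofReal ((k ^ n * (PL ψ x).det.re) / (C * E)) := by
          rw [← ENNReal.ofReal_mul (by positivity), ← ENNReal.ofReal_mul (by positivity),
            ← ENNReal.ofReal_mul (by positivity)]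
          congr 1
          field_simp
      _ ≤ T k x * ENNReal.ofReal (C * E / (k ^ n * (PL ψ x).det.re)) *
          ENNReal.ofReal ((k ^ n * (PL ψ x).det.re) / (C * E)) := by gcongr
      _ = T k x := by rw [mul_assoc, h5, mul_one]
  have hC1 : ENNReal.ofReal (1 / C) ≠ 0 := by
    have : 0 < 1 / C := by positivity
    simpa using this
  have h1 : ENNReal.ofReal (1 / C) * a <
      liminf (fun k : ℕ => ∫⁻ x, T k x * (ENNReal.ofReal ((k : ℝ) ^ n))⁻¹ ∂μ) atTop := by
    calc ENNReal.ofReal (1 / C) * a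
        < ENNReal.ofReal (1 / C) * ∫⁻ x, ENNReal.ofReal ((PL ψ x).det.re) ∂μ :=
          ENNReal.mul_lt_mul_right hC1 ENNReal.ofReal_ne_top ha
      _ = ∫⁻ x, ENNReal.ofReal (1 / C) * ENNReal.ofReal ((PL ψ x).det.re) ∂μ :=
          (lintegral_const_mul' _ _ ENNReal.ofReal_ne_top).symm
      _ ≤ ∫⁻ x, liminf (fun k : ℕ => T k x * (ENNReal.ofReal ((k : ℝ) ^ n))⁻¹) atTop ∂μ :=
          lintegral_mono hpt
      _ ≤ _ := lintegral_liminf_le' fun k => (hTm k).mul_const _
  have h2 := eventually_lt_of_lt_liminf h1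
  filter_upwards [h2, eventually_gt_atTop 0] with k hk hkp
  have hkp' : (0 : ℝ) < k := by exact_mod_cast hkp
  have hkn : (0 : ℝ) < (k : ℝ) ^ n := by positivity
  have hkn0 : ENNReal.ofReal ((k : ℝ) ^ n) ≠ 0 := (ENNReal.ofReal_pos.2 hkn).ne'
  rw [lintegral_mul_const'' _ (hTm k), (hTk k).1, ← div_eq_mul_inv,
    ENNReal.lt_div_iff_mul_lt (Or.inl hkn0) (Or.inl ENNReal.ofReal_ne_top)] at hk
  refine lt_of_eq_of_lt ?_ hk
  have h3 : ENNReal.ofReal ((k : ℝ) ^ n / C) = ENNReal.ofReal (1 / C) * ENNReal.ofReal ((k : ℝ) ^ n) := by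
    rw [← ENNReal.ofReal_mul (by positivity)]
    congr 1; ring
  rw [h3]; ring

end Crest.Agent.R269.PAsm2_976
end
end

-- ▼ part R269/PAsm3_976

/-!
# R269, P10-PEAK-ASM (helper976), part 3: the Levi form of the weight on `M`
-/

set_option autoImplicit false

open Set Filter Topology Complex MeasureTheory Metric
open scoped ENNReal ComplexConjugate ContDiff

noncomputable section

namespace Crest.Agent.R269.PAsm3_976

open Crest.AlgGeometry.ProjEmb
open Crest.Agent.R271 Crest.Agent.R271.Defs710 Crest.Agent.R271.Rd692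
open Crest.Agent.R271.Ho51 hiding EE nsq
open Crest.Agent.R269.Amp1_243 Crest.Agent.R269.Geo_328 Crest.Agent.R269.Amp3_243
open Crest.Agent.R269.Defs_58

variable {N n : ℕ} {I : Ideal (HomCoordRing N)}

/-! ### bridges -/

lemma lev58_eq {ι : Type} [Fintype ι] (φ : (ι → ℂ) → ℝ) (p v : ι → ℂ) :
    Defs_58.lev φ p v = LevC_653.lev φ p v := by
  unfold Defs_58.lev LevC_653.lev
  rw [iteratedFDeriv_two_apply, iteratedFDeriv_two_apply]
  simp

lemma levE_eq {f : (Fin n → ℂ) → ℝ} {z : Fin n → ℂ} (hf : ContDiffAt ℝ 2 f z) (w : Fin n → ℂ) :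
    levE f z w = LevC_653.lev f z w := by
  have hd : DifferentiableAt ℝ (fderiv ℝ f) z :=
    (hf.fderiv_right (m := 1) (by norm_num)).differentiableAt (by norm_num)
  have h : ∀ v : Fin n → ℂ, fderiv ℝ (fun z => fderiv ℝ f z v) z v = fderiv ℝ (fderiv ℝ f) z v v := by
    intro v
    have h1 : HasFDerivAt (fun z => fderiv ℝ f z v)
        ((ContinuousLinearMap.apply ℝ ℝ v).comp (fderiv ℝ (fderiv ℝ f) z)) z :=
      ((ContinuousLinearMap.apply ℝ ℝ v).hasFDerivAt).comp z hd.hasFDerivAt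
    rw [h1.fderiv]
    rfl
  unfold levE LevC_653.lev
  rw [h w, h (Complex.I • w)]
  ring

lemma wedgeSq_eq (p : EE N) (b : Fin n → EE N) :
    wedgeSq (Fin.cons p b : Fin (n + 1) → EE N) =
      gdet (Matrix.of (Fin.cons p b : Fin (n + 1) → EE N)) := by
  unfold wedgeSq gdet
  congr 2

/-- the frame `∂_k x` -/
def db (X : XC I n) (y : X.B →ₐ[ℂ] ℂ) (k : Fin n) : EE N := fun l => y (X.der k (X.x l))

/-- the differential of the point map -/
def dp (X : XC I n) (y : X.B →ₐ[ℂ] ℂ) (w : Fin n → ℂ) : EE N := ∑ k, w k • db X y k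

/-- `DD` of the coordinate frame -/
lemma DD_db {X : XC I n} (y : X.B →ₐ[ℂ] ℂ) :
    DD (pt X y) (db X y) = gr X y / ns X y ^ (n + 1) := by
  unfold DD
  rw [wedgeSq_eq]
  rfl

lemma DD_db_pos {X : XC I n} (y : X.B →ₐ[ℂ] ℂ) : 0 < DD (pt X y) (db X y) := by
  rw [DD_db]
  exact div_pos (gr_pos y) (pow_pos (ns_pos y) _)

/-- the curve in the cone given by a chart -/
def sg {X : XC I n} {y : X.B →ₐ[ℂ] ℂ} (C : Chart X.z y) (ζ : CC n) : EE N := pt X (C.s ζ)

lemma sg_zero {X : XC I n} {y : X.B →ₐ[ℂ] ℂ} (C : Chart X.z y) : sg C 0 = pt X y := by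
  unfold sg
  rw [C.s_zero]

lemma sg_anal {X : XC I n} {y : X.B →ₐ[ℂ] ℂ} (C : Chart X.z y) {ζ : CC n}
    (hζ : ζ ∈ ball (0 : CC n) C.r) : AnalyticAt ℂ (sg C) ζ := by
  rw [analyticAt_pi_iff]
  intro l
  exact C.anal (X.x l) ζ hζ

/-- smooth functions in a chart -/
lemma sm_chart {X : XC I n} {f : (X.B →ₐ[ℂ] ℂ) → ℝ} (hf : Sm f) {y : X.B →ₐ[ℂ] ℂ}
    (C : Chart X.z y) : ContDiffAt ℝ (⊤ : ℕ∞) (fun ζ => f (C.s ζ)) 0 := by
  have h1 := hf y
  have h2 : (fun w => f ((ch y).symm w)) =ᶠ[𝓝 (cp y)] fun w => f (C.s (w - cp y)) := by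
    filter_upwards [ch_symm_eventuallyEq C] with w hw
    rw [hw]
  have h3 : ContDiffAt ℝ (⊤ : ℕ∞) (fun w => f (C.s (w - cp y))) (cp y) :=
    ContDiffAt.congr_of_eventuallyEq h1 h2.symm
  have h4 : ContDiffAt ℝ (⊤ : ℕ∞) (fun w => f (C.s (w - cp y))) ((0 : CC n) + cp y) := by
    rw [zero_add]; exact h3
  have h5 : ContDiffAt ℝ (⊤ : ℕ∞) (fun ζ : CC n => ζ + cp y) 0 :=
    contDiffAt_id.add contDiffAt_const
  have h6 := ContDiffAt.comp (g := fun w => f (C.s (w - cp y))) (0 : CC n) h4 h5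
  refine h6.congr_of_eventuallyEq (Eventually.of_forall fun ζ => ?_)
  simp only [Function.comp_apply]
  rw [add_sub_cancel_right]

lemma fderiv_sg {X : XC I n} {y : X.B →ₐ[ℂ] ℂ} (C : Chart X.z y) {ζ : CC n}
    (hζ : ζ ∈ ball (0 : CC n) C.r) (w : CC n) : fderiv ℂ (sg C) ζ w = dp X (C.s ζ) w := by
  have h := frs_chart C hζ
  have h1 : ∀ k : Fin n, fderiv ℂ (sg C) ζ (Pi.single k 1) = db X (C.s ζ) k := by
    intro k
    exact congrFun h k.succ
  have h2 : w = ∑ k, w k • (Pi.single k (1 : ℂ) : CC n) := by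
    funext j
    simp [Finset.sum_apply, Pi.single_apply]
  conv_lhs => rw [h2]
  rw [map_sum]
  unfold dp
  exact Finset.sum_congr rfl fun k _ => by rw [map_smul, h1]

/-- holomorphic curves in the cone are tangent to the cone -/
lemma tan_of_curve {σ : CC n → EE N} {z : CC n} (hσ : DifferentiableAt ℂ σ z)
    (h : ∀ᶠ ζ in 𝓝 z, σ ζ ∈ Cone I) (w : CC n) : fderiv ℂ σ z w ∈ Tan I (σ z) := by
  rw [mem_Tan]
  intro F hF
  have h1 : HasFDerivAt (fun ζ => MvPolynomial.eval (σ ζ) F) ((dPL F (σ z)).comp (fderiv ℂ σ z)) z :=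
    (hasFDerivAt_eval F (σ z)).comp z hσ.hasFDerivAt
  have h2 : (fun ζ => MvPolynomial.eval (σ ζ) F) =ᶠ[𝓝 z] fun _ => 0 := by
    filter_upwards [h] with ζ hζ
    exact hζ.1 F hF
  have h3 : (dPL F (σ z)).comp (fderiv ℂ σ z) = 0 := by
    rw [← h1.fderiv, h2.fderiv_eq]
    simp
  have h4 := DFunLike.congr_fun h3 w
  simpa using h4

lemma dp_mem {X : XC I n} (y : X.B →ₐ[ℂ] ℂ) (w : CC n) : dp X y w ∈ Tan I (pt X y) := by
  obtain ⟨C⟩ := X.hch y
  have h0 : (0 : CC n) ∈ ball (0 : CC n) C.r := mem_ball_self C.r_pos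
  have h1 := tan_of_curve (I := I) (sg_anal C h0).differentiableAt
    (Eventually.of_forall fun ζ => pt_mem _) w
  rw [fderiv_sg C h0, C.s_zero, sg_zero] at h1
  exact h1

lemma db_eq {X : XC I n} (y : X.B →ₐ[ℂ] ℂ) (k : Fin n) : db X y k = dp X y (Pi.single k 1) := by
  unfold dp
  simp [Pi.single_apply, Finset.sum_ite_eq']


/-- the potential of the weight -/
def uu (φ : EE N → ℝ) (e : ℝ) (p : EE N) : ℝ := φ p + e * Real.log (nsq p)

lemma contDiffAt_lognsq {p : EE N} (hp : p ≠ 0) {k : WithTop ℕ∞} :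
    ContDiffAt ℝ k (fun p : EE N => Real.log (nsq p)) p := by
  have h0 : 0 < nsq p := by
    obtain ⟨i, hi⟩ := Function.ne_iff.1 hp
    have h1 : 0 < ‖p i‖ ^ 2 := by
      have : 0 < ‖p i‖ := norm_pos_iff.2 hi
      positivity
    exact lt_of_lt_of_le h1 (Finset.single_le_sum (f := fun i => ‖p i‖ ^ 2)
      (fun _ _ => by positivity) (Finset.mem_univ i))
  have h1 : ContDiffAt ℝ k (fun p : EE N => nsq p) p := Lev_901.contDiffAt_nsq p
  exact h1.log h0.ne'

lemma sm_uu {φ : EE N → ℝ} (hφ : ∀ p ∈ Cone I, ContDiffAt ℝ ∞ φ p) (e : ℝ) :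
    ∀ p ∈ Cone I, ContDiffAt ℝ ∞ (uu φ e) p := fun p hp =>
  (hφ p hp).add (contDiffAt_const.mul (contDiffAt_lognsq hp.2))

/-- **the Levi form of the weight** -/
theorem lev_Psi (hA : AlphaFamStmt) (hI : I.IsPrime) (hX : IsSmoothProjective I n) (X : XC I n)
    {φ : EE N → ℝ} (hφ : ∀ p ∈ Cone I, ContDiffAt ℝ ∞ φ p) (e : ℝ) (y : X.B →ₐ[ℂ] ℂ) (w : CC n) :
    W792.lev (Psi X (uu φ e)) y w = alpha I n (pt X y) (dp X y w) + e * omg (pt X y) (dp X y w) +
      Defs_58.lev φ (pt X y) (dp X y w) := by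
  obtain ⟨C⟩ := X.hch y
  have hb : ball (0 : CC n) C.r ∈ 𝓝 (0 : CC n) := isOpen_ball.mem_nhds (mem_ball_self C.r_pos)
  have h0 : (0 : CC n) ∈ ball (0 : CC n) C.r := mem_ball_self C.r_pos
  have hσ : AnalyticAt ℂ (sg C) 0 := sg_anal C h0
  -- `Psi` in the chart
  have hPsi : (fun ζ => Psi X (uu φ e) (C.s ζ)) =ᶠ[𝓝 0] fun ζ =>
      Real.log (DD (sg C ζ) (fun k => fderiv ℂ (sg C) ζ (Pi.single k 1))) +
        (φ (sg C ζ) + e * Real.log (∑ i, ‖sg C ζ i‖ ^ 2)) := by
    filter_upwards [hb] with ζ hζ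
    have h1 : (fun k => fderiv ℂ (sg C) ζ (Pi.single k 1)) = db X (C.s ζ) := by
      funext k
      rw [fderiv_sg C hζ, db_eq]
    rw [h1]
    have h2 : DD (sg C ζ) (db X (C.s ζ)) = gr X (C.s ζ) / ns X (C.s ζ) ^ (n + 1) := DD_db _
    rw [h2, Real.log_div (gr_pos _).ne' (pow_pos (ns_pos _) _).ne', Real.log_pow]
    unfold Psi uu lns sg
    push_cast
    rfl
  have hbA : ∀ k : Fin n, AnalyticAt ℂ (fun ζ => fderiv ℂ (sg C) ζ (Pi.single k 1)) 0 := by
    intro k
    have h1 : AnalyticAt ℂ (fderiv ℂ (sg C)) 0 := hσ.fderiv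
    exact ((ContinuousLinearMap.apply ℂ (EE N) (Pi.single k (1 : ℂ) : CC n)).analyticAt _).comp h1
  have hbv : (fun k => fderiv ℂ (sg C) 0 (Pi.single k 1)) = db X y := by
    funext k
    rw [fderiv_sg C h0, C.s_zero, db_eq]
  have hpos : 0 < DD (sg C 0) (fun k => fderiv ℂ (sg C) 0 (Pi.single k 1)) := by
    rw [hbv, sg_zero]
    exact DD_db_pos y
  have hcone : ∀ᶠ ζ in 𝓝 (0 : CC n), sg C ζ ∈ Cone I := Eventually.of_forall fun ζ => pt_mem _
  have htan : ∀ᶠ ζ in 𝓝 (0 : CC n),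
      TanFam I (sg C ζ) (fun k => fderiv ℂ (sg C) ζ (Pi.single k 1)) := by
    filter_upwards [hb] with ζ hζ k
    exact tan_of_curve (sg_anal C hζ).differentiableAt (Eventually.of_forall fun ζ => pt_mem _) _
  have hAl := hA N n I hI hX n (sg C) (fun k ζ => fderiv ℂ (sg C) ζ (Pi.single k 1)) 0 w
    ⟨hσ, hcone⟩ hbA htan hpos
  rw [lev58_eq, fderiv_sg C h0, C.s_zero, sg_zero] at hAl
  -- smoothness
  have hpσ : ContDiffAt ℝ 2 (sg C) 0 := hσ.contDiffAt.restrict_scalars ℝ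
  have hφ2 : ContDiffAt ℝ 2 φ (sg C 0) := (hφ _ (pt_mem _)).of_le (by norm_cast)
  have hl2 : ContDiffAt ℝ 2 (fun p : EE N => Real.log (∑ i, ‖p i‖ ^ 2)) (sg C 0) :=
    contDiffAt_lognsq (pt_ne _)
  have hc1 : ContDiffAt ℝ 2 (fun ζ => φ (sg C ζ)) 0 := hφ2.comp _ hpσ
  have hc2 : ContDiffAt ℝ 2 (fun ζ => Real.log (∑ i, ‖sg C ζ i‖ ^ 2)) 0 :=
    ContDiffAt.comp (g := fun p : EE N => Real.log (∑ i, ‖p i‖ ^ 2)) (0 : CC n) hl2 hpσ
  have hall : ContDiffAt ℝ 2 (fun ζ => Psi X (uu φ e) (C.s ζ)) 0 :=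
    (sm_chart (sm_Psi (sm_uu hφ e)) C).of_le (by norm_cast)
  have hDD : ContDiffAt ℝ 2 (fun ζ =>
      Real.log (DD (sg C ζ) (fun k => fderiv ℂ (sg C) ζ (Pi.single k 1)))) 0 := by
    have h7 : ContDiffAt ℝ 2 (fun ζ => φ (sg C ζ) + e * Real.log (∑ i, ‖sg C ζ i‖ ^ 2)) 0 :=
      hc1.add (contDiffAt_const.mul hc2)
    refine (hall.sub h7).congr_of_eventuallyEq ?_
    filter_upwards [hPsi] with ζ hζ
    rw [hζ]
    ring
  rw [lev_chart _ C, levE_eq hall, LevC_653.lev_congr hPsi, LevC_653.lev_add hDD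
    (hc1.add (contDiffAt_const.mul hc2)), LevC_653.lev_add hc1 (contDiffAt_const.mul hc2),
    LevC_653.lev_const_mul e hc2, Lev_901.lev_comp_hol hφ2 hσ,
    Lev_901.lev_comp_hol (u := fun p : EE N => Real.log (∑ i, ‖p i‖ ^ 2)) hl2 hσ,
    fderiv_sg C h0, C.s_zero, sg_zero, Lev_901.lev_log_sum_nsq (pt_ne _), hAl, lev58_eq]
  unfold omg
  ring

end Crest.Agent.R269.PAsm3_976
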