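import Mathlib
import Crest.Prelude.Def_ProjPluricanonical
import Crest.Agent.R269.DictG2_795
import Crest.Agent.R271.UfdF_243
import Crest.Agent.R269.Cnt2_197
import Crest.Agent.R269.Defs_58
import Crest.Agent.R269.DictF_795
import Crest.Agent.R269.H0tw_795
import Crest.Agent.R269.PAsm3_976

-- ▼ part R269/DictI_795
section

/-!
Row 269, DICT, part I: the local rings `stalk I q` are localizations of the étale chart algebras,
hence unique factorization domains (integrally closed in the function field); the function field is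
algebraic over the étale coordinates.
-/

set_option autoImplicit false
set_option linter.unusedSectionVars false
set_option linter.style.haveILetI false

open MvPolynomial Crest.AlgGeometry.ProjEmb
open Crest.Agent.R269.DictA_795 Crest.Agent.R269.DictB_795 Crest.Agent.R269.DictC_795
open Crest.Agent.R269.DictD_795 Crest.Agent.R269.DictE_795 Crest.Agent.R269.DictF_795

noncomputable section

namespace Crest.Agent.R269.DictC_795.CD

variable {N n : ℕ} {I : Ideal (HomCoordRing N)} [I.IsPrime] {c : CD I n} {q : Fin (N + 1) → ℂ}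

/-- the local ring as an algebra over the chart algebra -/
@[reducible] def Dom.algStalk (h : c.Dom q) : Algebra c.B (stalk I q) := h.toStalk.toRingHom.toAlgebra

theorem Dom.ker_prime (h : c.Dom q) : (RingHom.ker h.pt).IsPrime := RingHom.ker_isPrime _


/-- **the local ring of a cone point is the localization of the chart algebra at that point** -/
theorem Dom.isLocalization (h : c.Dom q) :
    letI := h.algStalk
    haveI := h.ker_prime
    IsLocalization.AtPrime (stalk I q) (RingHom.ker h.pt) := by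
  letI := h.algStalk
  haveI := h.ker_prime
  refine ⟨?_, ?_, ?_⟩
  · rintro ⟨b, hb⟩
    exact isUnit_of_ev_ne h.cone (h.toStalk b) (fun h0 => hb h0)
  · intro u
    obtain ⟨k, G, H, hG, hH, hqH, hr, hu, hunit⟩ := exists_dhA h.cone h.i u
    have hco : ∀ G : HomCoordRing N, h.toStalk ⟨dh I c.i G, c.dh_mem_B G⟩ = dhA h.cone h.i G := by
      intro G
      apply Subtype.ext
      rw [coe_dhA]; rfl
    refine ⟨⟨⟨dh I c.i G, c.dh_mem_B G⟩, ⟨⟨dh I c.i H, c.dh_mem_B H⟩, ?_⟩⟩, ?_⟩
    · intro h0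
      have h1 : ev h.cone (h.toStalk ⟨dh I c.i H, c.dh_mem_B H⟩) = 0 := h0
      rw [hco] at h1
      exact (isUnit_iff_ev h.cone _).1 hunit h1
    · change u * h.toStalk ⟨dh I c.i H, c.dh_mem_B H⟩ = h.toStalk ⟨dh I c.i G, c.dh_mem_B G⟩
      rw [hco, hco, hu]
  · intro a b hab
    refine ⟨1, ?_⟩
    have h1 : h.toStalk a = h.toStalk b := hab
    have h2 : (a : FnField I) = (b : FnField I) :=
      congrArg (fun z : stalk I q => (z : FnField I)) h1
    have h3 : a = b := Subtype.ext h2
    rw [h3]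

/-- **the local rings are unique factorization domains** -/
theorem Dom.ufd (h : c.Dom q) (hX : IsSmoothProjective I n) :
    UniqueFactorizationMonoid (stalk I q) := by
  letI := h.algStalk
  haveI := h.ker_prime
  haveI := h.isLocalization
  exact Crest.Agent.R271.UFD243.chart_ufd (aeval c.zB) (h.etale hX) (RingHom.ker h.pt) (stalk I q)

/-- the function field is the fraction field of every local ring -/
theorem isFractionRing_stalk {p : Fin (N + 1) → ℂ} (hp : p ∈ affineCone I) (hp0 : p ≠ 0) :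
    IsFractionRing (stalk I p) (FnField I) := by
  obtain ⟨i, hi⟩ : ∃ i, p i ≠ 0 := by
    by_contra hne
    push Not at hne
    exact hp0 (funext hne)
  refine IsFractionRing.of_field _ _ fun u => ?_
  obtain ⟨a, ha, b, hb, hb0, hu⟩ := Cnt2_197.exists_frac (X_not_mem hp hi) u
  refine ⟨⟨a, chartRing_le_stalk hp hi ha⟩, ⟨b, chartRing_le_stalk hp hi hb⟩, ?_⟩
  change u = a / b
  rw [eq_div_iff hb0, hu]

/-- the function field is the fraction field of the chart algebra -/
theorem isFractionRing_B (c : CD I n) (hi : (X c.i : HomCoordRing N) ∉ I) :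
    IsFractionRing c.B (FnField I) := by
  refine IsFractionRing.of_field _ _ fun u => ?_
  obtain ⟨a, ha, b, hb, hb0, hu⟩ := Cnt2_197.exists_frac hi u
  refine ⟨⟨a, c.chartRing_le_B ha⟩, ⟨b, c.chartRing_le_B hb⟩, ?_⟩
  change u = a / b
  rw [eq_div_iff hb0, hu]

/-- **the local rings are integrally closed in the function field** -/
theorem stalkClosed (hX : IsSmoothProjective I n) (p : Fin (N + 1) → ℂ) (hp : p ∈ affineCone I)
    (hp0 : p ≠ 0) (g : FnField I) (hg : IsIntegral (stalk I p) g) : g ∈ stalk I p := by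
  obtain ⟨i, hi⟩ : ∃ i, p i ≠ 0 := by
    by_contra hne
    push Not at hne
    exact hp0 (funext hne)
  obtain ⟨c, h, -⟩ := exists_CD hX hp hp0 hi
  haveI := h.ufd hX
  haveI := isFractionRing_stalk hp hp0
  haveI : IsIntegrallyClosed (stalk I p) := UniqueFactorizationMonoid.instIsIntegrallyClosed
  obtain ⟨y, hy⟩ := IsIntegrallyClosed.isIntegral_iff.1 hg
  rw [← hy]
  exact y.2

/-! ### Transcendence degree -/

/-- the function field is separable algebraic over `ℂ(w)` -/
theorem Dom.isSeparable (h : c.Dom q) (hI : Hom I) :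
    Algebra.IsSeparable (IntermediateField.adjoin ℂ (Set.range c.wL)) (FnField I) := by
  set K := IntermediateField.adjoin ℂ (Set.range c.wL) with hK
  have h1 : Subsingleton (Ω[FnField I⁄K]) := by
    refine subsingleton_of_forall_eq 0 fun x => ?_
    obtain ⟨y, rfl⟩ := KaehlerDifferential.map_surjective ℂ K (FnField I) x
    have hy : y ∈ Submodule.span (FnField I)
        (Set.range fun s => KaehlerDifferential.D ℂ (FnField I) (c.wL s)) := by
      rw [span_DL h hI]; trivial
    induction hy using Submodule.span_induction with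
    | mem z hz =>
      obtain ⟨s, rfl⟩ := hz
      change KaehlerDifferential.map ℂ K (FnField I) (FnField I) (KaehlerDifferential.D ℂ (FnField I) (c.wL s)) = 0
      rw [KaehlerDifferential.map_D]
      have h2 : c.wL s ∈ K := IntermediateField.subset_adjoin _ _ ⟨s, rfl⟩
      exact (KaehlerDifferential.D K (FnField I)).map_algebraMap ⟨c.wL s, h2⟩
    | zero => rw [map_zero]
    | add y z _ _ hy hz => rw [map_add, hy, hz, add_zero]
    | smul a y _ hy => rw [map_smul, hy, smul_zero]
  haveI : Algebra.FormallyUnramified K (FnField I) := ⟨h1⟩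
  haveI : Algebra.EssFiniteType ℂ (FnField I) := by
    haveI := isFractionRing_B c h.not_mem_i
    haveI := c.B_finiteType
    haveI : Algebra.EssFiniteType c.B (FnField I) :=
      Algebra.EssFiniteType.of_isLocalization (FnField I) (nonZeroDivisors c.B)
    exact Algebra.EssFiniteType.comp ℂ c.B (FnField I)
  haveI : Algebra.EssFiniteType K (FnField I) := Algebra.EssFiniteType.of_comp ℂ K (FnField I)
  exact Algebra.FormallyUnramified.isSeparable K (FnField I)

open scoped IntermediateField.algebraAdjoinAdjoin in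
/-- the function field is algebraic over the polynomial algebra generated by the coordinates -/
theorem Dom.isAlgebraic (h : c.Dom q) (hI : Hom I) :
    Algebra.IsAlgebraic (Algebra.adjoin ℂ (Set.range c.wL)) (FnField I) := by
  haveI := h.isSeparable hI
  exact Algebra.IsAlgebraic.trans (Algebra.adjoin ℂ (Set.range c.wL))
    (IntermediateField.adjoin ℂ (Set.range c.wL)) (FnField I)

/-- **transcendence degree**: algebraically independent families have at most `n` elements -/
theorem trLe (hX : IsSmoothProjective I n) (r : ℕ) (y : Fin r → FnField I)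
    (hy : AlgebraicIndependent ℂ y) : r ≤ n := by
  obtain ⟨i, hXi⟩ := hX.exists_coord_not_mem
  obtain ⟨p, hp, hpi⟩ : ∃ p ∈ affineCone I, p i ≠ 0 := by
    by_contra hne
    push Not at hne
    exact hXi (mem_of_eval_zero fun p hp => by rw [eval_X]; exact hne p hp)
  obtain ⟨c, h, -⟩ := exists_CD hX hp (fun h0 => hpi (by rw [h0]; rfl)) hpi
  haveI := h.isAlgebraic hX.homogeneous
  have h1 : Cardinal.mk (Fin r) ≤ Algebra.trdeg ℂ (FnField I) := hy.cardinalMk_le_trdeg
  have h2 : Algebra.trdeg ℂ (FnField I) ≤ Cardinal.mk (Set.range c.wL) :=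
    Algebra.IsAlgebraic.trdeg_le_cardinalMk ℂ (Set.range c.wL)
  have h3 : Cardinal.mk (Set.range c.wL) ≤ Cardinal.mk (Fin n) := Cardinal.mk_range_le
  have h4 := h1.trans (h2.trans h3)
  rw [Cardinal.mk_fin, Cardinal.mk_fin] at h4
  exact_mod_cast h4

end Crest.Agent.R269.DictC_795.CD
end
end

-- ▼ part R269/DictH_795
section

/-!
Row 269, DICT, part H (D3): algebraic sections of `m K_X + j A` give holomorphic sections `HolSec`.
-/

set_option autoImplicit false
set_option linter.unusedSectionVars false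

open MvPolynomial Crest.AlgGeometry.ProjEmb
open Crest.Agent.R269.DictA_795 Crest.Agent.R269.DictB_795 Crest.Agent.R269.DictC_795
open Crest.Agent.R269.DictD_795 Crest.Agent.R269.DictE_795 Crest.Agent.R269.DictF_795
open Crest.Agent.R269.H0tw_795 Crest.Agent.R269.Geo_328 Crest.Agent.R269.Defs_58
open scoped Topology

noncomputable section

namespace Crest.Agent.R269.DictH_795

variable {N n : ℕ} {I : Ideal (HomCoordRing N)} [I.IsPrime]

theorem isTan_iff {p v : Fin (N + 1) → ℂ} : v ∈ Tan I p ↔ IsTan I p v := Iff.rfl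

/-- explicit formula for the differential of the coordinates -/
theorem dv_w {p : Fin (N + 1) → ℂ} {c : CD I n} (h : c.Dom p) {v : Fin (N + 1) → ℂ}
    (hv : IsTan I p v) (t : Fin n) :
    dv h.cone hv (CD.w h t) = (p c.i * v (c.S t) - p (c.S t) * v c.i) / (p c.i) ^ 2 := by
  have hr : IsRep ((CD.w h t : stalk I p) : FnField I) (X (c.S t)) (X c.i) :=
    rep_fnRatio h.not_mem_i _
  have h2 := dv_spec h.cone hv (CD.w h t) hr
  have h3 : ∀ k, ∑ j, grad (X k : HomCoordRing N) p j * v j = v k := by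
    intro k
    rw [Finset.sum_eq_single k]
    · simp [grad]
    · intro j _ hj
      unfold grad
      rw [pderiv_X_of_ne (Ne.symm hj)]; simp
    · simp
  have h4 : ev h.cone (CD.w h t) = p (c.S t) / p c.i := ev_yA h.cone h.i _
  rw [h3, h3, h4, eval_X] at h2
  have hi := h.i
  rw [eq_div_iff (pow_ne_zero _ hi)]
  field_simp at h2
  linear_combination h2

/-- the matrix `dw_t(e_k)` -/
def wmat (c : CD I n) (p : EE N) (e : Fin n → EE N) : Matrix (Fin n) (Fin n) ℂ :=
  Matrix.of fun k t => (p c.i * e k (c.S t) - p (c.S t) * e k c.i) / (p c.i) ^ 2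

/-- change of coordinates for values -/
theorem val_unique (hX : IsSmoothProjective I n) {m : ℕ} {p : EE N} {c c' : CD I n} (h : c.Dom p)
    (h' : c'.Dom p) {F F' : stalk I p}
    (hFF : (F : FnField I) • c.wm m = (F' : FnField I) • c'.wm m)
    {e : Fin n → EE N} (he : ∀ k, IsTan I p (e k)) :
    ev h.cone F * (wmat c p e).det ^ m = ev h'.cone F' * (wmat c' p e).det ^ m := by
  have hI : Hom I := hX.homogeneous
  obtain ⟨C, hC1, hC2⟩ := CD.exists_det h hI (CD.w h')
  have h1 : c'.ω = (C.det : FnField I) • c.ω := hC2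
  have h2 : c'.wm m = ((C.det ^ m : stalk I p) : FnField I) • c.wm m := by
    rw [CD.wm_change h1 m]; rfl
  have h3 : F = F' * C.det ^ m := by
    apply Subtype.ext
    apply h.coeff_unique hX (m := m)
    rw [hFF, h2, smul_smul]; rfl
  have h4 : wmat c' p e = wmat c p e * (C.map (ev h.cone)).transpose := by
    funext k l
    have h5 := (isDerAlong_dv h.cone (he k)).eq_sum (hC1 l)
    rw [Matrix.mul_apply]
    have h6 : dv h.cone (he k) (CD.w h' l) = wmat c' p e k l := dv_w h' (he k) l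
    rw [← h6, h5]
    refine Finset.sum_congr rfl fun t _ => ?_
    rw [dv_w h (he k) t, mul_comm]; rfl
  have h7 : (wmat c' p e).det = (wmat c p e).det * ev h.cone C.det := by
    rw [h4, Matrix.det_mul, Matrix.det_transpose, AlgHom.map_det]; rfl
  rw [h7, h3, map_mul, map_pow, mul_pow]
  ring

/-- `(c, F)` represents the section `s ⊗ x_l^j` at `p` -/
structure LRep (l : Fin (N + 1)) (j : ℤ) {m : ℕ} (s : PluriForms I n m) (p : EE N) (c : CD I n)
    (F : stalk I p) : Prop where
  dom : c.Dom p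
  eq : (fnRatio I c.i l) ^ j • s = (F : FnField I) • c.wm m

/-- the value of the section -/
def lval (j : ℤ) (m : ℕ) {p : EE N} {c : CD I n} (h : c.Dom p) (F : stalk I p)
    (e : Fin n → EE N) : ℂ := (p c.i) ^ j * (ev h.cone F * (wmat c p e).det ^ m)

theorem fnRatio_ne {i l : Fin (N + 1)} (hi : (X i : HomCoordRing N) ∉ I)
    (hl : (X l : HomCoordRing N) ∉ I) : fnRatio I i l ≠ 0 := by
  intro h0
  have h1 := congrArg (toConeHom I) h0
  rw [toConeHom_fnRatio, map_zero, div_eq_zero_iff] at h1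
  rcases h1 with h1 | h1
  · exact coneHom_X_ne hl h1
  · exact coneHom_X_ne hi h1

/-- integer powers of units of the local ring -/
theorem zpow_stalk {p : EE N} (hp : p ∈ affineCone I) (u : (stalk I p)ˣ) (j : ℤ) :
    ∃ v : stalk I p, (v : FnField I) = ((u : stalk I p) : FnField I) ^ j ∧
      ev hp v = (ev hp (u : stalk I p)) ^ j := by
  refine ⟨((u ^ j : (stalk I p)ˣ) : stalk I p), ?_, ?_⟩
  · have h1 := map_zpow (Units.map (stalk I p).val.toRingHom.toMonoidHom) u j
    have h2 := congrArg Units.val h1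
    rw [Units.val_zpow_eq_zpow_val] at h2
    exact h2
  · have h1 := map_zpow (Units.map (ev hp).toRingHom.toMonoidHom) u j
    have h2 := congrArg Units.val h1
    rw [Units.val_zpow_eq_zpow_val] at h2
    exact h2

theorem lval_unique (hX : IsSmoothProjective I n) {l : Fin (N + 1)}
    (hl : (X l : HomCoordRing N) ∉ I) {j : ℤ} {m : ℕ} {s : PluriForms I n m} {p : EE N}
    {c c' : CD I n} {F F' : stalk I p} (h : LRep l j s p c F) (h' : LRep l j s p c' F')
    {e : Fin n → EE N} (he : ∀ k, IsTan I p (e k)) :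
    lval j m h.dom F e = lval j m h'.dom F' e := by
  -- `x_{c.i}/x_{c'.i}` is a unit of the local ring
  have hu : IsUnit (yA h.dom.cone h'.dom.i c.i) := by
    apply isUnit_of_ev_ne h.dom.cone
    rw [ev_yA]
    exact div_ne_zero h.dom.i h'.dom.i
  obtain ⟨u, hu⟩ := hu
  obtain ⟨v, hv1, hv2⟩ := zpow_stalk h.dom.cone u j
  rw [hu, ev_yA] at hv2
  rw [hu] at hv1
  have h1 : fnRatio I c'.i l = fnRatio I c'.i c.i * fnRatio I c.i l := by
    apply toConeHom_injective
    rw [map_mul, toConeHom_fnRatio, toConeHom_fnRatio, toConeHom_fnRatio]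
    have h2 := coneHom_X_ne h.dom.not_mem_i
    have h3 := coneHom_X_ne h'.dom.not_mem_i
    field_simp
  have h2 : ((v * F : stalk I p) : FnField I) • c.wm m = (F' : FnField I) • c'.wm m := by
    rw [← h'.eq, h1, mul_zpow, mul_smul, h.eq, smul_smul]
    have : (v : FnField I) = (fnRatio I c'.i c.i) ^ j := hv1
    rw [← this]; rfl
  have h3 := val_unique hX h.dom h'.dom h2 he
  unfold lval
  rw [← h3, map_mul, hv2, div_zpow]
  have h4 : (p c'.i) ^ j ≠ 0 := zpow_ne_zero _ h'.dom.i
  field_simp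

open Classical in
/-- **the function on frames defined by an algebraic section** -/
def evalSec (l : Fin (N + 1)) (j : ℤ) {m : ℕ} (s : PluriForms I n m) (p : EE N)
    (e : Fin n → EE N) : ℂ :=
  if h : ∃ (c : CD I n) (F : stalk I p), LRep l j s p c F then
    lval j m h.choose_spec.choose_spec.dom h.choose_spec.choose e else 0

theorem evalSec_eq (hX : IsSmoothProjective I n) {l : Fin (N + 1)}
    (hl : (X l : HomCoordRing N) ∉ I) {j : ℤ} {m : ℕ} {s : PluriForms I n m} {p : EE N}
    {c : CD I n} {F : stalk I p} (h : LRep l j s p c F) {e : Fin n → EE N}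
    (he : ∀ k, IsTan I p (e k)) : evalSec l j s p e = lval j m h.dom F e := by
  have h0 : ∃ (c : CD I n) (F : stalk I p), LRep l j s p c F := ⟨c, F, h⟩
  unfold evalSec
  rw [dif_pos h0]
  exact lval_unique hX hl h0.choose_spec.choose_spec h he

/-- sections of the twisted space have representatives at every point -/
theorem exists_lrep (hX : IsSmoothProjective I n) {l : Fin (N + 1)} {j : ℤ} {m : ℕ}
    {s : PluriForms I n m} (hs : s ∈ H0tw I n l m j) {p : EE N} (hp : p ∈ affineCone I)
    (hp0 : p ≠ 0) : ∃ (c : CD I n) (F : stalk I p), LRep l j s p c F := by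
  obtain ⟨i, hi⟩ := exists_coord_ne hp0
  obtain ⟨c, hc, hci⟩ := exists_CD hX hp hp0 hi
  subst hci
  obtain ⟨F, hF⟩ := regAt_of_mem_chartSections hX hp hi (mem_H0tw.1 hs c.i hc.not_mem_i) hc
  exact ⟨c, F, hc, hF⟩

theorem eval_smul_hom {F : HomCoordRing N} {k : ℕ} (hF : F.IsHomogeneous k) (a : ℂ) (p : EE N) :
    eval (a • p) F = a ^ k * eval p F := by
  have h1 : ∀ x : EE N, aeval x F = eval x F := fun x => by
    rw [← coe_aeval_eq_eval]; rfl
  have h2 := aeval_smul_hom hF a p
  rw [h1, h1] at h2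
  exact h2

theorem eval_smul_zero_of_mem (hI : Hom I) {F : HomCoordRing N} (hF : F ∈ I) (a : ℂ) {p : EE N}
    (hp : p ∈ affineCone I) : eval (a • p) F = 0 := by
  rw [← sum_homogeneousComponent F, map_sum]
  refine Finset.sum_eq_zero fun d _ => ?_
  rw [eval_smul_hom (homogeneousComponent_isHomogeneous d F), hp _ (hI F hF d), mul_zero]

theorem smul_mem_cone (hI : Hom I) (a : ℂ) {p : EE N} (hp : p ∈ affineCone I) :
    a • p ∈ affineCone I := fun _ hF => eval_smul_zero_of_mem hI hF a hp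

theorem dom_smul (hI : Hom I) {c : CD I n} {p : EE N} (h : c.Dom p) {a : ℂ} (ha : a ≠ 0) :
    c.Dom (a • p) := by
  refine ⟨smul_mem_cone hI a h.cone, ?_, ?_⟩
  · rw [Pi.smul_apply, smul_eq_mul]; exact mul_ne_zero ha h.i
  · rw [eval_smul_hom c.δ_hom]
    exact mul_ne_zero (pow_ne_zero _ ha) h.δ

/-- a representative at `p` is a representative at every nearby point of the domain -/
theorem lrep_of_rep {l : Fin (N + 1)} {j : ℤ} {m : ℕ} {s : PluriForms I n m} {p : EE N}
    {c : CD I n} {F : stalk I p} (h : LRep l j s p c F) {k : ℕ} {G H : HomCoordRing N}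
    (hG : G.IsHomogeneous k) (hH : H.IsHomogeneous k) (hr : IsRep (F : FnField I) G H)
    {q : EE N} (hq : c.Dom q) (hqH : eval q H ≠ 0) :
    ∃ F' : stalk I q, LRep l j s q c F' ∧ ev hq.cone F' = eval q G / eval q H := by
  refine ⟨⟨F, k, G, H, hG, hH, hqH, hr⟩, ⟨hq, h.eq⟩, ?_⟩
  exact ev_eq_div hq.cone _ hr hqH

/-- **D3: algebraic sections are holomorphic sections.** -/
theorem holSec_evalSec (hX : IsSmoothProjective I n) {l : Fin (N + 1)}
    (hl : (X l : HomCoordRing N) ∉ I) {j : ℤ} {m : ℕ} {s : PluriForms I n m}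
    (hs : s ∈ H0tw I n l m j) : HolSec I n m j (evalSec l j s) := by
  have hI : Hom I := hX.homogeneous
  refine ⟨?_, ?_, ?_⟩
  · -- homogeneity
    rintro p ⟨hp, hp0⟩ b hb a ha
    obtain ⟨c, F, h⟩ := exists_lrep hX hs hp hp0
    obtain ⟨k, G, H, hG, hH, hpH, hr⟩ := exists_rep F
    have hd := dom_smul hI h.dom ha
    have hH' : eval (a • p) H ≠ 0 := by
      rw [eval_smul_hom hH]; exact mul_ne_zero (pow_ne_zero _ ha) hpH
    obtain ⟨F', h', hev⟩ := lrep_of_rep h hG hH hr hd hH'
    have hb' : ∀ i, IsTan I (a • p) (a • b i) := by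
      intro i Q hQ
      -- tangent spaces are constant along the line
      have h1 := hb i
      rw [isTan_iff] at h1
      rw [← sum_homogeneousComponent Q, grad_sum]
      have h2 : ∀ (d : ℕ), ∑ t, grad (homogeneousComponent d Q) (a • p) t * (a • b i) t = 0 := by
        intro d
        have h3 : ∀ t, grad (homogeneousComponent d Q) (a • p) t =
            a ^ (d - 1) * grad (homogeneousComponent d Q) p t := by
          intro t
          exact eval_smul_hom ((homogeneousComponent_isHomogeneous d Q).pderiv) a p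
        have h4 := h1 _ (hI Q hQ d)
        simp only [h3, Pi.smul_apply, smul_eq_mul]
        have h5 : ∑ t, a ^ (d - 1) * grad (homogeneousComponent d Q) p t * (a * b i t) =
            a ^ (d - 1) * a * ∑ t, grad (homogeneousComponent d Q) p t * b i t := by
          rw [Finset.mul_sum]
          exact Finset.sum_congr rfl fun t _ => by ring
        rw [h5, h4, mul_zero]
      simp only [Finset.sum_apply, Finset.sum_mul]
      rw [Finset.sum_comm]
      exact Finset.sum_eq_zero fun d _ => h2 d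
    rw [evalSec_eq hX hl h' (e := fun i => a • b i) hb', evalSec_eq hX hl h (e := b) hb]
    unfold lval
    have h6 : wmat c (a • p) (fun i => a • b i) = wmat c p b := by
      funext k t
      simp only [wmat, Matrix.of_apply, Pi.smul_apply, smul_eq_mul]
      have hi := h.dom.i
      field_simp
    have h7 : ev hd.cone F' = ev h.dom.cone F := by
      rw [hev, ev_eq_div h.dom.cone F hr hpH, eval_smul_hom hG, eval_smul_hom hH,
        mul_div_mul_left _ _ (pow_ne_zero _ ha)]
    rw [h6, h7, Pi.smul_apply, smul_eq_mul, mul_zpow]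
    ring
  · -- mixing
    rintro p ⟨hp, hp0⟩ b hb M r
    obtain ⟨c, F, h⟩ := exists_lrep hX hs hp hp0
    have hpt : IsTan I p p := by
      intro Q hQ
      rw [← sum_homogeneousComponent Q, grad_sum]
      simp only [Finset.sum_apply, Finset.sum_mul]
      rw [Finset.sum_comm]
      refine Finset.sum_eq_zero fun d _ => ?_
      have := euler hp (hI Q hQ d) (homogeneousComponent_isHomogeneous d Q)
      rw [← this]
      exact Finset.sum_congr rfl fun t _ => mul_comm _ _
    have hb' : ∀ i, IsTan I p ((∑ k, M i k • b k) + r i • p) := by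
      intro i
      rw [← isTan_iff]
      exact Submodule.add_mem _ (Submodule.sum_mem _ fun k _ => Submodule.smul_mem _ _ (hb k))
        (Submodule.smul_mem _ _ (isTan_iff.2 hpt))
    rw [evalSec_eq hX hl h (e := fun i => (∑ k, M i k • b k) + r i • p) hb',
      evalSec_eq hX hl h (e := b) hb]
    unfold lval
    have h6 : wmat c p (fun i => (∑ k, M i k • b k) + r i • p) = M * wmat c p b := by
      funext i t
      rw [Matrix.mul_apply]
      simp only [wmat, Matrix.of_apply, Pi.add_apply, Finset.sum_apply, Pi.smul_apply, smul_eq_mul]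
      have h8 : ∀ k, M i k * ((p c.i * b k (c.S t) - p (c.S t) * b k c.i) / p c.i ^ 2) =
          (p c.i * (M i k * b k (c.S t)) - p (c.S t) * (M i k * b k c.i)) / p c.i ^ 2 := by
        intro k; ring
      simp_rw [h8]
      rw [← Finset.sum_div, Finset.sum_sub_distrib, ← Finset.mul_sum, ← Finset.mul_sum]
      congr 1
      ring
    rw [h6, Matrix.det_mul, mul_pow]
    ring
  · -- holomorphy
    intro d F b z₀ hF hb hev
    obtain ⟨⟨hp, hp0⟩, hbz⟩ := hev.self_of_nhds
    obtain ⟨c, F₀, h⟩ := exists_lrep hX hs hp hp0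
    obtain ⟨k, G, H, hG, hH, hpH, hr⟩ := exists_rep F₀
    have hFj : ∀ j, AnalyticAt ℂ (fun z => F z j) z₀ := fun j =>
      ((ContinuousLinearMap.proj (R := ℂ) (φ := fun _ : Fin (N + 1) => ℂ) j).analyticAt _).comp hF
    have hbj : ∀ i j, AnalyticAt ℂ (fun z => b i z j) z₀ := fun i j =>
      ((ContinuousLinearMap.proj (R := ℂ) (φ := fun _ : Fin (N + 1) => ℂ) j).analyticAt _).comp
        (hb i)
    have hpoly : ∀ Q : HomCoordRing N, AnalyticAt ℂ (fun z => eval (F z) Q) z₀ := by
      intro Q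
      induction Q using MvPolynomial.induction_on with
      | C a => simpa using analyticAt_const
      | add p q hp hq => simp only [map_add]; exact hp.add hq
      | mul_X p i hp => simp only [map_mul, eval_X]; exact hp.mul (hFj i)
    have hne : ∀ Q : HomCoordRing N, eval (F z₀) Q ≠ 0 → ∀ᶠ z in 𝓝 z₀, eval (F z) Q ≠ 0 :=
      fun Q hQ => (hpoly Q).continuousAt.eventually_ne hQ
    have hi0 : ∀ᶠ z in 𝓝 z₀, F z c.i ≠ 0 := (hFj c.i).continuousAt.eventually_ne h.dom.i
    have hform : (fun z => evalSec l j s (F z) (fun i => b i z)) =ᶠ[𝓝 z₀]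
        fun z => (F z c.i) ^ j * (eval (F z) G / eval (F z) H *
          (wmat c (F z) (fun i => b i z)).det ^ m) := by
      filter_upwards [hev, hne _ h.dom.δ, hne _ hpH, hi0] with z hz hδ hzH hzi
      have hd : c.Dom (F z) := ⟨hz.1.1, hzi, hδ⟩
      obtain ⟨F', h', hev'⟩ := lrep_of_rep h hG hH hr hd hzH
      rw [evalSec_eq hX hl h' (e := fun i => b i z) (fun i => hz.2 i)]
      unfold lval
      rw [hev']
    refine AnalyticAt.congr ?_ hform.symm
    refine AnalyticAt.mul ((hFj c.i).zpow h.dom.i) (AnalyticAt.mul ?_ (AnalyticAt.pow ?_ m))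
    · exact (hpoly G).div (hpoly H) hpH
    · have hent : ∀ k t, AnalyticAt ℂ (fun z => wmat c (F z) (fun i => b i z) k t) z₀ := by
        intro k t
        simp only [wmat, Matrix.of_apply]
        refine AnalyticAt.div ?_ ((hFj c.i).pow 2) (pow_ne_zero _ h.dom.i)
        exact ((hFj c.i).mul (hbj k _)).sub ((hFj _).mul (hbj k _))
      simp only [Matrix.det_apply]
      refine Finset.analyticAt_fun_sum _ fun σ _ => ?_
      refine AnalyticAt.const_smul ?_
      exact Finset.analyticAt_fun_prod _ fun k _ => hent _ _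



/-- the numerator of a local coefficient of a nonzero section is not in `I` -/
theorem num_not_mem {l : Fin (N + 1)} (hl : (X l : HomCoordRing N) ∉ I) {j : ℤ} {m : ℕ}
    {s : PluriForms I n m} (hs0 : s ≠ 0) {p : EE N} {c : CD I n} {F : stalk I p}
    (h : LRep l j s p c F) {G H : HomCoordRing N} (hpH : eval p H ≠ 0)
    (hr : IsRep (F : FnField I) G H) : G ∉ I := by
  have hF0 : (F : FnField I) ≠ 0 := by
    intro h0
    have h1 := h.eq
    rw [h0, zero_smul, smul_eq_zero] at h1
    rcases h1 with h1 | h1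
    · exact (zpow_ne_zero _ (fnRatio_ne h.dom.not_mem_i hl)) h1
    · exact hs0 h1
  intro hGI
  have h1 : toConeHom I (F : FnField I) * coneHom I H = coneHom I G := hr
  rw [coneHom_eq_zero_iff.2 hGI] at h1
  rcases mul_eq_zero.1 h1 with h2 | h2
  · exact hF0 (toConeHom_injective (by rw [h2, map_zero]))
  · exact not_mem_of_eval_ne h.dom.cone hpH (coneHom_eq_zero_iff.1 h2)

/-- **non-vanishing at the points of the domain where `G H ≠ 0`**, `G/H` = local coefficient -/
theorem exists_frame_ne (hX : IsSmoothProjective I n) {l : Fin (N + 1)}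
    (hl : (X l : HomCoordRing N) ∉ I) {j : ℤ} {m : ℕ} {s : PluriForms I n m} {p : EE N}
    {c : CD I n} {F : stalk I p} (h : LRep l j s p c F) {k : ℕ} {G H : HomCoordRing N}
    (hG : G.IsHomogeneous k) (hH : H.IsHomogeneous k) (hr : IsRep (F : FnField I) G H)
    {q : EE N} (hq : q ∈ affineCone I) (hne : eval q (X c.i * c.δ * (G * H)) ≠ 0) :
    ∃ b : Fin n → EE N, TanFam I q b ∧ evalSec l j s q b ≠ 0 := by
  simp only [map_mul, eval_X, mul_ne_zero_iff] at hne
  have hd : c.Dom q := ⟨hq, hne.1.1, hne.1.2⟩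
  obtain ⟨F', h', hev⟩ := lrep_of_rep h hG hH hr hd hne.2.2
  choose b hb hbi hbw using fun k : Fin n => exists_tan hX hd (Pi.single k 1)
  refine ⟨b, fun k => hb k, ?_⟩
  rw [evalSec_eq hX hl h' (e := b) hb]
  unfold lval
  have h1 : wmat c q b = 1 := by
    funext k t
    have h2 := hbw k t
    rw [dv_w hd (hb k) t] at h2
    change (q c.i * b k (c.S t) - q (c.S t) * b k c.i) / (q c.i) ^ 2 = _
    rw [h2, Matrix.one_apply, Pi.single_apply]
    simp only [eq_comm]
  rw [h1, Matrix.det_one, one_pow, mul_one, hev]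
  exact mul_ne_zero (zpow_ne_zero _ hd.i) (div_ne_zero hne.2.1 hne.2.2)

theorem prod_not_mem {p : EE N} {c : CD I n} (h : c.Dom p) {G H : HomCoordRing N} (hGI : G ∉ I)
    (hpH : eval p H ≠ 0) : X c.i * c.δ * (G * H) ∉ I := by
  intro hmem
  rcases Ideal.IsPrime.mem_or_mem inferInstance hmem with h1 | h1
  · rcases Ideal.IsPrime.mem_or_mem inferInstance h1 with h2 | h2
    · exact h.not_mem_i h2
    · exact h.not_mem_δ h2
  · rcases Ideal.IsPrime.mem_or_mem inferInstance h1 with h2 | h2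
    · exact hGI h2
    · exact not_mem_of_eval_ne h.cone hpH h2

theorem prod_hom {c : CD I n} {k : ℕ} {G H : HomCoordRing N} (hG : G.IsHomogeneous k)
    (hH : H.IsHomogeneous k) : (X c.i * c.δ * (G * H)).IsHomogeneous (1 + c.e + (k + k)) :=
  ((isHomogeneous_X _ _).mul c.δ_hom).mul (hG.mul hH)


/-- **BigP from an algebraic section of `m K_X - A`**, given density of the non-zero sets of
homogeneous polynomials outside `I` (`Dense_85.frequently_eval_ne`). -/
theorem bigP_of_section (hX : IsSmoothProjective I n) {l : Fin (N + 1)}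
    (hl : (X l : HomCoordRing N) ∉ I) {m : ℕ} (hm : 1 ≤ m) {s : PluriForms I n m}
    (hs : s ∈ H0tw I n l m (-1)) (hs0 : s ≠ 0)
    (hdense : ∀ (G : HomCoordRing N) (k : ℕ), G.IsHomogeneous k → G ∉ I → ∀ p ∈ Cone I,
      ∃ᶠ q in 𝓝 p, q ∈ Cone I ∧ eval q G ≠ 0) : BigP I n := by
  refine ⟨m, hm, evalSec l (-1) s, holSec_evalSec hX hl hs, ?_⟩
  rintro p ⟨hp, hp0⟩
  obtain ⟨c, F, h⟩ := exists_lrep hX hs hp hp0
  obtain ⟨k, G, H, hG, hH, hpH, hr⟩ := exists_rep F
  have hGI := num_not_mem hl hs0 h hpH hr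
  refine (hdense _ _ (prod_hom hG hH) (prod_not_mem h.dom hGI hpH) p ⟨hp, hp0⟩).mono ?_
  rintro q ⟨hq, hne⟩
  exact ⟨hq, exists_frame_ne hX hl h hG hH hr hq.1 hne⟩

end Crest.Agent.R269.DictH_795
end
end

-- ▼ part R269/PAsm4_976
section

/-!
# R269, P10-PEAK-ASM (helper976), part 4: positivity, determinant, assembly of (10.1)
-/

set_option autoImplicit false

open Set Filter Topology Complex MeasureTheory Metric
open scoped ENNReal ComplexConjugate ContDiff

noncomputable section

namespace Crest.Agent.R269.PAsm4_976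

open Crest.AlgGeometry.ProjEmb
open Crest.Agent.R271 Crest.Agent.R271.Defs710 Crest.Agent.R271.Rd692
open Crest.Agent.R271.Ho51 hiding EE nsq
open Crest.Agent.R269.Amp1_243 Crest.Agent.R269.Geo_328 Crest.Agent.R269.Amp3_243
open Crest.Agent.R269.Defs_58 Crest.Agent.R269.PAsm3_976
open Crest.Agent.R276.LM3_976 Crest.Agent.R269.Peak4_976 Crest.Agent.R269.Peak6_976

variable {N n : ℕ} {I : Ideal (HomCoordRing N)}

/-- change of frame in the Gram determinant -/
lemma gdet_mul (B : Matrix (Fin (n + 1)) (Fin (n + 1)) ℂ) (A : Matrix (Fin (n + 1)) (Fin (N + 1)) ℂ) :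
    gdet (B * A) = ‖B.det‖ ^ 2 * gdet A := by
  unfold gdet
  have h : B * A * (B * A).conjTranspose = B * (A * A.conjTranspose) * B.conjTranspose := by
    rw [Matrix.conjTranspose_mul]
    simp only [Matrix.mul_assoc]
  rw [h, Matrix.det_mul, Matrix.det_mul, Matrix.det_conjTranspose]
  have h2 : B.det * (A * A.conjTranspose).det * star B.det =
      ((‖B.det‖ ^ 2 : ℝ) : ℂ) * (A * A.conjTranspose).det := by
    have h3 : B.det * star B.det = ((‖B.det‖ ^ 2 : ℝ) : ℂ) := by
      have := Complex.mul_conj' B.det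
      push_cast
      exact this
    rw [← h3]; ring
  rw [h2, Complex.re_ofReal_mul]

lemma DD_lin (p : EE N) (b : Fin n → EE N) (w : Fin n → Fin n → ℂ) :
    DD p (fun i => ∑ k, w i k • b k) = ‖(Matrix.of w).det‖ ^ 2 * DD p b := by
  unfold DD
  rw [wedgeSq_eq, wedgeSq_eq, ← mul_div_assoc]
  congr 1
  let B : Matrix (Fin (n + 1)) (Fin (n + 1)) ℂ :=
    Matrix.of (Fin.cons (Pi.single 0 1) (fun i => Fin.cons 0 (w i)) : Fin (n + 1) → Fin (n + 1) → ℂ)
  have hB : B.det = (Matrix.of w).det := by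
    rw [Matrix.det_succ_row_zero, Finset.sum_eq_single 0]
    · have h1 : B 0 0 = 1 := by simp [B]
      rw [h1]
      simp only [Fin.val_zero, pow_zero, one_mul]
      congr 1
    · intro j _ hj
      have : B 0 j = 0 := by
        simp [B, Pi.single_eq_of_ne hj]
      rw [this]; simp
    · intro h; exact absurd (Finset.mem_univ _) h
  have hBA : (Matrix.of (Fin.cons p (fun i => ∑ k, w i k • b k) : Fin (n + 1) → EE N) :
      Matrix (Fin (n + 1)) (Fin (N + 1)) ℂ) = B * Matrix.of (Fin.cons p b : Fin (n + 1) → EE N) := by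
    ext a l
    rw [Matrix.mul_apply, Fin.sum_univ_succ]
    refine Fin.cases ?_ (fun i => ?_) a
    · simp [B, Pi.single_apply]
    · simp [B, Finset.sum_apply]
  rw [hBA, gdet_mul, hB]

/-- the determinant inequality on `M` -/
theorem ma_chart (hA : AlphaFamStmt) (hI : I.IsPrime) (hX : IsSmoothProjective I n) (hn : 1 ≤ n)
    (X : XC I n) {c₁ e : ℝ} (hc : 0 < c₁) {φ : EE N → ℝ}
    (hφ : ∀ p ∈ Cone I, ContDiffAt ℝ ∞ φ p)
    (h : ∀ p ∈ Cone I, ∀ b : Fin n → EE N,
    TanFam I p b → n * c₁ * DD p b ^ ((n : ℝ)⁻¹) ≤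
      ∑ i, (alpha I n p (b i) + e * omg p (b i) + Defs_58.lev φ p (b i))) (y : X.B →ₐ[ℂ] ℂ) :
    (∀ w, w ≠ 0 → 0 < Levi (Psi X (uu φ e)) y w) ∧
      c₁ ^ n * (gr X y / ns X y ^ (n + 1)) ≤ (PL (Psi X (uu φ e)) y).det.re := by
  have hsm : Sm (Psi X (uu φ e)) := sm_Psi (sm_uu hφ e)
  have hH := PL_herm hsm y
  have hg : 0 < gr X y / ns X y ^ (n + 1) := div_pos (gr_pos y) (pow_pos (ns_pos y) _)
  have hq1 : ∀ w, hq (PL (Psi X (uu φ e)) y) w = alpha I n (pt X y) (dp X y w) +
      e * omg (pt X y) (dp X y w) + Defs_58.lev φ (pt X y) (dp X y w) := by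
    intro w
    rw [hq_PL, W792.Levi_eq_lev hsm, lev_Psi hA hI hX X hφ e y w]
  have key := PAsm1_976.det_lower hn hH hc hg (by
    intro w
    have h1 := h (pt X y) (pt_mem y) (fun i => dp X y (w i)) (fun i => dp_mem y _)
    have h2 : DD (pt X y) (fun i => dp X y (w i)) =
        ‖(Matrix.of w).det‖ ^ 2 * (gr X y / ns X y ^ (n + 1)) := by
      rw [← DD_db]
      exact DD_lin _ _ _
    rw [h2] at h1
    refine h1.trans (le_of_eq ?_)
    exact Finset.sum_congr rfl fun i _ => (hq1 (w i)).symm)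
  refine ⟨fun w hw => ?_, key.2⟩
  rw [← hq_PL]
  exact PAsm1_976.hq_pos hH key.1 hw

/-- smooth functions on `X` are bounded above -/
theorem bdd_above (hX : IsSmoothProjective I n) {φ : EE N → ℝ} (hφ : SmX I φ) :
    ∃ B : ℝ, ∀ p ∈ Cone I, φ p ≤ B := by
  have hcl : IsClosed (affineCone I) := by
    have : affineCone I = ⋂ F ∈ I, {p : EE N | MvPolynomial.eval p F = 0} := by
      ext p; simp [affineCone]
    rw [this]
    exact isClosed_biInter fun F _ => isClosed_eq (continuous_eval F) continuous_const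
  have hK : IsCompact (affineCone I ∩ Metric.sphere (0 : EE N) 1) :=
    (isCompact_sphere _ _).inter_left hcl
  have hKc : affineCone I ∩ Metric.sphere (0 : EE N) 1 ⊆ Cone I := by
    rintro p ⟨h1, h2⟩
    refine ⟨h1, ?_⟩
    rintro rfl
    simp at h2
  have hcont : ContinuousOn φ (affineCone I ∩ Metric.sphere (0 : EE N) 1) := fun p hp =>
    (hφ.1 p (hKc hp)).continuousAt.continuousWithinAt
  obtain ⟨B, hB⟩ := (hK.image_of_continuousOn hcont).bddAbove
  refine ⟨B, fun p hp => ?_⟩
  have hp0 : ‖p‖ ≠ 0 := norm_ne_zero_iff.2 hp.2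
  have hc0 : ((‖p‖ : ℂ))⁻¹ ≠ 0 := inv_ne_zero (by exact_mod_cast hp0)
  rw [← hφ.2 p hp _ hc0]
  refine hB ⟨_, ⟨(smul_mem_Cone hX hp hc0).1, ?_⟩, rfl⟩
  rw [mem_sphere_zero_iff_norm, norm_smul, norm_inv, Complex.norm_real, norm_norm,
    inv_mul_cancel₀ hp0]

end Crest.Agent.R269.PAsm4_976
end
end

-- ▼ part R269/PAsm5_976

/-!
# R269, P10-PEAK-ASM (helper976), part 5: **(10.1)** = steps (G1) + (G2) of part 10
-/

set_option autoImplicit false

open Set Filter Topology Complex MeasureTheory Metric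
open scoped ENNReal ComplexConjugate ContDiff

noncomputable section

namespace Crest.Agent.R269.PAsm5_976

open Crest.AlgGeometry.ProjEmb
open Crest.Agent.R271 Crest.Agent.R271.Defs710 Crest.Agent.R271.Rd692
open Crest.Agent.R271.Ho51 hiding EE nsq
open Crest.Agent.R269.Amp1_243 Crest.Agent.R269.Geo_328 Crest.Agent.R269.Amp3_243
open Crest.Agent.R269.Defs_58 Crest.Agent.R269.PAsm3_976 Crest.Agent.R269.PAsm4_976
open Crest.Agent.R276.LM3_976 Crest.Agent.R269.Peak4_976 Crest.Agent.R269.Peak6_976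

variable {N n : ℕ} {I : Ideal (HomCoordRing N)}

/-- the weight `|dz|²` -/
def wt (X : XC I n) (y : X.B →ₐ[ℂ] ℂ) : ℝ := ns X y ^ (n + 1) / gr X y

lemma wt_pos {X : XC I n} (y : X.B →ₐ[ℂ] ℂ) : 0 < wt X y := div_pos (pow_pos (ns_pos y) _) (gr_pos y)

lemma exp_Psi {X : XC I n} (φ : EE N → ℝ) (e : ℝ) (y : X.B →ₐ[ℂ] ℂ) :
    Real.exp (-(Psi X (uu φ e) y)) =
      wt X y * Real.exp (-φ (pt X y)) * Real.exp (-(e * lns X y)) := by
  have h1 : wt X y = Real.exp (-(Real.log (gr X y) - (n + 1) * lns X y)) := by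
    unfold wt lns
    rw [neg_sub, Real.exp_sub, Real.exp_log (gr_pos y)]
    congr 1
    have : ((n : ℝ) + 1) * Real.log (ns X y) = ((n + 1 : ℕ) : ℝ) * Real.log (ns X y) := by
      push_cast; ring
    rw [this, Real.exp_nat_mul, Real.exp_log (ns_pos y)]
  rw [h1, ← Real.exp_add, ← Real.exp_add]
  unfold Psi uu
  congr 1
  unfold lns ns
  ring

/-- comparison of the integrands -/
lemma integrand_le {X : XC I n} {φ : EE N → ℝ} {B : ℝ} (hB : ∀ p ∈ Cone I, φ p ≤ B) {q : ℕ}
    (hq : 1 ≤ q) (m : ℕ) (F : (X.B →ₐ[ℂ] ℂ) → ℂ) (y : X.B →ₐ[ℂ] ℂ) :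
    ‖F y‖ ^ 2 * wt X y ^ m / ns X y ^ (m / q + 1) ≤
      Real.exp (m * B) * (‖F y‖ ^ 2 * Real.exp (-(m * Psi X (uu φ (1 / q)) y))) := by
  have hqr : (0 : ℝ) < q := by exact_mod_cast hq
  have h1 : Real.exp (-(m * Psi X (uu φ (1 / q)) y)) =
      wt X y ^ m * Real.exp (-(m * φ (pt X y))) * Real.exp (-((m / q) * lns X y)) := by
    have h2 : -(m * Psi X (uu φ (1 / q)) y) = m * (-(Psi X (uu φ (1 / q)) y)) := by ring
    rw [h2, Real.exp_nat_mul, exp_Psi, mul_pow, mul_pow, ← Real.exp_nat_mul, ← Real.exp_nat_mul]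
    congr 2 <;> ring_nf
  have h2 : Real.exp (-(m * B)) ≤ Real.exp (-(m * φ (pt X y))) := by
    have := hB _ (pt_mem y)
    gcongr
  have h3 : (ns X y ^ (m / q + 1))⁻¹ ≤ Real.exp (-((m / q) * lns X y)) := by
    have h4 : ns X y ^ (m / q + 1) = Real.exp ((m / q + 1 : ℕ) * lns X y) := by
      rw [Real.exp_nat_mul]
      unfold lns
      rw [Real.exp_log (ns_pos y)]
    rw [h4, ← Real.exp_neg]
    refine Real.exp_le_exp.2 (neg_le_neg ?_)
    have h5 : 0 ≤ lns X y := Real.log_nonneg (one_le_ns y)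
    refine mul_le_mul_of_nonneg_right ?_ h5
    rw [div_le_iff₀ hqr]
    have h6 : m < (m / q + 1) * q := by
      have := Nat.div_add_mod m q
      have := Nat.mod_lt m hq
      nlinarith
    exact_mod_cast h6.le
  rw [h1]
  have h4 : Real.exp (m * B) * Real.exp (-(m * B)) = 1 := by
    rw [← Real.exp_add, add_neg_cancel, Real.exp_zero]
  have hw := wt_pos (X := X) y
  have hns := ns_pos (X := X) y
  calc ‖F y‖ ^ 2 * wt X y ^ m / ns X y ^ (m / q + 1)
      = (Real.exp (m * B) * Real.exp (-(m * B))) *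
        (‖F y‖ ^ 2 * (wt X y ^ m * (ns X y ^ (m / q + 1))⁻¹)) := by
        rw [h4, one_mul, div_eq_mul_inv]; ring
    _ ≤ (Real.exp (m * B) * Real.exp (-(m * φ (pt X y)))) *
        (‖F y‖ ^ 2 * (wt X y ^ m * Real.exp (-((m / q) * lns X y)))) := by
        gcongr
    _ = _ := by ring

lemma nonempty_pts (X : XC I n) : Nonempty (X.B →ₐ[ℂ] ℂ) := by
  have := X.ft
  obtain ⟨y, _⟩ := KT661.exists_point_of_ne_top (⊥ : Ideal X.B) bot_ne_top
  exact ⟨y⟩

/-- **(10.1)**: steps (G1) + (G2). -/
theorem g12 (hA : AlphaFamStmt) (hI : I.IsPrime) (hX : IsSmoothProjective I n) (hn : 1 ≤ n)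
    (hMA : MAP I n) (X : XC I n) :
    ∃ c₂ : ℝ, 0 < c₂ ∧ ∀ q : ℕ, 1 ≤ q → ∀ V : ℕ → Submodule ℂ ((X.B →ₐ[ℂ] ℂ) → ℂ),
      (∀ m, FiniteDimensional ℂ (V m)) →
      (∀ m F, Ho51.Hol F → lintM X.z (fun y => ENNReal.ofReal
        (‖F y‖ ^ 2 * wt X y ^ m / ns X y ^ (m / q + 1))) < ⊤ → F ∈ V m) →
      ∀ᶠ m : ℕ in atTop, c₂ * (m : ℝ) ^ n ≤ Module.finrank ℂ (V m) := by
  classical
  obtain ⟨c₁, hc₁, hma⟩ := hMA
  obtain ⟨Cn, hCn, hpk⟩ := PAsm2_976.pk2N (n := n) hn
  obtain ⟨ρ, hρ, hρc, hρL⟩ := exists_rho X.toEC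
  let _ : MeasurableSpace (X.B →ₐ[ℂ] ℂ) := borel _
  have : BorelSpace (X.B →ₐ[ℂ] ℂ) := ⟨rfl⟩
  obtain ⟨μ, hμ⟩ := exists_leb (n := n) (M := X.B →ₐ[ℂ] ℂ)
  -- the volume
  set g : (X.B →ₐ[ℂ] ℂ) → ℝ := fun y => c₁ ^ n * (gr X y / ns X y ^ (n + 1)) with hg
  have hgpos : ∀ y, 0 < g y := fun y =>
    mul_pos (pow_pos hc₁ n) (div_pos (gr_pos y) (pow_pos (ns_pos y) _))
  have hgc : Continuous g := by
    have h1 : Continuous (gr X) := sm_gr.continuous
    have h2 : Continuous (ns X) := sm_ns.continuous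
    exact continuous_const.mul (h1.div (h2.pow _) fun y => (pow_pos (ns_pos y) _).ne')
  have hvol : 0 < ∫⁻ y, ENNReal.ofReal (g y) ∂μ := by
    have hm : Measurable fun y => ENNReal.ofReal (g y) := hgc.measurable.ennreal_ofReal
    rw [lintegral_pos_iff_support hm]
    have hs : Function.support (fun y => ENNReal.ofReal (g y)) = univ := by
      ext y
      simp [Function.mem_support, hgpos y]
    rw [hs]
    have := nonempty_pts X
    exact leb_pos hμ isOpen_univ univ_nonempty
  obtain ⟨a, ha0, ha⟩ := ENNReal.lt_iff_exists_nnreal_btwn.1 hvol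
  have ha0' : 0 < (a : ℝ) := by exact_mod_cast ha0
  refine ⟨a / Cn, by positivity, ?_⟩
  intro q hq V hVf hV
  have hqr : (0 : ℝ) < q := by exact_mod_cast hq
  obtain ⟨φ, hφ, hφm⟩ := hma (1 / q) (by positivity)
  obtain ⟨B, hB⟩ := bdd_above hX hφ
  set ψ : (X.B →ₐ[ℂ] ℂ) → ℝ := Psi X (uu φ (1 / q)) with hψdef
  have hψ : Sm ψ := sm_Psi (sm_uu hφ.1 (1 / q))
  have hmc := ma_chart hA hI hX hn X hc₁ hφ.1 hφm
  -- `W μ (m ψ) ≤ V m`
  have hWV : ∀ m : ℕ, W μ (fun y => m * ψ y) ((Sm.const (m : ℝ)).mulR hψ).continuous.measurable ≤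
      V m := by
    intro m F hF
    obtain ⟨hF1, hF2⟩ := hF
    refine hV m F hF1 ?_
    have hFc : Continuous F := Crest.Agent.R271.T7a297.Hol.continuous hF1
    have hmeas : Measurable fun y => ENNReal.ofReal
        (‖F y‖ ^ 2 * wt X y ^ m / ns X y ^ (m / q + 1)) := by
      have h1 : Continuous (gr X) := sm_gr.continuous
      have h2 : Continuous (ns X) := sm_ns.continuous
      have h3 : Continuous (wt X) := (h2.pow _).div h1 fun y => (gr_pos y).ne'
      exact ((((hFc.norm.pow 2).mul (h3.pow m)).div (h2.pow _)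
        fun y => (pow_pos (ns_pos y) _).ne').measurable).ennreal_ofReal
    rw [Amp1_243.lintM_eq hμ hmeas]
    calc ∫⁻ y, ENNReal.ofReal (‖F y‖ ^ 2 * wt X y ^ m / ns X y ^ (m / q + 1)) ∂μ
        ≤ ∫⁻ y, ENNReal.ofReal (Real.exp (m * B)) *
          ENNReal.ofReal (‖F y‖ ^ 2 * Real.exp (-(m * ψ y))) ∂μ := by
          refine lintegral_mono fun y => ?_
          rw [← ENNReal.ofReal_mul (by positivity)]
          exact ENNReal.ofReal_le_ofReal (integrand_le hB hq m F y)
      _ = ENNReal.ofReal (Real.exp (m * B)) *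
          ∫⁻ y, ENNReal.ofReal (‖F y‖ ^ 2 * Real.exp (-(m * ψ y))) ∂μ :=
          lintegral_const_mul' _ _ ENNReal.ofReal_ne_top
      _ < ⊤ := ENNReal.mul_lt_top ENNReal.ofReal_lt_top hF2
  have hWf : ∀ m : ℕ, FiniteDimensional ℂ
      (W μ (fun y => m * ψ y) ((Sm.const (m : ℝ)).mulR hψ).continuous.measurable) := fun m =>
    Submodule.finiteDimensional_of_le (hWV m)
  have hlt : (a : ℝ≥0∞) < ∫⁻ x, ENNReal.ofReal ((PL ψ x).det.re) ∂μ :=
    ha.trans_le (lintegral_mono fun y => ENNReal.ofReal_le_ofReal (hmc y).2)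
  have hfin := hpk (X.B →ₐ[ℂ] ℂ) μ hμ ρ hρ hρc hρL ψ hψ hWf (fun x => (hmc x).1) a hlt
  filter_upwards [hfin] with m hm
  have h1 : Module.finrank ℂ
      (W μ (fun y => m * ψ y) ((Sm.const (m : ℝ)).mulR hψ).continuous.measurable) ≤
      Module.finrank ℂ (V m) := by
    have := hVf m
    exact Submodule.finrank_mono (hWV m)
  have h2 : ENNReal.ofReal (a / Cn * (m : ℝ) ^ n) < (Module.finrank ℂ
      (W μ (fun y => m * ψ y) ((Sm.const (m : ℝ)).mulR hψ).continuous.measurable) : ℝ≥0∞) := by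
    refine lt_of_eq_of_lt ?_ hm
    rw [show (a : ℝ≥0∞) = ENNReal.ofReal (a : ℝ) from (ENNReal.ofReal_coe_nnreal).symm,
      ← ENNReal.ofReal_mul (by positivity)]
    congr 1; ring
  have h3 : a / Cn * (m : ℝ) ^ n < (Module.finrank ℂ
      (W μ (fun y => m * ψ y) ((Sm.const (m : ℝ)).mulR hψ).continuous.measurable) : ℝ) := by
    rw [← ENNReal.ofReal_natCast] at h2
    exact (ENNReal.ofReal_lt_ofReal_iff_of_nonneg (by positivity)).1 h2
  exact h3.le.trans (by exact_mod_cast h1)

end Crest.Agent.R269.PAsm5_976
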