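import Crest.Agent.R271.Bd4_741
import Crest.Agent.R271.Jet_956
import Crest.Agent.R271.RExt2_747
import Crest.Agent.R271.Null_821
import Crest.Agent.R271.NonInt_821
import Crest.Agent.R269.Amp3_243
import Crest.Agent.R271.AlgA_255_Mg
import Crest.Agent.R269.DictG2_795
import Crest.Agent.R269.H0tw_795
import Crest.Agent.R269.DictF_795

-- ▼ part R269/Reg4_241
section

/-!
Row 269 (S0411), leaf D4/REG, part 4 (helper241): two étale charts `A` (coordinates `w`, point `y`)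
and `B` (coordinates `z`) with the same fraction field `K`.

* `exists_section` : the points of `B` over a punctured neighbourhood of `y` (adapted from
  `R271.Bd741.boundary_core`, helper741);
* `reg_core` : square integrable sections on `Hom(B,ℂ)` are regular at `y`;
* `reg_core_vanish` : with the extra weight `|w|^{-2(n+1)}` they vanish at `y`.
-/

set_option autoImplicit false

open scoped ENNReal NNReal Topology BigOperators
open MeasureTheory Set Metric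

noncomputable section

namespace Crest.Agent.R269.Reg4_241

open Crest.Agent.R271.Defs710 Crest.Agent.R271.Bd741

section

variable {n : ℕ} {K : Type} [Field K] [Algebra ℂ K]
    {B : Type} [CommRing B] [IsDomain B] [Algebra ℂ B]
    [Algebra B K] [IsScalarTower ℂ B K] [IsFractionRing B K]
    {A : Type} [CommRing A] [IsDomain A] [Algebra ℂ A]
    [Algebra A K] [IsScalarTower ℂ A K] [IsFractionRing A K]

/-- the point `p` of `B` is compatible with the point `s` of `A` -/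
def Compat (K : Type) [Field K] [Algebra B K] [Algebra A K] (p : B →ₐ[ℂ] ℂ) (s : A →ₐ[ℂ] ℂ) :
    Prop :=
  ∀ (b : B) (u v : A), algebraMap B K b * algebraMap A K v = algebraMap A K u → p b * s v = s u

/-- the section of points of `B` over a punctured neighbourhood of a point of `A` -/
theorem exists_section (hB : Algebra.FiniteType ℂ B)
    (z : Fin n → B) (w : Fin n → A)
    (hw : RingHom.Etale ((MvPolynomial.aeval w : MvPolynomial (Fin n) ℂ →ₐ[ℂ] A) :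
      MvPolynomial (Fin n) ℂ →+* A))
    (y : A →ₐ[ℂ] ℂ) (C : Chart w y)
    (b b' : Module.Basis (Fin n) K (Ω[K⁄ℂ]))
    (hb : ∀ j, b j = KaehlerDifferential.D ℂ K (algebraMap A K (w j)))
    (hb' : ∀ j, b' j = KaehlerDifferential.D ℂ K (algebraMap B K (z j)))
    (x0 : B →ₐ[ℂ] ℂ) :
    ∃ (Q : A) (s' : Cn n → (B →ₐ[ℂ] ℂ)) (ψ' : Cn n → (Cn n →L[ℂ] Cn n)), Q ≠ 0 ∧
      (∀ ζ ∈ ball (0 : Cn n) C.r, C.s ζ Q ≠ 0 → Compat K (s' ζ) (C.s ζ)) ∧
      (∀ ζ ∈ ball (0 : Cn n) C.r, C.s ζ Q ≠ 0 →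
        HasStrictFDerivAt (fun ζ i => s' ζ (z i)) (ψ' ζ) ζ) ∧
      (∀ ζ ∈ ball (0 : Cn n) C.r, C.s ζ Q ≠ 0 → (ψ' ζ).det ≠ 0) ∧
      (∀ ζ ∈ ball (0 : Cn n) C.r, C.s ζ Q ≠ 0 → ∀ u v : A,
        (b.toMatrix b').det * algebraMap A K v = algebraMap A K u →
          (ψ' ζ).det * C.s ζ v = C.s ζ u) ∧
      InjOn s' (ball (0 : Cn n) C.r ∩ {ζ | C.s ζ Q ≠ 0}) := by
  classical
  have hinjA : Function.Injective (algebraMap A K) := IsFractionRing.injective A K
  have hinjB : Function.Injective (algebraMap B K) := IsFractionRing.injective B K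
  have hAK0 : ∀ x : A, x ≠ 0 → algebraMap A K x ≠ 0 := fun x hx h =>
    hx (hinjA (by rw [h, map_zero]))
  obtain ⟨D, hD⟩ := exists_coord_deriv w hw
  obtain ⟨q, hq0, hq⟩ := exists_denom (A := A) (B := B) K hB
  -- `w` in terms of `B`
  obtain ⟨⟨b0, hb0⟩, hb0'⟩ := IsLocalization.exist_integer_multiples_of_finite (nonZeroDivisors B)
    (fun i => algebraMap A K (w i))
  have hb00 : b0 ≠ 0 := nonZeroDivisors.ne_zero hb0
  have hcw : ∀ i, ∃ cw : B, algebraMap B K cw = algebraMap B K b0 * algebraMap A K (w i) := by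
    intro i
    obtain ⟨cw, hcw⟩ := hb0' i
    refine ⟨cw, ?_⟩
    rw [hcw, Algebra.smul_def]
  choose cw hcw using hcw
  obtain ⟨M0, u0, hu0⟩ := hq b0
  have hb0K : algebraMap B K b0 ≠ 0 := fun h => hb00 (hinjB (by rw [h, map_zero]))
  have hu00 : u0 ≠ 0 := by
    rintro rfl
    rw [map_zero] at hu0
    exact (mul_ne_zero hb0K (pow_ne_zero _ (hAK0 q hq0))) hu0
  -- `z` in terms of `A`
  obtain ⟨⟨q2, hq2⟩, hq2'⟩ := IsLocalization.exist_integer_multiples_of_finite (nonZeroDivisors A)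
    (fun i => algebraMap B K (z i))
  have hq20 : q2 ≠ 0 := nonZeroDivisors.ne_zero hq2
  have hβ : ∀ i, ∃ β : A, algebraMap A K β = algebraMap A K q2 * algebraMap B K (z i) := by
    intro i
    obtain ⟨β, hβ⟩ := hq2' i
    refine ⟨β, ?_⟩
    rw [hβ, Algebra.smul_def]
  choose β hβ using hβ
  let Nm : Matrix (Fin n) (Fin n) A := Matrix.of fun j i => q2 * D j (β i) - β i * D j q2
  have hq2K : algebraMap A K q2 ≠ 0 := hAK0 q2 hq20
  have hb'sum : ∀ i, b' i = ∑ j, ((algebraMap A K q2 ^ 2)⁻¹ * algebraMap A K (Nm j i)) • b j := by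
    intro i
    have e1 := D_K (K := K) w hw D hD (β i)
    have e2 := D_K (K := K) w hw D hD q2
    rw [hβ i, Derivation.leibniz] at e1
    have e3 : (algebraMap A K q2) ^ 2 • b' i = ∑ j, (algebraMap A K (Nm j i)) • b j := by
      have e4 : (algebraMap A K q2) • KaehlerDifferential.D ℂ K (algebraMap B K (z i)) =
          ∑ j, algebraMap A K (D j (β i)) • KaehlerDifferential.D ℂ K (algebraMap A K (w j)) -
          algebraMap B K (z i) • KaehlerDifferential.D ℂ K (algebraMap A K q2) :=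
        eq_sub_of_add_eq e1
      rw [hb', pow_two, mul_smul, e4, e2, smul_sub, smul_smul, ← hβ i, Finset.smul_sum,
        Finset.smul_sum, ← Finset.sum_sub_distrib]
      refine Finset.sum_congr rfl fun j _ => ?_
      rw [smul_smul, smul_smul, ← sub_smul, ← map_mul, ← map_mul, ← map_sub, hb]
      rfl
    have e5 : b' i = ((algebraMap A K q2) ^ 2)⁻¹ • ((algebraMap A K q2) ^ 2 • b' i) := by
      rw [smul_smul, inv_mul_cancel₀ (pow_ne_zero _ hq2K), one_smul]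
    rw [e5, e3, Finset.smul_sum]
    refine Finset.sum_congr rfl fun j _ => ?_
    rw [smul_smul]
  have hmat : b.toMatrix b' = ((algebraMap A K q2 ^ 2)⁻¹ : K) • (Nm.map (algebraMap A K)) := by
    ext j i
    rw [Module.Basis.toMatrix_apply, hb'sum i, Module.Basis.repr_sum_self]
    rfl
  have hdetK : (b.toMatrix b').det * algebraMap A K (q2 ^ (2 * n)) = algebraMap A K Nm.det := by
    rw [hmat, Matrix.det_smul, Fintype.card_fin, RingHom.map_det, map_pow]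
    rw [show (algebraMap A K).mapMatrix Nm = Nm.map (algebraMap A K) from rfl]
    have : ((algebraMap A K q2 ^ 2)⁻¹ ^ n * (algebraMap A K q2) ^ (2 * n) : K) = 1 := by
      rw [pow_mul, ← mul_pow, inv_mul_cancel₀ (pow_ne_zero _ hq2K), one_pow]
    calc (algebraMap A K q2 ^ 2)⁻¹ ^ n * (Nm.map (algebraMap A K)).det *
          algebraMap A K q2 ^ (2 * n)
        = ((algebraMap A K q2 ^ 2)⁻¹ ^ n * (algebraMap A K q2) ^ (2 * n)) *
          (Nm.map (algebraMap A K)).det := by ring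
      _ = _ := by rw [this, one_mul]
  have hdet0 : (b.toMatrix b').det ≠ 0 := by
    intro h
    have h1 := congrArg Matrix.det (b.toMatrix_mul_toMatrix_flip b')
    rw [Matrix.det_mul, h, zero_mul, Matrix.det_one] at h1
    exact zero_ne_one h1
  have hNdet : Nm.det ≠ 0 := by
    intro h
    rw [h, map_zero] at hdetK
    have h1 : (b.toMatrix b').det = 0 :=
      (mul_eq_zero.1 hdetK).resolve_right (hAK0 _ (pow_ne_zero _ hq20))
    exact hdet0 h1
  -- the section of points of `B`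
  let s' : Cn n → (B →ₐ[ℂ] ℂ) := fun ζ =>
    if h : C.s ζ q ≠ 0 then (exists_pt hinjA q hq (C.s ζ) h).choose else x0
  have hs' : ∀ ζ, C.s ζ q ≠ 0 → ∀ (b : B) (u v : A),
      algebraMap B K b * algebraMap A K v = algebraMap A K u → s' ζ b * C.s ζ v = C.s ζ u := by
    intro ζ h
    simp only [s', dif_pos h]
    exact (exists_pt hinjA q hq (C.s ζ) h).choose_spec
  set Q : A := q * q2 * u0 * Nm.det with hQdef
  have hQ0 : Q ≠ 0 := mul_ne_zero (mul_ne_zero (mul_ne_zero hq0 hq20) hu00) hNdet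
  set Ω : Set (Cn n) := ball (0 : Cn n) C.r ∩ {ζ | C.s ζ Q ≠ 0} with hΩdef
  have hΩ : ∀ ζ ∈ Ω, C.s ζ q ≠ 0 ∧ C.s ζ q2 ≠ 0 ∧ C.s ζ u0 ≠ 0 ∧
      C.s ζ Nm.det ≠ 0 := by
    intro ζ hζ
    have h1 : C.s ζ Q ≠ 0 := hζ.2
    rw [hQdef, map_mul, map_mul, map_mul] at h1
    refine ⟨?_, ?_, ?_, ?_⟩ <;> (intro h; apply h1; rw [h]; ring)
  have hΩo : IsOpen Ω := by
    have hc : ContinuousOn (fun ζ => C.s ζ Q) (ball (0 : Cn n) C.r) := fun ζ hζ =>
      (C.anal Q ζ hζ).continuousAt.continuousWithinAt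
    have := hc.isOpen_inter_preimage isOpen_ball (t := {0}ᶜ) isOpen_compl_singleton
    exact this
  -- derivative
  let ψ : Cn n → Cn n := fun ζ i => C.s ζ (β i) / C.s ζ q2
  have hφψ : ∀ ζ ∈ Ω, (fun i => s' ζ (z i)) = ψ ζ := by
    intro ζ hζ
    obtain ⟨h2, h3, h4, h5⟩ := hΩ ζ hζ
    funext i
    have := hs' ζ h2 (z i) (β i) q2 (by rw [hβ i, mul_comm])
    simp only [ψ]
    rw [← this]; field_simp
  have hψan : ∀ ζ ∈ Ω, ∀ i, AnalyticAt ℂ (fun ζ => ψ ζ i) ζ := by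
    intro ζ hζ i
    exact (C.anal (β i) ζ hζ.1).div (C.anal q2 ζ hζ.1) (hΩ ζ hζ).2.1
  have hψan' : ∀ ζ ∈ Ω, AnalyticAt ℂ ψ ζ := fun ζ hζ =>
    analyticAt_pi_iff.2 (fun i => hψan ζ hζ i)
  have hφ : ∀ ζ ∈ Ω, HasStrictFDerivAt (fun ζ i => s' ζ (z i)) (fderiv ℂ ψ ζ) ζ := by
    intro ζ hζ
    refine (hψan' ζ hζ).hasStrictFDerivAt.congr_of_eventuallyEq ?_
    filter_upwards [hΩo.mem_nhds hζ] with ζ' hζ'
    exact (hφψ ζ' hζ').symm
  have hψd : ∀ ζ ∈ Ω, ∀ i j, fderiv ℂ ψ ζ (Pi.single j 1) i =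
      ((C.s ζ q2) ^ 2)⁻¹ * C.s ζ (Nm j i) := by
    intro ζ hζ i j
    have hq2ζ := (hΩ ζ hζ).2.1
    have e0 : fderiv ℂ ψ ζ (Pi.single j 1) i = fderiv ℂ (fun ζ => ψ ζ i) ζ (Pi.single j 1) := by
      have h1 : HasFDerivAt ψ (fderiv ℂ ψ ζ) ζ := (hψan' ζ hζ).differentiableAt.hasFDerivAt
      have h2 := (hasFDerivAt_pi'.1 h1) i
      rw [h2.fderiv]
      rfl
    have e1 := chart_deriv w hw D hD C ζ hζ.1 j (β i)
    have e2 := chart_deriv w hw D hD C ζ hζ.1 j q2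
    have e3 : (fun ζ' => C.s ζ' (β i)) =ᶠ[𝓝 ζ] fun ζ' => ψ ζ' i * C.s ζ' q2 := by
      filter_upwards [hΩo.mem_nhds hζ] with ζ' hζ'
      have := (hΩ ζ' hζ').2.1
      simp only [ψ]
      field_simp
    rw [e3.fderiv_eq, fderiv_fun_mul (hψan ζ hζ i).differentiableAt
      (C.anal q2 ζ hζ.1).differentiableAt] at e1
    simp only [_root_.add_apply, _root_.smul_apply, smul_eq_mul, e2] at e1
    rw [e0]
    have e4 : ψ ζ i * C.s ζ q2 = C.s ζ (β i) := by
      simp only [ψ]; field_simp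
    have e5 : C.s ζ (Nm j i) = C.s ζ q2 * C.s ζ (D j (β i)) - C.s ζ (β i) * C.s ζ (D j q2) := by
      simp only [Nm, Matrix.of_apply, map_sub, map_mul]
    rw [e5, ← e4, ← e1]
    field_simp
    ring
  have hdetψ : ∀ ζ ∈ Ω, (fderiv ℂ ψ ζ).det * (C.s ζ q2) ^ (2 * n) = C.s ζ Nm.det := by
    intro ζ hζ
    have hq2ζ := (hΩ ζ hζ).2.1
    have e1 : LinearMap.toMatrix' (fderiv ℂ ψ ζ : Cn n →ₗ[ℂ] Cn n) =
        ((C.s ζ q2) ^ 2)⁻¹ • ((C.s ζ : A →+* ℂ).mapMatrix Nm).transpose := by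
      ext i j
      rw [LinearMap.toMatrix'_apply]
      have := hψd ζ hζ i j
      simpa using this
    have e2 : (fderiv ℂ ψ ζ).det = (((C.s ζ q2) ^ 2)⁻¹) ^ n * C.s ζ Nm.det := by
      rw [ContinuousLinearMap.det, ← LinearMap.det_toMatrix', e1, Matrix.det_smul,
        Matrix.det_transpose, Fintype.card_fin, ← RingHom.map_det]
      rfl
    rw [e2, pow_mul]
    have : ((((C.s ζ q2) ^ 2)⁻¹) ^ n * ((C.s ζ q2) ^ 2) ^ n : ℂ) = 1 := by
      rw [← mul_pow, inv_mul_cancel₀ (pow_ne_zero _ hq2ζ), one_pow]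
    linear_combination (C.s ζ Nm.det) * this
  have hdetne : ∀ ζ ∈ Ω, (fderiv ℂ ψ ζ).det ≠ 0 := by
    intro ζ hζ h
    have := hdetψ ζ hζ
    rw [h, zero_mul] at this
    exact (hΩ ζ hζ).2.2.2 this.symm
  -- injectivity
  have hinj : InjOn s' Ω := by
    intro ζ hζ ζ' hζ' heq
    have key : ∀ ζ ∈ Ω, s' ζ b0 ≠ 0 ∧ ∀ i, s' ζ (cw i) = s' ζ b0 * C.s ζ (w i) := by
      intro ζ hζ
      obtain ⟨h2, h3, h4, h5⟩ := hΩ ζ hζ
      have e1 := hs' ζ h2 b0 u0 (q ^ M0) (by rw [map_pow]; exact hu0)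
      have hb : s' ζ b0 ≠ 0 := by
        intro h
        rw [h, zero_mul] at e1
        exact h4 e1.symm
      refine ⟨hb, fun i => ?_⟩
      have e2 := hs' ζ h2 (cw i) (u0 * w i) (q ^ M0) (by
        rw [hcw, map_pow, map_mul, ← hu0]; ring)
      rw [map_mul, ← e1, map_pow] at e2
      have hqp : (C.s ζ q) ^ M0 ≠ 0 := pow_ne_zero _ h2
      have : s' ζ (cw i) * (C.s ζ q) ^ M0 = (s' ζ b0 * C.s ζ (w i)) * (C.s ζ q) ^ M0 := by
        rw [e2]; ring
      exact mul_right_cancel₀ hqp this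
    obtain ⟨k1, k2⟩ := key ζ hζ
    obtain ⟨k1', k2'⟩ := key ζ' hζ'
    funext i
    have e1 := k2 i
    have e2 := k2' i
    rw [← heq, e1] at e2
    have e3 := mul_left_cancel₀ k1 e2
    rw [C.s_z ζ hζ.1 i, C.s_z ζ' hζ'.1 i] at e3
    exact add_left_cancel e3
  refine ⟨Q, s', fun ζ => fderiv ℂ ψ ζ, hQ0, fun ζ h1 h2 => hs' ζ (hΩ ζ ⟨h1, h2⟩).1,
    fun ζ h1 h2 => hφ ζ ⟨h1, h2⟩, fun ζ h1 h2 => hdetne ζ ⟨h1, h2⟩, ?_, hinj⟩
  intro ζ h1 h2 u v huv
  have h3 := hdetψ ζ ⟨h1, h2⟩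
  have h4 : Nm.det * v = u * q2 ^ (2 * n) := by
    apply hinjA
    rw [map_mul, map_mul, ← hdetK, ← huv]; ring
  have h5 := congrArg (C.s ζ) h4
  rw [map_mul, map_mul, ← h3, map_pow] at h5
  have hp : (C.s ζ q2) ^ (2 * n) ≠ 0 := pow_ne_zero _ (hΩ ζ ⟨h1, h2⟩).2.1
  apply mul_right_cancel₀ hp
  linear_combination h5

end

end Crest.Agent.R269.Reg4_241
end
end

-- ▼ part R269/Reg5_241
section

/-!
Row 269 (S0411), leaf D4/REG, part 5 (helper241): square integrable elements are regular.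

* `reg_core` : with `K = Frac A = Frac B`, `F : B`, a weight `W` on `Hom(B,ℂ)` with
  `W ≥ |U|² ω` at the points compatible with the `w`-chart of `A` at `y` (`U = uU/vU ∈ K`, `ω ≥ c > 0`):
  `∫ |F|² W < ∞` implies `F · U · det(∂z/∂w) ∈ A_y`, and the germ is square integrable for `ω`.
* `reg_core_vanish` : with `ω ≥ c ‖ζ‖^{-2n}` the value at `y` is `0`.
-/

set_option autoImplicit false

open scoped ENNReal NNReal Topology BigOperators
open MeasureTheory Set Metric Filter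

noncomputable section

namespace Crest.Agent.R269.Reg5_241

open Crest.Agent.R271.Defs710 Crest.Agent.R271.Bd741 Crest.Agent.R269.Reg4_241

/-- evaluations of a non-zero element do not vanish identically near any point of a chart -/
theorem not_ev_zero {n : ℕ} {A : Type} [CommRing A] [IsDomain A] [Algebra ℂ A]
    [IsNoetherianRing A] {w : Fin n → A}
    (hw : RingHom.Etale ((MvPolynomial.aeval w : MvPolynomial (Fin n) ℂ →ₐ[ℂ] A) :
      MvPolynomial (Fin n) ℂ →+* A)) {y : A →ₐ[ℂ] ℂ} (C : Chart w y) {d : A} (hd : d ≠ 0)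
    {a : Cn n} (ha : a ∈ ball (0 : Cn n) C.r) : ¬ ∀ᶠ ζ in 𝓝 a, C.s ζ d = 0 := by
  intro h
  apply hd
  refine Crest.Agent.R271.Ord969.eq_zero_of_eventually C
    (Crest.Agent.R271.Ord969.mI_le_of_unramified w y hw) ?_
  have h1 : EqOn (fun ζ => C.s ζ d) 0 (ball (0 : Cn n) C.r) := by
    refine (C.anal d).eqOn_zero_of_preconnected_of_eventuallyEq_zero
      (convex_ball (0 : Cn n) C.r).isPreconnected ha ?_
    exact h
  filter_upwards [ball_mem_nhds (0 : Cn n) C.r_pos] with ζ hζ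
  exact h1 hζ

/-- a continuous function vanishing off the zeros of `d ≠ 0` vanishes near `0` -/
theorem ev_zero_of_off {n : ℕ} {A : Type} [CommRing A] [IsDomain A] [Algebra ℂ A]
    [IsNoetherianRing A] {w : Fin n → A}
    (hw : RingHom.Etale ((MvPolynomial.aeval w : MvPolynomial (Fin n) ℂ →ₐ[ℂ] A) :
      MvPolynomial (Fin n) ℂ →+* A)) {y : A →ₐ[ℂ] ℂ} (C : Chart w y) {d : A} (hd : d ≠ 0)
    {ε : ℝ} (hε : ε ≤ C.r) {E : Cn n → ℂ} (hE : ContinuousOn E (ball (0 : Cn n) ε))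
    (h0 : ∀ ζ ∈ ball (0 : Cn n) ε, C.s ζ d ≠ 0 → E ζ = 0) :
    ∀ ζ ∈ ball (0 : Cn n) ε, E ζ = 0 := by
  intro a ha
  have h1 : ∃ᶠ ζ in 𝓝 a, C.s ζ d ≠ 0 := by
    intro h
    exact not_ev_zero hw C hd (ball_subset_ball hε ha) (by simpa using h)
  by_contra hne
  have h2 : ContinuousAt E a := hE.continuousAt (isOpen_ball.mem_nhds ha)
  have h3 := h2.eventually_ne hne
  obtain ⟨ζ, h4, h5, h6⟩ := (h1.and_eventually (h3.and (isOpen_ball.mem_nhds ha))).exists
  exact h5 (h0 ζ h6 h4)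

variable {n : ℕ} {K : Type} [Field K] [Algebra ℂ K]
    {B : Type} [CommRing B] [IsDomain B] [Algebra ℂ B]
    [Algebra B K] [IsScalarTower ℂ B K] [IsFractionRing B K]
    {A : Type} [CommRing A] [IsDomain A] [Algebra ℂ A]
    [Algebra A K] [IsScalarTower ℂ A K] [IsFractionRing A K]

/-- **Core regularity theorem.** -/
theorem reg_core (hB : Algebra.FiniteType ℂ B) (hA : Algebra.FiniteType ℂ A)
    (z : Fin n → B) (w : Fin n → A)
    (hw : RingHom.Etale ((MvPolynomial.aeval w : MvPolynomial (Fin n) ℂ →ₐ[ℂ] A) :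
      MvPolynomial (Fin n) ℂ →+* A))
    (y : A →ₐ[ℂ] ℂ) (C : Chart w y)
    (b b' : Module.Basis (Fin n) K (Ω[K⁄ℂ]))
    (hb : ∀ j, b j = KaehlerDifferential.D ℂ K (algebraMap A K (w j)))
    (hb' : ∀ j, b' j = KaehlerDifferential.D ℂ K (algebraMap B K (z j)))
    (x0 : B →ₐ[ℂ] ℂ) (F : B) (uU vU q' : A) (hvU : vU ≠ 0) (hq' : q' ≠ 0)
    (W : (B →ₐ[ℂ] ℂ) → ℝ≥0∞) (ω : Cn n → ℝ≥0∞) (ε : ℝ) (hε : 0 < ε) (hεr : ε ≤ C.r)
    (c : ℝ≥0∞) (hc : c ≠ 0) (hω : ∀ ζ ∈ ball (0 : Cn n) ε, C.s ζ q' ≠ 0 → c ≤ ω ζ)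
    (hW : ∀ ζ ∈ ball (0 : Cn n) ε, C.s ζ q' ≠ 0 → ∀ p : B →ₐ[ℂ] ℂ, Compat K p (C.s ζ) →
      ENNReal.ofReal ((‖C.s ζ uU‖ / ‖C.s ζ vU‖) ^ 2) * ω ζ ≤ W p)
    (hfin : lintM z (fun p => ENNReal.ofReal (‖p F‖ ^ 2) * W p) < ∞) :
    ∃ (g : Cn n → ℂ) (a s d : A), DifferentiableOn ℂ g (ball 0 ε) ∧ d ≠ 0 ∧
      (∀ ζ, C.s ζ d ≠ 0 → C.s ζ q' ≠ 0) ∧ y s ≠ 0 ∧
      algebraMap B K F * (algebraMap A K uU / algebraMap A K vU) * (b.toMatrix b').det *
        algebraMap A K s = algebraMap A K a ∧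
      (∀ ζ ∈ ball (0 : Cn n) ε, g ζ * C.s ζ s = C.s ζ a) ∧
      ∫⁻ ζ in ball (0 : Cn n) ε ∩ {ζ | C.s ζ d ≠ 0}, ENNReal.ofReal (‖g ζ‖ ^ 2) * ω ζ < ∞ := by
  classical
  have hinjA : Function.Injective (algebraMap A K) := IsFractionRing.injective A K
  have hAK0 : ∀ x : A, x ≠ 0 → algebraMap A K x ≠ 0 := fun x hx h =>
    hx (hinjA (by rw [h, map_zero]))
  have hNA : IsNoetherianRing A := by
    have := hA
    exact Algebra.FiniteType.isNoetherianRing ℂ A
  obtain ⟨Q, s', ψ', hQ, hcomp, hder, hdetne, hdet, hinj⟩ :=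
    exists_section (K := K) hB z w hw y C b b' hb hb' x0
  obtain ⟨uF, vF, hvF, hF⟩ := IsFractionRing.div_surjective (A := A) (algebraMap B K F)
  obtain ⟨uJ, vJ, hvJ, hJ⟩ := IsFractionRing.div_surjective (A := A) (b.toMatrix b').det
  have hvF0 : vF ≠ 0 := nonZeroDivisors.ne_zero hvF
  have hvJ0 : vJ ≠ 0 := nonZeroDivisors.ne_zero hvJ
  have hvFK := hAK0 vF hvF0
  have hvJK := hAK0 vJ hvJ0
  have hvUK := hAK0 vU hvU
  set g0 : A := uF * uU * uJ with hg0
  set h0 : A := vF * vU * vJ with hh0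
  have hh00 : h0 ≠ 0 := mul_ne_zero (mul_ne_zero hvF0 hvU) hvJ0
  set d : A := Q * q' * h0 with hd
  have hd0 : d ≠ 0 := mul_ne_zero (mul_ne_zero hQ hq') hh00
  have hsplit : ∀ ζ, C.s ζ d ≠ 0 → C.s ζ Q ≠ 0 ∧ C.s ζ q' ≠ 0 ∧ C.s ζ h0 ≠ 0 ∧ C.s ζ vF ≠ 0 ∧
      C.s ζ vU ≠ 0 ∧ C.s ζ vJ ≠ 0 := by
    intro ζ h
    rw [hd, hh0, map_mul, map_mul, map_mul, map_mul] at h
    refine ⟨?_, ?_, ?_, ?_, ?_, ?_⟩
    · intro h'; apply h; rw [h']; ring
    · intro h'; apply h; rw [h']; ring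
    · intro h'
      rw [hh0, map_mul, map_mul] at h'
      apply h; rw [h']; ring
    · intro h'; apply h; rw [h']; ring
    · intro h'; apply h; rw [h']; ring
    · intro h'; apply h; rw [h']; ring
  set f : Cn n → ℂ := fun ζ => C.s ζ g0 / C.s ζ h0 with hf
  have hU : IsOpen (ball (0 : Cn n) ε) := isOpen_ball
  have hsub : ball (0 : Cn n) ε ⊆ ball 0 C.r := ball_subset_ball hεr
  have hanal : ∀ x : A, AnalyticOnNhd ℂ (fun ζ => C.s ζ x) (ball (0 : Cn n) ε) := fun x ζ hζ =>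
    C.anal x ζ (hsub hζ)
  set Ω : Set (Cn n) := ball (0 : Cn n) ε ∩ {ζ | C.s ζ d ≠ 0} with hΩdef
  have hΩo : IsOpen Ω := by
    have hc : ContinuousOn (fun ζ => C.s ζ d) (ball (0 : Cn n) ε) := (hanal d).continuousOn
    exact hc.isOpen_inter_preimage isOpen_ball (t := {0}ᶜ) isOpen_compl_singleton
  -- pointwise identity
  have hpt : ∀ ζ ∈ Ω, f ζ = s' ζ F * (C.s ζ uU / C.s ζ vU) * (ψ' ζ).det := by
    intro ζ hζ
    obtain ⟨h1, h2, h3, h4, h5, h6⟩ := hsplit ζ hζ.2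
    have e1 := hcomp ζ (hsub hζ.1) h1 F uF vF (by
      rw [← hF]; field_simp)
    have e2 := hdet ζ (hsub hζ.1) h1 uJ vJ (by
      rw [← hJ]; field_simp)
    simp only [hf, hg0, hh0, map_mul]
    rw [← e1, ← e2]
    field_simp
  have hfinΩ : ∫⁻ ζ in Ω, ENNReal.ofReal (‖f ζ‖ ^ 2) * ω ζ < ∞ := by
    have hsubΩ : Ω ⊆ ball (0 : Cn n) C.r ∩ {ζ | C.s ζ Q ≠ 0} := fun ζ hζ =>
      ⟨hsub hζ.1, (hsplit ζ hζ.2).1⟩
    have h1 := lintM_ge z Ω hΩo s' (hinj.mono hsubΩ) ψ'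
      (fun ζ hζ => hder ζ (hsub hζ.1) (hsplit ζ hζ.2).1)
      (fun ζ hζ => hdetne ζ (hsub hζ.1) (hsplit ζ hζ.2).1)
      (fun p => ENNReal.ofReal (‖p F‖ ^ 2) * W p)
    refine lt_of_le_of_lt (le_trans ?_ h1) hfin
    refine setLIntegral_mono' hΩo.measurableSet fun ζ hζ => ?_
    obtain ⟨h1, h2, h3, h4, h5, h6⟩ := hsplit ζ hζ.2
    rw [hpt ζ hζ, norm_mul, norm_mul, norm_div, mul_pow, mul_pow,
      ENNReal.ofReal_mul (by positivity), ENNReal.ofReal_mul (by positivity)]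
    have h7 := hW ζ hζ.1 h2 (s' ζ) (hcomp ζ (hsub hζ.1) h1)
    calc ENNReal.ofReal (‖s' ζ F‖ ^ 2) * ENNReal.ofReal ((‖C.s ζ uU‖ / ‖C.s ζ vU‖) ^ 2) *
          ENNReal.ofReal (‖(ψ' ζ).det‖ ^ 2) * ω ζ
        = ENNReal.ofReal (‖s' ζ F‖ ^ 2) *
          (ENNReal.ofReal ((‖C.s ζ uU‖ / ‖C.s ζ vU‖) ^ 2) * ω ζ) *
          ENNReal.ofReal (‖(ψ' ζ).det‖ ^ 2) := by ring
      _ ≤ _ := by gcongr
  -- extension
  obtain ⟨g, hg, hgf⟩ := Crest.Agent.R271.RExt747.riemann_ext (f := f) (D := fun ζ => C.s ζ d) hU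
    (hanal d) (fun a ha => not_ev_zero hw C hd0 (hsub ha))
    (by
      intro ζ hζ
      have e1 : DifferentiableAt ℂ f ζ := by
        simp only [hf]
        exact ((hanal g0 ζ hζ.1).div (hanal h0 ζ hζ.1) (hsplit ζ hζ.2).2.2.1).differentiableAt
      exact e1.differentiableWithinAt)
    (by
      intro a ha
      refine ⟨ball 0 ε, hU.mem_nhds ha, ?_⟩
      have h1 : ∫⁻ ζ in Ω, c * ‖f ζ‖ₑ ^ 2 < ∞ := by
        refine lt_of_le_of_lt (setLIntegral_mono' hΩo.measurableSet fun ζ hζ => ?_) hfinΩ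
        rw [mul_comm]
        refine mul_le_mul' ?_ (hω ζ hζ.1 (hsplit ζ hζ.2).2.1)
        rw [ENNReal.ofReal_pow (norm_nonneg _), ofReal_norm]
      by_cases hct : c = ∞
      · have h2 : ∫⁻ ζ in Ω, ‖f ζ‖ₑ ^ 2 ≤ ∫⁻ ζ in Ω, c * ‖f ζ‖ₑ ^ 2 := by
          refine lintegral_mono fun ζ => ?_
          rw [hct]
          calc ‖f ζ‖ₑ ^ 2 = 1 * ‖f ζ‖ₑ ^ 2 := (one_mul _).symm
            _ ≤ ∞ * ‖f ζ‖ₑ ^ 2 := by gcongr; exact le_top
        exact lt_of_le_of_lt h2 h1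
      · rw [lintegral_const_mul' _ _ hct] at h1
        by_contra hcon
        rw [not_lt, top_le_iff] at hcon
        rw [hcon, ENNReal.mul_top hc] at h1
        exact lt_irrefl _ h1)
  -- the algebraic relation
  have hgan : AnalyticAt ℂ g 0 :=
    Crest.Agent.R266.SCV.analyticOnNhd_of_differentiableOn hU hg 0 (mem_ball_self hε)
  have hrel : ∀ ζ ∈ ball (0 : Cn n) ε, g ζ * C.s ζ h0 - C.s ζ g0 = 0 := by
    refine ev_zero_of_off hw C hd0 hεr ?_ ?_
    · exact (hg.continuousOn.mul (hanal h0).continuousOn).sub (hanal g0).continuousOn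
    · intro ζ hζ hζd
      rw [hgf ζ hζ hζd]
      simp only [hf]
      rw [div_mul_cancel₀ _ (hsplit ζ hζd).2.2.1, sub_self]
  obtain ⟨s, hs, hmem⟩ := Crest.Agent.R271.Jet956.local_div hw C h0 g0 g hgan (by
    filter_upwards [ball_mem_nhds (0 : Cn n) hε] with ζ hζ
    exact sub_eq_zero.1 (hrel ζ hζ))
  obtain ⟨a, ha⟩ := Ideal.mem_span_singleton'.1 hmem
  refine ⟨g, a, s, d, hg, hd0, fun ζ h => (hsplit ζ h).2.1, hs, ?_, ?_, ?_⟩
  · have e1 := congrArg (algebraMap A K) ha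
    rw [map_mul _ a h0, map_mul _ s g0] at e1
    have hh0K := hAK0 h0 hh00
    apply mul_right_cancel₀ hh0K
    rw [show algebraMap A K a * algebraMap A K h0 = algebraMap A K s * algebraMap A K g0 from e1,
      ← hF, ← hJ, hg0, hh0]
    simp only [map_mul]
    field_simp
  · have h1 : ∀ ζ ∈ ball (0 : Cn n) ε, g ζ * C.s ζ s - C.s ζ a = 0 := by
      refine ev_zero_of_off hw C hd0 hεr ?_ ?_
      · exact (hg.continuousOn.mul (hanal s).continuousOn).sub (hanal a).continuousOn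
      · intro ζ hζ hζd
        have e1 := congrArg (C.s ζ) ha
        rw [map_mul _ a h0, map_mul _ s g0] at e1
        have e2 := sub_eq_zero.1 (hrel ζ hζ)
        have h3 := (hsplit ζ hζd).2.2.1
        rw [sub_eq_zero]
        apply mul_right_cancel₀ h3
        rw [e1, ← e2]; ring
    intro ζ hζ
    exact sub_eq_zero.1 (h1 ζ hζ)
  · refine lt_of_le_of_lt (le_of_eq ?_) hfinΩ
    refine setLIntegral_congr_fun hΩo.measurableSet fun ζ hζ => ?_
    rw [hgf ζ hζ.1 hζ.2]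

/-- a square integrable germ for a non-integrable weight vanishes -/
theorem zero_of_lint (hn : 1 ≤ n) (hA : Algebra.FiniteType ℂ A) {w : Fin n → A}
    (hw : RingHom.Etale ((MvPolynomial.aeval w : MvPolynomial (Fin n) ℂ →ₐ[ℂ] A) :
      MvPolynomial (Fin n) ℂ →+* A))
    {y : A →ₐ[ℂ] ℂ} (C : Chart w y) {g : Cn n → ℂ} {ε : ℝ} (hε : 0 < ε) (hεr : ε ≤ C.r)
    (hg : ContinuousOn g (ball 0 ε)) {d : A} (hd : d ≠ 0) {ω : Cn n → ℝ≥0∞} {c : ℝ≥0∞}
    (hc : c ≠ 0) {a : ℝ} (ha : 2 * (n : ℝ) ≤ a)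
    (hω : ∀ ζ ∈ ball (0 : Cn n) ε, C.s ζ d ≠ 0 → c * (ENNReal.ofReal ‖ζ‖) ^ (-a) ≤ ω ζ)
    (hfin : ∫⁻ ζ in ball (0 : Cn n) ε ∩ {ζ | C.s ζ d ≠ 0},
      ENNReal.ofReal (‖g ζ‖ ^ 2) * ω ζ < ∞) : g 0 = 0 := by
  by_contra hne
  have hNA : IsNoetherianRing A := by
    have := hA
    exact Algebra.FiniteType.isNoetherianRing ℂ A
  have hg0 : ContinuousAt g 0 := hg.continuousAt (ball_mem_nhds _ hε)
  set t : ℝ := ‖g 0‖ / 2 with ht
  have ht0 : 0 < t := by positivity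
  have h1 : ∀ᶠ ζ in 𝓝 (0 : Cn n), t < ‖g ζ‖ := by
    have h2 : t < ‖g 0‖ := by rw [ht]; linarith [norm_pos_iff.2 hne]
    exact hg0.norm.eventually_const_lt h2
  obtain ⟨δ, hδ, hδ'⟩ := Metric.eventually_nhds_iff_ball.1 h1
  set δ' := min δ ε with hδ'def
  have hδ'0 : 0 < δ' := lt_min hδ hε
  have hsub : ball (0 : Cn n) δ' ⊆ ball 0 ε := ball_subset_ball (min_le_right _ _)
  have hanal : AnalyticOnNhd ℂ (fun ζ => C.s ζ d) (ball (0 : Cn n) δ') := fun ζ hζ =>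
    C.anal d ζ (ball_subset_ball hεr (hsub hζ))
  have hz1 : ∃ z₁ ∈ ball (0 : Cn n) δ', C.s z₁ d ≠ 0 := by
    by_contra hcon
    push Not at hcon
    exact not_ev_zero hw C hd (mem_ball_self C.r_pos)
      (by filter_upwards [ball_mem_nhds (0 : Cn n) hδ'0] with ζ hζ; exact hcon ζ hζ)
  obtain ⟨z₁, hz₁, hz₁'⟩ := hz1
  have hnull : volume {ζ ∈ ball (0 : Cn n) δ' | C.s ζ d = 0} = 0 :=
    Crest.Agent.R271.Local821.null_zero_ball volume hanal hz₁ hz₁'
  have hkey : ¬ LInt (fun ζ : Cn n => (ENNReal.ofReal ‖ζ‖) ^ (-a)) 0 :=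
    Crest.Agent.R271.Local821.not_LInt_norm hn ha
  apply hkey
  refine ⟨ball 0 δ', ball_mem_nhds _ hδ'0, ?_⟩
  set S : Set (Cn n) := ball (0 : Cn n) δ' ∩ {ζ | C.s ζ d ≠ 0} with hS
  have hSo : IsOpen S :=
    hanal.continuousOn.isOpen_inter_preimage isOpen_ball (t := {0}ᶜ) isOpen_compl_singleton
  have h3 : ∫⁻ ζ in ball (0 : Cn n) δ', (ENNReal.ofReal ‖ζ‖) ^ (-a) =
      ∫⁻ ζ in S, (ENNReal.ofReal ‖ζ‖) ^ (-a) := by
    refine setLIntegral_congr ?_
    refine (ae_eq_of_subset_of_measure_ge inter_subset_left ?_ hSo.nullMeasurableSet ?_).symm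
    · have h4 : ball (0 : Cn n) δ' ⊆ S ∪ {ζ ∈ ball (0 : Cn n) δ' | C.s ζ d = 0} := by
        intro ζ hζ
        by_cases h : C.s ζ d = 0
        · exact Or.inr ⟨hζ, h⟩
        · exact Or.inl ⟨hζ, h⟩
      calc volume (ball (0 : Cn n) δ') ≤ volume (S ∪ {ζ ∈ ball (0 : Cn n) δ' | C.s ζ d = 0}) :=
            measure_mono h4
        _ ≤ volume S + volume {ζ ∈ ball (0 : Cn n) δ' | C.s ζ d = 0} := measure_union_le _ _
        _ = volume S := by rw [hnull, add_zero]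
    · exact measure_ball_lt_top.ne
  rw [h3]
  have h5 : ∫⁻ ζ in S, (ENNReal.ofReal (t ^ 2) * c) * (ENNReal.ofReal ‖ζ‖) ^ (-a) < ∞ := by
    refine lt_of_le_of_lt ?_ hfin
    refine le_trans (setLIntegral_mono' hSo.measurableSet (g := fun ζ =>
      ENNReal.ofReal (‖g ζ‖ ^ 2) * ω ζ) fun ζ hζ => ?_) (lintegral_mono_set ?_)
    · rw [mul_assoc]
      refine mul_le_mul' ?_ (hω ζ (hsub hζ.1) hζ.2)
      apply ENNReal.ofReal_le_ofReal
      have := hδ' ζ (ball_subset_ball (min_le_left _ _) hζ.1)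
      gcongr
    · exact fun ζ hζ => ⟨hsub hζ.1, hζ.2⟩
  have hcc : ENNReal.ofReal (t ^ 2) * c ≠ 0 := by
    refine mul_ne_zero ?_ hc
    rw [Ne, ENNReal.ofReal_eq_zero, not_le]
    positivity
  by_contra hcon
  rw [not_lt, top_le_iff] at hcon
  by_cases hct : ENNReal.ofReal (t ^ 2) * c = ∞
  · have h6 : ∫⁻ ζ in S, (ENNReal.ofReal ‖ζ‖) ^ (-a) ≤
        ∫⁻ ζ in S, (ENNReal.ofReal (t ^ 2) * c) * (ENNReal.ofReal ‖ζ‖) ^ (-a) := by
      refine lintegral_mono fun ζ => ?_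
      rw [hct]
      calc (ENNReal.ofReal ‖ζ‖) ^ (-a) = 1 * (ENNReal.ofReal ‖ζ‖) ^ (-a) := (one_mul _).symm
        _ ≤ ∞ * (ENNReal.ofReal ‖ζ‖) ^ (-a) := by gcongr; exact le_top
    rw [hcon, top_le_iff] at h6
    rw [h6] at h5
    exact lt_irrefl _ h5
  · rw [lintegral_const_mul' _ _ hct, hcon, ENNReal.mul_top hcc] at h5
    exact lt_irrefl _ h5

end Crest.Agent.R269.Reg5_241
end
end

-- ▼ part R269/Reg6_241
section

/-!
Row 269 (S0411), leaf D4/REG, part 6 (helper241): change of étale chart of the Gram determinant weight.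

* `loc K s` : the local ring in `K` of the point `s` of `A` (`K = Frac A`), `lv s` its evaluation;
* `wt_compat` : for two charts `X`, `Y` of the same variety with common function field `K` and
  compatible points `p` of `X.B`, `s` of `Y.B`: `wt X p = |J(s)|² wt Y s`,
  `ns X p = |μ(s)|⁻² ns Y s`, `J = det (∂z_X/∂z_Y)`, `μ = x_{iX}/x_{iY}`.
-/

set_option autoImplicit false
set_option linter.unusedSectionVars false
set_option linter.style.haveILetI false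

open scoped ENNReal NNReal Topology BigOperators
open MeasureTheory Set Metric Filter

noncomputable section

namespace Crest.Agent.R269.Reg6_241

open Crest.AlgGeometry.ProjEmb
open Crest.Agent.R271.Defs710 Crest.Agent.R271.Bd741 Crest.Agent.R269.Reg4_241
open Crest.Agent.R269.Amp1_243 Crest.Agent.R269.Amp3_243 Crest.Agent.R269.Geo_328

/-! ### The local ring of a point inside the fraction field -/

section loc

variable (K : Type) [Field K] [Algebra ℂ K] {A : Type} [CommRing A] [IsDomain A] [Algebra ℂ A]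
  [Algebra A K] [IsScalarTower ℂ A K] [IsFractionRing A K]

/-- the local ring of the point `s` in `K` -/
def loc (s : A →ₐ[ℂ] ℂ) : Subalgebra ℂ K where
  carrier := {k | ∃ u v : A, s v ≠ 0 ∧ k * algebraMap A K v = algebraMap A K u}
  mul_mem' := by
    rintro a b ⟨u, v, hv, h⟩ ⟨u', v', hv', h'⟩
    refine ⟨u * u', v * v', ?_, ?_⟩
    · rw [map_mul]; exact mul_ne_zero hv hv'
    · rw [map_mul, map_mul, ← h, ← h']; ring
  add_mem' := by
    rintro a b ⟨u, v, hv, h⟩ ⟨u', v', hv', h'⟩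
    refine ⟨u * v' + u' * v, v * v', ?_, ?_⟩
    · rw [map_mul]; exact mul_ne_zero hv hv'
    · rw [map_mul, map_add, map_mul, map_mul, ← h, ← h']; ring
  algebraMap_mem' c := by
    refine ⟨algebraMap ℂ A c, 1, by simp, ?_⟩
    rw [map_one, mul_one, ← IsScalarTower.algebraMap_apply]

variable {K}


lemma alg_mem_loc (s : A →ₐ[ℂ] ℂ) (a : A) : algebraMap A K a ∈ loc K s :=
  ⟨a, 1, by simp, by rw [map_one, mul_one]⟩

lemma lv_aux {s : A →ₐ[ℂ] ℂ} {k : K} {u v u' v' : A}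
    (h : k * algebraMap A K v = algebraMap A K u)
    (h' : k * algebraMap A K v' = algebraMap A K u') : s u * s v' = s u' * s v := by
  have h1 : u * v' = u' * v := by
    apply IsFractionRing.injective A K
    rw [map_mul, map_mul, ← h, ← h']; ring
  rw [← map_mul, h1, map_mul]

/-- value of an element of the local ring -/
def lvFun (s : A →ₐ[ℂ] ℂ) (k : loc K s) : ℂ := s k.2.choose / s k.2.choose_spec.choose

lemma lvFun_spec (s : A →ₐ[ℂ] ℂ) (k : loc K s) {u v : A}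
    (h : (k : K) * algebraMap A K v = algebraMap A K u) : lvFun s k * s v = s u := by
  unfold lvFun
  obtain ⟨h1, h2⟩ := k.2.choose_spec.choose_spec
  have h3 := lv_aux (s := s) h2 h
  rw [div_mul_eq_mul_div, div_eq_iff h1]
  exact h3

lemma lvFun_unique (s : A →ₐ[ℂ] ℂ) (k : loc K s) {u v : A} (hv : s v ≠ 0)
    (h : (k : K) * algebraMap A K v = algebraMap A K u) {x : ℂ} (hx : x * s v = s u) :
    x = lvFun s k := by
  have h1 := lvFun_spec s k h
  rw [← hx] at h1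
  exact (mul_right_cancel₀ hv h1).symm

/-- evaluation on the local ring -/
def lv (s : A →ₐ[ℂ] ℂ) : loc K s →ₐ[ℂ] ℂ where
  toFun := lvFun s
  map_one' := by
    refine (lvFun_unique s 1 (u := 1) (v := 1) (by simp) (by simp) (by simp)).symm
  map_zero' := by
    refine (lvFun_unique s 0 (u := 0) (v := 1) (by simp) (by simp) (by simp)).symm
  map_mul' a b := by
    obtain ⟨u, v, hv, h⟩ := a.2
    obtain ⟨u', v', hv', h'⟩ := b.2
    refine (lvFun_unique s (a * b) (u := u * u') (v := v * v') ?_ ?_ ?_).symm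
    · rw [map_mul]; exact mul_ne_zero hv hv'
    · rw [map_mul, map_mul, ← h, ← h']; push_cast; ring
    · rw [map_mul, map_mul, ← lvFun_spec s a h, ← lvFun_spec s b h']; ring
  map_add' a b := by
    obtain ⟨u, v, hv, h⟩ := a.2
    obtain ⟨u', v', hv', h'⟩ := b.2
    refine (lvFun_unique s (a + b) (u := u * v' + u' * v) (v := v * v') ?_ ?_ ?_).symm
    · rw [map_mul]; exact mul_ne_zero hv hv'
    · rw [map_mul, map_add, map_mul, map_mul, ← h, ← h']; push_cast; ring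
    · rw [map_mul, map_add, map_mul, map_mul, ← lvFun_spec s a h, ← lvFun_spec s b h']; ring
  commutes' c := by
    refine (lvFun_unique s _ (u := algebraMap ℂ A c) (v := 1) (by simp) ?_ ?_).symm
    · rw [map_one, mul_one, ← IsScalarTower.algebraMap_apply]; rfl
    · simp

lemma lv_spec (s : A →ₐ[ℂ] ℂ) (k : loc K s) {u v : A}
    (h : (k : K) * algebraMap A K v = algebraMap A K u) : lv s k * s v = s u := lvFun_spec s k h

lemma lv_alg (s : A →ₐ[ℂ] ℂ) (a : A) : lv s (⟨algebraMap A K a, alg_mem_loc s a⟩ : loc K s) = s a := by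
  have := lv_spec s (⟨algebraMap A K a, alg_mem_loc s a⟩ : loc K s) (u := a) (v := 1)
    (by rw [map_one, mul_one])
  rw [map_one, mul_one] at this
  exact this

variable {B : Type} [CommRing B] [Algebra ℂ B] [Algebra B K] [IsScalarTower ℂ B K]

lemma lv_compat {p : B →ₐ[ℂ] ℂ} {s : A →ₐ[ℂ] ℂ} (hc : Compat K p s) {b : B}
    (hb : algebraMap B K b ∈ loc K s) : lv s (⟨algebraMap B K b, hb⟩ : loc K s) = p b := by
  obtain ⟨u, v, hv, h⟩ := hb
  have h1 := lv_spec s (⟨algebraMap B K b, ⟨u, v, hv, h⟩⟩ : loc K s) h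
  have h2 := hc b u v h
  rw [← h1] at h2
  exact (mul_right_cancel₀ hv h2).symm

/-- finitely many elements of `K` are in the local ring of a general point -/
lemma exists_loc {ι : Type} [Finite ι] (k : ι → K) :
    ∃ q' : A, q' ≠ 0 ∧ ∀ s : A →ₐ[ℂ] ℂ, s q' ≠ 0 → ∀ a, k a ∈ loc K s := by
  obtain ⟨⟨q2, hq2⟩, h⟩ := IsLocalization.exist_integer_multiples_of_finite (nonZeroDivisors A) k
  refine ⟨q2, nonZeroDivisors.ne_zero hq2, fun s hs a => ?_⟩
  obtain ⟨β, hβ⟩ := h a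
  refine ⟨β, q2, hs, ?_⟩
  rw [hβ, Algebra.smul_def]; exact mul_comm _ _


end loc

/-! ### Bases of the Kähler differentials -/

/-- étale coordinates on a domain give a basis of the Kähler differentials of the fraction field
(adapted from `R271.Bs960`, helper960) -/
theorem exists_basis {n : ℕ} {S K : Type} [CommRing S] [Algebra ℂ S] [Field K] [Algebra ℂ K]
    [Algebra S K] [IsScalarTower ℂ S K] [IsDomain S] [IsFractionRing S K] (w : Fin n → S)
    (h : RingHom.Etale ((MvPolynomial.aeval w : MvPolynomial (Fin n) ℂ →ₐ[ℂ] S) :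
      MvPolynomial (Fin n) ℂ →+* S)) :
    ∃ b : Module.Basis (Fin n) K (Ω[K⁄ℂ]),
      ∀ i, b i = KaehlerDifferential.D ℂ K (algebraMap S K (w i)) := by
  letI : Algebra (MvPolynomial (Fin n) ℂ) S :=
    ((MvPolynomial.aeval w : MvPolynomial (Fin n) ℂ →ₐ[ℂ] S) :
      MvPolynomial (Fin n) ℂ →+* S).toAlgebra
  have he : Algebra.Etale (MvPolynomial (Fin n) ℂ) S := h
  letI : Algebra (MvPolynomial (Fin n) ℂ) K :=
    ((MvPolynomial.aeval (fun i => algebraMap S K (w i)) : MvPolynomial (Fin n) ℂ →ₐ[ℂ] K) :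
      MvPolynomial (Fin n) ℂ →+* K).toAlgebra
  have : IsScalarTower (MvPolynomial (Fin n) ℂ) S K := IsScalarTower.of_algebraMap_eq' (by
    rw [RingHom.algebraMap_toAlgebra, RingHom.algebraMap_toAlgebra]
    apply MvPolynomial.ringHom_ext
    · intro r
      simp [← IsScalarTower.algebraMap_apply ℂ S K]
    · intro i
      simp)
  have h1 : Algebra.FormallyEtale S K :=
    Algebra.FormallyEtale.of_isLocalization (Rₘ := K) (nonZeroDivisors S)
  have h2 : Algebra.FormallyEtale (MvPolynomial (Fin n) ℂ) K :=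
    Algebra.FormallyEtale.comp (MvPolynomial (Fin n) ℂ) S K
  have : IsScalarTower ℂ (MvPolynomial (Fin n) ℂ) K :=
    IsScalarTower.of_algebraMap_eq fun r => by
      rw [RingHom.algebraMap_toAlgebra]
      simp
  let b0 := (KaehlerDifferential.mvPolynomialBasis ℂ (Fin n)).baseChange K
  refine ⟨b0.map (KaehlerDifferential.tensorKaehlerEquivOfFormallyEtale ℂ
    (MvPolynomial (Fin n) ℂ) K), fun i => ?_⟩
  rw [Module.Basis.map_apply, Module.Basis.baseChange_apply,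
    KaehlerDifferential.mvPolynomialBasis_apply,
    KaehlerDifferential.tensorKaehlerEquivOfFormallyEtale_apply,
    KaehlerDifferential.mapBaseChange_tmul]
  simp [RingHom.algebraMap_toAlgebra]

/-! ### Gram determinants -/

lemma gdet_mul {N n : ℕ} (M : Matrix (Fin (n + 1)) (Fin (n + 1)) ℂ)
    (A : Matrix (Fin (n + 1)) (Fin (N + 1)) ℂ) : gdet (M * A) = ‖M.det‖ ^ 2 * gdet A := by
  unfold gdet
  rw [Matrix.conjTranspose_mul, Matrix.mul_assoc, ← Matrix.mul_assoc A, ← Matrix.mul_assoc,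
    Matrix.det_mul, Matrix.det_mul, Matrix.det_conjTranspose]
  have h1 : M.det * (A * A.conjTranspose).det * star M.det =
      ((‖M.det‖ ^ 2 : ℝ) : ℂ) * (A * A.conjTranspose).det := by
    have h2 : M.det * star M.det = ((‖M.det‖ ^ 2 : ℝ) : ℂ) := by
      rw [Complex.star_def, Complex.mul_conj, Complex.normSq_eq_norm_sq]
    rw [← h2]; ring
  rw [h1, Complex.re_ofReal_mul]

/-- the block triangular matrix -/
def blk {n : ℕ} (l : ℂ) (μ : Fin n → ℂ) (T : Matrix (Fin n) (Fin n) ℂ) :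
    Matrix (Fin (n + 1)) (Fin (n + 1)) ℂ :=
  Matrix.of (Fin.cons (Fin.cons l fun _ => 0) fun k => Fin.cons (μ k) fun s => l * T k s)

lemma det_blk {n : ℕ} (l : ℂ) (μ : Fin n → ℂ) (T : Matrix (Fin n) (Fin n) ℂ) :
    (blk l μ T).det = l ^ (n + 1) * T.det := by
  rw [Matrix.det_succ_row_zero, Fin.sum_univ_succ]
  have h1 : ∀ i : Fin n, blk l μ T 0 i.succ = 0 := fun i => rfl
  simp only [h1, mul_zero, zero_mul, Finset.sum_const_zero, add_zero]
  have h2 : blk l μ T 0 0 = l := rfl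
  have h3 : (blk l μ T).submatrix Fin.succ (Fin.succAbove 0) = l • T := by
    ext k s
    simp [blk, Matrix.submatrix_apply]
  rw [h2, h3, Matrix.det_smul, Fintype.card_fin]
  simp
  ring

end Crest.Agent.R269.Reg6_241
end
end

-- ▼ part R269/Reg7_241
section

/-!
Row 269 (S0411), leaf D4/REG, part 7 (helper241): the weights of two charts at compatible points.
-/

set_option autoImplicit false
set_option linter.unusedSectionVars false

open scoped ENNReal NNReal Topology BigOperators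
open MeasureTheory Set Metric Filter

noncomputable section

namespace Crest.Agent.R269.Reg7_241

open Crest.AlgGeometry.ProjEmb
open Crest.Agent.R271.Defs710 Crest.Agent.R271.Bd741 Crest.Agent.R269.Reg4_241
open Crest.Agent.R269.Amp1_243 Crest.Agent.R269.Amp3_243 Crest.Agent.R269.Geo_328
open Crest.Agent.R269.Reg6_241

variable {N n : ℕ} {I : Ideal (HomCoordRing N)}

/-- `|dz|²_g` -/
def wt (X : XC I n) (y : X.B →ₐ[ℂ] ℂ) : ℝ := ns X y ^ (n + 1) / gr X y

lemma wt_pos (X : XC I n) (y : X.B →ₐ[ℂ] ℂ) : 0 < wt X y :=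
  div_pos (pow_pos (ns_pos y) _) (gr_pos y)

section K

variable (X Y : XC I n) {K : Type} [Field K] [Algebra ℂ K]
  [Algebra X.B K] [IsScalarTower ℂ X.B K] [IsFractionRing X.B K]
  [Algebra Y.B K] [IsScalarTower ℂ Y.B K] [IsFractionRing Y.B K]

/-- the derivative identity in `K` -/
theorem der_eq (b b' : Module.Basis (Fin n) K (Ω[K⁄ℂ]))
    (hb : ∀ j, b j = KaehlerDifferential.D ℂ K (algebraMap Y.B K (Y.z j)))
    (hb' : ∀ j, b' j = KaehlerDifferential.D ℂ K (algebraMap X.B K (X.z j)))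
    (lam : K) (hlam : ∀ l, algebraMap X.B K (X.x l) = lam * algebraMap Y.B K (Y.x l))
    (k : Fin n) (l : Fin (N + 1)) :
    algebraMap X.B K (X.der k (X.x l)) =
      (∑ s, (lam * b'.toMatrix b k s) * algebraMap Y.B K (Y.der s (Y.x l))) +
        b'.repr (KaehlerDifferential.D ℂ K lam) k * algebraMap Y.B K (Y.x l) := by
  have h1 := D_K (K := K) X.z X.etale X.der (fun i j => X.der_z i j) (X.x l)
  have h2 := D_K (K := K) Y.z Y.etale Y.der (fun i j => Y.der_z i j) (Y.x l)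
  have e1 : b'.repr (KaehlerDifferential.D ℂ K (algebraMap X.B K (X.x l))) k =
      algebraMap X.B K (X.der k (X.x l)) := by
    rw [h1]
    simp_rw [← hb']
    rw [Module.Basis.repr_sum_self]
  have e2 : KaehlerDifferential.D ℂ K (algebraMap Y.B K (Y.x l)) =
      ∑ s, algebraMap Y.B K (Y.der s (Y.x l)) • b s := by
    rw [h2]
    simp_rw [← hb]
  rw [← e1, hlam, Derivation.leibniz, e2, map_add, map_smul, map_smul, map_sum,
    Finsupp.add_apply, Finsupp.smul_apply, Finsupp.smul_apply, Finsupp.finsetSum_apply]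
  simp only [map_smul, Finsupp.smul_apply, smul_eq_mul, Finset.mul_sum]
  congr 1
  · refine Finset.sum_congr rfl fun s _ => ?_
    rw [Module.Basis.toMatrix_apply]; ring
  · ring

variable {X Y}

theorem pt_compat {p : X.B →ₐ[ℂ] ℂ} {s : Y.B →ₐ[ℂ] ℂ} (hc : Compat K p s)
    {lam : K} (hlam : ∀ l, algebraMap X.B K (X.x l) = lam * algebraMap Y.B K (Y.x l))
    (hl : lam ∈ loc K s) : pt X p = lv s (⟨lam, hl⟩ : loc K s) • pt Y s := by
  funext l
  obtain ⟨u, v, hv, h⟩ := hl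
  have h1 := lv_spec s (⟨lam, ⟨u, v, hv, h⟩⟩ : loc K s) h
  have h2 := hc (X.x l) (u * Y.x l) v (by
    rw [hlam, map_mul, ← h]; ring)
  rw [map_mul, ← h1] at h2
  rw [Pi.smul_apply, smul_eq_mul, pt_apply, pt_apply]
  apply mul_right_cancel₀ hv
  rw [h2]; ring

theorem frm_compat
    (b b' : Module.Basis (Fin n) K (Ω[K⁄ℂ]))
    (hb : ∀ j, b j = KaehlerDifferential.D ℂ K (algebraMap Y.B K (Y.z j)))
    (hb' : ∀ j, b' j = KaehlerDifferential.D ℂ K (algebraMap X.B K (X.z j)))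
    {p : X.B →ₐ[ℂ] ℂ} {s : Y.B →ₐ[ℂ] ℂ} (hc : Compat K p s)
    {lam : K} (hlam : ∀ l, algebraMap X.B K (X.x l) = lam * algebraMap Y.B K (Y.x l))
    (hl : lam ∈ loc K s) (hT : ∀ k j, b'.toMatrix b k j ∈ loc K s)
    (hμ : ∀ k, b'.repr (KaehlerDifferential.D ℂ K lam) k ∈ loc K s) :
    frm X p = blk (lv s (⟨lam, hl⟩ : loc K s))
      (fun k => lv s (⟨_, hμ k⟩ : loc K s))
      (Matrix.of fun k j => lv s (⟨_, hT k j⟩ : loc K s)) * frm Y s := by
  ext a l
  refine Fin.cases ?_ (fun k => ?_) a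
  · have h1 := congrFun (pt_compat hc hlam hl) l
    rw [Matrix.mul_apply, Fin.sum_univ_succ]
    simp only [blk, Matrix.of_apply, Fin.cons_zero, Fin.cons_succ, zero_mul,
      Finset.sum_const_zero, add_zero]
    rw [frm_zero, frm_zero, ← pt_apply, ← pt_apply, h1]
    rfl
  · have hmem : algebraMap X.B K (X.der k (X.x l)) ∈ loc K s := by
      rw [der_eq X Y b b' hb hb' lam hlam k l]
      refine add_mem (sum_mem fun j _ => ?_) ?_
      · exact mul_mem (mul_mem hl (hT k j)) (alg_mem_loc s _)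
      · exact mul_mem (hμ k) (alg_mem_loc s _)
    have h1 : (⟨algebraMap X.B K (X.der k (X.x l)), hmem⟩ : loc K s) =
        (∑ j, ((⟨lam, hl⟩ : loc K s) * ⟨_, hT k j⟩) *
          ⟨algebraMap Y.B K (Y.der j (Y.x l)), alg_mem_loc s _⟩) +
        (⟨_, hμ k⟩ : loc K s) * ⟨algebraMap Y.B K (Y.x l), alg_mem_loc s _⟩ := by
      apply Subtype.ext
      push_cast
      exact der_eq X Y b b' hb hb' lam hlam k l
    have h2 := congrArg (lv s) h1
    rw [lv_compat hc] at h2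
    rw [frm_succ, h2, map_add, map_sum, Matrix.mul_apply, Fin.sum_univ_succ]
    simp only [map_mul, lv_alg, blk, Matrix.of_apply, Fin.cons_zero, Fin.cons_succ]
    rw [add_comm]
    rfl

theorem ns_compat {p : X.B →ₐ[ℂ] ℂ} {s : Y.B →ₐ[ℂ] ℂ} (hc : Compat K p s)
    {lam : K} (hlam : ∀ l, algebraMap X.B K (X.x l) = lam * algebraMap Y.B K (Y.x l))
    (hl : lam ∈ loc K s) : ns X p = ‖lv s (⟨lam, hl⟩ : loc K s)‖ ^ 2 * ns Y s := by
  unfold ns
  rw [pt_compat hc hlam hl]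
  unfold Geo_328.nsq
  rw [Finset.mul_sum]
  refine Finset.sum_congr rfl fun l _ => ?_
  rw [Pi.smul_apply, smul_eq_mul, norm_mul, mul_pow]

theorem wt_compat
    (b b' : Module.Basis (Fin n) K (Ω[K⁄ℂ]))
    (hb : ∀ j, b j = KaehlerDifferential.D ℂ K (algebraMap Y.B K (Y.z j)))
    (hb' : ∀ j, b' j = KaehlerDifferential.D ℂ K (algebraMap X.B K (X.z j)))
    {p : X.B →ₐ[ℂ] ℂ} {s : Y.B →ₐ[ℂ] ℂ} (hc : Compat K p s)
    {lam : K} (hlam : ∀ l, algebraMap X.B K (X.x l) = lam * algebraMap Y.B K (Y.x l))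
    (hl : lam ∈ loc K s) (hl0 : lv s (⟨lam, hl⟩ : loc K s) ≠ 0)
    (hT : ∀ k j, b'.toMatrix b k j ∈ loc K s)
    (hμ : ∀ k, b'.repr (KaehlerDifferential.D ℂ K lam) k ∈ loc K s)
    (hJ : (b.toMatrix b').det ∈ loc K s) :
    wt X p = ‖lv s (⟨(b.toMatrix b').det, hJ⟩ : loc K s)‖ ^ 2 * wt Y s := by
  set T : Matrix (Fin n) (Fin n) (loc K s) := Matrix.of fun k j => ⟨_, hT k j⟩ with hTdef
  set e : loc K s →ₐ[ℂ] ℂ := lv s with he
  set l0 := e (⟨lam, hl⟩ : loc K s) with hl0def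
  set J : loc K s := ⟨(b.toMatrix b').det, hJ⟩ with hJdef
  have h1 : frm X p = blk l0 (fun k => e (⟨_, hμ k⟩ : loc K s)) (T.map e) * frm Y s := by
    have := frm_compat b b' hb hb' hc hlam hl hT hμ
    rw [this]
    rfl
  have h2 : J * T.det = 1 := by
    apply Subtype.ext
    have h3 : ((T.det : loc K s) : K) = (b'.toMatrix b).det := by
      have h4 := RingHom.map_det (loc K s).val.toRingHom T
      have h5 : (loc K s).val.toRingHom.mapMatrix T = b'.toMatrix b := by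
        ext k j
        rfl
      rw [h5] at h4
      exact h4
    push_cast
    rw [h3, hJdef]
    have h4 := congrArg Matrix.det (b.toMatrix_mul_toMatrix_flip b')
    rw [Matrix.det_mul, Matrix.det_one] at h4
    exact h4
  have h3 : e J * (T.map e).det = 1 := by
    have h4 := congrArg e h2
    rw [map_mul, map_one] at h4
    have h5 := AlgHom.map_det e T
    rw [h5] at h4
    exact h4
  have hJ0 : e J ≠ 0 := left_ne_zero_of_mul (by rw [h3]; exact one_ne_zero)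
  have hdet : (T.map e).det = (e J)⁻¹ := eq_inv_of_mul_eq_one_right h3
  have hgr : gr X p = ‖l0 ^ (n + 1) * (e J)⁻¹‖ ^ 2 * gr Y s := by
    unfold gr
    rw [h1, gdet_mul, det_blk, hdet]
  have hns := ns_compat hc hlam hl
  unfold wt
  rw [hns, hgr, norm_mul, norm_pow, norm_inv]
  have hl1 : ‖l0‖ ≠ 0 := norm_ne_zero_iff.2 hl0
  have hJ1 : ‖e J‖ ≠ 0 := norm_ne_zero_iff.2 hJ0
  have hg : gr Y s ≠ 0 := (gr_pos s).ne'
  change (‖l0‖ ^ 2 * ns Y s) ^ (n + 1) / ((‖l0‖ ^ (n + 1) * ‖e J‖⁻¹) ^ 2 * gr Y s) =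
    ‖e J‖ ^ 2 * (ns Y s ^ (n + 1) / gr Y s)
  field_simp
  ring

end K

end Crest.Agent.R269.Reg7_241
end
end

-- ▼ part R269/Reg8_241
section

/-!
Row 269 (S0411), leaf D4/REG, part 8 (helper241): local regularity for the weights of the row.

`reg_gen` : `∫ |F|² wt^m ns^{-j} E < ∞` on the étale chart `X` implies that
`F (x_{iX}/x_{iY})^j J^{m+1}` is in the local ring of any point `y` of any other chart `Y`
(`J = det ∂z_X/∂z_Y`), with square integrable germ for the extra weight `E`.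
-/

set_option autoImplicit false
set_option linter.unusedSectionVars false

open scoped ENNReal NNReal Topology BigOperators
open MeasureTheory Set Metric Filter

noncomputable section

namespace Crest.Agent.R269.Reg8_241

open Crest.AlgGeometry.ProjEmb
open Crest.Agent.R271.Defs710 hiding wt
open Crest.Agent.R271.Bd741 Crest.Agent.R269.Reg4_241
open Crest.Agent.R269.Amp1_243 Crest.Agent.R269.Amp3_243 Crest.Agent.R269.Geo_328
open Crest.Agent.R269.Reg5_241 Crest.Agent.R269.Reg6_241 Crest.Agent.R269.Reg7_241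

variable {N n : ℕ} {I : Ideal (HomCoordRing N)}

section loc

variable {K : Type} [Field K] [Algebra ℂ K] {A : Type} [CommRing A] [IsDomain A] [Algebra ℂ A]
  [Algebra A K] [IsScalarTower ℂ A K] [IsFractionRing A K]

lemma lv_mul {s : A →ₐ[ℂ] ℂ} {a b : K} (ha : a ∈ loc K s) (hb : b ∈ loc K s) :
    lv s (⟨a * b, mul_mem ha hb⟩ : loc K s) = lv s ⟨a, ha⟩ * lv s ⟨b, hb⟩ :=
  map_mul (lv s) (⟨a, ha⟩ : loc K s) ⟨b, hb⟩

lemma lv_pow {s : A →ₐ[ℂ] ℂ} {a : K} (ha : a ∈ loc K s) (m : ℕ) :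
    lv s (⟨a ^ m, pow_mem ha m⟩ : loc K s) = lv s ⟨a, ha⟩ ^ m :=
  map_pow (lv s) (⟨a, ha⟩ : loc K s) m

lemma lv_inv {s : A →ₐ[ℂ] ℂ} {a b : K} (ha : a ∈ loc K s) (hb : b ∈ loc K s) (h : a * b = 1) :
    lv s (⟨a, ha⟩ : loc K s) = (lv s (⟨b, hb⟩ : loc K s))⁻¹ := by
  have h1 : (⟨a, ha⟩ : loc K s) * ⟨b, hb⟩ = 1 := Subtype.ext h
  have h2 := congrArg (lv s) h1
  rw [map_mul, map_one] at h2
  exact eq_inv_of_mul_eq_one_left h2

lemma lv_zpow {s : A →ₐ[ℂ] ℂ} {a b : K} (ha : a ∈ loc K s) (hb : b ∈ loc K s) (h : a * b = 1)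
    (j : ℤ) (hj : a ^ j ∈ loc K s) :
    lv s (⟨a ^ j, hj⟩ : loc K s) = (lv s (⟨a, ha⟩ : loc K s)) ^ j := by
  obtain ⟨m, rfl | rfl⟩ := j.eq_nat_or_neg
  · simp only [zpow_natCast]
    exact lv_pow ha m
  · have e : a⁻¹ = b := inv_eq_of_mul_eq_one_right h
    have h1 : a ^ (-(m : ℤ)) = b ^ m := by
      rw [zpow_neg, zpow_natCast, ← inv_pow, e]
    have h2 : (⟨a ^ (-(m : ℤ)), hj⟩ : loc K s) = ⟨b ^ m, pow_mem hb m⟩ := Subtype.ext h1
    rw [h2, lv_pow hb, lv_inv ha hb h, zpow_neg, zpow_natCast, inv_pow, inv_inv]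

lemma lv_div {s : A →ₐ[ℂ] ℂ} {k : K} (hk : k ∈ loc K s) {u v : A} (hv : v ≠ 0)
    (hsv : s v ≠ 0) (h : algebraMap A K u / algebraMap A K v = k) :
    lv s (⟨k, hk⟩ : loc K s) = s u / s v := by
  have hv' : algebraMap A K v ≠ 0 := fun h0 => hv (IsFractionRing.injective A K (by rw [h0, map_zero]))
  have h1 := lv_spec s (⟨k, hk⟩ : loc K s) (u := u) (v := v) (by
    change k * algebraMap A K v = algebraMap A K u
    rw [← h]; field_simp)
  rw [eq_div_iff hsv]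
  exact h1

end loc

/-- a continuous positive function is bounded below near `0` along a chart -/
lemma exists_lower {ω : Cn n → ℝ} (hc : ContinuousAt ω 0) (h0 : 0 < ω 0) :
    ∃ c : ℝ, 0 < c ∧ ∃ δ : ℝ, 0 < δ ∧ ∀ ζ ∈ ball (0 : Cn n) δ, c ≤ ω ζ := by
  have h1 : ∀ᶠ ζ in 𝓝 (0 : Cn n), ω 0 / 2 < ω ζ := hc.eventually_const_lt (by linarith)
  obtain ⟨δ, hδ, h2⟩ := Metric.eventually_nhds_iff_ball.1 h1
  exact ⟨ω 0 / 2, by linarith, δ, hδ, fun ζ hζ => (h2 ζ hζ).le⟩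

lemma continuousAt_pt (Y : XC I n) {y : Y.B →ₐ[ℂ] ℂ} (C : Chart Y.z y) :
    ContinuousAt (fun ζ => pt Y (C.s ζ)) 0 := by
  rw [continuousAt_pi]
  intro l
  exact (C.anal (Y.x l) 0 (mem_ball_self C.r_pos)).continuousAt

lemma continuousAt_ns (Y : XC I n) {y : Y.B →ₐ[ℂ] ℂ} (C : Chart Y.z y) :
    ContinuousAt (fun ζ => ns Y (C.s ζ)) 0 := by
  unfold ns Geo_328.nsq
  have h := continuousAt_pt Y C
  rw [continuousAt_pi] at h
  exact tendsto_finsetSum _ fun l _ => ((h l).norm.pow 2)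

lemma continuous_gdet : Continuous (gdet (N := N) (n := n)) := by
  unfold gdet
  refine Complex.continuous_re.comp ?_
  exact Continuous.matrix_det (continuous_id.matrix_mul continuous_id.matrix_conjTranspose)

lemma continuousAt_gr (Y : XC I n) {y : Y.B →ₐ[ℂ] ℂ} (C : Chart Y.z y) :
    ContinuousAt (fun ζ => gr Y (C.s ζ)) 0 := by
  have h1 : ContinuousAt (fun ζ => frm Y (C.s ζ)) 0 := by
    refine tendsto_pi_nhds.2 fun a => tendsto_pi_nhds.2 fun l => ?_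
    refine Fin.cases ?_ (fun k => ?_) a
    · exact (C.anal (Y.x l) 0 (mem_ball_self C.r_pos)).continuousAt
    · exact (C.anal (Y.der k (Y.x l)) 0 (mem_ball_self C.r_pos)).continuousAt
  exact ContinuousAt.comp (g := gdet) (f := fun ζ => frm Y (C.s ζ))
    continuous_gdet.continuousAt h1

lemma continuousAt_wt (Y : XC I n) {y : Y.B →ₐ[ℂ] ℂ} (C : Chart Y.z y) :
    ContinuousAt (fun ζ => wt Y (C.s ζ)) 0 := by
  unfold wt
  exact ((continuousAt_ns Y C).pow _).div (continuousAt_gr Y C) (gr_pos _).ne'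

/-- points exist -/
lemma exists_pt0 (X : XC I n) : Nonempty (X.B →ₐ[ℂ] ℂ) := by
  have := X.ft
  obtain ⟨y, -⟩ := Crest.Agent.R271.Alg255.exists_point (⊥ : Ideal X.B) bot_ne_top
  exact ⟨y⟩

section K

variable {X Y : XC I n} {K : Type} [Field K] [Algebra ℂ K]
  [Algebra X.B K] [IsScalarTower ℂ X.B K] [IsFractionRing X.B K]
  [Algebra Y.B K] [IsScalarTower ℂ Y.B K] [IsFractionRing Y.B K]

theorem reg_gen (b b' : Module.Basis (Fin n) K (Ω[K⁄ℂ]))
    (hb : ∀ j, b j = KaehlerDifferential.D ℂ K (algebraMap Y.B K (Y.z j)))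
    (hb' : ∀ j, b' j = KaehlerDifferential.D ℂ K (algebraMap X.B K (X.z j)))
    {mu lam : K} (hml : mu * lam = 1)
    (hlam : ∀ l, algebraMap X.B K (X.x l) = lam * algebraMap Y.B K (Y.x l))
    (m : ℕ) (j : ℤ) (F : X.B) {y : Y.B →ₐ[ℂ] ℂ} (C : Chart Y.z y)
    (E : (X.B →ₐ[ℂ] ℂ) → ℝ) (E' : (Y.B →ₐ[ℂ] ℂ) → ℝ) (q0 : Y.B) (hq0 : q0 ≠ 0)
    (hE : ∀ p s, s q0 ≠ 0 → Compat K p s → E p = E' s)
    (hE0 : ∀ s, 0 ≤ E' s) {c1 δ1 : ℝ} (hc1 : 0 < c1) (hδ1 : 0 < δ1)
    (hE' : ∀ ζ ∈ ball (0 : Cn n) δ1, C.s ζ q0 ≠ 0 → c1 ≤ E' (C.s ζ))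
    (hfin : lintM X.z (fun p => ENNReal.ofReal
      (‖p F‖ ^ 2 * (wt X p ^ m * ns X p ^ (-j) * E p))) < ∞) :
    ∃ (g : Cn n → ℂ) (ε c2 : ℝ) (a s d : Y.B), 0 < ε ∧ ε ≤ C.r ∧ ε ≤ δ1 ∧ 0 < c2 ∧
      DifferentiableOn ℂ g (ball 0 ε) ∧ d ≠ 0 ∧ (∀ ζ, C.s ζ d ≠ 0 → C.s ζ q0 ≠ 0) ∧ y s ≠ 0 ∧
      algebraMap X.B K F * ((b.toMatrix b').det ^ m * mu ^ j) * (b.toMatrix b').det *
        algebraMap Y.B K s = algebraMap Y.B K a ∧
      (∀ ζ ∈ ball (0 : Cn n) ε, g ζ * C.s ζ s = C.s ζ a) ∧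
      ∫⁻ ζ in ball (0 : Cn n) ε ∩ {ζ | C.s ζ d ≠ 0}, ENNReal.ofReal (‖g ζ‖ ^ 2) *
        ENNReal.ofReal (c2 * E' (C.s ζ)) < ∞ := by
  classical
  set J : K := (b.toMatrix b').det with hJdef
  set U : K := J ^ m * mu ^ j with hU
  obtain ⟨uU, vU, hvU, hUd⟩ := IsFractionRing.div_surjective (A := Y.B) U
  have hvU0 : vU ≠ 0 := nonZeroDivisors.ne_zero hvU
  obtain ⟨q1, hq1, h1⟩ := exists_loc (K := K) (A := Y.B)
    (Sum.elim (fun i : Fin 5 => ![lam, mu, J, U, mu ^ j] i)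
      (Sum.elim (fun k : Fin n × Fin n => b'.toMatrix b k.1 k.2)
        (fun k : Fin n => b'.repr (KaehlerDifferential.D ℂ K lam) k)))
  obtain ⟨x0⟩ := exists_pt0 X
  obtain ⟨c0, hc0, δ0, hδ0, hlow⟩ := exists_lower
    (ω := fun ζ => wt Y (C.s ζ) ^ m * ns Y (C.s ζ) ^ (-j))
    (((continuousAt_wt Y C).pow m).mul ((continuousAt_ns Y C).zpow₀ (-j) (Or.inl (ns_pos _).ne')))
    (mul_pos (pow_pos (wt_pos _ _) _) (zpow_pos (ns_pos _) _))
  set ε : ℝ := min C.r (min δ0 δ1) with hε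
  have hε0 : 0 < ε := lt_min C.r_pos (lt_min hδ0 hδ1)
  have hεr : ε ≤ C.r := min_le_left _ _
  have hεδ0 : ε ≤ δ0 := (min_le_right _ _).trans (min_le_left _ _)
  have hεδ1 : ε ≤ δ1 := (min_le_right _ _).trans (min_le_right _ _)
  have key : ∀ ζ ∈ ball (0 : Cn n) ε, C.s ζ (q0 * q1 * vU) ≠ 0 → ∀ p : X.B →ₐ[ℂ] ℂ,
      Compat K p (C.s ζ) → (‖C.s ζ uU‖ / ‖C.s ζ vU‖) ^ 2 * (c0 * E' (C.s ζ)) ≤
        wt X p ^ m * ns X p ^ (-j) * E p := by
    intro ζ hζ hne p hp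
    rw [map_mul, map_mul] at hne
    have hs0 : C.s ζ q0 ≠ 0 := fun h => hne (by rw [h]; ring)
    have hs1 : C.s ζ q1 ≠ 0 := fun h => hne (by rw [h]; ring)
    have hsv : C.s ζ vU ≠ 0 := fun h => hne (by rw [h]; ring)
    have hm := h1 (C.s ζ) hs1
    have hl : lam ∈ loc K (C.s ζ) := hm (Sum.inl 0)
    have hmu : mu ∈ loc K (C.s ζ) := hm (Sum.inl 1)
    have hJ : J ∈ loc K (C.s ζ) := hm (Sum.inl 2)
    have hUl : U ∈ loc K (C.s ζ) := hm (Sum.inl 3)
    have hmuj : mu ^ j ∈ loc K (C.s ζ) := hm (Sum.inl 4)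
    have hT : ∀ k i, b'.toMatrix b k i ∈ loc K (C.s ζ) := fun k i =>
      hm (Sum.inr (Sum.inl (k, i)))
    have hμ : ∀ k, b'.repr (KaehlerDifferential.D ℂ K lam) k ∈ loc K (C.s ζ) := fun k =>
      hm (Sum.inr (Sum.inr k))
    have e1 : lv (C.s ζ) (⟨lam, hl⟩ : loc K (C.s ζ)) =
        (lv (C.s ζ) (⟨mu, hmu⟩ : loc K (C.s ζ)))⁻¹ := lv_inv hl hmu (by rw [mul_comm]; exact hml)
    have hmu0 : lv (C.s ζ) (⟨mu, hmu⟩ : loc K (C.s ζ)) ≠ 0 := by
      have h2 : (⟨mu, hmu⟩ : loc K (C.s ζ)) * ⟨lam, hl⟩ = 1 := Subtype.ext hml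
      have h3 := congrArg (lv (C.s ζ)) h2
      rw [map_mul, map_one] at h3
      exact left_ne_zero_of_mul (by rw [h3]; exact one_ne_zero)
    have hl0 : lv (C.s ζ) (⟨lam, hl⟩ : loc K (C.s ζ)) ≠ 0 := by
      rw [e1]; exact inv_ne_zero hmu0
    have e2 := wt_compat b b' hb hb' hp hlam hl hl0 hT hμ hJ
    have e3 := ns_compat hp hlam hl
    have e4 : C.s ζ uU / C.s ζ vU = lv (C.s ζ) (⟨J, hJ⟩ : loc K (C.s ζ)) ^ m *
        lv (C.s ζ) (⟨mu, hmu⟩ : loc K (C.s ζ)) ^ j := by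
      rw [← lv_div hUl hvU0 hsv hUd, ← lv_zpow hmu hl hml j hmuj, ← lv_pow hJ m,
        ← lv_mul (pow_mem hJ m) hmuj]
    set vJ : ℂ := lv (C.s ζ) (⟨J, hJ⟩ : loc K (C.s ζ)) with hvJ
    set vm : ℂ := lv (C.s ζ) (⟨mu, hmu⟩ : loc K (C.s ζ)) with hvm
    have hvm' : 0 < ‖vm‖ := norm_pos_iff.2 hmu0
    have hnsp := ns_pos (C.s ζ) (X := Y)
    rw [← norm_div, e4, norm_mul, norm_pow, norm_zpow, e2, e3, e1, norm_inv, hE p _ hs0 hp]
    have e5 : ((‖vm‖⁻¹) ^ 2 * ns Y (C.s ζ)) ^ (-j) = (‖vm‖ ^ j) ^ 2 * ns Y (C.s ζ) ^ (-j) := by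
      rw [mul_zpow, ← zpow_natCast (‖vm‖ ^ j) 2, ← zpow_mul, ← zpow_natCast (‖vm‖⁻¹) 2,
        ← zpow_mul, inv_zpow, ← zpow_neg]
      congr 2
      push_cast; ring
    rw [e5]
    have h3 := hlow ζ (ball_subset_ball hεδ0 hζ)
    have h4 := hE0 (C.s ζ)
    calc (‖vJ‖ ^ m * ‖vm‖ ^ j) ^ 2 * (c0 * E' (C.s ζ))
        ≤ (‖vJ‖ ^ m * ‖vm‖ ^ j) ^ 2 *
          ((wt Y (C.s ζ) ^ m * ns Y (C.s ζ) ^ (-j)) * E' (C.s ζ)) := by gcongr
      _ = (‖vJ‖ ^ 2 * wt Y (C.s ζ)) ^ m * ((‖vm‖ ^ j) ^ 2 * ns Y (C.s ζ) ^ (-j)) *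
          E' (C.s ζ) := by
        rw [mul_pow (‖vJ‖ ^ 2)]; ring
  obtain ⟨g, a, s, d, r1, r2, r3, r4, r5, r6, r7⟩ := reg_core (K := K) X.ft Y.ft X.z Y.z Y.etale y C
    b b' hb hb' x0 F uU vU (q0 * q1 * vU) hvU0 (mul_ne_zero (mul_ne_zero hq0 hq1) hvU0)
    (fun p => ENNReal.ofReal (wt X p ^ m * ns X p ^ (-j) * E p))
    (fun ζ => ENNReal.ofReal (c0 * E' (C.s ζ))) ε hε0 hεr (ENNReal.ofReal (c0 * c1))
    (by rw [Ne, ENNReal.ofReal_eq_zero, not_le]; positivity)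
    (fun ζ hζ hne => by
      rw [map_mul, map_mul] at hne
      have hs0 : C.s ζ q0 ≠ 0 := fun h => hne (by rw [h]; ring)
      apply ENNReal.ofReal_le_ofReal
      have := hE' ζ (ball_subset_ball hεδ1 hζ) hs0
      gcongr)
    (fun ζ hζ hne p hp => by
      have h5 := key ζ hζ hne p hp
      have h6 := hE0 (C.s ζ)
      rw [← ENNReal.ofReal_mul (by positivity)]
      exact ENNReal.ofReal_le_ofReal h5)
    (by
      refine lt_of_le_of_lt (le_of_eq ?_) hfin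
      congr 1
      funext p
      rw [← ENNReal.ofReal_mul (by positivity)])
  refine ⟨g, ε, c0, a, s, d, hε0, hεr, hεδ1, hc0, r1, r2, ?_, r4, ?_, r6, r7⟩
  · intro ζ h
    have := r3 ζ h
    rw [map_mul, map_mul] at this
    exact fun h0 => this (by rw [h0]; ring)
  · rw [← r5, hUd]

end K

end Crest.Agent.R269.Reg8_241
end
end

-- ▼ part R269/Reg9_241
section

/-!
Row 269 (S0411), leaf D4/REG, part 9 (helper241): the function field.

* `xc` : the étale chart of 795 as an `XC I n` (243);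
* `isFr` : `FnField I` is the fraction field of every chart;
* `wedge_eq` : `dz_1 ∧ … ∧ dz_n = J • dw_1 ∧ … ∧ dw_n`, `J = det (b.toMatrix b')`;
* `alg_of_weight` : algebraicity for the weights of the row.
-/

set_option autoImplicit false
set_option linter.unusedSectionVars false
set_option linter.style.haveILetI false

open scoped ENNReal NNReal Topology BigOperators
open MeasureTheory Set Metric Filter

noncomputable section

namespace Crest.Agent.R269.Reg9_241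

open Crest.AlgGeometry.ProjEmb
open Crest.Agent.R271.Defs710 hiding wt
open Crest.Agent.R271.Bd741 Crest.Agent.R269.Reg4_241
open Crest.Agent.R269.Amp1_243 Crest.Agent.R269.Amp3_243 Crest.Agent.R269.Geo_328
open Crest.Agent.R269.Reg5_241 Crest.Agent.R269.Reg6_241 Crest.Agent.R269.Reg7_241
open Crest.Agent.R269.Reg8_241
open Crest.Agent.R269.DictA_795 Crest.Agent.R269.DictB_795 Crest.Agent.R269.DictC_795
open Crest.Agent.R269.DictE_795

variable {N n : ℕ} {I : Ideal (HomCoordRing N)} [I.IsPrime]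

/-! ### ratios -/

lemma fnRatio_mul {i i' : Fin (N + 1)} (hi : (MvPolynomial.X i : HomCoordRing N) ∉ I)
    (hi' : (MvPolynomial.X i' : HomCoordRing N) ∉ I) (l : Fin (N + 1)) :
    fnRatio I i l = fnRatio I i i' * fnRatio I i' l := by
  apply toConeHom_injective
  rw [map_mul, toConeHom_fnRatio, toConeHom_fnRatio, toConeHom_fnRatio]
  have h1 := coneHom_X_ne hi
  have h2 := coneHom_X_ne hi'
  field_simp

/-- the chart of 795 as an `XC` -/
def xc (c : CD I n) {q : Fin (N + 1) → ℂ} (h : c.Dom q) (hX : IsSmoothProjective I n) : XC I n where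
  B := c.B
  ft := c.B_finiteType
  z := c.zB
  etale := h.etale hX
  i := c.i
  x := c.yB
  x_i := Subtype.ext (fnRatio_self h.not_mem_i)
  j := c.S
  z_eq := fun _ => rfl
  rel := by
    intro F hF
    apply Subtype.ext
    have h3 : (c.B.val).comp (MvPolynomial.aeval c.yB) = dh I c.i := by
      apply MvPolynomial.algHom_ext; intro j; simp [dh, CD.yB]
    have h4 := congrArg (fun f => f F) h3
    have h5 : dh I c.i F = 0 := dh_eq_zero_of_mem hX.homogeneous h.not_mem_i hF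
    rw [h5] at h4
    exact h4

section fr

variable (X : XC I n) (io : X.B →ₐ[ℂ] FnField I)

/-- every element of the function field is a quotient of elements of the chart -/
lemma exists_quot (hx : ∀ l, io (X.x l) = fnRatio I X.i l) (u : FnField I) :
    ∃ a b : X.B, io b ≠ 0 ∧ u * io b = io a := by
  have hXi : (MvPolynomial.X X.i : HomCoordRing N) ∉ I := by
    intro h
    have h1 := hx X.i
    rw [X.x_i, map_one] at h1
    have h0 : fnRatio I X.i X.i = 0 := by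
      apply toConeHom_injective
      rw [toConeHom_fnRatio, coneHom_eq_zero_iff.2 h, div_zero, map_zero]
    rw [h0] at h1
    exact one_ne_zero h1
  refine fnField_induction (P := fun u => ∃ a b : X.B, io b ≠ 0 ∧ u * io b = io a)
    ?_ ?_ ?_ ?_ ?_ u
  · intro i j
    by_cases hi : (MvPolynomial.X i : HomCoordRing N) ∈ I
    · refine ⟨0, 1, by rw [map_one]; exact one_ne_zero, ?_⟩
      have h0 : fnRatio I i j = 0 := by
        apply toConeHom_injective
        rw [toConeHom_fnRatio, coneHom_eq_zero_iff.2 hi, div_zero, map_zero]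
      rw [h0, map_zero, zero_mul]
    · refine ⟨X.x j, X.x i, ?_, ?_⟩
      · rw [hx]
        intro h0
        have h1 := fnRatio_mul hi hXi i
        rw [h0, mul_zero, fnRatio_self hi] at h1
        exact one_ne_zero h1
      · rw [hx, hx, mul_comm, ← fnRatio_mul hXi hi]
  · intro a
    exact ⟨algebraMap ℂ _ a, 1, by rw [map_one]; exact one_ne_zero, by simp⟩
  · rintro u v ⟨a, b, hb, h⟩ ⟨a', b', hb', h'⟩
    refine ⟨a * b' + a' * b, b * b', by rw [map_mul]; exact mul_ne_zero hb hb', ?_⟩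
    rw [map_mul, map_add, map_mul, map_mul, ← h, ← h']; ring
  · rintro u ⟨a, b, hb, h⟩
    by_cases hu : u = 0
    · exact ⟨0, 1, by rw [map_one]; exact one_ne_zero, by simp [hu]⟩
    · refine ⟨b, a, ?_, ?_⟩
      · rw [← h]; exact mul_ne_zero hu hb
      · rw [← h]; field_simp
  · rintro u v ⟨a, b, hb, h⟩ ⟨a', b', hb', h'⟩
    refine ⟨a * a', b * b', by rw [map_mul]; exact mul_ne_zero hb hb', ?_⟩
    rw [map_mul, map_mul, ← h, ← h']; ring

/-- the function field is the fraction field of the chart -/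
theorem isFr (hinj : Function.Injective io) (hx : ∀ l, io (X.x l) = fnRatio I X.i l) :
    letI := io.toRingHom.toAlgebra
    IsFractionRing X.B (FnField I) := by
  letI := io.toRingHom.toAlgebra
  have : FaithfulSMul X.B (FnField I) := (faithfulSMul_iff_algebraMap_injective _ _).2 hinj
  refine IsFractionRing.of_field X.B (FnField I) fun u => ?_
  obtain ⟨a, b, hb, h⟩ := exists_quot X io hx u
  refine ⟨a, b, ?_⟩
  have h1 : u * algebraMap X.B (FnField I) b = algebraMap X.B (FnField I) a := h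
  have h2 : algebraMap X.B (FnField I) b ≠ 0 := hb
  rw [← h1]; field_simp

end fr

/-! ### forms -/

/-- `dz_1 ∧ … ∧ dz_n = J • dw_1 ∧ … ∧ dw_n` -/
theorem wedge_eq (b b' : Module.Basis (Fin n) (FnField I) (Ω[FnField I⁄ℂ])) (w z : Fin n → FnField I)
    (hb : ∀ j, b j = KaehlerDifferential.D ℂ (FnField I) (w j))
    (hb' : ∀ j, b' j = KaehlerDifferential.D ℂ (FnField I) (z j)) :
    wedgeD I n z = (b.toMatrix b').det • wedgeD I n w := by
  have h1 := alt_det (exteriorPower.ιMulti (FnField I) n)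
    (fun s => KaehlerDifferential.D ℂ (FnField I) (w s)) (b.toMatrix b').transpose
  rw [Matrix.det_transpose] at h1
  refine Eq.trans ?_ h1
  unfold wedgeD
  congr 1
  funext l
  rw [← hb', ← b.sum_toMatrix_smul_self b' l]
  refine Finset.sum_congr rfl fun s _ => ?_
  rw [hb, Matrix.transpose_apply]

/-! ### algebraicity -/

open Crest.Agent.R271.Alg255 (PG oz one_le_oz growthI) in
lemma PG_sq_sum {B : Type} [CommRing B] [Algebra ℂ B] {z : Fin n → B} {ι : Type} [Fintype ι]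
    (f : ι → B) (h : ∀ a, PG z (f a)) :
    ∃ (C : ℝ) (M : ℕ), 0 < C ∧ ∀ y : B →ₐ[ℂ] ℂ, ∑ a, ‖y (f a)‖ ^ 2 ≤ C * oz z y ^ M := by
  choose C K hC h using h
  refine ⟨1 + ∑ a, C a ^ 2, ∑ a, 2 * K a, ?_, fun y => ?_⟩
  · have : 0 ≤ ∑ a, C a ^ 2 := Finset.sum_nonneg fun a _ => sq_nonneg _
    linarith
  · have h1 := one_le_oz z y
    have h2 : ∀ a, ‖y (f a)‖ ^ 2 ≤ C a ^ 2 * oz z y ^ (∑ a, 2 * K a) := by
      intro a
      calc ‖y (f a)‖ ^ 2 ≤ (C a * oz z y ^ K a) ^ 2 := by gcongr; exact h a y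
        _ = C a ^ 2 * oz z y ^ (2 * K a) := by rw [mul_pow, ← pow_mul, mul_comm 2]
        _ ≤ C a ^ 2 * oz z y ^ (∑ a, 2 * K a) := by
            gcongr
            exact Finset.single_le_sum (f := fun a => 2 * K a) (fun _ _ => Nat.zero_le _)
              (Finset.mem_univ a)
    calc ∑ a, ‖y (f a)‖ ^ 2 ≤ ∑ a, C a ^ 2 * oz z y ^ (∑ a, 2 * K a) :=
          Finset.sum_le_sum fun a _ => h2 a
      _ = (∑ a, C a ^ 2) * oz z y ^ (∑ a, 2 * K a) := by rw [Finset.sum_mul]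
      _ ≤ (1 + ∑ a, C a ^ 2) * oz z y ^ (∑ a, 2 * K a) := by
          gcongr; linarith

open Crest.Agent.R271.Alg255 (PG oz one_le_oz growthI) in
/-- growth of finitely many elements of an étale chart -/
theorem exists_growth (X : EC n) {ι : Type} [Fintype ι] (b : ι → X.B) :
    ∃ u : X.B, u ≠ 0 ∧ ∃ (C : ℝ) (M : ℕ), 0 < C ∧ ∀ y : X.B →ₐ[ℂ] ℂ,
      ‖y u‖ ^ 2 * (1 + ∑ a, ‖y (b a)‖ ^ 2) ≤ C * (1 + ∑ i, ‖y (X.z i)‖ ^ 2) ^ M := by
  classical
  have hinj := Crest.Agent.R271.KT661.aeval_injective X.z X.etale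
  have halg : ∀ b : X.B, ∃ r : MvPolynomial (Fin n) ℂ, r ≠ 0 ∧
      PG X.z (MvPolynomial.aeval X.z r * b) := by
    let _ : Algebra (MvPolynomial (Fin n) ℂ) X.B := (Crest.Agent.R271.Alg255.az X.z).toAlgebra
    have : Algebra.Etale (MvPolynomial (Fin n) ℂ) X.B := X.etale
    have h1 := (Crest.Agent.R271.KT661.injective_and_isAlgebraic_of_etale
      (R := MvPolynomial (Fin n) ℂ) (S := X.B)).2
    intro b
    obtain ⟨r, hr, hint⟩ := (h1.isAlgebraic b).exists_integral_multiple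
    refine ⟨r, hr, growthI ?_⟩
    obtain ⟨p, hp, hp0⟩ := hint
    exact Crest.Agent.R271.AlgD956.isIntegral_theta (μ := p) hp hp0
  choose r hr hPG using fun a => halg (b a)
  have hu0 : ∀ a, MvPolynomial.aeval X.z (r a) ≠ 0 := fun a h => hr a (hinj (by
    rw [map_zero]; exact h))
  have hPGu : ∀ s : Finset ι, PG X.z (∏ a ∈ s, MvPolynomial.aeval X.z (r a)) := by
    intro s
    rw [← map_prod]
    exact Crest.Agent.R271.AlgD956.PG_aeval X.z _
  set u : X.B := ∏ a, MvPolynomial.aeval X.z (r a) with hu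
  have hPGb : ∀ a, PG X.z (u * b a) := by
    intro a
    have h1 : u * b a = (∏ a' ∈ Finset.univ.erase a, MvPolynomial.aeval X.z (r a')) *
        (MvPolynomial.aeval X.z (r a) * b a) := by
      rw [hu, ← Finset.prod_erase_mul Finset.univ _ (Finset.mem_univ a), mul_assoc]
    rw [h1]
    exact (hPGu _).mul (hPG a)
  obtain ⟨C, M, hC, h⟩ := PG_sq_sum (z := X.z)
    (fun t : Option ι => Option.elim t u fun a => u * b a) (fun t => by
      cases t with
      | none => exact hPGu _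
      | some a => exact hPGb a)
  refine ⟨u, Finset.prod_ne_zero_iff.2 fun a _ => hu0 a, C, M, hC, fun y => ?_⟩
  have h1 := h y
  rw [Fintype.sum_option] at h1
  simp only [Option.elim, map_mul, norm_mul, mul_pow] at h1
  calc ‖y u‖ ^ 2 * (1 + ∑ a, ‖y (b a)‖ ^ 2)
      = ‖y u‖ ^ 2 + ∑ a, ‖y u‖ ^ 2 * ‖y (b a)‖ ^ 2 := by rw [mul_add, mul_one, Finset.mul_sum]
    _ ≤ _ := h1

/-- the Gram determinant is bounded by a power of the entries -/
lemma gdet_le (A : Matrix (Fin (n + 1)) (Fin (N + 1)) ℂ) :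
    gdet A ≤ ((n + 1).factorial : ℝ) * (1 + ∑ a, ∑ l, ‖A a l‖ ^ 2) ^ (n + 1) := by
  set S : ℝ := ∑ a, ∑ l, ‖A a l‖ ^ 2 with hS
  have hS0 : 0 ≤ S := Finset.sum_nonneg fun _ _ => Finset.sum_nonneg fun _ _ => by positivity
  have hent : ∀ a a', ‖(A * A.conjTranspose) a a'‖ ≤ 1 + S := by
    intro a a'
    rw [Matrix.mul_apply]
    have h1 : ∀ a, ∑ l, ‖A a l‖ ^ 2 ≤ S := fun a =>
      Finset.single_le_sum (f := fun a => ∑ l, ‖A a l‖ ^ 2)
        (fun _ _ => Finset.sum_nonneg fun _ _ => by positivity) (Finset.mem_univ a)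
    calc ‖∑ l, A a l * A.conjTranspose l a'‖ ≤ ∑ l, ‖A a l * A.conjTranspose l a'‖ :=
          norm_sum_le _ _
      _ ≤ ∑ l, (‖A a l‖ ^ 2 + ‖A a' l‖ ^ 2) / 2 := by
          refine Finset.sum_le_sum fun l _ => ?_
          rw [norm_mul, Matrix.conjTranspose_apply, norm_star]
          nlinarith [sq_nonneg (‖A a l‖ - ‖A a' l‖)]
      _ = ((∑ l, ‖A a l‖ ^ 2) + ∑ l, ‖A a' l‖ ^ 2) / 2 := by
          rw [← Finset.sum_div, Finset.sum_add_distrib]
      _ ≤ 1 + S := by have := h1 a; have := h1 a'; linarith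
  unfold gdet
  calc ((A * A.conjTranspose).det).re ≤ ‖(A * A.conjTranspose).det‖ := Complex.re_le_norm _
    _ ≤ ∑ σ : Equiv.Perm (Fin (n + 1)), (1 + S) ^ (n + 1) := by
        rw [Matrix.det_apply']
        refine (norm_sum_le _ _).trans (Finset.sum_le_sum fun σ _ => ?_)
        rw [norm_mul, norm_prod]
        have h2 : ‖(((Equiv.Perm.sign σ : ℤˣ) : ℤ) : ℂ)‖ = 1 := by
          rcases Int.units_eq_one_or (Equiv.Perm.sign σ) with h | h <;> simp [h]
        rw [h2, one_mul]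
        calc ∏ i, ‖(A * A.conjTranspose) (σ i) i‖ ≤ ∏ _i : Fin (n + 1), (1 + S) :=
              Finset.prod_le_prod (fun _ _ => norm_nonneg _) fun i _ => hent _ _
          _ = (1 + S) ^ (n + 1) := by simp
    _ = _ := by
        rw [Finset.sum_const, Finset.card_univ, Fintype.card_perm, Fintype.card_fin, nsmul_eq_mul]

/-- **algebraicity** for the weights of the row -/
theorem alg_of_weight (X : XC I n) {F : (X.B →ₐ[ℂ] ℂ) → ℂ} (hF : Crest.Agent.R271.Ho51.Hol F)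
    (m : ℕ) (j : ℤ)
    (hint : lintM X.z (fun y => ENNReal.ofReal (‖F y‖ ^ 2 * (wt X y ^ m * ns X y ^ (-j)))) < ∞) :
    ∃ b : X.B, ∀ y : X.B →ₐ[ℂ] ℂ, F y = y b := by
  obtain ⟨u, hu, C, M, hC, hgr⟩ := exists_growth X.toEC
    (fun t : Fin (n + 1) × Fin (N + 1) => Fin.cases (X.x t.2) (fun k => X.der k (X.x t.2)) t.1)
  set S : (X.B →ₐ[ℂ] ℂ) → ℝ := fun y => 1 + ∑ a, ∑ l, ‖frm X y a l‖ ^ 2 with hS
  have hSeq : ∀ y, S y = 1 + ∑ t : Fin (n + 1) × Fin (N + 1),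
      ‖y (Fin.cases (X.x t.2) (fun k => X.der k (X.x t.2)) t.1 : X.B)‖ ^ 2 := by
    intro y
    simp only [hS]
    rw [Fintype.sum_prod_type]
    congr 1
    refine Finset.sum_congr rfl fun a _ => Finset.sum_congr rfl fun l _ => ?_
    refine Fin.cases ?_ (fun k => ?_) a <;> rfl
  have hS1 : ∀ y, 1 ≤ S y := fun y => by
    simp only [hS]
    have : 0 ≤ ∑ a, ∑ l, ‖frm X y a l‖ ^ 2 :=
      Finset.sum_nonneg fun _ _ => Finset.sum_nonneg fun _ _ => by positivity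
    linarith
  have hnsS : ∀ y, ns X y ≤ S y := by
    intro y
    have h1 : ns X y = ∑ l, ‖frm X y 0 l‖ ^ 2 := rfl
    have h2 : ∑ l, ‖frm X y 0 l‖ ^ 2 ≤ ∑ a, ∑ l, ‖frm X y a l‖ ^ 2 :=
      Finset.single_le_sum (f := fun a => ∑ l, ‖frm X y a l‖ ^ 2)
        (fun _ _ => Finset.sum_nonneg fun _ _ => by positivity) (Finset.mem_univ 0)
    simp only [hS]
    linarith
  -- lower bound of the weight
  set c : ℝ := (((n + 1).factorial : ℝ) ^ m)⁻¹ with hc
  have hc0 : 0 < c := by positivity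
  set L : ℕ := (n + 1) * m + j.natAbs with hL
  have hlow : ∀ y, c * (S y ^ L)⁻¹ ≤ wt X y ^ m * ns X y ^ (-j) := by
    intro y
    have h1 := one_le_ns (X := X) y
    have h2 := hS1 y
    have h3 := gdet_le (frm X y)
    have h4 := gr_pos (X := X) y
    have h5 : (((n + 1).factorial : ℝ) * S y ^ (n + 1))⁻¹ ≤ wt X y := by
      unfold Reg7_241.wt
      rw [inv_eq_one_div]
      exact div_le_div₀ (pow_nonneg (ns_pos _).le _) (one_le_pow₀ h1) h4 h3
    have h6 : (S y ^ j.natAbs)⁻¹ ≤ ns X y ^ (-j) := by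
      have h7 : ns X y ^ j.natAbs ≤ S y ^ j.natAbs := pow_le_pow_left₀ (ns_pos _).le (hnsS y) _
      rcases le_total 0 j with hj | hj
      · have e : (-j) = -((j.natAbs : ℕ) : ℤ) := by omega
        rw [e, zpow_neg, zpow_natCast]
        exact inv_anti₀ (pow_pos (ns_pos _) _) h7
      · have e : (-j) = ((j.natAbs : ℕ) : ℤ) := by omega
        rw [e, zpow_natCast]
        exact (inv_le_one_of_one_le₀ (one_le_pow₀ h2)).trans (one_le_pow₀ h1)
    calc c * (S y ^ L)⁻¹ = ((((n + 1).factorial : ℝ) * S y ^ (n + 1))⁻¹) ^ m *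
          (S y ^ j.natAbs)⁻¹ := by
          rw [hc, hL, pow_add, pow_mul, inv_pow, mul_pow, mul_inv, mul_inv, mul_assoc]
      _ ≤ _ := by
          have h7 : 0 < S y := by linarith
          have h8 : 0 < ((n + 1).factorial : ℝ) := by positivity
          refine mul_le_mul (pow_le_pow_left₀ (by positivity) h5 m) h6 (by positivity)
            (pow_nonneg (wt_pos X y).le _)
  refine Amp1_243.algebraic (X := X.toEC) hF hu L (M * L) ?_
  have hbd : ∀ y : X.B →ₐ[ℂ] ℂ, ‖F y‖ ^ 2 * ‖y u‖ ^ (2 * L) /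
      (1 + ∑ i, ‖y (X.z i)‖ ^ 2) ^ (M * L) ≤
      (C ^ L * c⁻¹) * (‖F y‖ ^ 2 * (wt X y ^ m * ns X y ^ (-j))) := by
    intro y
    have h1 := hlow y
    have h2 := hgr y
    rw [← hSeq] at h2
    have h3 : 0 < S y := lt_of_lt_of_le one_pos (hS1 y)
    have h4 : 0 < 1 + ∑ i, ‖y (X.z i)‖ ^ 2 := by
      have : 0 ≤ ∑ i, ‖y (X.z i)‖ ^ 2 := Finset.sum_nonneg fun _ _ => by positivity
      linarith
    have h5 : ‖y u‖ ^ (2 * L) / (1 + ∑ i, ‖y (X.z i)‖ ^ 2) ^ (M * L) ≤ C ^ L * (S y ^ L)⁻¹ := by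
      rw [div_le_iff₀ (by positivity), mul_assoc, mul_comm (S y ^ L)⁻¹, ← mul_assoc,
        ← div_eq_mul_inv, le_div_iff₀ (by positivity)]
      calc ‖y u‖ ^ (2 * L) * S y ^ L = (‖y u‖ ^ 2 * S y) ^ L := by rw [mul_pow, pow_mul]
        _ ≤ (C * (1 + ∑ i, ‖y (X.z i)‖ ^ 2) ^ M) ^ L := by gcongr
        _ = _ := by rw [mul_pow, ← pow_mul]
    calc ‖F y‖ ^ 2 * ‖y u‖ ^ (2 * L) / (1 + ∑ i, ‖y (X.z i)‖ ^ 2) ^ (M * L)
        = ‖F y‖ ^ 2 * (‖y u‖ ^ (2 * L) / (1 + ∑ i, ‖y (X.z i)‖ ^ 2) ^ (M * L)) := by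
          rw [mul_div_assoc]
      _ ≤ ‖F y‖ ^ 2 * (C ^ L * (S y ^ L)⁻¹) := by gcongr
      _ = (C ^ L * c⁻¹) * (‖F y‖ ^ 2 * (c * (S y ^ L)⁻¹)) := by field_simp
      _ ≤ _ := by gcongr
  have hmono : lintM X.z (fun y => ENNReal.ofReal (‖F y‖ ^ 2 * ‖y u‖ ^ (2 * L) /
      (1 + ∑ i, ‖y (X.z i)‖ ^ 2) ^ (M * L))) ≤
      ENNReal.ofReal (C ^ L * c⁻¹) *
        lintM X.z (fun y => ENNReal.ofReal (‖F y‖ ^ 2 * (wt X y ^ m * ns X y ^ (-j)))) := by
    unfold lintM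
    rw [← lintegral_const_mul' _ _ ENNReal.ofReal_ne_top]
    refine lintegral_mono fun ζ => ?_
    simp only
    rw [← ENNReal.tsum_mul_left]
    refine ENNReal.tsum_le_tsum fun y => ?_
    rw [← ENNReal.ofReal_mul (by positivity : (0 : ℝ) ≤ C ^ L * c⁻¹)]
    exact ENNReal.ofReal_le_ofReal (hbd y.1)
  exact lt_of_le_of_lt hmono (ENNReal.mul_lt_top ENNReal.ofReal_lt_top hint)

end Crest.Agent.R269.Reg9_241
end
end

-- ▼ part R269/Reg10_241

/-!
Row 269 (S0411), leaf D4/REG, part 10 (helper241): THE REGULARITY THEOREMS.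

* `reg` : a holomorphic `F` on an étale chart with `∫ |F|² wt^m ns^{-j} < ∞` is an element `b` of the
  chart and `b • (dz_1 ∧ … ∧ dz_n)^{⊗(m+1)}` is a section of `(m+1) K + j A`;
* `reg_pluri`, `reg_H0tw` : global versions;
* `reg_vanish` : with the extra weight `(|x|²/|p ∧ x|²)^{n+1}` the section vanishes at `p`.
-/

set_option autoImplicit false
set_option linter.unusedSectionVars false
set_option linter.style.haveILetI false

open scoped ENNReal NNReal Topology BigOperators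
open MeasureTheory Set Metric Filter

noncomputable section

namespace Crest.Agent.R269.Reg10_241

open Crest.AlgGeometry.ProjEmb
open Crest.Agent.R271.Defs710 hiding wt
open Crest.Agent.R271.Bd741 Crest.Agent.R269.Reg4_241
open Crest.Agent.R269.Amp1_243 Crest.Agent.R269.Amp3_243 Crest.Agent.R269.Geo_328
open Crest.Agent.R269.Reg5_241 Crest.Agent.R269.Reg6_241 Crest.Agent.R269.Reg7_241
open Crest.Agent.R269.Reg8_241 Crest.Agent.R269.Reg9_241
open Crest.Agent.R269.DictA_795 Crest.Agent.R269.DictB_795 Crest.Agent.R269.DictC_795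
open Crest.Agent.R269.DictE_795 Crest.Agent.R269.DictF_795 Crest.Agent.R269.H0tw_795

variable {N n : ℕ} {I : Ideal (HomCoordRing N)} [I.IsPrime]

/-- the section `b • (dz_1 ∧ … ∧ dz_n)^{⊗ m}` -/
def sec (X : XC I n) (io : X.B →ₐ[ℂ] FnField I) (m : ℕ) (b : X.B) : PluriForms I n m :=
  io b • PiTensorProduct.tprod (FnField I) (fun _ : Fin m => wedgeD I n (fun k => io (X.z k)))

lemma X_not_mem' (X : XC I n) (io : X.B →ₐ[ℂ] FnField I)
    (hx : ∀ l, io (X.x l) = fnRatio I X.i l) : (MvPolynomial.X X.i : HomCoordRing N) ∉ I := by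
  intro h
  have h1 := hx X.i
  rw [X.x_i, map_one] at h1
  have h0 : fnRatio I X.i X.i = 0 := by
    apply toConeHom_injective
    rw [toConeHom_fnRatio, coneHom_eq_zero_iff.2 h, div_zero, map_zero]
  rw [h0] at h1
  exact one_ne_zero h1

/-- inclusion of the chart of `c` in the function field -/
def ioY (c : CD I n) {p : Fin (N + 1) → ℂ} (h : c.Dom p) (hX : IsSmoothProjective I n) :
    (xc c h hX).B →ₐ[ℂ] FnField I := c.B.val

/-- inclusion of the chart of `c` in the local ring -/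
def toS (c : CD I n) {p : Fin (N + 1) → ℂ} (h : c.Dom p) (hX : IsSmoothProjective I n) :
    (xc c h hX).B →ₐ[ℂ] stalk I p := h.toStalk

/-- the point `p` in the chart of `c` -/
def yp (c : CD I n) {p : Fin (N + 1) → ℂ} (h : c.Dom p) (hX : IsSmoothProjective I n) :
    (xc c h hX).B →ₐ[ℂ] ℂ := (ev h.cone).comp (toS c h hX)



lemma pt_yp (c : CD I n) {p : Fin (N + 1) → ℂ} (h : c.Dom p) (hX : IsSmoothProjective I n)
    (l : Fin (N + 1)) : pt (xc c h hX) (yp c h hX) l = p l / p c.i := h.pt_yB l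

/-- the local coefficient -/
theorem local_coeff (hX : IsSmoothProjective I n) (X : XC I n) (io : X.B →ₐ[ℂ] FnField I)
    (hinj : Function.Injective io) (hx : ∀ l, io (X.x l) = fnRatio I X.i l)
    {c : CD I n} {p : Fin (N + 1) → ℂ} (h : c.Dom p)
    (m : ℕ) (j : ℤ) (F : X.B)
    (E : (X.B →ₐ[ℂ] ℂ) → ℝ) (E' : ((xc c h hX).B →ₐ[ℂ] ℂ) → ℝ) (q0 : (xc c h hX).B)
    (hq0 : q0 ≠ 0)
    (C : Chart (xc c h hX).z (yp c h hX))
    (hE : ∀ (y : X.B →ₐ[ℂ] ℂ) (s : (xc c h hX).B →ₐ[ℂ] ℂ), s q0 ≠ 0 →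
      (∃ a : ℂ, a ≠ 0 ∧ pt X y = a • pt (xc c h hX) s) → E y = E' s)
    (hE0 : ∀ s, 0 ≤ E' s) {c1 δ1 : ℝ} (hc1 : 0 < c1) (hδ1 : 0 < δ1)
    (hE' : ∀ ζ ∈ ball (0 : Cn n) δ1, C.s ζ q0 ≠ 0 → c1 ≤ E' (C.s ζ))
    (hfin : lintM X.z (fun y => ENNReal.ofReal
      (‖y F‖ ^ 2 * (wt X y ^ m * ns X y ^ (-j) * E y))) < ∞) :
    ∃ (f : stalk I p), (fnRatio I c.i X.i) ^ j • sec X io (m + 1) F = (f : FnField I) • c.wm (m + 1) ∧
      ∃ (g : Cn n → ℂ) (ε c2 : ℝ) (d : (xc c h hX).B), 0 < ε ∧ ε ≤ C.r ∧ ε ≤ δ1 ∧ 0 < c2 ∧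
        DifferentiableOn ℂ g (ball 0 ε) ∧ d ≠ 0 ∧ (∀ ζ, C.s ζ d ≠ 0 → C.s ζ q0 ≠ 0) ∧
        g 0 = ev h.cone f ∧
        ∫⁻ ζ in ball (0 : Cn n) ε ∩ {ζ | C.s ζ d ≠ 0}, ENNReal.ofReal (‖g ζ‖ ^ 2) *
          ENNReal.ofReal (c2 * E' (C.s ζ)) < ∞ := by
  classical
  letI : Algebra X.B (FnField I) := io.toRingHom.toAlgebra
  have t1 : IsScalarTower ℂ X.B (FnField I) :=
    IsScalarTower.of_algebraMap_eq fun a => (io.commutes a).symm
  have t2 : IsFractionRing X.B (FnField I) := isFr X io hinj hx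
  letI : Algebra (xc c h hX).B (FnField I) := (ioY c h hX).toRingHom.toAlgebra
  have t3 : IsScalarTower ℂ (xc c h hX).B (FnField I) :=
    IsScalarTower.of_algebraMap_eq fun a => ((ioY c h hX).commutes a).symm
  have t4 : IsFractionRing (xc c h hX).B (FnField I) :=
    isFr (xc c h hX) (ioY c h hX) Subtype.val_injective (fun l => rfl)
  obtain ⟨b, hb⟩ := exists_basis (S := (xc c h hX).B) (K := FnField I) (xc c h hX).z
    (xc c h hX).etale
  obtain ⟨b', hb'⟩ := exists_basis (S := X.B) (K := FnField I) X.z X.etale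
  have hXi := X_not_mem' X io hx
  have hci := h.not_mem_i
  have hml : fnRatio I c.i X.i * fnRatio I X.i c.i = 1 := by
    rw [← fnRatio_mul hci hXi, fnRatio_self hci]
  have hlam : ∀ l, algebraMap X.B (FnField I) (X.x l) =
      fnRatio I X.i c.i * algebraMap (xc c h hX).B (FnField I) ((xc c h hX).x l) := by
    intro l
    change io (X.x l) = fnRatio I X.i c.i * fnRatio I c.i l
    rw [hx, ← fnRatio_mul hXi hci]
  obtain ⟨q1, hq1, hq1'⟩ := exists_loc (K := FnField I) (A := (xc c h hX).B)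
    (fun i : Fin 2 => ![fnRatio I X.i c.i, fnRatio I c.i X.i] i)
  obtain ⟨g, ε, c2, a, s, d, e1, e2, e3, e4, e5, e6, e7, e8, e9, e10, e11⟩ :=
    reg_gen (X := X) (Y := xc c h hX) (K := FnField I) b b' hb hb' hml hlam m j F C E E' (q0 * q1)
      (mul_ne_zero hq0 hq1) (by
        intro y s hs hcomp
        rw [map_mul] at hs
        have hs0 : s q0 ≠ 0 := fun h0 => hs (by rw [h0, zero_mul])
        have hs1 : s q1 ≠ 0 := fun h0 => hs (by rw [h0, mul_zero])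
        have hl := hq1' s hs1 0
        have hm := hq1' s hs1 1
        refine hE y s hs0 ⟨lv s (⟨fnRatio I X.i c.i, hl⟩ : loc (FnField I) s), ?_,
          pt_compat hcomp hlam hl⟩
        have h2 : (⟨fnRatio I c.i X.i, hm⟩ : loc (FnField I) s) * ⟨fnRatio I X.i c.i, hl⟩ = 1 :=
          Subtype.ext hml
        have h3 := congrArg (lv s) h2
        rw [map_mul, map_one] at h3
        exact right_ne_zero_of_mul (by rw [h3]; exact one_ne_zero))
      hE0 hc1 hδ1 (by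
        intro ζ hζ hne
        rw [map_mul] at hne
        exact hE' ζ hζ fun h0 => hne (by rw [h0, zero_mul]))
      hfin
  have hs : IsUnit (toS c h hX s) := by
    apply isUnit_of_ev_ne h.cone
    exact e8
  obtain ⟨v, hv⟩ := hs
  set f : stalk I p := toS c h hX a * ((v⁻¹ : (stalk I p)ˣ) : stalk I p) with hf
  have hfs : f * toS c h hX s = toS c h hX a := by
    rw [hf, ← hv, mul_assoc, Units.inv_mul, mul_one]
  have hfs' : (f : FnField I) * ioY c h hX s = ioY c h hX a := congrArg Subtype.val hfs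
  have hs0 : ioY c h hX s ≠ 0 := by
    intro h0
    have h1 : s = 0 := Subtype.ext h0
    rw [h1, map_zero] at e8
    exact e8 rfl
  have hsec : (fnRatio I c.i X.i) ^ j • sec X io (m + 1) F = (f : FnField I) • c.wm (m + 1) := by
    have h1 : wedgeD I n (fun k => io (X.z k)) = (b.toMatrix b').det • c.ω :=
      wedge_eq b b' c.wL (fun k => io (X.z k)) hb hb'
    unfold sec
    rw [h1, tprod_smul, Finset.prod_const, Finset.card_univ, Fintype.card_fin, smul_smul, smul_smul]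
    have h2 : (f : FnField I) = fnRatio I c.i X.i ^ j * io F * (b.toMatrix b').det ^ (m + 1) := by
      apply mul_right_cancel₀ hs0
      rw [hfs']
      have h3 : io F * ((b.toMatrix b').det ^ m * fnRatio I c.i X.i ^ j) * (b.toMatrix b').det *
        ioY c h hX s = ioY c h hX a := e9
      rw [← h3]; ring
    rw [h2]
    rfl
  refine ⟨f, hsec, g, ε, c2, d, e1, e2, e3, e4, e5, e6, ?_, ?_, e11⟩
  · intro ζ hζ h0
    exact e7 ζ hζ (by rw [map_mul, h0, zero_mul])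
  · have h1 := e10 0 (mem_ball_self e1)
    rw [C.s_zero] at h1
    have h2 := congrArg (ev h.cone) hfs
    rw [map_mul] at h2
    have h3 : ev h.cone (toS c h hX s) ≠ 0 := e8
    apply mul_right_cancel₀ h3
    rw [h2]
    exact h1

/-- **REGULARITY**, local form -/
theorem reg_at (hX : IsSmoothProjective I n) (X : XC I n) (io : X.B →ₐ[ℂ] FnField I)
    (hinj : Function.Injective io) (hx : ∀ l, io (X.x l) = fnRatio I X.i l)
    (m : ℕ) (j : ℤ) (F : X.B)
    (hfin : lintM X.z (fun y => ENNReal.ofReal (‖y F‖ ^ 2 * (wt X y ^ m * ns X y ^ (-j)))) < ∞)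
    {p : Fin (N + 1) → ℂ} (hp : p ∈ affineCone I) {i0 : Fin (N + 1)} (hpi : p i0 ≠ 0) :
    RegAt n (m + 1) p ((fnRatio I i0 X.i) ^ j • sec X io (m + 1) F) := by
  have hp0 : p ≠ 0 := fun h0 => hpi (by rw [h0]; rfl)
  obtain ⟨c, hc, rfl⟩ := exists_CD hX hp hp0 hpi
  obtain ⟨C⟩ := (xc c hc hX).hch (yp c hc hX)
  obtain ⟨f, hf, -⟩ := local_coeff hX X io hinj hx hc m j F (fun _ => 1) (fun _ => 1) 1 one_ne_zero C
    (fun _ _ _ _ => rfl) (fun _ => zero_le_one) (c1 := 1) (δ1 := 1) one_pos one_pos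
    (fun _ _ _ => le_rfl) (by simpa using hfin)
  exact ⟨c, hc, f, hf⟩

/-- **REGULARITY**: `L²` holomorphic functions are twisted pluricanonical sections -/
theorem reg_H0tw (hX : IsSmoothProjective I n) (X : XC I n) (io : X.B →ₐ[ℂ] FnField I)
    (hinj : Function.Injective io) (hx : ∀ l, io (X.x l) = fnRatio I X.i l)
    {F : (X.B →ₐ[ℂ] ℂ) → ℂ} (hF : Crest.Agent.R271.Ho51.Hol F) (m : ℕ) (j : ℤ)
    (hint : lintM X.z (fun y => ENNReal.ofReal (‖F y‖ ^ 2 * (wt X y ^ m * ns X y ^ (-j)))) < ∞) :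
    ∃ b : X.B, (∀ y, F y = y b) ∧ sec X io (m + 1) b ∈ H0tw I n X.i (m + 1) j := by
  obtain ⟨b, hb⟩ := alg_of_weight X hF m j hint
  refine ⟨b, hb, mem_H0tw.2 fun i hi => ?_⟩
  simp only [hb] at hint
  exact mem_chartSections_of_regAt hX hi fun p hp hpi =>
    reg_at hX X io hinj hx m j b hint hp hpi

/-- **REGULARITY**, untwisted -/
theorem reg_pluri (hX : IsSmoothProjective I n) (X : XC I n) (io : X.B →ₐ[ℂ] FnField I)
    (hinj : Function.Injective io) (hx : ∀ l, io (X.x l) = fnRatio I X.i l)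
    {F : (X.B →ₐ[ℂ] ℂ) → ℂ} (hF : Crest.Agent.R271.Ho51.Hol F) (m : ℕ)
    (hint : lintM X.z (fun y => ENNReal.ofReal (‖F y‖ ^ 2 * wt X y ^ m)) < ∞) :
    ∃ b : X.B, (∀ y, F y = y b) ∧ sec X io (m + 1) b ∈ pluricanonicalSections I n (m + 1) := by
  obtain ⟨b, h1, h2⟩ := reg_H0tw hX X io hinj hx hF m 0 (by simpa using hint)
  rw [H0tw_zero] at h2
  exact ⟨b, h1, h2⟩

end Crest.Agent.R269.Reg10_241
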