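import Crest.Agent.R269.AdjLoc_851
import Crest.Agent.R273.CLinE_933
import Crest.Agent.R269.GEll_19
import Mathlib
import Crest.Agent.R269.Dual_271
import Crest.Agent.R269.Inst_851

-- ▼ part R269/ResA_19
section

/-!
# Row 269 (S0411), Part 7 (helper19), file A: second order operators in real coordinates

* `Adj2 a φ = ∑ ∂_p ∂_p' (a_pp' φ)`, `L2 a v = ∑ a_pp' ∂_p ∂_p' v`
* `adj2_ibp` : `∫ v Adj2 a φ = ∫ φ L2 a v`
* `gen_ell2` : very weak solutions of `L2 a v + c v = f` are smooth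
* `Lop_read` : `Lop s u` in a chart
-/

set_option autoImplicit false
set_option linter.unusedSectionVars false

open MeasureTheory Filter Topology Set
open scoped ContDiff ComplexOrder

namespace Crest.Agent.R269.Res_19

open Crest.GeometryTopology.CoordMetric (pderiv)
open Crest.Agent.R202.Ell
open Crest.Agent.R269.GEll_19

noncomputable section

section real

variable {m : ℕ} {U : Set (E m)} {a : E m → Matrix (Fin m) (Fin m) ℝ}

/-- `∑ ∂_p ∂_p' (a_pp' φ)` -/
def Adj2 (a : E m → Matrix (Fin m) (Fin m) ℝ) (φ : E m → ℝ) (x : E m) : ℝ :=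
  ∑ p, pderiv p (fun y => ∑ p', pderiv p' (fun w => a w p p' * φ w) y) x

/-- `∑ a_pp' ∂_p ∂_p' v` -/
def L2 (a : E m → Matrix (Fin m) (Fin m) ℝ) (v : E m → ℝ) (x : E m) : ℝ :=
  ∑ p, ∑ p', a x p p' * pderiv p (pderiv p' v) x

theorem pderiv_sum {k : ℕ} {ι : Type*} (s : Finset ι) {φ : ι → E k → ℝ} {x : E k} (j : Fin k)
    (h : ∀ i ∈ s, DifferentiableAt ℝ (φ i) x) :
    pderiv j (fun y => ∑ i ∈ s, φ i y) x = ∑ i ∈ s, pderiv j (φ i) x := by
  unfold pderiv
  rw [fderiv_fun_sum h]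
  simp

theorem integrable_TF {φ ψ : E m → ℝ} (h : ContDiff ℝ ∞ φ) (h' : TF ψ) :
    Integrable fun x => φ x * ψ x :=
  (h.continuous.mul h'.1.continuous).integrable_of_hasCompactSupport h'.2.mul_left

theorem flux_TF (hU : IsOpen U) (ha : ∀ p p', ContDiffOn ℝ ∞ (fun x => a x p p') U) {φ : E m → ℝ}
    (hφ : TF φ) (hs : tsupport φ ⊆ U) (p p' : Fin m) : TF fun w => a w p p' * φ w :=
  hφ.smul hU hs (ha p p')

theorem Adj2_TF (hU : IsOpen U) (ha : ∀ p p', ContDiffOn ℝ ∞ (fun x => a x p p') U)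
    {φ : E m → ℝ} (hφ : TF φ) (hs : tsupport φ ⊆ U) : TF (Adj2 a φ) :=
  TF.sum Finset.univ fun p _ => TF.pd (TF.sum Finset.univ fun p' _ =>
    (flux_TF hU ha hφ hs p p').pd p') p

theorem Adj2_zero {φ : E m → ℝ} {x : E m} (hx : x ∉ tsupport φ) : Adj2 a φ x = 0 := by
  have h0 : φ =ᶠ[𝓝 x] fun _ => 0 := notMem_tsupport_iff_eventuallyEq.1 hx
  unfold Adj2
  refine Finset.sum_eq_zero fun p _ => ?_
  have h1 : (fun y => ∑ p', pderiv p' (fun w => a w p p' * φ w) y) =ᶠ[𝓝 x] fun _ => 0 := by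
    filter_upwards [h0.eventually_nhds] with y hy
    refine Finset.sum_eq_zero fun p' _ => ?_
    have h2 : (fun w => a w p p' * φ w) =ᶠ[𝓝 y] fun _ => 0 := by
      filter_upwards [hy] with w hw
      rw [hw, mul_zero]
    rw [pderiv_congr h2 p']
    simp [pderiv]
  rw [pderiv_congr h1 p]
  simp [pderiv]

/-- **integration by parts** -/
theorem adj2_ibp (hU : IsOpen U) (ha : ∀ p p', ContDiffOn ℝ ∞ (fun x => a x p p') U)
    (hsym : ∀ x ∈ U, ∀ p p', a x p p' = a x p' p)
    {φ v : E m → ℝ} (hφ : TF φ) (hs : tsupport φ ⊆ U) (hv : ContDiff ℝ ∞ v) :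
    ∫ x, v x * Adj2 a φ x = ∫ x, φ x * L2 a v x := by
  have hg : ∀ p p', TF fun w => a w p p' * φ w := flux_TF hU ha hφ hs
  have hF : ∀ p, TF fun y => ∑ p', pderiv p' (fun w => a w p p' * φ w) y := fun p =>
    TF.sum Finset.univ fun p' _ => (hg p p').pd p'
  have e1 : ∫ x, v x * Adj2 a φ x =
      ∑ p, ∫ x, v x * pderiv p (fun y => ∑ p', pderiv p' (fun w => a w p p' * φ w) y) x := by
    rw [← integral_finsetSum _ fun p _ => integrable_TF hv ((hF p).pd p)]
    refine integral_congr_ae (Eventually.of_forall fun x => ?_)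
    simp only [Adj2, Finset.mul_sum]
  have e2 : ∀ p, ∫ x, v x * pderiv p (fun y => ∑ p', pderiv p' (fun w => a w p p' * φ w) y) x =
      ∑ p', ∫ x, pderiv p' (pderiv p v) x * (a x p p' * φ x) := by
    intro p
    rw [ibpR hv (hF p).1 (hF p).2 p]
    have e3 : ∫ x, pderiv p v x * ∑ p', pderiv p' (fun w => a w p p' * φ w) x =
        ∑ p', ∫ x, pderiv p v x * pderiv p' (fun w => a w p p' * φ w) x := by
      rw [← integral_finsetSum _ fun p' _ => integrable_TF (contDiff_pderiv hv p) ((hg p p').pd p')]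
      refine integral_congr_ae (Eventually.of_forall fun x => ?_)
      simp only [Finset.mul_sum]
    rw [e3, ← Finset.sum_neg_distrib]
    refine Finset.sum_congr rfl fun p' _ => ?_
    rw [ibpR (contDiff_pderiv hv p) (hg p p').1 (hg p p').2 p', neg_neg]
  rw [e1, Finset.sum_congr rfl fun p _ => e2 p]
  have e4 : ∀ x, φ x * L2 a v x =
      ∑ p, ∑ p', pderiv p' (pderiv p v) x * (a x p p' * φ x) := by
    intro x
    by_cases hx : x ∈ U
    · unfold L2
      rw [Finset.sum_comm, Finset.mul_sum]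
      refine Finset.sum_congr rfl fun p _ => ?_
      rw [Finset.mul_sum]
      refine Finset.sum_congr rfl fun p' _ => ?_
      rw [hsym x hx p' p]
      ring
    · have h0 : φ x = 0 := image_eq_zero_of_notMem_tsupport fun h => hx (hs h)
      rw [h0]
      simp
  simp only [e4]
  rw [integral_finsetSum _ fun p _ => integrable_finsetSum _ fun p' _ =>
    integrable_TF (contDiff_pderiv (contDiff_pderiv hv p) p') (hg p p')]
  refine Finset.sum_congr rfl fun p _ => ?_
  rw [integral_finsetSum _ fun p' _ =>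
    integrable_TF (contDiff_pderiv (contDiff_pderiv hv p) p') (hg p p')]

/-- the drift which makes `div (a ∇·) + b·∇` equal to `L2 a` -/
def bdr (a : E m → Matrix (Fin m) (Fin m) ℝ) (p : Fin m) (x : E m) : ℝ :=
  - ∑ p', pderiv p' (fun w => a w p p') x

theorem Wk_eq (hU : IsOpen U) (ha : ∀ p p', ContDiffOn ℝ ∞ (fun x => a x p p') U)
    {c φ : E m → ℝ} (hφ : TF φ) (hs : tsupport φ ⊆ U) (x : E m) :
    Wk a (bdr a) c φ x = Adj2 a φ x + c x * φ x := by
  have hsp : ∀ p, tsupport (pderiv p φ) ⊆ U := fun p => (tsupport_pderiv_subset φ p).trans hs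
  have sb : ∀ p, ContDiffOn ℝ ∞ (bdr a p) U := fun p =>
    (ContDiffOn.sum fun p' _ => contDiffOn_pd hU (ha p p') p').neg
  have t1 : ∀ p, TF fun y => ∑ p', a y p p' * pderiv p' φ y := fun p =>
    TF.sum Finset.univ fun p' _ => (hφ.pd p').smul hU (hsp p') (ha p p')
  have t2 : ∀ p, TF fun y => bdr a p y * φ y := fun p => hφ.smul hU hs (sb p)
  have key : ∀ p y, ∑ p', pderiv p' (fun w => a w p p' * φ w) y =
      ∑ p', a y p p' * pderiv p' φ y + (-1) * (bdr a p y * φ y) := by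
    intro p y
    by_cases hy : y ∈ U
    · have e : ∀ p', pderiv p' (fun w => a w p p' * φ w) y =
          a y p p' * pderiv p' φ y + pderiv p' (fun w => a w p p') y * φ y := fun p' => by
        rw [pderiv_mul p' (((ha p p').contDiffAt (hU.mem_nhds hy)).differentiableAt (by simp))
          (hφ.diff y)]
        ring
      simp only [e, Finset.sum_add_distrib, bdr, ← Finset.sum_mul]
      ring
    · have hy' : y ∉ tsupport φ := fun h => hy (hs h)
      have g7 : φ y = 0 := image_eq_zero_of_notMem_tsupport hy'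
      have g8 : ∀ i, pderiv i φ y = 0 := fun i => pderiv_eq_zero_of_notMem hy' i
      have g9 : ∀ p', pderiv p' (fun w => a w p p' * φ w) y = 0 := fun p' => by
        refine pderiv_eq_zero_of_notMem (fun hc => hy' ?_) p'
        exact tsupport_mul_subset_right hc
      simp [g7, g8, g9]
  unfold Wk divA Adj2
  have e2 : ∀ p, pderiv p (fun y => ∑ p', pderiv p' (fun w => a w p p' * φ w) y) x =
      pderiv p (fun y => ∑ p', a y p p' * pderiv p' φ y) x +
        (-1) * pderiv p (fun y => bdr a p y * φ y) x := by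
    intro p
    rw [show (fun y => ∑ p', pderiv p' (fun w => a w p p' * φ w) y) = fun y =>
      ∑ p', a y p p' * pderiv p' φ y + (-1) * (bdr a p y * φ y) from funext (key p),
      pderiv_add p ((t1 p).diff x) (((t2 p).diff x).const_mul _), pderiv_const_mul p ((t2 p).diff x)]
  simp only [e2, Finset.sum_add_distrib, ← Finset.mul_sum]
  ring

/-- **very weak solutions of `∑ a_pp' ∂_p ∂_p' u + c u = f` are smooth** -/
theorem gen_ell2 (hU : IsOpen U) (ha : ∀ p p', ContDiffOn ℝ ∞ (fun x => a x p p') U)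
    (hpos : ∀ x ∈ U, (a x).PosDef) {c f u : E m → ℝ} (hc : ContDiffOn ℝ ∞ c U)
    (hf : ContDiffOn ℝ ∞ f U) (hu : LocallyIntegrableOn u U)
    (hw : ∀ φ : E m → ℝ, TF φ → tsupport φ ⊆ U →
      ∫ x, u x * (Adj2 a φ x + c x * φ x) = ∫ x, f x * φ x) :
    ∃ v : E m → ℝ, ContDiffOn ℝ ∞ v U ∧ (∀ᵐ x, x ∈ U → v x = u x) ∧
      ∀ x ∈ U, L2 a v x + c x * v x = f x := by
  have hsym : ∀ x ∈ U, ∀ p p', a x p p' = a x p' p := by
    intro x hx p p'
    have h := (hpos x hx).isHermitian.apply p' p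
    rw [star_trivial] at h
    exact h
  have sb : ∀ p, ContDiffOn ℝ ∞ (bdr a p) U := fun p =>
    (ContDiffOn.sum fun p' _ => contDiffOn_pd hU (ha p p') p').neg
  obtain ⟨v, hv, hvu, hve⟩ := gen_ell (b := bdr a) ⟨hU, ha, hpos, sb, hc⟩ hf hu (by
    intro φ h1 h2 h3
    rw [← hw φ ⟨h1, h2⟩ h3]
    refine integral_congr_ae (Eventually.of_forall fun x => ?_)
    simp only [Wk_eq hU ha ⟨h1, h2⟩ h3])
  refine ⟨v, hv, hvu, fun x hx => ?_⟩
  rw [← hve x hx]
  have e1 : ∀ p, pderiv p (fun y => ∑ p', a y p p' * pderiv p' v y) x =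
      ∑ p', (a x p p' * pderiv p (pderiv p' v) x + pderiv p (fun w => a w p p') x *
        pderiv p' v x) := by
    intro p
    have d1 : ∀ p', DifferentiableAt ℝ (fun w => a w p p') x := fun p' =>
      ((ha p p').contDiffAt (hU.mem_nhds hx)).differentiableAt (by simp)
    have d2 : ∀ p', DifferentiableAt ℝ (pderiv p' v) x := fun p' =>
      ((contDiffOn_pd hU hv p').contDiffAt (hU.mem_nhds hx)).differentiableAt (by simp)
    have d3 : ∀ p' ∈ (Finset.univ : Finset (Fin m)),
        DifferentiableAt ℝ (fun y => a y p p' * pderiv p' v y) x := fun p' _ => (d1 p').mul (d2 p')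
    rw [pderiv_sum Finset.univ p d3]
    refine Finset.sum_congr rfl fun p' _ => ?_
    rw [pderiv_mul p (d1 p') (d2 p')]
    ring
  have e2 : ∑ p, ∑ p', pderiv p (fun w => a w p p') x * pderiv p' v x =
      - ∑ p, bdr a p x * pderiv p v x := by
    rw [Finset.sum_comm, ← Finset.sum_neg_distrib]
    refine Finset.sum_congr rfl fun p' _ => ?_
    unfold bdr
    rw [neg_mul, neg_neg, Finset.sum_mul]
    refine Finset.sum_congr rfl fun p _ => ?_
    congr 1
    refine pderiv_congr ?_ p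
    filter_upwards [hU.mem_nhds hx] with w hw
    exact hsym w hw p p'
  unfold divA L2
  simp only [e1, Finset.sum_add_distrib]
  rw [e2]
  ring

end real

/-! ### charts -/

section chart

open Crest.Agent.R275 Crest.Agent.R275.Geo Crest.Agent.R275.Core144 Crest.Agent.R275.EDR890
open Crest.Agent.R275.Pai323 Crest.Agent.R275.C1d194
open Crest.Agent.R273.SchE_152 Crest.Agent.R273.SchB_152
open Crest.Agent.R273.Defs_333 Crest.Agent.R273.Vm_333 Crest.Agent.R273.Kah_333
open Crest.Agent.R273.Hess_333 Crest.Agent.R273.HessB_333 Crest.Agent.R273.HM_333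
open Crest.Agent.R273.Vol_333 Crest.Agent.R273.Green_5 Crest.Agent.R273.GreenM_5
open Crest.Agent.R273.YauDefs_635 (cH)
open Crest.Agent.R273.YauMax_635 (cH_eq_hess)
open Crest.Agent.R273.CLin_933 (ER sT UT tT sT_mem isOpen_UT tT_mem sT_tT tT_sT smooth_sT
  tau_posDef tau_smooth tl_contDiff tl_symm_contDiff)
open Crest.Agent.R269.Fld_851 Crest.Agent.R269.Adj_851 Crest.Agent.R269.AdjLoc_851

variable {n : ℕ} {M : Type} [TopologicalSpace M] {A : Atl n M}

/-- the transposed matrix of the field in the chart -/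
def Gs (A : Atl n M) (s : A.ι → M → Matrix (Fin n) (Fin n) ℂ) (i : A.ι) (z : Cn n) :
    Matrix (Fin n) (Fin n) ℂ := (s i ((A.e i).symm z)).transpose

/-- the real matrix of the field in the chart -/
def ta (A : Atl n M) (s : A.ι → M → Matrix (Fin n) (Fin n) ℂ) (i : A.ι) (ξ : ER n) :
    Matrix (Fin (n * 2)) (Fin (n * 2)) ℝ := tau (Gs A s i (Tl n ξ))

theorem ta_smooth {s : A.ι → M → Matrix (Fin n) (Fin n) ℂ} (hs : IsFld A s) (i : A.ι)
    (p p' : Fin (n * 2)) : ContDiffOn ℝ ∞ (fun ξ => ta A s i ξ p p') (UT A i) :=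
  tau_smooth (G := Gs A s i) (fun a b => hs.sm i b a) p p'

theorem ta_pos {s : A.ι → M → Matrix (Fin n) (Fin n) ℂ} {i : A.ι}
    (hp : ∀ x ∈ (A.e i).source, (s i x).PosDef) {ξ : ER n} (hξ : ξ ∈ UT A i) :
    (ta A s i ξ).PosDef := tau_posDef (hp _ ((A.e i).map_target hξ)).transpose

theorem ta_symm {s : A.ι → M → Matrix (Fin n) (Fin n) ℂ} (hs : IsFld A s) (i : A.ι) (ξ : ER n)
    (p p' : Fin (n * 2)) : ta A s i ξ p p' = ta A s i ξ p' p :=
  tau_symm (hs.herm i _).transpose p p'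

theorem P2_eq_L2 {a : ER n → Matrix (Fin (n * 2)) (Fin (n * 2)) ℝ} {h : ER n → ℝ} {ξ : ER n}
    (hh : DifferentiableAt ℝ (fderiv ℝ h) ξ) : P2 a h ξ = L2 a h ξ := by
  unfold P2 L2
  refine Finset.sum_congr rfl fun p _ => Finset.sum_congr rfl fun p' _ => ?_
  congr 1
  unfold pderiv
  rw [fderiv_clm_apply hh (differentiableAt_const _)]
  simp [Crest.Agent.R238.Sch.D2, Crest.Agent.R238.Sch.ee]

/-- `Lop s u` in a chart, for a function `u` which is read as `g` near the point -/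
theorem Lop_read {s : A.ι → M → Matrix (Fin n) (Fin n) ℂ} (hs : IsFld A s) {u : M → ℝ}
    (hu : A.Sm u) (i : A.ι) {ξ : ER n} (hξ : ξ ∈ UT A i) :
    Lop s u (sT A i ξ) = L2 (ta A s i) (fun ξ => u (sT A i ξ)) ξ := by
  have hx : sT A i ξ ∈ (A.e i).source := sT_mem hξ
  have h1 : ContDiffAt ℝ ∞ (fun z => u ((A.e i).symm z)) (Tl n ξ) :=
    (hu i).contDiffAt ((A.e i).open_target.mem_nhds hξ)
  have h2 : ContDiffAt ℝ ∞ (fun ξ => u (sT A i ξ)) ξ :=
    (smooth_sT hu i).contDiffAt ((isOpen_UT i).mem_nhds hξ)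
  have hd : DifferentiableAt ℝ (fderiv ℝ (fun z => u ((A.e i).symm z))) (Tl n ξ) :=
    ((h1.of_le (Crest.Agent.R273.CLin_933.two_le_inf)).fderiv_right (m := 1)
      (by norm_num)).differentiableAt (by norm_num)
  have hd2 : DifferentiableAt ℝ (fderiv ℝ (fun ξ => u (sT A i ξ))) ξ :=
    ((h2.of_le (Crest.Agent.R273.CLin_933.two_le_inf)).fderiv_right (m := 1)
      (by norm_num)).differentiableAt (by norm_num)
  rw [← P2_eq_L2 hd2]
  have h3 := P2_tau (G := Gs A s i) hd
  refine Eq.trans ?_ h3.symm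
  rw [cH_eq_hess h1]
  unfold Lop
  rw [trF_eq hs.tc (hsf_tn hu) hx]
  congr 1
  unfold prF
  rw [Matrix.trace]
  simp only [Matrix.diag, Matrix.mul_apply]
  rw [Finset.sum_comm]
  refine Finset.sum_congr rfl fun b _ => Finset.sum_congr rfl fun a _ => ?_
  have e1 : Gs A s i (Tl n ξ) b a = s i (sT A i ξ) a b := rfl
  rw [e1]
  congr 1
  exact congrFun (congrFun (hsf_read u i hξ) a) b

end chart

end

end Crest.Agent.R269.Res_19
end

-- ▼ part R269/ResB_19
section

/-!
# Row 269 (S0411), Part 7 (helper19), file B: the adjoint in charts, maximum principle, coercivity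

* `exR K i ψ` : the function `ψ / w` of the chart `i`, extended by zero
* `int_exR`   : `∫_M g exR ψ dV = ∫ g(sT ξ) ψ ξ dξ`
* `rho_exR`   : `ρ_{exR ψ · s} = exR (Adj2 (ta s) ψ)`
* `Lop_nonneg_of_min`, `Lop_sq` : `Lop s (w²) ≥ 2 w Lop s w`
-/

set_option autoImplicit false
set_option linter.unusedSectionVars false

open MeasureTheory Filter Topology Set
open scoped ContDiff ComplexOrder Manifold

namespace Crest.Agent.R269.Res_19

open Crest.GeometryTopology.CoordMetric (pderiv)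
open Crest.Agent.R202.Ell
open Crest.Agent.R269.GEll_19

noncomputable section

section real

variable {m : ℕ} {U : Set (E m)} {a : E m → Matrix (Fin m) (Fin m) ℝ}

/-- cutoff functions -/
theorem exists_cut (hU : IsOpen U) {φ : E m → ℝ} (hφ : TF φ) (hs : tsupport φ ⊆ U) :
    ∃ χ : E m → ℝ, TF χ ∧ tsupport χ ⊆ U ∧ ∀ x ∈ tsupport φ, ∀ᶠ y in 𝓝 x, χ y = 1 := by
  obtain ⟨L, hL, h1, h2⟩ := exists_compact_between hφ.2 hU hs
  obtain ⟨f, hf1, hf2, -⟩ := exists_contMDiffMap_one_nhds_of_subset_interior (I := 𝓘(ℝ, E m))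
    (n := (⊤ : ℕ∞)) (s := tsupport φ) (t := L) (isClosed_tsupport φ) h1
  have h3 : tsupport f ⊆ L := closure_minimal (fun x hx => by
    by_contra h
    exact hx (hf2 x h)) hL.isClosed
  refine ⟨f, ⟨f.contMDiff.contDiff, hL.of_isClosed_subset (isClosed_tsupport _) h3⟩,
    h3.trans h2, fun x hx => ?_⟩
  exact (eventually_nhdsSet_iff_forall.1 hf1) x hx

/-- **integration by parts**, `v` smooth on `U` only -/
theorem adj2_ibpOn (hU : IsOpen U) (ha : ∀ p p', ContDiffOn ℝ ∞ (fun x => a x p p') U)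
    (hsym : ∀ x ∈ U, ∀ p p', a x p p' = a x p' p)
    {φ v : E m → ℝ} (hφ : TF φ) (hs : tsupport φ ⊆ U) (hv : ContDiffOn ℝ ∞ v U) :
    ∫ x, v x * Adj2 a φ x = ∫ x, φ x * L2 a v x := by
  obtain ⟨χ, h1, h2, h3⟩ := exists_cut hU hφ hs
  have hw : TF fun x => v x * χ x := h1.smul hU h2 hv
  have h4 : ∀ x ∈ tsupport φ, (fun x => v x * χ x) =ᶠ[𝓝 x] v := fun x hx => by
    filter_upwards [h3 x hx] with y hy
    rw [hy, mul_one]
  have h5 := adj2_ibp hU ha hsym hφ hs hw.1
  have e1 : ∫ x, v x * χ x * Adj2 a φ x = ∫ x, v x * Adj2 a φ x := by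
    refine integral_congr_ae (Eventually.of_forall fun x => ?_)
    simp only
    by_cases hx : x ∈ tsupport φ
    · rw [(h4 x hx).eq_of_nhds]
    · rw [Adj2_zero hx, mul_zero, mul_zero]
  have e2 : ∫ x, φ x * L2 a (fun x => v x * χ x) x = ∫ x, φ x * L2 a v x := by
    refine integral_congr_ae (Eventually.of_forall fun x => ?_)
    simp only
    by_cases hx : x ∈ tsupport φ
    · congr 1
      unfold L2
      refine Finset.sum_congr rfl fun p _ => Finset.sum_congr rfl fun p' _ => ?_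
      congr 1
      refine pderiv_congr ?_ p
      filter_upwards [(h4 x hx).eventually_nhds] with y hy
      exact pderiv_congr hy p'
    · rw [image_eq_zero_of_notMem_tsupport hx, zero_mul, zero_mul]
  rw [← e1, h5, e2]

theorem Adj2_tsupport {φ : E m → ℝ} : tsupport (Adj2 a φ) ⊆ tsupport φ :=
  closure_minimal (fun x hx => by
    by_contra h
    exact hx (Adj2_zero h)) (isClosed_tsupport φ)

end real

/-! ### the manifold -/

section chart

open Crest.Agent.R275 Crest.Agent.R275.Geo Crest.Agent.R275.Core144 Crest.Agent.R275.EDR890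
open Crest.Agent.R275.Pai323 Crest.Agent.R275.C1d194
open Crest.Agent.R273.SchE_152 Crest.Agent.R273.SchB_152
open Crest.Agent.R273.Defs_333 Crest.Agent.R273.Vm_333 Crest.Agent.R273.Kah_333
open Crest.Agent.R273.Hess_333 Crest.Agent.R273.HessB_333 Crest.Agent.R273.HM_333
open Crest.Agent.R273.Vol_333 Crest.Agent.R273.Green_5 Crest.Agent.R273.GreenM_5
open Crest.Agent.R273.YauDefs_635 (cH)
open Crest.Agent.R273.YauMax_635 (cH_eq_hess)
open Crest.Agent.R273
open Crest.Agent.R273.CLin_933 (ER sT UT tT sT_mem isOpen_UT tT_mem sT_tT tT_sT smooth_sT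
  tau_posDef tau_smooth tl_contDiff tl_symm_contDiff ext0 ext0_mem ext0_off ext0_sm ext0_read
  int_vm lint_vm ae_of_chart continuousOn_sT)
open Crest.Agent.R269.Fld_851 Crest.Agent.R269.Adj_851 Crest.Agent.R269.AdjLoc_851

variable {n : ℕ} {M : Type} [TopologicalSpace M] {A : Atl n M}

/-- the density in the chart -/
def W (K : Kah A) (i : A.ι) (ξ : ER n) : ℝ := (volK K).w i (sT A i ξ)

theorem W_pos (K : Kah A) {i : A.ι} {ξ : ER n} (hξ : ξ ∈ UT A i) : 0 < W K i ξ :=
  (volK K).pos i _ (sT_mem hξ)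

theorem W_smooth (K : Kah A) (i : A.ι) : ContDiffOn ℝ ∞ (W K i) (UT A i) := by
  have h1 : ContDiffOn ℝ ∞ (fun z => (volK K).w i ((A.e i).symm z)) (A.e i).target :=
    (volK K).sm i
  exact h1.comp (tl_contDiff (k := ∞)).contDiffOn fun _ h => h

/-- `ψ / w`, extended by zero -/
def exR (K : Kah A) (i : A.ι) (ψ : ER n → ℝ) : M → ℝ :=
  ext0 A i (fun z => (W K i ((Tl n).symm z))⁻¹ * ψ ((Tl n).symm z))

theorem exR_read (K : Kah A) {i : A.ι} (ψ : ER n → ℝ) {ξ : ER n} (hξ : ξ ∈ UT A i) :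
    exR K i ψ (sT A i ξ) = (W K i ξ)⁻¹ * ψ ξ := by
  unfold exR
  have h1 := ext0_read (A := A) (i := i)
    (φ := fun z => (W K i ((Tl n).symm z))⁻¹ * ψ ((Tl n).symm z)) (z := Tl n ξ) hξ
  rw [LinearIsometryEquiv.symm_apply_apply] at h1
  exact h1

theorem exR_off (K : Kah A) {i : A.ι} (ψ : ER n → ℝ) {x : M} (hx : x ∉ (A.e i).source) :
    exR K i ψ x = 0 := ext0_off hx

theorem exR_aux (K : Kah A) {i : A.ι} {ψ : ER n → ℝ} (hψ : TF ψ) (hs : tsupport ψ ⊆ UT A i) :
    TF fun ξ => (W K i ξ)⁻¹ * ψ ξ :=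
  hψ.smul (isOpen_UT i) hs ((W_smooth K i).inv fun _ hξ => (W_pos K hξ).ne')

theorem exR_sm [T2Space M] (K : Kah A) {i : A.ι} {ψ : ER n → ℝ} (hψ : TF ψ)
    (hs : tsupport ψ ⊆ UT A i) : A.Sm (exR K i ψ) := by
  have h1 := exR_aux K hψ hs
  have h2 : tsupport (fun ξ => (W K i ξ)⁻¹ * ψ ξ) ⊆ UT A i :=
    (tsupport_mul_subset_right).trans hs
  refine ext0_sm ?_ ?_ ?_
  · exact h1.1.comp (tl_symm_contDiff (k := ∞))
  · exact h1.2.comp_homeomorph (Tl n).symm.toHomeomorph
  · intro z hz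
    have h3 : (Tl n).symm z ∈ tsupport (fun ξ => (W K i ξ)⁻¹ * ψ ξ) := by
      have := tsupport_comp_subset_preimage (fun ξ => (W K i ξ)⁻¹ * ψ ξ)
        (Tl n).symm.continuous hz
      exact this
    have h4 := h2 h3
    change Tl n ((Tl n).symm z) ∈ (A.e i).target at h4
    rwa [LinearIsometryEquiv.apply_symm_apply] at h4

section meas

variable [T2Space M] [CompactSpace M] [MeasurableSpace M] [BorelSpace M] [Finite A.ι]

theorem int_exR (K : Kah A) {i : A.ι} {ψ : ER n → ℝ} (hψ : TF ψ) (hs : tsupport ψ ⊆ UT A i)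
    {g : M → ℝ} (hg : AEStronglyMeasurable g (vm (volK K))) :
    ∫ x, g x * exR K i ψ x ∂(vm (volK K)) = ∫ ξ : ER n, g (sT A i ξ) * ψ ξ := by
  have hm : AEStronglyMeasurable (fun x => g x * exR K i ψ x) (vm (volK K)) :=
    hg.mul (sm_continuous (exR_sm K hψ hs)).aestronglyMeasurable
  have e1 : ∫ x in (A.e i).source, g x * exR K i ψ x ∂(vm (volK K)) =
      ∫ x, g x * exR K i ψ x ∂(vm (volK K)) :=
    setIntegral_eq_integral_of_forall_compl_eq_zero fun x hx => by
      rw [exR_off K ψ hx, mul_zero]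
  rw [← e1, int_vm (volK K) i hm]
  have e2 : ∀ ξ : ER n, ξ ∉ UT A i → g (sT A i ξ) * ψ ξ = 0 := fun ξ hξ => by
    rw [image_eq_zero_of_notMem_tsupport fun h => hξ (hs h), mul_zero]
  rw [← setIntegral_eq_integral_of_forall_compl_eq_zero e2]
  refine setIntegral_congr_fun (isOpen_UT i).measurableSet fun ξ hξ => ?_
  have h1 : (volK K).w i (sT A i ξ) = W K i ξ := rfl
  have h2 := (W_pos K hξ).ne'
  simp only [smul_eq_mul, exR_read K ψ hξ, h1]
  field_simp

/-- **the adjoint in a chart** -/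
theorem rho_exR (K : Kah A) (P : Part A) {s : A.ι → M → Matrix (Fin n) (Fin n) ℂ}
    (hs : IsFld A s) {i : A.ι} {ψ : ER n → ℝ} (hψ : TF ψ) (hsu : tsupport ψ ⊆ UT A i) (x : M) :
    rho K P (fs (exR K i ψ) s) x = exR K i (Adj2 (ta A s i) ψ) x := by
  have hw := exR_sm K hψ hsu
  have ha : TF (Adj2 (ta A s i) ψ) := Adj2_TF (isOpen_UT i) (ta_smooth hs i) hψ hsu
  have has : tsupport (Adj2 (ta A s i) ψ) ⊆ UT A i := Adj2_tsupport.trans hsu
  refine rho_unique K P (isFld_fs hw hs) (sm_continuous (exR_sm K ha has)) (fun u hu => ?_) x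
  rw [int_exR K ha has (sm_continuous hu).aestronglyMeasurable,
    adj2_ibpOn (isOpen_UT i) (ta_smooth hs i) (fun ξ _ p p' => ta_symm hs i ξ p p') hψ hsu
      (smooth_sT hu i)]
  have e1 : (fun x => Lop (fs (exR K i ψ) s) u x) = fun x => Lop s u x * exR K i ψ x :=
    funext fun x => by rw [Lop_fs, mul_comm]
  change ∫ x, (fun x => Lop (fs (exR K i ψ) s) u x) x ∂_ = _
  rw [e1, int_exR K hψ hsu (sm_continuous (sm_Lop hs hu)).aestronglyMeasurable]
  refine integral_congr_ae (Eventually.of_forall fun ξ => ?_)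
  simp only
  by_cases hξ : ξ ∈ UT A i
  · rw [Lop_read hs hu i hξ, mul_comm]
  · rw [image_eq_zero_of_notMem_tsupport fun h => hξ (hsu h), mul_zero, zero_mul]

/-! ### maximum principle -/

theorem Lop_nonneg_of_min {s : A.ι → M → Matrix (Fin n) (Fin n) ℂ} {u : M → ℝ} (hu : A.Sm u)
    {x : M} (hp : (s (ci A x) x).PosSemidef) (hm : IsLocalMin u x) : 0 ≤ Lop s u x := by
  have hx := mem_ci (A := A) x
  have hz := (A.e (ci A x)).map_source hx
  refine trF_nonneg hp ?_
  exact posSemidef_hess (YauMax_635.inC_contDiffAt hu _ hz)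
    (YauMax_635.lev_nonneg_of_localMin (YauCh_635.inC_c2 hu _ hz)
      (YauMax_635.inC_localMin hm hx))

theorem Lop_add' (s : A.ι → M → Matrix (Fin n) (Fin n) ℂ) {u v : M → ℝ} (hu : A.Sm u)
    (hv : A.Sm v) (x : M) : Lop s (fun y => u y + v y) x = Lop s u x + Lop s v x :=
  Lop_add_right s hu hv x

theorem Lop_smul' (c : ℝ) (s : A.ι → M → Matrix (Fin n) (Fin n) ℂ) {u : M → ℝ} (hu : A.Sm u)
    (x : M) : Lop s (fun y => c * u y) x = c * Lop s u x := Lop_smul_right c s hu x

theorem sm_mulR {u v : M → ℝ} (hu : A.Sm u) (hv : A.Sm v) : A.Sm (fun x => u x * v x) :=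
  fun i => ContDiffOn.mul (hu i) (hv i)

theorem sm_constR (c : ℝ) : A.Sm (fun _ : M => c) := fun _ => contDiffOn_const

theorem sm_addR {u v : M → ℝ} (hu : A.Sm u) (hv : A.Sm v) : A.Sm (fun x => u x + v x) :=
  fun i => ContDiffOn.add (hu i) (hv i)

/-- `Lop s (w²) ≥ 2 w Lop s w` -/
theorem Lop_sq {s : A.ι → M → Matrix (Fin n) (Fin n) ℂ} {w : M → ℝ} (hw : A.Sm w)
    {x : M} (hp : (s (ci A x) x).PosSemidef) :
    2 * w x * Lop s w x ≤ Lop s (fun y => w y * w y) x := by
  have h1 : A.Sm fun y => w y * w y + ((-(2 * w x)) * w y + w x ^ 2) :=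
    sm_addR (sm_mulR hw hw) (sm_addR (sm_mulR (sm_constR _) hw) (sm_constR _))
  have h2 : IsLocalMin (fun y => w y * w y + ((-(2 * w x)) * w y + w x ^ 2)) x := by
    refine Eventually.of_forall fun y => ?_
    simp only
    nlinarith [sq_nonneg (w y - w x)]
  have h3 := Lop_nonneg_of_min h1 hp h2
  rw [Lop_add' s (sm_mulR hw hw) (sm_addR (sm_mulR (sm_constR _) hw) (sm_constR _)),
    Lop_add' s (sm_mulR (sm_constR _) hw) (sm_constR _), Lop_smul' _ s hw, Lop_const] at h3
  linarith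

end meas

end chart

end

end Crest.Agent.R269.Res_19
end

-- ▼ part R269/DualAsm_411
section

/-!
Row 269, leaf DUALASM: the assembly of (8.2), (8.3) and of (12.1) of `Blueprint_646` over an abstract
interface.

* `X` compact Hausdorff (Borel), `μ` a finite measure (`= dV`);
* `V` a real vector space (smooth Hermitian fields), `S ⊆ V` the cone of smooth positive fields;
* `m s = (det_g s)^{1/n}`, `A s = tr (s (α + ε ω))`, `ρ s = L_s^* 1`;
* `Sm` the set of smooth functions, `L s u = tr (s L u)`.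
-/

set_option autoImplicit false
noncomputable section

open MeasureTheory Set

namespace Crest.Agent.R269.DualAsm_411

variable {X : Type*} [TopologicalSpace X] [CompactSpace X] [T2Space X] [MeasurableSpace X]
  [BorelSpace X]
variable {V : Type*} [AddCommGroup V] [Module ℝ V]






section Resolvent

variable {Y : Type*} [TopologicalSpace Y] [CompactSpace Y]

/-- **(7.4)**, abstract form.  If the approximate resolvent equation `Λ u - L u ≈ g` is solvable in
`Sm` for every `g ∈ Sm`, then so is `lam u - L u ≈ g` for `0 < lam ≤ Λ`, by the maximum principle. -/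
theorem res74 (Sm : Submodule ℝ C(Y, ℝ)) (L : Sm →ₗ[ℝ] C(Y, ℝ)) (Λ : ℝ)
    (MP : ∀ v : Sm, ∀ M : ℝ, 0 ≤ M → (∀ x, Λ * (v : C(Y, ℝ)) x - L v x ≤ M) →
      ∀ x, Λ * (v : C(Y, ℝ)) x ≤ M)
    (hsolve : ∀ g : Sm, ∀ δ : ℝ, 0 < δ → ∃ u : Sm,
      ∀ x, |Λ * (u : C(Y, ℝ)) x - L u x - (g : C(Y, ℝ)) x| ≤ δ)
    (lam : ℝ) (h0 : 0 < lam) (h1 : lam ≤ Λ) (g : Sm) (δ : ℝ) (hδ : 0 < δ) :
    ∃ u : Sm, ∀ x, |lam * (u : C(Y, ℝ)) x - L u x - (g : C(Y, ℝ)) x| ≤ δ := by
  have hΛ : 0 < Λ := h0.trans_le h1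
  -- two-sided maximum principle
  have MP2 : ∀ v : Sm, ∀ M : ℝ, 0 ≤ M → (∀ x, |Λ * (v : C(Y, ℝ)) x - L v x| ≤ M) →
      ∀ x, |Λ * (v : C(Y, ℝ)) x| ≤ M := by
    intro v M hM hv x
    rw [abs_le]
    constructor
    · have h2 := MP (-v) M hM (fun y => by
        have := (abs_le.mp (hv y)).1
        simp only [map_neg, Submodule.coe_neg, ContinuousMap.neg_apply]
        linarith) x
      simp only [Submodule.coe_neg, ContinuousMap.neg_apply] at h2
      linarith
    · exact MP v M hM (fun y => (abs_le.mp (hv y)).2) x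
  -- the ratio
  set q : ℝ := (Λ - lam) / Λ with hq
  have hq0 : 0 ≤ q := div_nonneg (by linarith) hΛ.le
  have hq1 : q < 1 := by
    rw [hq, div_lt_one hΛ]
    linarith
  have hqΛ : q * Λ = Λ - lam := by
    rw [hq]
    field_simp
  -- the error
  set e : ℝ := δ * lam / (4 * Λ) with he
  have he0 : 0 < e := by positivity
  choose R hR using fun g' : Sm => hsolve g' e he0
  -- the iteration
  obtain ⟨u, huS⟩ : ∃ u : ℕ → Sm, ∀ j, u (j + 1) = R (g + (Λ - lam) • u j) :=
    ⟨fun j => Nat.rec (0 : Sm) (fun _ v => R (g + (Λ - lam) • v)) j, fun j => rfl⟩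
  have hu : ∀ j x, |Λ * (u (j + 1) : C(Y, ℝ)) x - L (u (j + 1)) x -
      ((g : C(Y, ℝ)) x + (Λ - lam) * (u j : C(Y, ℝ)) x)| ≤ e := by
    intro j x
    have h2 := hR (g + (Λ - lam) • u j) x
    rw [← huS] at h2
    simp only [Submodule.coe_add, Submodule.coe_smul, ContinuousMap.add_apply,
      ContinuousMap.smul_apply, smul_eq_mul] at h2
    exact h2
  -- bound of the first step
  obtain ⟨K, hK0, hK⟩ : ∃ K : ℝ, 0 ≤ K ∧ ∀ x, |Λ * ((u 1 : C(Y, ℝ)) x - (u 0 : C(Y, ℝ)) x)| ≤ K := by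
    refine ⟨‖Λ • ((u 1 : C(Y, ℝ)) - (u 0 : C(Y, ℝ)))‖, norm_nonneg _, fun x => ?_⟩
    exact (Λ • ((u 1 : C(Y, ℝ)) - (u 0 : C(Y, ℝ)))).norm_coe_le_norm x
  -- contraction
  have hcon : ∀ j x, |Λ * ((u (j + 1) : C(Y, ℝ)) x - (u j : C(Y, ℝ)) x)| ≤
      q ^ j * K + 2 * e / (1 - q) := by
    have h1q : 0 < 1 - q := by linarith
    intro j
    induction j with
    | zero =>
      intro x
      have := hK x
      have h3 : 0 ≤ 2 * e / (1 - q) := by positivity
      simp only [pow_zero, one_mul]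
      linarith
    | succ j ih =>
      intro x
      have hM : 0 ≤ q * (q ^ j * K + 2 * e / (1 - q)) + 2 * e := by positivity
      have h2 := MP2 (u (j + 2) - u (j + 1)) _ hM (fun y => by
        have h3 := hu (j + 1) y
        have h4 := hu j y
        have h5 := ih y
        have h6 : |(Λ - lam) * ((u (j + 1) : C(Y, ℝ)) y - (u j : C(Y, ℝ)) y)| ≤
            q * (q ^ j * K + 2 * e / (1 - q)) := by
          rw [← hqΛ, mul_assoc, abs_mul, abs_of_nonneg hq0]
          exact mul_le_mul_of_nonneg_left h5 hq0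
        simp only [map_sub, AddSubgroupClass.coe_sub, ContinuousMap.sub_apply]
        rw [abs_le] at h3 h4 h6 ⊢
        constructor <;> nlinarith) x
      simp only [AddSubgroupClass.coe_sub, ContinuousMap.sub_apply] at h2
      refine h2.trans (le_of_eq ?_)
      rw [pow_succ]
      field_simp
      ring
  -- choose `j` large
  obtain ⟨j, hj⟩ : ∃ j : ℕ, q ^ j * K ≤ δ / 4 := by
    rcases eq_or_lt_of_le hK0 with hK0' | hK0'
    · exact ⟨0, by rw [← hK0']; simp; linarith⟩
    · obtain ⟨j, hj⟩ := exists_pow_lt_of_lt_one (show 0 < δ / (4 * K) by positivity) hq1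
      refine ⟨j, ?_⟩
      have := (lt_div_iff₀ (show 0 < 4 * K by positivity)).mp hj
      nlinarith
  refine ⟨u (j + 1), fun x => ?_⟩
  have h3 := hu j x
  have h4 := hcon j x
  have h5 : |(Λ - lam) * ((u (j + 1) : C(Y, ℝ)) x - (u j : C(Y, ℝ)) x)| ≤
      q * (q ^ j * K + 2 * e / (1 - q)) := by
    rw [← hqΛ, mul_assoc, abs_mul, abs_of_nonneg hq0]
    exact mul_le_mul_of_nonneg_left h4 hq0
  have h1q : 1 - q = lam / Λ := by
    rw [hq]
    field_simp
    ring
  have h6 : 2 * e / (1 - q) = δ / 2 := by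
    rw [h1q, he]
    field_simp
    ring
  have h7 : q * (q ^ j * K + 2 * e / (1 - q)) ≤ δ / 4 + δ / 2 := by
    rw [h6]
    have : 0 ≤ q ^ j * K + δ / 2 := by positivity
    nlinarith
  have h8 : e ≤ δ / 4 := by
    rw [he, div_le_div_iff₀ (by positivity) (by positivity)]
    nlinarith
  rw [abs_le] at h3 h5 ⊢
  constructor <;> nlinarith

end Resolvent

end Crest.Agent.R269.DualAsm_411
end
end

-- ▼ part R269/ResC_19

/-!
# Row 269 (S0411), Part 7 (helper19), file C: the resolvent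

* `weak_solR`   : very weak solutions of `c u - Lop s u = f` for large `c`
* `resolvent_large` : smooth exact solutions of `c u - Lop s u = f` for large smooth `c`
* `resolvent`   : for every positive field `s`, every smooth `q > 0`, every smooth `h` and `δ > 0`
  there is a smooth `u` with `|q u - Lop s u - h| ≤ δ`
* `hres_rt`, `hres_one` : the hypotheses `hres` of `DualAsm_128` for `Inst_851.pack`
-/

set_option autoImplicit false
set_option linter.unusedSectionVars false

open MeasureTheory Filter Topology Set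
open scoped ContDiff ComplexOrder Manifold

namespace Crest.Agent.R269.Res_19

open Crest.GeometryTopology.CoordMetric (pderiv)
open Crest.Agent.R202.Ell
open Crest.Agent.R269.GEll_19
open Crest.Agent.R275 Crest.Agent.R275.Geo Crest.Agent.R275.Core144 Crest.Agent.R275.EDR890
open Crest.Agent.R275.Pai323 Crest.Agent.R275.C1d194
open Crest.Agent.R273.SchE_152 Crest.Agent.R273.SchB_152
open Crest.Agent.R273.Defs_333 Crest.Agent.R273.Vm_333 Crest.Agent.R273.Kah_333
open Crest.Agent.R273.Hess_333 Crest.Agent.R273.HessB_333 Crest.Agent.R273.HM_333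
open Crest.Agent.R273.Vol_333 Crest.Agent.R273.Green_5 Crest.Agent.R273.GreenM_5
open Crest.Agent.R273.YauDefs_635 (cH)
open Crest.Agent.R273.YauMax_635 (cH_eq_hess)
open Crest.Agent.R273
open Crest.Agent.R273.CLin_933 (ER sT UT tT sT_mem isOpen_UT tT_mem sT_tT tT_sT smooth_sT
  tau_posDef tau_smooth tl_contDiff tl_symm_contDiff ext0 ext0_mem ext0_off ext0_sm ext0_read
  int_vm lint_vm ae_of_chart continuousOn_sT SmS ll memLp_cont inner_ll norm_ll_sq abs_int_mul_le
  riesz_range int_cont loc_int)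
open Crest.Agent.R269.Fld_851 Crest.Agent.R269.Adj_851 Crest.Agent.R269.AdjLoc_851

noncomputable section

variable {n : ℕ} {M : Type} [TopologicalSpace M] {A : Atl n M}
variable [T2Space M] [CompactSpace M] [MeasurableSpace M] [BorelSpace M] [Finite A.ι]

/-- the formal adjoint of `c - Lop s` -/
def TT (K : Kah A) (P : Part A) (s : A.ι → M → Matrix (Fin n) (Fin n) ℂ) (c w : M → ℝ)
    (x : M) : ℝ := c x * w x - rho K P (fs w s) x

theorem fs_add (w w' : M → ℝ) (s : A.ι → M → Matrix (Fin n) (Fin n) ℂ) :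
    fs (fun x => w x + w' x) s = fs w s + fs w' s := by
  funext i x
  change (((w x + w' x : ℝ) : ℂ)) • s i x = ((w x : ℂ)) • s i x + ((w' x : ℂ)) • s i x
  rw [Complex.ofReal_add, add_smul]

theorem fs_smul (c : ℝ) (w : M → ℝ) (s : A.ι → M → Matrix (Fin n) (Fin n) ℂ) :
    fs (fun x => c * w x) s = c • fs w s := by
  funext i x
  ext a b
  change ((((c * w x : ℝ) : ℂ)) • s i x) a b = (c • (((w x : ℂ)) • s i x)) a b
  simp only [Matrix.smul_apply, smul_eq_mul, Complex.ofReal_mul, Complex.real_smul]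
  ring

theorem sm_TT (K : Kah A) (P : Part A) {s : A.ι → M → Matrix (Fin n) (Fin n) ℂ}
    (hs : IsFld A s) {c w : M → ℝ} (hc : A.Sm c) (hw : A.Sm w) : A.Sm (TT K P s c w) := by
  intro i
  exact ContDiffOn.sub (ContDiffOn.mul (hc i) (hw i)) (sm_rho K P (isFld_fs hw hs) i)

theorem TT_add (K : Kah A) (P : Part A) {s : A.ι → M → Matrix (Fin n) (Fin n) ℂ}
    (hs : IsFld A s) {c w w' : M → ℝ} (hw : A.Sm w) (hw' : A.Sm w') (x : M) :
    TT K P s c (fun y => w y + w' y) x = TT K P s c w x + TT K P s c w' x := by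
  unfold TT
  rw [fs_add, rho_add K P (isFld_fs hw hs) (isFld_fs hw' hs)]
  ring

theorem TT_smul (K : Kah A) (P : Part A) {s : A.ι → M → Matrix (Fin n) (Fin n) ℂ}
    (hs : IsFld A s) {c w : M → ℝ} (r : ℝ) (hw : A.Sm w) (x : M) :
    TT K P s c (fun y => r * w y) x = r * TT K P s c w x := by
  unfold TT
  rw [fs_smul, rho_smul K P _ (isFld_fs hw hs)]
  ring

/-- positive fields -/
def PosF (A : Atl n M) (s : A.ι → M → Matrix (Fin n) (Fin n) ℂ) : Prop :=
  ∀ i, ∀ x ∈ (A.e i).source, (s i x).PosDef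

/-- coercivity -/
theorem coer (K : Kah A) (P : Part A) {s : A.ι → M → Matrix (Fin n) (Fin n) ℂ}
    (hs : IsFld A s) (hp : PosF A s) {c w : M → ℝ} (hc : A.Sm c) {d : ℝ}
    (hd : ∀ x, rho K P s x / 2 + d ≤ c x) (hw : A.Sm w) :
    d * ∫ x, w x ^ 2 ∂(vm (volK K)) ≤ ∫ x, w x * TT K P s c w x ∂(vm (volK K)) := by
  have := isFinite_vm (volK K)
  have hwc := sm_continuous hw
  have hcc := sm_continuous hc
  have hrc := continuous_rho K P hs
  have hfc := continuous_rho K P (isFld_fs hw hs)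
  have hLc := sm_continuous (sm_Lop hs hw)
  have hL2 := sm_continuous (sm_Lop hs (sm_mulR hw hw))
  -- the bad term
  have h1 : ∫ x, w x * rho K P (fs w s) x ∂(vm (volK K)) =
      ∫ x, w x * Lop s w x ∂(vm (volK K)) := by
    rw [← integral_Lop K P (isFld_fs hw hs) hw]
    refine integral_congr_ae (Eventually.of_forall fun x => ?_)
    exact Lop_fs w s w x
  have h2 : ∫ x, w x * Lop s w x ∂(vm (volK K)) ≤
      ∫ x, (w x ^ 2) * (rho K P s x / 2) ∂(vm (volK K)) := by
    have e1 : ∫ x, (w x ^ 2) * (rho K P s x / 2) ∂(vm (volK K)) =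
        ∫ x, Lop s (fun y => w y * w y) x / 2 ∂(vm (volK K)) := by
      rw [integral_div, integral_Lop K P hs (sm_mulR hw hw), ← integral_div]
      refine integral_congr_ae (Eventually.of_forall fun x => ?_)
      simp only
      ring
    rw [e1]
    refine integral_mono (int_cont (hwc.mul hLc)) (int_cont (hL2.div_const _)) fun x => ?_
    have h3 := Lop_sq hw (x := x) (hp _ x (mem_ci x)).posSemidef
    simp only
    linarith
  have h3 : ∫ x, w x * TT K P s c w x ∂(vm (volK K)) =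
      ∫ x, (w x ^ 2) * c x ∂(vm (volK K)) - ∫ x, w x * rho K P (fs w s) x ∂(vm (volK K)) := by
    rw [← integral_sub (int_cont (by fun_prop)) (int_cont (by fun_prop))]
    refine integral_congr_ae (Eventually.of_forall fun x => ?_)
    simp only [TT]
    ring
  have h4 : d * ∫ x, w x ^ 2 ∂(vm (volK K)) + ∫ x, (w x ^ 2) * (rho K P s x / 2) ∂(vm (volK K)) ≤
      ∫ x, (w x ^ 2) * c x ∂(vm (volK K)) := by
    rw [← integral_const_mul, ← integral_add (int_cont (by fun_prop)) (int_cont (by fun_prop))]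
    refine integral_mono (int_cont (by fun_prop)) (int_cont (by fun_prop)) fun x => ?_
    simp only
    have h5 := mul_le_mul_of_nonneg_left (hd x) (sq_nonneg (w x))
    linarith
  rw [h3, h1]
  linarith

theorem smS_TT (K : Kah A) (P : Part A) {s : A.ι → M → Matrix (Fin n) (Fin n) ℂ}
    (hs : IsFld A s) {c : M → ℝ} (hc : A.Sm c) (w : SmS A) : Continuous (TT K P s c (w : M → ℝ)) :=
  sm_continuous (sm_TT K P hs hc w.2)

/-- **very weak solutions** -/
theorem weak_solR (K : Kah A) (P : Part A) {s : A.ι → M → Matrix (Fin n) (Fin n) ℂ}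
    (hs : IsFld A s) (hp : PosF A s) {c f : M → ℝ} (hc : A.Sm c) (hf : A.Sm f) {d : ℝ}
    (hd0 : 0 < d) (hd : ∀ x, rho K P s x / 2 + d ≤ c x) :
    ∃ _ : IsFiniteMeasure (vm (volK K)), ∃ u : Lp ℝ 2 (vm (volK K)), ∀ w : M → ℝ, A.Sm w →
      ∫ x, u x * TT K P s c w x ∂(vm (volK K)) = ∫ x, f x * w x ∂(vm (volK K)) := by
  have hfin := isFinite_vm (volK K)
  refine ⟨hfin, ?_⟩
  set μ := vm (volK K) with hμ
  have hFc := sm_continuous hf
  set T : SmS A →ₗ[ℝ] Lp ℝ 2 μ :=
    { toFun := fun w => ll μ (smS_TT K P hs hc w)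
      map_add' := by
        intro w w'
        have e : TT K P s c ((w + w' : SmS A) : M → ℝ) =
            TT K P s c (w : M → ℝ) + TT K P s c (w' : M → ℝ) :=
          funext fun x => TT_add K P hs w.2 w'.2 x
        unfold ll
        rw [← MemLp.toLp_add]
        exact MemLp.toLp_congr _ _ (Eventually.of_forall fun x => congrFun e x)
      map_smul' := by
        intro r w
        have e : TT K P s c ((r • w : SmS A) : M → ℝ) = r • TT K P s c (w : M → ℝ) :=
          funext fun x => TT_smul K P hs r w.2 x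
        unfold ll
        rw [RingHom.id_apply, ← MemLp.toLp_const_smul]
        exact MemLp.toLp_congr _ _ (Eventually.of_forall fun x => congrFun e x) } with hT
  set ℓ : SmS A →ₗ[ℝ] ℝ :=
    { toFun := fun w => ∫ x, f x * (w : M → ℝ) x ∂μ
      map_add' := by
        intro w w'
        have i1 : Integrable (fun x => f x * (w : M → ℝ) x) μ :=
          int_cont (hFc.mul (sm_continuous w.2))
        have i2 : Integrable (fun x => f x * (w' : M → ℝ) x) μ :=
          int_cont (hFc.mul (sm_continuous w'.2))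
        rw [← integral_add i1 i2]
        refine integral_congr_ae (Eventually.of_forall fun x => ?_)
        change f x * ((w : M → ℝ) x + (w' : M → ℝ) x) = _
        ring
      map_smul' := by
        intro r w
        rw [RingHom.id_apply, smul_eq_mul, ← integral_const_mul]
        refine integral_congr_ae (Eventually.of_forall fun x => ?_)
        change f x * (r * (w : M → ℝ) x) = _
        ring } with hℓ
  have hb : ∀ w, |ℓ w| ≤ (‖ll μ hFc‖ * d⁻¹) * ‖T w‖ := by
    intro w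
    have hwc := sm_continuous w.2
    have hTc := smS_TT K P hs hc w
    have h1 := coer K P hs hp hc hd w.2
    have h2 : d * ‖ll μ hwc‖ ^ 2 ≤ ‖ll μ hwc‖ * ‖T w‖ := by
      rw [norm_ll_sq]
      exact h1.trans ((le_abs_self _).trans (abs_int_mul_le hwc hTc))
    have h3 : ‖ll μ hwc‖ ≤ d⁻¹ * ‖T w‖ := by
      rcases eq_or_lt_of_le (norm_nonneg (ll μ hwc)) with h0 | h0
      · rw [← h0]
        positivity
      · rw [le_inv_mul_iff₀ hd0]
        nlinarith
    have h4 : |ℓ w| ≤ ‖ll μ hFc‖ * ‖ll μ hwc‖ := abs_int_mul_le hFc hwc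
    refine h4.trans ?_
    rw [mul_assoc]
    exact mul_le_mul_of_nonneg_left h3 (norm_nonneg _)
  obtain ⟨u, hu⟩ := riesz_range T ℓ _ hb
  refine ⟨u, fun w hw => ?_⟩
  have h1 := hu ⟨w, hw⟩
  have h2 : T ⟨w, hw⟩ = ll μ (sm_continuous (sm_TT K P hs hc hw)) := rfl
  rw [h2, inner_ll] at h1
  exact h1

/-- **local regularity** -/
theorem local_regR (K : Kah A) (P : Part A) {s : A.ι → M → Matrix (Fin n) (Fin n) ℂ}
    (hs : IsFld A s) (hp : PosF A s) {c f : M → ℝ} (hc : A.Sm c) (hf : A.Sm f)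
    (u : Lp ℝ 2 (vm (volK K)))
    (hu : ∀ w : M → ℝ, A.Sm w →
      ∫ x, u x * TT K P s c w x ∂(vm (volK K)) = ∫ x, f x * w x ∂(vm (volK K))) (i : A.ι) :
    ∃ v : ER n → ℝ, ContDiffOn ℝ ∞ v (UT A i) ∧
      (∀ᵐ ξ : ER n, ξ ∈ UT A i → v ξ = u (sT A i ξ)) ∧
      ∀ ξ ∈ UT A i, c (sT A i ξ) * v ξ - L2 (ta A s i) v ξ = f (sT A i ξ) := by
  have := isFinite_vm (volK K)
  have hum : AEStronglyMeasurable (u : M → ℝ) (vm (volK K)) := Lp.aestronglyMeasurable u
  have hui : Integrable (u : M → ℝ) (vm (volK K)) := (Lp.memLp u).integrable (by norm_num)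
  obtain ⟨v, hv, hvu, hve⟩ := gen_ell2 (a := ta A s i) (c := fun ξ => -(c (sT A i ξ)))
    (f := fun ξ => -(f (sT A i ξ))) (isOpen_UT i) (ta_smooth hs i)
    (fun ξ hξ => ta_pos (hp i) hξ) (smooth_sT hc i).neg (smooth_sT hf i).neg
    (loc_int K u i) (by
      intro ψ hψ hψs
      have hA : TF (Adj2 (ta A s i) ψ) := Adj2_TF (isOpen_UT i) (ta_smooth hs i) hψ hψs
      have hAs : tsupport (Adj2 (ta A s i) ψ) ⊆ UT A i := Adj2_tsupport.trans hψs
      have h1 := hu _ (exR_sm K hψ hψs)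
      have hec := sm_continuous (exR_sm K hψ hψs)
      have heA := sm_continuous (exR_sm K hA hAs)
      have hcc := sm_continuous hc
      -- left side
      have e1 : ∀ x, u x * TT K P s c (exR K i ψ) x =
          (u x * c x) * exR K i ψ x - u x * exR K i (Adj2 (ta A s i) ψ) x := by
        intro x
        unfold TT
        rw [rho_exR K P hs hψ hψs]
        ring
      simp only [e1] at h1
      obtain ⟨b1, hb1⟩ := isCompact_univ.exists_bound_of_continuousOn
        (f := fun x => c x * exR K i ψ x) (hcc.mul hec).continuousOn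
      obtain ⟨b2, hb2⟩ := isCompact_univ.exists_bound_of_continuousOn heA.continuousOn
      have i1 : Integrable (fun x => (u x * c x) * exR K i ψ x) (vm (volK K)) := by
        have h := hui.mul_bdd (c := b1) (g := fun x => c x * exR K i ψ x)
          (hcc.mul hec).aestronglyMeasurable
          (Eventually.of_forall fun x => hb1 x (mem_univ x))
        refine h.congr (Eventually.of_forall fun x => ?_)
        simp only
        ring
      have i2 : Integrable (fun x => u x * exR K i (Adj2 (ta A s i) ψ) x) (vm (volK K)) :=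
        hui.mul_bdd (c := b2) heA.aestronglyMeasurable
          (Eventually.of_forall fun x => hb2 x (mem_univ x))
      have hmc : AEStronglyMeasurable (fun x => u x * c x) (vm (volK K)) :=
        hum.mul hcc.aestronglyMeasurable
      rw [integral_sub i1 i2, int_exR K hψ hψs hmc,
        int_exR K hA hAs hum, int_exR K hψ hψs (sm_continuous hf).aestronglyMeasurable] at h1
      have hcψ : TF fun ξ => c (sT A i ξ) * ψ ξ := hψ.smul (isOpen_UT i) hψs (smooth_sT hc i)
      have j1 : Integrable fun ξ => u (sT A i ξ) * (c (sT A i ξ) * ψ ξ) :=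
        int_loc (loc_int K u i) hcψ.1.continuous hcψ.2
          ((tsupport_mul_subset_right).trans hψs)
      have j2 : Integrable fun ξ => u (sT A i ξ) * Adj2 (ta A s i) ψ ξ :=
        int_loc (loc_int K u i) hA.1.continuous hA.2 hAs
      have e2 : ∫ ξ, u (sT A i ξ) * (Adj2 (ta A s i) ψ ξ + -c (sT A i ξ) * ψ ξ) =
          (∫ ξ, u (sT A i ξ) * Adj2 (ta A s i) ψ ξ) -
            ∫ ξ, u (sT A i ξ) * c (sT A i ξ) * ψ ξ := by
        have e3 : ∫ ξ, u (sT A i ξ) * c (sT A i ξ) * ψ ξ =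
            ∫ ξ, u (sT A i ξ) * (c (sT A i ξ) * ψ ξ) :=
          integral_congr_ae (Eventually.of_forall fun ξ => by simp only; ring)
        rw [e3, ← integral_sub j2 j1]
        refine integral_congr_ae (Eventually.of_forall fun ξ => ?_)
        simp only
        ring
      have e4 : ∫ ξ, -f (sT A i ξ) * ψ ξ = - ∫ ξ, f (sT A i ξ) * ψ ξ := by
        rw [← integral_neg]
        refine integral_congr_ae (Eventually.of_forall fun ξ => ?_)
        simp only
        ring
      rw [e2, e4, ← h1]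
      ring)
  refine ⟨v, hv, hvu, fun ξ hξ => ?_⟩
  have h1 := hve ξ hξ
  linarith

/-- **exact smooth solutions for large `c`** -/
theorem resolvent_large (K : Kah A) (P : Part A) {s : A.ι → M → Matrix (Fin n) (Fin n) ℂ}
    (hs : IsFld A s) (hp : PosF A s) {c f : M → ℝ} (hc : A.Sm c) (hf : A.Sm f) {d : ℝ}
    (hd0 : 0 < d) (hd : ∀ x, rho K P s x / 2 + d ≤ c x) :
    ∃ v : M → ℝ, A.Sm v ∧ ∀ x, c x * v x - Lop s v x = f x := by
  have := isOpenPos_vm (volK K)
  obtain ⟨hfin, u, hu⟩ := weak_solR K P hs hp hc hf hd0 hd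
  choose V hVs hVu hVe using local_regR K P hs hp hc hf u hu
  have hum : Measurable (u : M → ℝ) := (Lp.stronglyMeasurable u).measurable
  have hVc : ∀ i, ContinuousOn (fun x => V i (tT A i x)) (A.e i).source := fun i =>
    (hVs i).continuousOn.comp
      ((Tl n).symm.continuous.comp_continuousOn (A.e i).continuousOn) fun x hx => tT_mem hx
  have hae : ∀ i, ∀ᵐ x ∂(vm (volK K)), x ∈ (A.e i).source → V i (tT A i x) = u x := by
    intro i
    refine ae_of_chart (volK K) i ?_ ?_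
    · classical
      have h1 : Measurable ((A.e i).source.piecewise (fun x => V i (tT A i x)) fun _ => 0) :=
        (hVc i).measurable_piecewise continuousOn_const (A.e i).open_source.measurableSet
      have h2 : {x | x ∈ (A.e i).source ∧ ¬ V i (tT A i x) = u x} = (A.e i).source ∩
          {x | (A.e i).source.piecewise (fun x => V i (tT A i x)) (fun _ => 0) x = u x}ᶜ := by
        ext x
        simp only [mem_ofPred_eq, mem_inter_iff, mem_compl_iff]
        refine and_congr_right fun hx => ?_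
        rw [piecewise_eq_of_mem _ _ _ hx]
      rw [h2]
      exact (A.e i).open_source.measurableSet.inter (measurableSet_eq_fun h1 hum).compl
    · filter_upwards [hVu i] with ξ hξ hU
      have h1 : tT A i (sT A i ξ) = ξ := tT_sT hU
      rw [h1]
      exact hξ hU
  have hcomp : ∀ i j, ∀ x ∈ (A.e i).source ∩ (A.e j).source,
      V i (tT A i x) = V j (tT A j x) := by
    intro i j
    have hO : IsOpen ((A.e i).source ∩ (A.e j).source) :=
      (A.e i).open_source.inter (A.e j).open_source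
    refine Measure.eqOn_open_of_ae_eq (μ := vm (volK K)) ?_ hO
      ((hVc i).mono inter_subset_left) ((hVc j).mono inter_subset_right)
    rw [EventuallyEq, ae_restrict_iff' hO.measurableSet]
    filter_upwards [hae i, hae j] with x h1 h2 hx
    rw [h1 hx.1, h2 hx.2]
  set v : M → ℝ := fun x => V (ci A x) (tT A (ci A x) x) with hv
  have hvi : ∀ i, ∀ x ∈ (A.e i).source, v x = V i (tT A i x) := fun i x hx =>
    hcomp _ _ x ⟨mem_ci x, hx⟩
  have hvr : ∀ i, ∀ z ∈ (A.e i).target, v ((A.e i).symm z) = V i ((Tl n).symm z) :=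
    fun i z hz => by
      rw [hvi i _ ((A.e i).map_target hz)]
      unfold CLin_933.tT
      rw [(A.e i).right_inv hz]
  have hvs : A.Sm v := by
    intro i
    have h1 : ContDiffOn ℝ ∞ (fun z => V i ((Tl n).symm z)) (A.e i).target :=
      (hVs i).comp (tl_symm_contDiff (k := ∞)).contDiffOn fun z hz => by
        change Tl n ((Tl n).symm z) ∈ (A.e i).target
        rwa [LinearIsometryEquiv.apply_symm_apply]
    exact h1.congr fun z hz => hvr i z hz
  refine ⟨v, hvs, fun x => ?_⟩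
  set i := ci A x with hi
  have hx : x ∈ (A.e i).source := mem_ci x
  have hξ := tT_mem hx
  have h1 := Lop_read hs hvs i hξ
  have h2 : L2 (ta A s i) (fun ξ => v (sT A i ξ)) (tT A i x) =
      L2 (ta A s i) (V i) (tT A i x) := by
    have h3 : (fun ξ => v (sT A i ξ)) =ᶠ[𝓝 (tT A i x)] V i := by
      filter_upwards [(isOpen_UT i).mem_nhds hξ] with ξ hξ'
      rw [hvi i _ (sT_mem hξ'), tT_sT hξ']
    unfold L2
    refine Finset.sum_congr rfl fun p _ => Finset.sum_congr rfl fun p' _ => ?_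
    congr 1
    refine pderiv_congr ?_ p
    filter_upwards [h3.eventually_nhds] with y hy
    exact pderiv_congr hy p'
  have h4 := hVe i _ hξ
  rw [← h2, ← h1, sT_tT hx, ← hvi i x hx] at h4
  exact h4

/-! ### all positive densities -/

/-- the maximum principle -/
theorem max_le {s : A.ι → M → Matrix (Fin n) (Fin n) ℂ} (hp : PosF A s) {v : M → ℝ}
    (hv : A.Sm v) {Λ : ℝ} (hΛ : 0 < Λ) {q : M → ℝ} (hq0 : ∀ x, 0 < q x) {B : ℝ}
    (h : ∀ x, Λ * v x - (q x)⁻¹ * Lop s v x ≤ B) (x : M) : Λ * v x ≤ B := by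
  obtain ⟨x₀, -, hx₀⟩ := isCompact_univ.exists_isMaxOn ⟨x, mem_univ x⟩ (sm_continuous hv).continuousOn
  have h1 : IsLocalMax v x₀ := hx₀.isLocalMax univ_mem
  have h2 : IsLocalMin (fun y => (-1 : ℝ) * v y) x₀ := by
    filter_upwards [h1] with y hy
    linarith
  have h3 := Lop_nonneg_of_min (sm_mulR (sm_constR (-1)) hv) (s := s)
    (hp _ x₀ (mem_ci x₀)).posSemidef h2
  rw [Lop_smul' _ s hv] at h3
  have h4 : (q x₀)⁻¹ * Lop s v x₀ ≤ 0 :=
    mul_nonpos_of_nonneg_of_nonpos (inv_nonneg.2 (hq0 x₀).le) (by linarith)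
  have h5 := h x₀
  have h6 : v x ≤ v x₀ := hx₀ (mem_univ x)
  nlinarith

/-- `u ↦ q⁻¹ Lop s u` -/
def LL (s : A.ι → M → Matrix (Fin n) (Fin n) ℂ) (hs : IsFld A s) {q : M → ℝ} (hq : A.Sm q)
    (hq0 : ∀ x, 0 < q x) : Inst_851.FunS A →ₗ[ℝ] C(M, ℝ) where
  toFun u := ⟨fun x => (q x)⁻¹ * Lop s (fun y => (u : C(M, ℝ)) y) x,
    ((sm_continuous hq).inv₀ fun x => (hq0 x).ne').mul (sm_continuous (sm_Lop hs u.2))⟩
  map_add' u v := by
    ext x
    change (q x)⁻¹ * Lop s (fun y => (u : C(M, ℝ)) y + (v : C(M, ℝ)) y) x = _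
    rw [Lop_add' s u.2 v.2, mul_add]
    rfl
  map_smul' c u := by
    ext x
    change (q x)⁻¹ * Lop s (fun y => c * (u : C(M, ℝ)) y) x = _
    rw [Lop_smul' c s u.2, mul_left_comm]
    rfl

/-- **Part 7**: approximate resolvents for all positive smooth densities -/
theorem resolvent (K : Kah A) (P : Part A) {s : A.ι → M → Matrix (Fin n) (Fin n) ℂ}
    (hs : IsFld A s) (hp : PosF A s) {q h : M → ℝ} (hq : A.Sm q) (hq0 : ∀ x, 0 < q x)
    (hh : A.Sm h) {δ : ℝ} (hδ : 0 < δ) :
    ∃ u : M → ℝ, A.Sm u ∧ ∀ x, |q x * u x - Lop s u x - h x| ≤ δ := by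
  rcases isEmpty_or_nonempty M with hM | hM
  · exact ⟨fun _ => 0, sm_constR 0, fun x => (hM.false x).elim⟩
  have hqc := sm_continuous hq
  obtain ⟨x₁, -, hx₁⟩ := isCompact_univ.exists_isMinOn univ_nonempty hqc.continuousOn
  obtain ⟨x₂, -, hx₂⟩ := isCompact_univ.exists_isMaxOn univ_nonempty hqc.continuousOn
  obtain ⟨B, hB⟩ := isCompact_univ.exists_bound_of_continuousOn
    (continuous_rho K P hs).continuousOn
  have hq1 : ∀ x, q x₁ ≤ q x := fun x => hx₁ (mem_univ x)
  have hq2 : ∀ x, q x ≤ q x₂ := fun x => hx₂ (mem_univ x)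
  have hB0 : 0 ≤ B := (norm_nonneg _).trans (hB x₁ (mem_univ _))
  -- the large constant
  set Λ : ℝ := 1 + (B / 2 + 1) / q x₁ with hΛ
  have hΛ1 : 1 ≤ Λ := by
    have : 0 ≤ (B / 2 + 1) / q x₁ := div_nonneg (by linarith) (hq0 x₁).le
    linarith
  have hd : ∀ x, rho K P s x / 2 + 1 ≤ Λ * q x := by
    intro x
    have h1 : rho K P s x ≤ B := (le_abs_self _).trans (hB x (mem_univ x))
    have h2 : (B / 2 + 1) ≤ (B / 2 + 1) / q x₁ * q x := by
      rw [div_mul_eq_mul_div, le_div_iff₀ (hq0 x₁)]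
      exact mul_le_mul_of_nonneg_left (hq1 x) (by linarith)
    have h3 := hq0 x
    rw [hΛ, add_mul]
    linarith
  have hΛq : A.Sm fun x => Λ * q x := sm_mulR (sm_constR Λ) hq
  have hinv : A.Sm fun x => (q x)⁻¹ := fun i => by
    have h1 : ContDiffOn ℝ ∞ (fun z => q ((A.e i).symm z)) (A.e i).target := hq i
    exact h1.inv fun z _ => (hq0 _).ne'
  have hgm : A.Sm fun x => (q x)⁻¹ * h x := sm_mulR hinv hh
  obtain ⟨u, hu⟩ := DualAsm_411.res74 (Inst_851.FunS A) (LL s hs hq hq0) Λ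
    (fun v B' _ hv x => max_le hp v.2 (by linarith) hq0 hv x)
    (fun g δ' hδ' => by
      obtain ⟨v, hv, he⟩ := resolvent_large K P hs hp hΛq (sm_mulR hq g.2) one_pos hd
      refine ⟨⟨⟨v, sm_continuous hv⟩, hv⟩, fun x => ?_⟩
      have h1 : Λ * v x - (q x)⁻¹ * Lop s v x - (g : C(M, ℝ)) x = 0 := by
        have h2 := he x
        have h3 : q x * (Λ * v x - (q x)⁻¹ * Lop s v x - (g : C(M, ℝ)) x) = 0 := by
          have h4 : q x * ((q x)⁻¹ * Lop s v x) = Lop s v x :=
            mul_inv_cancel_left₀ (hq0 x).ne' _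
          linear_combination h2 - h4
        exact (mul_eq_zero.1 h3).resolve_left (hq0 x).ne'
      change |Λ * v x - (q x)⁻¹ * Lop s v x - (g : C(M, ℝ)) x| ≤ δ'
      rw [h1, abs_zero]
      exact hδ'.le)
    1 one_pos hΛ1 ⟨⟨fun x => (q x)⁻¹ * h x, sm_continuous hgm⟩, hgm⟩ (δ / q x₂)
      (div_pos hδ (hq0 x₂))
  refine ⟨fun x => (u : C(M, ℝ)) x, u.2, fun x => ?_⟩
  have h1 := hu x
  change |1 * (u : C(M, ℝ)) x - (q x)⁻¹ * Lop s (fun y => (u : C(M, ℝ)) y) x -
    (q x)⁻¹ * h x| ≤ δ / q x₂ at h1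
  have h2 : q x * (u : C(M, ℝ)) x - Lop s (fun y => (u : C(M, ℝ)) y) x - h x =
      q x * (1 * (u : C(M, ℝ)) x - (q x)⁻¹ * Lop s (fun y => (u : C(M, ℝ)) y) x -
        (q x)⁻¹ * h x) := by
    have h3 := mul_inv_cancel₀ (hq0 x).ne'
    linear_combination (Lop s (fun y => (u : C(M, ℝ)) y) x + h x) * h3
  rw [h2, abs_mul, abs_of_pos (hq0 x)]
  calc q x * _ ≤ q x₂ * (δ / q x₂) :=
        mul_le_mul (hq2 x) h1 (abs_nonneg _) (hq0 x₂).le
    _ = δ := mul_div_cancel₀ _ (hq0 x₂).ne'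



end

end Crest.Agent.R269.Res_19
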