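import Crest.Agent.R269.Frm2_290
import Crest.Agent.R269.Rate1_936
import Mathlib
import Crest.Agent.R269.LevBr_901
import Crest.Agent.R269.DefsS_731
import Crest.Agent.R269.GeoPi_328
import Crest.Agent.R269.Fib_402
import Crest.Agent.R269.Wold_290
import Crest.Agent.R269.Hardy_142
import Crest.Agent.R269.Ker2_430
import Crest.Agent.R269.TE_499
import Crest.Agent.R269.StMax_528
import Crest.Agent.R269.Bd_402
import Crest.Agent.R269.FldE_620
import Crest.Agent.R269.StatDet_194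
import Crest.Agent.R269.WF_731

-- ▼ part R269/Frm3_290
section

/-!
# Row 269, leaf FRAMES (helper290), third file: frames of `f*TX` along a disc, `k(f)`, `T(f)`,
inequality (3.3) of Blueprint_646.

`A : Subalgebra ℂ (ℂ → ℂ)` is the class of functions on the closed disc (class `A` / `HS` of the
blueprint; only the values on `‖z‖ ≤ 1` matter), `H` the lift of the disc, `T z` the tangent space
of the cone at `H z`.
-/

set_option autoImplicit false
set_option linter.unusedSectionVars false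
open Matrix Complex Metric
open scoped ComplexConjugate ComplexOrder

noncomputable section
namespace Crest.Agent.R269.Frm290

variable {ι : Type*} [Fintype ι] [DecidableEq ι] {κ : Type*} [Fintype κ] [DecidableEq κ]

/-- vector valued functions with entries in `A` -/
def VA {S : Type*} [SetLike S (ℂ → ℂ)] (A : S) {m : Type*} (v : ℂ → m → ℂ) : Prop :=
  ∀ i, (fun z => v z i) ∈ A

lemma MA.mulVec {S : Type*} [SetLike S (ℂ → ℂ)] {A : S} [SubsemiringClass S (ℂ → ℂ)]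
    {m n : Type*} [Fintype n] {M : ℂ → Matrix m n ℂ} {v : ℂ → n → ℂ} (hM : MA A M) (hv : VA A v) :
    VA A (fun z => M z *ᵥ v z) := by
  intro i
  have : (fun z => (M z *ᵥ v z) i) = ∑ k, (fun z => M z i k) * (fun z => v z k) := by
    ext z; simp [Matrix.mulVec, dotProduct]
  rw [this]
  exact sum_mem fun k _ => mul_mem (hM i k) (hv k)

lemma VA.vecMulVec {S : Type*} [SetLike S (ℂ → ℂ)] {A : S} [SubsemiringClass S (ℂ → ℂ)]
    {m n : Type*} {v : ℂ → m → ℂ} {w : ℂ → n → ℂ} (hv : VA A v) (hw : VA A w) :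
    MA A (fun z => Matrix.vecMulVec (v z) (w z)) := by
  intro i j
  exact mul_mem (hv i) (hw j)

lemma VA.vecMul {S : Type*} [SetLike S (ℂ → ℂ)] {A : S} [SubsemiringClass S (ℂ → ℂ)]
    {m n : Type*} [Fintype m] {v : ℂ → m → ℂ} {M : ℂ → Matrix m n ℂ} (hv : VA A v) (hM : MA A M) :
    VA A (fun z => v z ᵥ* M z) := by
  intro j
  have : (fun z => (v z ᵥ* M z) j) = ∑ k, (fun z => v z k) * (fun z => M z k j) := by
    ext z; simp [Matrix.vecMul, dotProduct]
  rw [this]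
  exact sum_mem fun k _ => mul_mem (hv k) (hM k j)


/-- The tangential data along a disc: `H` the lift, `T z` the tangent space of the cone at `H z`,
`Q z` an idempotent onto `T z` with entries in the class `A`, and `G` with `G·H = 1` (Bezout). -/
structure TanData (A : Subalgebra ℂ (ℂ → ℂ)) (H : ℂ → ι → ℂ) (T : ℂ → Submodule ℂ (ι → ℂ))
    (Q : ℂ → Matrix ι ι ℂ) (G : ℂ → ι → ℂ) : Prop where
  H_mem : VA A H
  Q_mem : MA A Q
  G_mem : VA A G
  H_tan : ∀ z, ‖z‖ ≤ 1 → H z ∈ T z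
  Q_tan : ∀ z, ‖z‖ ≤ 1 → ∀ v, Q z *ᵥ v ∈ T z
  Q_id : ∀ z, ‖z‖ ≤ 1 → ∀ v ∈ T z, Q z *ᵥ v = v
  bez : ∀ z, ‖z‖ ≤ 1 → G z ⬝ᵥ H z = 1


section
variable {A : Subalgebra ℂ (ℂ → ℂ)} {H : ℂ → ι → ℂ} {T : ℂ → Submodule ℂ (ι → ℂ)}
  {Q : ℂ → Matrix ι ι ℂ} {G : ℂ → ι → ℂ}











/-- A frame of `f*TX` : `n` sections in the class `A`, tangential and independent modulo `H`. -/
structure IsFrame (A : Subalgebra ℂ (ℂ → ℂ)) (H : ℂ → ι → ℂ) (T : ℂ → Submodule ℂ (ι → ℂ))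
    (M : ℂ → Matrix ι κ ℂ) : Prop where
  mem : MA A M
  tan : ∀ z, ‖z‖ ≤ 1 → ∀ c : κ → ℂ, M z *ᵥ c ∈ T z
  indep : ∀ z, ‖z‖ ≤ 1 → Indep (H z) (M z)



/-! ## The functional `k` -/









end
end Crest.Agent.R269.Frm290
end
end

-- ▼ part R269/Rate2_936
section

/-!
# Row 269, task 262 (RATE-INPUT), part 2 (helper936): from a field `a` (cometric on `T_pX`) to the
Hermitian form `h = a⁻¹` on the tangent space, pointwise.

`T` the tangent space of the cone at `p` (`p ∈ T`, `dim T = n + 1`), `Pi` the orthogonal projector onto `T`.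

* `Rep T p a b` : the columns of `b` are `n` horizontal tangent vectors, independent, `a = b bᴴ`;
* `Sm p Pi a = a + |p|² ((1 - Pi) + p p*/|p|²)`, positive definite (`Rep.posDef`);
* `Gm p Pi a = prj p (Sm p Pi a)⁻¹ prj p` = the Hermitian form `a⁻¹` : Hermitian, kills `p`
  (`Gm_mulVec_self`), positive on `T` modulo `p` (`Rep.Gm_pos`);
* `Rep.outer` : `Mᴴ (Gm) M = 1` with tangent columns  ⟹  `prj p (M Mᴴ) prj p = a`;
* `Rep.orth` : `bᴴ (Gm) b = 1`; `Rep.D_eq` : `D p M = D p b`;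
* `Gm_smul` : `Gm (c p) Pi (|c|² a) = |c|⁻² Gm p Pi a`.
-/

set_option autoImplicit false
set_option linter.unusedSectionVars false
open Matrix Complex
open scoped ComplexConjugate ComplexOrder

noncomputable section
namespace Crest.Agent.R269.Rate2_936

open Crest.Agent.R269.Frm290 Crest.Agent.R269.Rate1_936

variable {ι : Type*} [Fintype ι] [DecidableEq ι]

/-- the columns of `b` are `n` independent horizontal tangent vectors representing `a` -/
structure Rep (T : Submodule ℂ (ι → ℂ)) (p : ι → ℂ) {n : ℕ} (a : Matrix ι ι ℂ)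
    (b : Matrix ι (Fin n) ℂ) : Prop where
  tan : ∀ c, b *ᵥ c ∈ T
  hor : star p ᵥ* b = 0
  ind : ∀ c, b *ᵥ c = 0 → c = 0
  eq : a = b * bᴴ

/-- `Pi` is the orthogonal projector onto `T` -/
structure IsPi (T : Submodule ℂ (ι → ℂ)) (Pi : Matrix ι ι ℂ) : Prop where
  herm : Pi.IsHermitian
  mem : ∀ v, Pi *ᵥ v ∈ T
  id : ∀ v ∈ T, Pi *ᵥ v = v

/-- the positive definite matrix `a + |p|² ((1 - Pi) + p p*/|p|²)` -/
def Sm (p : ι → ℂ) (Pi a : Matrix ι ι ℂ) : Matrix ι ι ℂ :=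
  a + ((nsq p : ℝ) : ℂ) • ((1 - Pi) + (1 - prj p))

/-- the form `a⁻¹` -/
def Gm (p : ι → ℂ) (Pi a : Matrix ι ι ℂ) : Matrix ι ι ℂ :=
  prj p * (Sm p Pi a)⁻¹ * prj p

section
variable {T : Submodule ℂ (ι → ℂ)} {p : ι → ℂ} {Pi : Matrix ι ι ℂ}

theorem mulVec_ext {A B : Matrix ι ι ℂ} (h : ∀ v, A *ᵥ v = B *ᵥ v) : A = B := by
  apply Matrix.toLin'.injective
  ext1 v
  ext1
  simp only [Matrix.toLin'_apply, LinearMap.comp_apply]
  rw [h]

theorem mulVec_ext' {κ : Type*} [Fintype κ] [DecidableEq κ] {A B : Matrix ι κ ℂ}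
    (h : ∀ v, A *ᵥ v = B *ᵥ v) : A = B := by
  apply Matrix.toLin'.injective
  ext1 v
  ext1
  simp only [Matrix.toLin'_apply, LinearMap.comp_apply]
  rw [h]

theorem IsPi.idem (h : IsPi T Pi) : Pi * Pi = Pi := by
  refine mulVec_ext fun v => ?_
  rw [← Matrix.mulVec_mulVec, h.id _ (h.mem v)]

theorem IsPi.trace (h : IsPi T Pi) : Pi.trace = (Module.finrank ℂ T : ℂ) := by
  have h1 : LinearMap.IsProj T (Matrix.toLin' Pi) :=
    ⟨fun v => by rw [Matrix.toLin'_apply]; exact h.mem v,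
      fun v hv => by rw [Matrix.toLin'_apply]; exact h.id v hv⟩
  have h2 := h1.trace
  rwa [Matrix.trace_toLin'_eq] at h2

theorem one_sub_prj_isHermitian (p : ι → ℂ) : (1 - prj p).IsHermitian :=
  Matrix.isHermitian_one.sub (prj_isHermitian p)

theorem one_sub_prj_idem (hp : p ≠ 0) : (1 - prj p) * (1 - prj p) = 1 - prj p := by
  rw [Matrix.sub_mul, Matrix.mul_sub, Matrix.mul_sub, prj_mul_prj hp, Matrix.one_mul,
    Matrix.one_mul, Matrix.mul_one, sub_self, sub_zero]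

theorem one_sub_prj_mulVec (p v : ι → ℂ) :
    (1 - prj p) *ᵥ v = (((nsq p : ℂ))⁻¹ * (star p ⬝ᵥ v)) • p := by
  rw [Matrix.sub_mulVec, Matrix.one_mulVec, prj_mulVec]
  abel

theorem Pi_mul_one_sub (h : IsPi T Pi) (hpT : p ∈ T) : Pi * (1 - prj p) = 1 - prj p := by
  refine mulVec_ext fun v => ?_
  rw [← Matrix.mulVec_mulVec, one_sub_prj_mulVec, Matrix.mulVec_smul, h.id p hpT]

theorem one_sub_mul_Pi (h : IsPi T Pi) (hpT : p ∈ T) : (1 - prj p) * Pi = 1 - prj p := by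
  have := congrArg Matrix.conjTranspose (Pi_mul_one_sub h hpT)
  rwa [Matrix.conjTranspose_mul, h.herm.eq, (one_sub_prj_isHermitian p).eq] at this

theorem trace_one_sub_prj (hp : p ≠ 0) : (1 - prj p).trace = 1 := by
  have h : (nsq p : ℂ) ≠ 0 := by exact_mod_cast (nsq_pos hp).ne'
  have : 1 - prj p = ((nsq p : ℂ))⁻¹ • vecMulVec p (star p) := by
    rw [prj]; abel
  rw [this, Matrix.trace_smul, Matrix.trace_vecMulVec, dotProduct_comm, Frm290.star_dot_self,
    smul_eq_mul, inv_mul_cancel₀ h]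

theorem trace_Pi_sub (h : IsPi T Pi) (hp : p ≠ 0) {n : ℕ} (hn : Module.finrank ℂ T = n + 1) :
    (Pi - (1 - prj p)).trace = n := by
  rw [Matrix.trace_sub, h.trace, hn, trace_one_sub_prj hp]
  push_cast
  ring

variable {n : ℕ} {a : Matrix ι ι ℂ} {b : Matrix ι (Fin n) ℂ}

theorem prj_mul_of_hor {κ : Type*} [Fintype κ] [DecidableEq κ] {b : Matrix ι κ ℂ}
    (hb : star p ᵥ* b = 0) : prj p * b = b := by
  have h0 : vecMulVec p (0 : κ → ℂ) = 0 := by
    ext i j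
    simp [Matrix.vecMulVec_apply]
  rw [prj, Matrix.sub_mul, Matrix.one_mul, Matrix.smul_mul, Matrix.vecMulVec_mul, hb, h0,
    smul_zero, sub_zero]

theorem Pi_mul_of_tan (h : IsPi T Pi) {κ : Type*} [Fintype κ] [DecidableEq κ] {b : Matrix ι κ ℂ}
    (hb : ∀ c, b *ᵥ c ∈ T) : Pi * b = b := by
  refine mulVec_ext' fun v => ?_
  rw [← Matrix.mulVec_mulVec, h.id _ (hb v)]

/-- `(Pi - pp*/|p|²) b = b` for horizontal tangent columns -/
theorem P0_mul (h : IsPi T Pi) {κ : Type*} [Fintype κ] [DecidableEq κ] {b : Matrix ι κ ℂ}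
    (hb : ∀ c, b *ᵥ c ∈ T) (hh : star p ᵥ* b = 0) : (Pi - (1 - prj p)) * b = b := by
  rw [Matrix.sub_mul, Matrix.sub_mul, Matrix.one_mul, Pi_mul_of_tan h hb, prj_mul_of_hor hh]
  abel

theorem P0_herm (h : IsPi T Pi) : (Pi - (1 - prj p)).IsHermitian :=
  h.herm.sub (one_sub_prj_isHermitian p)

theorem P0_idem (h : IsPi T Pi) (hpT : p ∈ T) (hp : p ≠ 0) :
    (Pi - (1 - prj p)) * (Pi - (1 - prj p)) = Pi - (1 - prj p) := by
  have e1 := Pi_mul_one_sub h hpT
  have e2 := one_sub_mul_Pi h hpT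
  have e3 := one_sub_prj_idem hp
  rw [Matrix.sub_mul, Matrix.mul_sub Pi, Matrix.mul_sub (1 - prj p), h.idem, e1, e2, e3, sub_self,
    sub_zero]

theorem Rep.det_ne (hr : Rep T p a b) : (bᴴ * b).det ≠ 0 := by
  intro h0
  obtain ⟨c, hc, hc0⟩ := Matrix.exists_mulVec_eq_zero_iff.2 h0
  apply hc
  apply hr.ind
  have h1 : star c ⬝ᵥ ((bᴴ * b) *ᵥ c) = (nsq (b *ᵥ c) : ℂ) := by
    rw [← Matrix.mulVec_mulVec, Matrix.dotProduct_mulVec, ← Matrix.star_mulVec,
      Frm290.star_dot_self]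
  rw [hc0, dotProduct_zero] at h1
  exact nsq_eq_zero.1 (by exact_mod_cast h1.symm)

theorem Rep.posDef (hr : Rep T p a b) (h : IsPi T Pi) (hpT : p ∈ T) (hp : p ≠ 0)
    (hn : Module.finrank ℂ T = n + 1) : (Sm p Pi a).PosDef := by
  have := posDef_S (P := 1 - prj p) h.herm h.idem (one_sub_prj_isHermitian p) (one_sub_prj_idem hp)
    (Pi_mul_one_sub h hpT) (one_sub_mul_Pi h hpT) (trace_Pi_sub h hp hn) (P0_mul h hr.tan hr.hor)
    hr.det_ne (nsq_pos hp)
  rw [Sm, hr.eq]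
  exact this

theorem Rep.isUnit (hr : Rep T p a b) (h : IsPi T Pi) (hpT : p ∈ T) (hp : p ≠ 0)
    (hn : Module.finrank ℂ T = n + 1) : IsUnit (Sm p Pi a).det :=
  (Matrix.isUnit_iff_isUnit_det _).1 (hr.posDef h hpT hp hn).isUnit

theorem Rep.a_mul (hr : Rep T p a b) (h : IsPi T Pi) : a * (Pi - (1 - prj p)) = a := by
  have h1 := congrArg Matrix.conjTranspose (P0_mul h hr.tan hr.hor)
  rw [Matrix.conjTranspose_mul, (P0_herm h).eq] at h1
  rw [hr.eq, Matrix.mul_assoc, h1]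

theorem Rep.mul_a (hr : Rep T p a b) (h : IsPi T Pi) : (Pi - (1 - prj p)) * a = a := by
  rw [hr.eq, ← Matrix.mul_assoc, P0_mul h hr.tan hr.hor]

theorem Sm_mul_P0 (hr : Rep T p a b) (h : IsPi T Pi) (hpT : p ∈ T) (hp : p ≠ 0) :
    Sm p Pi a * (Pi - (1 - prj p)) = a := by
  have e1 := Pi_mul_one_sub h hpT
  have e2 := one_sub_mul_Pi h hpT
  have e3 := one_sub_prj_idem hp
  have e4 : ((1 - Pi) + (1 - prj p)) * (Pi - (1 - prj p)) = 0 := by
    rw [Matrix.add_mul, Matrix.sub_mul 1 Pi, Matrix.one_mul, Matrix.mul_sub Pi, h.idem, e1,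
      Matrix.mul_sub (1 - prj p) Pi, e2, e3]
    abel
  rw [Sm, Matrix.add_mul, Matrix.smul_mul, e4, smul_zero, add_zero, hr.a_mul h]

theorem P0_mul_Sm (hr : Rep T p a b) (h : IsPi T Pi) (hpT : p ∈ T) (hp : p ≠ 0) :
    (Pi - (1 - prj p)) * Sm p Pi a = a := by
  have e1 := Pi_mul_one_sub h hpT
  have e2 := one_sub_mul_Pi h hpT
  have e3 := one_sub_prj_idem hp
  have e4 : (Pi - (1 - prj p)) * ((1 - Pi) + (1 - prj p)) = 0 := by
    rw [Matrix.mul_add, Matrix.sub_mul, Matrix.mul_sub Pi 1 Pi, Matrix.mul_one, h.idem,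
      Matrix.sub_mul Pi (1 - prj p) (1 - prj p), e1, e3, Matrix.mul_sub (1 - prj p) 1 Pi, e2,
      Matrix.mul_one]
    abel
  rw [Sm, Matrix.mul_add, Matrix.mul_smul, e4, smul_zero, add_zero, hr.mul_a h]

theorem Gm_isHermitian (hS : (Sm p Pi a).IsHermitian) : (Gm p Pi a).IsHermitian := by
  unfold Gm
  rw [Matrix.IsHermitian, Matrix.conjTranspose_mul, Matrix.conjTranspose_mul,
    (prj_isHermitian p).eq, hS.inv.eq, Matrix.mul_assoc]

theorem Gm_mulVec_self (hp : p ≠ 0) : Gm p Pi a *ᵥ p = 0 := by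
  rw [Gm, ← Matrix.mulVec_mulVec, prj_mulVec_self hp, Matrix.mulVec_zero]

theorem Gm_dot (p : ι → ℂ) (Pi a : Matrix ι ι ℂ) (v : ι → ℂ) :
    star v ⬝ᵥ (Gm p Pi a *ᵥ v) =
      star (prj p *ᵥ v) ⬝ᵥ ((Sm p Pi a)⁻¹ *ᵥ (prj p *ᵥ v)) := by
  rw [Gm, ← Matrix.mulVec_mulVec, ← Matrix.mulVec_mulVec, Matrix.dotProduct_mulVec,
    Matrix.star_mulVec, (prj_isHermitian p).eq]


/-- a frame orthonormal for `a⁻¹` represents `a` -/
theorem Rep.outer (hr : Rep T p a b) (h : IsPi T Pi) (hpT : p ∈ T) (hp : p ≠ 0)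
    (hn : Module.finrank ℂ T = n + 1) {M : Matrix ι (Fin n) ℂ} (hM : ∀ c, M *ᵥ c ∈ T)
    (h1 : Mᴴ * Gm p Pi a * M = 1) : prj p * (M * Mᴴ) * prj p = a := by
  have hV : (Pi - (1 - prj p)) * (prj p * M) = prj p * M := by
    refine P0_mul h (fun c => ?_) ?_
    · rw [← Matrix.mulVec_mulVec, prj_mulVec]
      exact T.sub_mem (hM c) (T.smul_mem _ hpT)
    · rw [← Matrix.vecMul_vecMul, star_vecMul_prj hp, Matrix.zero_vecMul]
  have h2 : (prj p * M)ᴴ * (Sm p Pi a)⁻¹ * (prj p * M) = 1 := by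
    rw [Matrix.conjTranspose_mul, (prj_isHermitian p).eq, ← h1, Gm]
    simp only [Matrix.mul_assoc]
  have h3 := outer_eq (P0_herm h) (P0_idem h hpT hp) (hr.isUnit h hpT hp hn)
    (Sm_mul_P0 hr h hpT hp) (P0_mul_Sm hr h hpT hp) (trace_Pi_sub h hp hn) hV h2
  rw [← h3, Matrix.conjTranspose_mul, (prj_isHermitian p).eq]
  simp only [Matrix.mul_assoc]

/-- the representing vectors are orthonormal for `a⁻¹` -/
theorem Rep.orth (hr : Rep T p a b) (h : IsPi T Pi) (hpT : p ∈ T) (hp : p ≠ 0)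
    (hn : Module.finrank ℂ T = n + 1) : bᴴ * Gm p Pi a * b = 1 := by
  have hu := hr.isUnit h hpT hp hn
  have hb := prj_mul_of_hor hr.hor
  have hb' : bᴴ * prj p = bᴴ := by
    have := congrArg Matrix.conjTranspose hb
    rwa [Matrix.conjTranspose_mul, (prj_isHermitian p).eq] at this
  -- `S b = b (bᴴ b)`
  have e1 : Sm p Pi a * b = b * (bᴴ * b) := by
    calc Sm p Pi a * b = Sm p Pi a * ((Pi - (1 - prj p)) * b) := by
          rw [P0_mul h hr.tan hr.hor]
      _ = a * b := by rw [← Matrix.mul_assoc, Sm_mul_P0 hr h hpT hp]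
      _ = b * (bᴴ * b) := by
          conv_lhs => rw [hr.eq]
          rw [Matrix.mul_assoc]
  have e2 : b = (Sm p Pi a)⁻¹ * b * (bᴴ * b) := by
    calc b = (Sm p Pi a)⁻¹ * (Sm p Pi a * b) := by
          rw [← Matrix.mul_assoc, Matrix.nonsing_inv_mul _ hu, Matrix.one_mul]
      _ = _ := by rw [e1]; simp only [Matrix.mul_assoc]
  have hub : IsUnit (bᴴ * b).det := isUnit_iff_ne_zero.2 hr.det_ne
  have e3 : (bᴴ * (Sm p Pi a)⁻¹ * b) * (bᴴ * b) = bᴴ * b := by
    calc (bᴴ * (Sm p Pi a)⁻¹ * b) * (bᴴ * b) = bᴴ * ((Sm p Pi a)⁻¹ * b * (bᴴ * b)) := by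
          simp only [Matrix.mul_assoc]
      _ = bᴴ * b := by rw [← e2]
  have e4 : bᴴ * (Sm p Pi a)⁻¹ * b = 1 := by
    calc bᴴ * (Sm p Pi a)⁻¹ * b
        = (bᴴ * (Sm p Pi a)⁻¹ * b) * ((bᴴ * b) * (bᴴ * b)⁻¹) := by
          rw [Matrix.mul_nonsing_inv _ hub, Matrix.mul_one]
      _ = ((bᴴ * (Sm p Pi a)⁻¹ * b) * (bᴴ * b)) * (bᴴ * b)⁻¹ := by
          simp only [Matrix.mul_assoc]
      _ = 1 := by rw [e3, Matrix.mul_nonsing_inv _ hub]
  calc bᴴ * Gm p Pi a * b = (bᴴ * prj p) * (Sm p Pi a)⁻¹ * (prj p * b) := by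
        rw [Gm]; simp only [Matrix.mul_assoc]
    _ = 1 := by rw [hb, hb', e4]


theorem nsq_smul (c : ℂ) (p : ι → ℂ) : nsq (c • p) = ‖c‖ ^ 2 * nsq p := by
  have h := Frm290.star_dot_self (c • p)
  rw [star_smul, smul_dotProduct, dotProduct_smul, Frm290.star_dot_self, smul_eq_mul, smul_eq_mul,
    ← mul_assoc, Complex.star_def, ← Complex.normSq_eq_conj_mul_self, Complex.normSq_eq_norm_sq] at h
  exact_mod_cast h.symm

theorem prj_smul {c : ℂ} (hc : c ≠ 0) (p : ι → ℂ) : prj (c • p) = prj p := by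
  have hc2 : c * star c ≠ 0 := mul_ne_zero hc (star_ne_zero.2 hc)
  have h1 : vecMulVec (c • p) (star (c • p)) = (c * star c) • vecMulVec p (star p) := by
    ext i j
    simp only [vecMulVec_apply, Pi.smul_apply, Pi.star_apply, smul_eq_mul, star_mul',
      Matrix.smul_apply]
    ring
  have h2 : ((‖c‖ ^ 2 : ℝ) : ℂ) = c * star c := by
    rw [Complex.star_def, Complex.mul_conj, Complex.normSq_eq_norm_sq]
  have hcs : star c ≠ 0 := star_ne_zero.2 hc
  rw [prj, prj, h1, nsq_smul, Complex.ofReal_mul, h2, mul_inv, smul_smul]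
  congr 2
  rw [mul_comm, ← mul_assoc, mul_inv_cancel₀ hc2, one_mul]

theorem Sm_smul {c : ℂ} (hc : c ≠ 0) (p : ι → ℂ) (Pi a : Matrix ι ι ℂ) :
    Sm (c • p) Pi (((‖c‖ ^ 2 : ℝ) : ℂ) • a) = ((‖c‖ ^ 2 : ℝ) : ℂ) • Sm p Pi a := by
  rw [Sm, Sm, prj_smul hc, nsq_smul, Complex.ofReal_mul]
  generalize ((‖c‖ ^ 2 : ℝ) : ℂ) = x
  module

/-- scaling: `a(cp) = |c|² a(p)` gives `a⁻¹(cp) = |c|⁻² a⁻¹(p)` -/
theorem Gm_smul {c : ℂ} (hc : c ≠ 0) (p : ι → ℂ) (Pi a : Matrix ι ι ℂ)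
    (hu : IsUnit (Sm p Pi a).det) :
    Gm (c • p) Pi (((‖c‖ ^ 2 : ℝ) : ℂ) • a) = (((‖c‖ ^ 2 : ℝ) : ℂ))⁻¹ • Gm p Pi a := by
  have hc2 : ((‖c‖ ^ 2 : ℝ) : ℂ) ≠ 0 := by
    exact_mod_cast (pow_pos (norm_pos_iff.2 hc) 2).ne'
  have h1 : (((‖c‖ ^ 2 : ℝ) : ℂ) • Sm p Pi a)⁻¹ = (((‖c‖ ^ 2 : ℝ) : ℂ))⁻¹ • (Sm p Pi a)⁻¹ := by
    have := Matrix.inv_smul' (A := Sm p Pi a) (Units.mk0 _ hc2) hu
    rwa [Units.smul_def, Units.smul_def, Units.val_inv_eq_inv_val, Units.val_mk0] at this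
  rw [Gm, Gm, Sm_smul hc, h1, prj_smul hc, Matrix.mul_smul, Matrix.smul_mul]

end

end Crest.Agent.R269.Rate2_936
end
end

-- ▼ part R269/GeoG_936
section

/-!
# Row 269, B9 (helper936): the positive definite form `GG(p)` on `Λ²` (matrices indexed by `ι × ι`)

* `Cm p` : `v ↦ v p̄` (`ι × ι → ι`);  `Wm p` : `V ↦ V ∧ p` (`ι → ι × ι`), `Wm_mulVec`;
* `Rm p = 1 - |p|⁻² Wm Cm` kills `V ∧ p`;
* `GG p Pi a = Cmᴴ (Gm p Pi a) Cm + Rmᴴ Rm`: Hermitian, `GG_wdg` (`(V∧p)ᴴ GG (V∧p) = |p|⁴ Vᴴ Gm V`),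
  `GG_posDef`, `GG_smul` (`ℂ*`-invariance);
* `SmM M x` : all entries of the matrix function `M` are smooth at `x`; closure properties, `SmM.inv`;
  `SmM_GG`.
-/

set_option autoImplicit false
set_option linter.unusedSectionVars false
open Matrix Complex
open scoped ComplexConjugate ComplexOrder ContDiff

noncomputable section
namespace Crest.Agent.R269.GeoG_936

open Crest.Agent.R269.Frm290 Crest.Agent.R269.Rate1_936 Crest.Agent.R269.Rate2_936

variable {ι : Type*} [Fintype ι] [DecidableEq ι]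

/-- `v ↦ v p̄` -/
def Cm (p : ι → ℂ) : Matrix ι (ι × ι) ℂ := Matrix.of fun i x => if x.1 = i then conj (p x.2) else 0

/-- `V ↦ V ∧ p` -/
def Wm (p : ι → ℂ) : Matrix (ι × ι) ι ℂ :=
  Matrix.of fun x k => (if x.1 = k then p x.2 else 0) - (if x.2 = k then p x.1 else 0)

/-- the projection off the vectors `V ∧ p` -/
def Rm (p : ι → ℂ) : Matrix (ι × ι) (ι × ι) ℂ := 1 - ((nsq p : ℂ))⁻¹ • (Wm p * Cm p)

/-- the positive definite form -/
def GG (p : ι → ℂ) (Pi a : Matrix ι ι ℂ) : Matrix (ι × ι) (ι × ι) ℂ :=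
  (Cm p)ᴴ * Gm p Pi a * Cm p + (Rm p)ᴴ * Rm p

theorem Wm_mulVec (p V : ι → ℂ) : Wm p *ᵥ V = fun x => V x.1 * p x.2 - V x.2 * p x.1 := by
  funext x
  simp only [Wm, mulVec, dotProduct, of_apply, sub_mul, Finset.sum_sub_distrib, ite_mul, zero_mul,
    Finset.sum_ite_eq, Finset.mem_univ, if_true]
  ring

theorem Cm_mulVec (p : ι → ℂ) (v : ι × ι → ℂ) : Cm p *ᵥ v = fun i => ∑ j, v (i, j) * conj (p j) := by
  funext i
  simp only [Cm, mulVec, dotProduct, of_apply, Fintype.sum_prod_type]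
  rw [Finset.sum_eq_single i]
  · exact Finset.sum_congr rfl fun j _ => by rw [if_pos rfl, mul_comm]
  · intro k _ hk
    exact Finset.sum_eq_zero fun j _ => by rw [if_neg hk, zero_mul]
  · intro h; exact absurd (Finset.mem_univ i) h

theorem Wm_self (p : ι → ℂ) : Wm p *ᵥ p = 0 := by
  rw [Wm_mulVec]
  funext x
  simp only [Pi.zero_apply]
  ring

theorem Cm_Wm {p : ι → ℂ} (hp : p ≠ 0) (V : ι → ℂ) :
    Cm p *ᵥ (Wm p *ᵥ V) = (nsq p : ℂ) • (prj p *ᵥ V) := by
  have h : (nsq p : ℂ) ≠ 0 := by exact_mod_cast (nsq_pos hp).ne'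
  rw [Cm_mulVec, Wm_mulVec, prj_mulVec, smul_sub, smul_smul, ← mul_assoc, mul_inv_cancel₀ h, one_mul]
  funext i
  simp only [Pi.sub_apply, Pi.smul_apply, smul_eq_mul, sub_mul, Finset.sum_sub_distrib]
  have e1 : ∑ j, V i * p j * conj (p j) = (nsq p : ℂ) * V i := by
    rw [← Frm290.star_dot_self, dotProduct, Finset.sum_mul]
    refine Finset.sum_congr rfl fun j _ => ?_
    rw [Pi.star_apply, RCLike.star_def]
    ring
  have e2 : ∑ j, V j * p i * conj (p j) = star p ⬝ᵥ V * p i := by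
    rw [dotProduct, Finset.sum_mul]
    refine Finset.sum_congr rfl fun j _ => ?_
    rw [Pi.star_apply, RCLike.star_def]
    ring
  rw [e1, e2]

theorem Rm_Wm {p : ι → ℂ} (hp : p ≠ 0) (V : ι → ℂ) : Rm p *ᵥ (Wm p *ᵥ V) = 0 := by
  have h : (nsq p : ℂ) ≠ 0 := by exact_mod_cast (nsq_pos hp).ne'
  rw [Rm, Matrix.sub_mulVec, Matrix.one_mulVec, Matrix.smul_mulVec, ← Matrix.mulVec_mulVec,
    Cm_Wm hp, Matrix.mulVec_smul, smul_smul, inv_mul_cancel₀ h, one_smul, prj_mulVec,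
    Matrix.mulVec_sub, Matrix.mulVec_smul, Wm_self, smul_zero, sub_zero, sub_self]

theorem GG_form (p : ι → ℂ) (Pi a : Matrix ι ι ℂ) (v w : ι × ι → ℂ) :
    star v ⬝ᵥ (GG p Pi a *ᵥ w) =
      star (Cm p *ᵥ v) ⬝ᵥ (Gm p Pi a *ᵥ (Cm p *ᵥ w)) + star (Rm p *ᵥ v) ⬝ᵥ (Rm p *ᵥ w) := by
  rw [GG, Matrix.add_mulVec, dotProduct_add]
  congr 1
  · rw [← Matrix.mulVec_mulVec, ← Matrix.mulVec_mulVec, Matrix.dotProduct_mulVec,
      ← Matrix.star_mulVec]
  · rw [← Matrix.mulVec_mulVec, Matrix.dotProduct_mulVec, ← Matrix.star_mulVec]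

/-- `GG (V ∧ p, W ∧ p) = |p|⁴ a⁻¹(V, W)` -/
theorem GG_wdg {p : ι → ℂ} (hp : p ≠ 0) (Pi a : Matrix ι ι ℂ) (V W : ι → ℂ) :
    star (Wm p *ᵥ V) ⬝ᵥ (GG p Pi a *ᵥ (Wm p *ᵥ W)) =
      (nsq p : ℂ) ^ 2 * (star V ⬝ᵥ (Gm p Pi a *ᵥ W)) := by
  rw [GG_form, Cm_Wm hp, Cm_Wm hp, Rm_Wm hp, Rm_Wm hp, star_zero, zero_dotProduct, add_zero,
    star_smul, smul_dotProduct, Matrix.mulVec_smul, dotProduct_smul, smul_eq_mul, smul_eq_mul,
    RCLike.star_def, Complex.conj_ofReal, ← mul_assoc, ← pow_two]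
  congr 1
  rw [Matrix.star_mulVec, (prj_isHermitian p).eq, ← Matrix.dotProduct_mulVec]
  congr 1
  have e : prj p * (prj p * (Sm p Pi a)⁻¹ * prj p) * prj p = prj p * (Sm p Pi a)⁻¹ * prj p := by
    calc prj p * (prj p * (Sm p Pi a)⁻¹ * prj p) * prj p
        = (prj p * prj p) * (Sm p Pi a)⁻¹ * (prj p * prj p) := by simp only [Matrix.mul_assoc]
      _ = _ := by rw [prj_mul_prj hp]
  rw [Gm, Matrix.mulVec_mulVec, Matrix.mulVec_mulVec, e]

theorem GG_isHermitian {p : ι → ℂ} {Pi a : Matrix ι ι ℂ} (hS : (Sm p Pi a).IsHermitian) :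
    (GG p Pi a).IsHermitian := by
  unfold GG
  refine Matrix.IsHermitian.add ?_ (Matrix.isHermitian_conjTranspose_mul_self _)
  exact Matrix.isHermitian_conjTranspose_mul_mul _ (Gm_isHermitian hS)

theorem GG_posDef {p : ι → ℂ} {Pi a : Matrix ι ι ℂ} (hS : (Sm p Pi a).PosDef) :
    (GG p Pi a).PosDef := by
  refine Matrix.PosDef.of_dotProduct_mulVec_pos (GG_isHermitian hS.isHermitian) fun v hv => ?_
  rw [GG_form]
  have h1 : star (Cm p *ᵥ v) ⬝ᵥ (Gm p Pi a *ᵥ (Cm p *ᵥ v)) =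
      star (prj p *ᵥ (Cm p *ᵥ v)) ⬝ᵥ ((Sm p Pi a)⁻¹ *ᵥ (prj p *ᵥ (Cm p *ᵥ v))) :=
    Gm_dot p Pi a _
  have h2 : star (Rm p *ᵥ v) ⬝ᵥ (Rm p *ᵥ v) = (nsq (Rm p *ᵥ v) : ℂ) := Frm290.star_dot_self _
  have h3 : 0 ≤ star (Cm p *ᵥ v) ⬝ᵥ (Gm p Pi a *ᵥ (Cm p *ᵥ v)) := by
    rw [h1]
    exact hS.inv.posSemidef.dotProduct_mulVec_nonneg _
  have h4 : 0 ≤ star (Rm p *ᵥ v) ⬝ᵥ (Rm p *ᵥ v) := by
    rw [h2]
    exact_mod_cast Frm290.nsq_nonneg _
  by_cases hR : Rm p *ᵥ v = 0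
  · -- then `v = |p|⁻² (v p̄) ∧ p`, and `v p̄` is not a multiple of `p`
    have hv' : v = Wm p *ᵥ (((nsq p : ℂ))⁻¹ • (Cm p *ᵥ v)) := by
      rw [Rm, Matrix.sub_mulVec, Matrix.one_mulVec, Matrix.smul_mulVec, ← Matrix.mulVec_mulVec,
        sub_eq_zero] at hR
      conv_lhs => rw [hR]
      rw [Matrix.mulVec_smul]
    have h5 : prj p *ᵥ (Cm p *ᵥ v) ≠ 0 := by
      intro h0
      apply hv
      rw [prj_mulVec, sub_eq_zero] at h0
      rw [hv', h0, smul_smul, Matrix.mulVec_smul, Wm_self, smul_zero]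
    have h6 := hS.inv.dotProduct_mulVec_pos h5
    rw [h1]
    exact add_pos_of_pos_of_nonneg h6 h4
  · have h5 : 0 < star (Rm p *ᵥ v) ⬝ᵥ (Rm p *ᵥ v) := by
      rw [h2]
      exact_mod_cast Frm290.nsq_pos hR
    exact add_pos_of_nonneg_of_pos h3 h5

theorem Cm_smul (c : ℂ) (p : ι → ℂ) : Cm (c • p) = conj c • Cm p := by
  ext i x
  simp only [Cm, of_apply, Pi.smul_apply, smul_eq_mul, map_mul, Matrix.smul_apply, mul_ite, mul_zero]

theorem Wm_smul (c : ℂ) (p : ι → ℂ) : Wm (c • p) = c • Wm p := by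
  ext x i
  simp only [Wm, of_apply, Pi.smul_apply, smul_eq_mul, Matrix.smul_apply, mul_sub, mul_ite, mul_zero]

theorem Rm_smul {c : ℂ} (hc : c ≠ 0) (p : ι → ℂ) : Rm (c • p) = Rm p := by
  have hc2 : ((‖c‖ ^ 2 : ℝ) : ℂ) = c * conj c := by
    rw [Complex.mul_conj, Complex.normSq_eq_norm_sq]
  have hc0 : c * conj c ≠ 0 := mul_ne_zero hc ((map_ne_zero _).2 hc)
  rw [Rm, Rm, Cm_smul, Wm_smul, Frm290.nsq_smul, Complex.ofReal_mul, hc2, Matrix.smul_mul,
    Matrix.mul_smul, smul_smul, smul_smul]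
  congr 2
  have hcs : conj c ≠ 0 := (map_ne_zero _).2 hc
  rw [mul_inv]
  field_simp

/-- `ℂ*`-invariance -/
theorem GG_smul {c : ℂ} (hc : c ≠ 0) (p : ι → ℂ) (Pi a : Matrix ι ι ℂ)
    (hu : IsUnit (Sm p Pi a).det) :
    GG (c • p) Pi (((‖c‖ ^ 2 : ℝ) : ℂ) • a) = GG p Pi a := by
  have hc2 : ((‖c‖ ^ 2 : ℝ) : ℂ) = c * conj c := by
    rw [Complex.mul_conj, Complex.normSq_eq_norm_sq]
  have hc0 : c * conj c ≠ 0 := mul_ne_zero hc ((map_ne_zero _).2 hc)
  have e : (Cm (c • p))ᴴ * Gm (c • p) Pi (((‖c‖ ^ 2 : ℝ) : ℂ) • a) * Cm (c • p) =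
      (Cm p)ᴴ * Gm p Pi a * Cm p := by
    rw [Gm_smul hc p Pi a hu, Cm_smul, hc2, Matrix.conjTranspose_smul, Matrix.mul_smul,
      Matrix.mul_smul, Matrix.smul_mul, Matrix.smul_mul, Matrix.smul_mul, smul_smul, smul_smul,
      RCLike.star_def, Complex.conj_conj]
    have : conj c * (c * conj c)⁻¹ * c = 1 := by
      have hcs : conj c ≠ 0 := (map_ne_zero _).2 hc
      field_simp
    rw [this, one_smul]
  rw [GG, GG, Rm_smul hc, e]

end Crest.Agent.R269.GeoG_936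
end
end

-- ▼ part R269/SmM_936
section

/-!
# Row 269, B9 (helper936): matrices whose entries are smooth at a point
-/

set_option autoImplicit false
open Matrix Complex
open scoped ComplexConjugate ContDiff

namespace Crest.Agent.R269.SmM_936

variable {E : Type*} [NormedAddCommGroup E] [NormedSpace ℝ E]
variable {m n l : Type*}

/-- all entries of `M` are smooth (in the real sense) at `x` -/
def SmM (M : E → Matrix m n ℂ) (x : E) : Prop := ∀ i j, ContDiffAt ℝ ∞ (fun p => M p i j) x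

variable {x : E}

theorem SmM.const (M : Matrix m n ℂ) : SmM (fun _ : E => M) x := fun _ _ => contDiffAt_const

theorem SmM.add {A B : E → Matrix m n ℂ} (hA : SmM A x) (hB : SmM B x) :
    SmM (fun p => A p + B p) x := fun i j => (hA i j).add (hB i j)

theorem SmM.sub {A B : E → Matrix m n ℂ} (hA : SmM A x) (hB : SmM B x) :
    SmM (fun p => A p - B p) x := fun i j => (hA i j).sub (hB i j)

theorem SmM.smul {f : E → ℂ} {A : E → Matrix m n ℂ} (hf : ContDiffAt ℝ ∞ f x) (hA : SmM A x) :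
    SmM (fun p => f p • A p) x := fun i j => hf.mul (hA i j)

theorem SmM.mul [Fintype n] {A : E → Matrix m n ℂ} {B : E → Matrix n l ℂ} (hA : SmM A x)
    (hB : SmM B x) : SmM (fun p => A p * B p) x := fun i j => by
  simp only [Matrix.mul_apply]
  exact ContDiffAt.sum fun k _ => (hA i k).mul (hB k j)

theorem contDiffAt_conj {f : E → ℂ} (hf : ContDiffAt ℝ ∞ f x) :
    ContDiffAt ℝ ∞ (fun p => conj (f p)) x :=
  (Complex.conjCLE.contDiff.contDiffAt (x := f x)).comp x hf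

theorem SmM.conjT {A : E → Matrix m n ℂ} (hA : SmM A x) : SmM (fun p => (A p)ᴴ) x := fun i j => by
  simp only [Matrix.conjTranspose_apply]
  exact contDiffAt_conj (hA j i)

theorem contDiffAt_prod' {ι : Type*} (s : Finset ι) {f : ι → E → ℂ}
    (h : ∀ i ∈ s, ContDiffAt ℝ ∞ (f i) x) : ContDiffAt ℝ ∞ (fun p => ∏ i ∈ s, f i p) x := by
  classical
  induction s using Finset.induction_on with
  | empty => simp only [Finset.prod_empty]; exact contDiffAt_const
  | insert a s ha ih =>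
    simp only [Finset.prod_insert ha]
    exact (h a (Finset.mem_insert_self a s)).mul (ih fun i hi => h i (Finset.mem_insert_of_mem hi))

theorem SmM.det [Fintype n] [DecidableEq n] {A : E → Matrix n n ℂ} (hA : SmM A x) :
    ContDiffAt ℝ ∞ (fun p => (A p).det) x := by
  simp only [Matrix.det_apply]
  refine ContDiffAt.sum fun σ _ => ?_
  have := contDiffAt_prod' (x := x) Finset.univ (f := fun i p => A p (σ i) i) fun i _ => hA _ _
  exact this.const_smul _

theorem SmM.adj [Fintype n] [DecidableEq n] {A : E → Matrix n n ℂ} (hA : SmM A x) :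
    SmM (fun p => (A p).adjugate) x := fun a b => by
  simp only [Matrix.adjugate_apply]
  refine SmM.det fun c d => ?_
  by_cases hc : c = b
  · subst hc
    simp only [Matrix.updateRow_self]
    exact contDiffAt_const
  · simp only [Matrix.updateRow_ne hc]
    exact hA c d

theorem SmM.inv [Fintype n] [DecidableEq n] {A : E → Matrix n n ℂ} (hA : SmM A x)
    (h0 : (A x).det ≠ 0) : SmM (fun p => (A p)⁻¹) x := by
  have h1 : ∀ p, (A p)⁻¹ = ((A p).det)⁻¹ • (A p).adjugate := fun p => by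
    rw [Matrix.inv_def, Ring.inverse_eq_inv']
  simp only [h1]
  exact SmM.smul (hA.det.inv h0) hA.adj

theorem SmM.apply {A : E → Matrix m n ℂ} (hA : SmM A x) (i : m) (j : n) :
    ContDiffAt ℝ ∞ (fun p => A p i j) x := hA i j

theorem SmM.of_fun {A : E → m → n → ℂ} [Fintype m] [Fintype n] (h : ContDiffAt ℝ ∞ A x) :
    SmM (fun p => Matrix.of (A p)) x := fun i j => by
  have h1 := contDiffAt_pi.1 h i
  exact contDiffAt_pi.1 h1 j

theorem SmM.to_fun {A : E → Matrix m n ℂ} [Fintype m] [Fintype n] (h : SmM A x) :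
    ContDiffAt ℝ ∞ (fun p => (fun i j => A p i j : m → n → ℂ)) x :=
  contDiffAt_pi.2 fun i => contDiffAt_pi.2 fun j => h i j

theorem SmM.congr {A B : E → Matrix m n ℂ} (hA : SmM A x) (h : ∀ᶠ p in nhds x, B p = A p) :
    SmM B x := fun i j => (hA i j).congr_of_eventuallyEq (h.mono fun p hp => by
      simp only [hp])

end Crest.Agent.R269.SmM_936
end

-- ▼ part R269/Tay_936
section

/-!
# Row 269, B9b (helper936): uniform first order Taylor formula on a compact set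

`taylor_compact` : `K` compact, `g : E → F` of class `C²` (over `ℝ`) at every point of `K`.  Then there is a
constant `C ≥ 0` with, for all `p Y ∈ K`,
`‖g p‖ ≤ C`, `‖fderiv ℝ g p‖ ≤ C` and `‖g Y - g p - fderiv ℝ g p (Y - p)‖ ≤ C ‖Y - p‖²`.
(`K` is not assumed to be convex or connected.)

`lip_compact` : `C¹` at every point of `K` gives `‖g Y - g p‖ ≤ C ‖Y - p‖` on `K`.
-/

set_option autoImplicit false
open Metric Set Filter Topology
open scoped ContDiff

namespace Crest.Agent.R269.Tay_936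

variable {E F : Type*} [NormedAddCommGroup E] [NormedSpace ℝ E] [NormedAddCommGroup F]
  [NormedSpace ℝ F]

/-- local version -/
theorem local_taylor {g : E → F} {x : E} (hg : ContDiffAt ℝ 2 g x) :
    ∃ r : ℝ, 0 < r ∧ ∃ C : ℝ, 0 ≤ C ∧ ∀ p ∈ ball x r, ∀ Y ∈ ball x r,
      ‖g Y - g p - fderiv ℝ g p (Y - p)‖ ≤ C * ‖Y - p‖ ^ 2 := by
  -- `fderiv g` is Lipschitz near `x`
  have h1 : ContDiffAt ℝ 1 (fderiv ℝ g) x :=
    ContDiffAt.fderiv_right (m := 1) hg (by norm_num)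
  obtain ⟨K, t, ht, hK⟩ := h1.exists_lipschitzOnWith
  obtain ⟨u, hu, hgu⟩ := hg.contDiffOn (m := 2) le_rfl (by simp)
  obtain ⟨r, hr, hrs⟩ := Metric.mem_nhds_iff.1 (Filter.inter_mem ht hu)
  refine ⟨r, hr, K, K.2, fun p hp Y hY => ?_⟩
  have hdiff : ∀ y ∈ ball x r, DifferentiableAt ℝ g y := by
    intro y hy
    have : u ∈ 𝓝 y := mem_of_superset (isOpen_ball.mem_nhds hy) fun w hw => (hrs hw).2
    exact (hgu.contDiffAt this).differentiableAt (by norm_num)
  have hseg : segment ℝ p Y ⊆ ball x r := (convex_ball x r).segment_subset hp hY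
  have h2 := Convex.norm_image_sub_le_of_norm_fderiv_le' (𝕜 := ℝ) (f := g) (φ := fderiv ℝ g p)
    (C := K * ‖Y - p‖) (s := segment ℝ p Y)
    (fun y hy => hdiff y (hseg hy)) (fun y hy => ?_) (convex_segment p Y)
    (left_mem_segment ℝ p Y) (right_mem_segment ℝ p Y)
  · calc _ ≤ K * ‖Y - p‖ * ‖Y - p‖ := h2
      _ = K * ‖Y - p‖ ^ 2 := by ring
  · have h3 : ‖fderiv ℝ g y - fderiv ℝ g p‖ ≤ K * ‖y - p‖ := by
      have := hK.dist_le_mul y (hrs (hseg hy)).1 p (hrs hp).1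
      rwa [dist_eq_norm, dist_eq_norm] at this
    refine h3.trans (mul_le_mul_of_nonneg_left ?_ K.2)
    rw [segment_eq_image'] at hy
    obtain ⟨θ, hθ, rfl⟩ := hy
    simp only [add_sub_cancel_left]
    rw [norm_smul, Real.norm_eq_abs, abs_of_nonneg hθ.1]
    exact mul_le_of_le_one_left (norm_nonneg _) hθ.2

theorem taylor_compact {g : E → F} {K : Set E} (hK : IsCompact K)
    (hg : ∀ x ∈ K, ContDiffAt ℝ 2 g x) :
    ∃ C : ℝ, 0 ≤ C ∧ ∀ p ∈ K, ‖g p‖ ≤ C ∧ ‖fderiv ℝ g p‖ ≤ C ∧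
      ∀ Y ∈ K, ‖g Y - g p - fderiv ℝ g p (Y - p)‖ ≤ C * ‖Y - p‖ ^ 2 := by
  -- bounds
  obtain ⟨A, hA⟩ := hK.exists_bound_of_continuousOn (f := g)
    (fun x hx => (hg x hx).continuousAt.continuousWithinAt)
  obtain ⟨B, hB⟩ := hK.exists_bound_of_continuousOn (f := fderiv ℝ g)
    (fun x hx => ((ContDiffAt.fderiv_right (m := 1) (hg x hx)
      (by norm_num)).continuousAt).continuousWithinAt)
  rcases K.eq_empty_or_nonempty with hKe | hKn
  · exact ⟨0, le_rfl, fun p hp => absurd hp (by simp [hKe])⟩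
  -- local constants
  choose! r hr C hC hloc using fun x (hx : x ∈ K) => local_taylor (hg x hx)
  obtain ⟨t, htK, hcov⟩ := hK.elim_nhds_subcover (fun x => ball x (r x / 2))
    (fun x hx => ball_mem_nhds x (half_pos (hr x hx)))
  have htn : t.Nonempty := by
    by_contra h
    rw [Finset.not_nonempty_iff_eq_empty] at h
    obtain ⟨y, hy⟩ := hKn
    have := hcov hy
    simp [h] at this
  obtain ⟨x0, hx0t, hx0⟩ := t.exists_min_image (fun x => r x / 2) htn
  set ρ := r x0 / 2 with hρ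
  have hρpos : 0 < ρ := half_pos (hr x0 (htK x0 hx0t))
  set Cs := ∑ x ∈ t, C x with hCs
  have hCs0 : 0 ≤ Cs := Finset.sum_nonneg fun x hx => hC x (htK x hx)
  have hA0 : 0 ≤ A := by
    obtain ⟨y, hy⟩ := hKn
    exact (norm_nonneg _).trans (hA y hy)
  have hB0 : 0 ≤ B := by
    obtain ⟨y, hy⟩ := hKn
    exact (norm_nonneg _).trans (hB y hy)
  refine ⟨A + B + Cs + (2 * A / ρ ^ 2 + B / ρ), by positivity, fun p hp => ⟨?_, ?_, ?_⟩⟩
  · have h1 : 0 ≤ 2 * A / ρ ^ 2 + B / ρ := by positivity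
    linarith [hA p hp]
  · have h1 : 0 ≤ 2 * A / ρ ^ 2 + B / ρ := by positivity
    linarith [hB p hp]
  · intro Y hY
    have hpos : 0 ≤ ‖Y - p‖ ^ 2 := by positivity
    obtain ⟨x, hxt, hpx⟩ : ∃ x ∈ t, p ∈ ball x (r x / 2) := by simpa using hcov hp
    by_cases hc : ‖Y - p‖ < ρ
    · have hpx' : p ∈ ball x (r x) := ball_subset_ball (by linarith [hr x (htK x hxt)]) hpx
      have hYx : Y ∈ ball x (r x) := by
        rw [mem_ball] at hpx ⊢
        have h1 : dist Y p < r x / 2 := by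
          rw [dist_eq_norm]
          exact lt_of_lt_of_le hc (hx0 x hxt)
        calc dist Y x ≤ dist Y p + dist p x := dist_triangle _ _ _
          _ < r x / 2 + r x / 2 := add_lt_add h1 hpx
          _ = r x := by ring
      have h2 := hloc x (htK x hxt) p hpx' Y hYx
      have h3 : C x ≤ Cs := Finset.single_le_sum (f := C) (fun y hy => hC y (htK y hy)) hxt
      refine h2.trans (mul_le_mul_of_nonneg_right ?_ hpos)
      have h1 : 0 ≤ 2 * A / ρ ^ 2 + B / ρ := by positivity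
      linarith
    · push Not at hc
      have h1 : ‖g Y - g p - fderiv ℝ g p (Y - p)‖ ≤ 2 * A + B * ‖Y - p‖ := by
        calc _ ≤ ‖g Y - g p‖ + ‖fderiv ℝ g p (Y - p)‖ := norm_sub_le _ _
          _ ≤ (‖g Y‖ + ‖g p‖) + ‖fderiv ℝ g p‖ * ‖Y - p‖ :=
              add_le_add (norm_sub_le _ _) (ContinuousLinearMap.le_opNorm _ _)
          _ ≤ (A + A) + B * ‖Y - p‖ := by
              gcongr
              · exact hA Y hY
              · exact hA p hp
              · exact hB p hp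
          _ = _ := by ring
      have h2 : 1 ≤ ‖Y - p‖ / ρ := (one_le_div hρpos).2 hc
      have h3 : 2 * A ≤ 2 * A / ρ ^ 2 * ‖Y - p‖ ^ 2 := by
        have : 2 * A / ρ ^ 2 * ‖Y - p‖ ^ 2 = 2 * A * (‖Y - p‖ / ρ) ^ 2 := by
          rw [div_pow]; ring
        rw [this]
        exact le_mul_of_one_le_right (by positivity) (one_le_pow₀ h2)
      have h4 : B * ‖Y - p‖ ≤ B / ρ * ‖Y - p‖ ^ 2 := by
        have : B / ρ * ‖Y - p‖ ^ 2 = B * ‖Y - p‖ * (‖Y - p‖ / ρ) := by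
          field_simp
        rw [this]
        exact le_mul_of_one_le_right (by positivity) h2
      calc _ ≤ 2 * A + B * ‖Y - p‖ := h1
        _ ≤ 2 * A / ρ ^ 2 * ‖Y - p‖ ^ 2 + B / ρ * ‖Y - p‖ ^ 2 := add_le_add h3 h4
        _ = (2 * A / ρ ^ 2 + B / ρ) * ‖Y - p‖ ^ 2 := by ring
        _ ≤ _ := mul_le_mul_of_nonneg_right (by linarith) hpos


end Crest.Agent.R269.Tay_936
end

-- ▼ part R269/GeoH_936
section

/-!
# Row 269, B9 (helper936): the form `GG` for a `PosField`, and the functions `Q p c` of Lemma K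
-/

set_option autoImplicit false
set_option linter.unusedSectionVars false
open Matrix Complex
open Crest.AlgGeometry.ProjEmb Crest.Agent.R269.Geo_328 Crest.Agent.R269.DefsS_731
open scoped ComplexConjugate ComplexOrder ContDiff Topology

noncomputable section
namespace Crest.Agent.R269.GeoH_936

open Crest.Agent.R269.Rate1_936 Crest.Agent.R269.GeoG_936 Crest.Agent.R269.SmM_936
open Crest.Agent.R269.Defs_58 (PosField SmX DD wedgeSq TanFam)

variable {N n : ℕ} {I : Ideal (HomCoordRing N)}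

/-- index set of `Λ²` -/
abbrev K2 (N : ℕ) : Type := Fin (N + 1) × Fin (N + 1)

/-- smooth invariant orthogonal projectors onto the tangent spaces of the cone -/
structure PiData (I : Ideal (HomCoordRing N)) (Pi : EE N → VV N) : Prop where
  smooth : ∀ p ∈ Cone I, ContDiffAt ℝ ∞ Pi p
  inv : ∀ p ∈ Cone I, ∀ c : ℂ, c ≠ 0 → Pi (c • p) = Pi p
  isPi : ∀ p ∈ Cone I, Rate2_936.IsPi (Tan I p) (Matrix.of (Pi p))

theorem exists_PiData (hI : I.IsPrime) (hX : IsSmoothProjective I n) : ∃ Pi, PiData I Pi := by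
  obtain ⟨O, Pi, hO, hCO, hsm, hinv, hpi⟩ := projStmt N n I hI hX
  refine ⟨Pi, fun p hp => hsm.contDiffAt (hO.mem_nhds (hCO hp)),
    fun p hp c hc => (hinv c hc p (hCO hp)).2, fun p hp => ?_⟩
  obtain ⟨h1, h2, h3⟩ := hpi p hp
  refine ⟨?_, fun v => h1 v, fun v hv => h2 v hv⟩
  ext i j
  rw [Matrix.conjTranspose_apply, Matrix.of_apply, Matrix.of_apply, RCLike.star_def]
  exact h3 j i

/-- the positive definite Hermitian matrix `GG(p)` on `Λ²` -/
def GGf (Pi a : EE N → VV N) (p : EE N) : Matrix (K2 N) (K2 N) ℂ :=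
  GG p (Matrix.of (Pi p)) (Matrix.of (a p))

theorem wedgeSq_zero_of_dep {m : ℕ} {w : Fin m → EE N} {c : Fin m → ℂ} (hc : c ≠ 0)
    (h : ∑ i, c i • w i = 0) : wedgeSq w = 0 := by
  have : (Matrix.of fun i j : Fin m => ∑ k, w i k * conj (w j k)).det = 0 := by
    rw [← Matrix.exists_vecMul_eq_zero_iff]
    refine ⟨c, hc, ?_⟩
    funext j
    simp only [vecMul, dotProduct, of_apply, Pi.zero_apply]
    have h1 : ∑ i, c i * ∑ k, w i k * conj (w j k) = ∑ k, (∑ i, c i * w i k) * conj (w j k) := by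
      simp only [Finset.mul_sum, Finset.sum_mul]
      rw [Finset.sum_comm]
      exact Finset.sum_congr rfl fun _ _ => Finset.sum_congr rfl fun _ _ => by ring
    rw [h1]
    refine Finset.sum_eq_zero fun k _ => ?_
    have h2 : ∑ i, c i * w i k = 0 := by
      have := congrFun h k
      simpa [Finset.sum_apply] using this
    rw [h2, zero_mul]
  rw [wedgeSq, this, Complex.zero_re]

/-- matrix with columns `b i` -/
def colM (b : Fin n → EE N) : Matrix (Fin (N + 1)) (Fin n) ℂ := Matrix.of fun k i => b i k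

theorem colM_mulVec (b : Fin n → EE N) (c : Fin n → ℂ) : colM b *ᵥ c = ∑ i, c i • b i := by
  funext k
  simp only [colM, mulVec, dotProduct, of_apply, Finset.sum_apply, Pi.smul_apply, smul_eq_mul]
  exact Finset.sum_congr rfl fun i _ => mul_comm _ _

theorem rep_eq {a : EE N → VV N} {p : EE N} {b : Fin n → EE N} (hb : Defs_58.Rep I a p b) :
    Matrix.of (a p) = colM b * (colM b)ᴴ := by
  ext j k
  rw [Matrix.of_apply, hb.2.2 j k, Matrix.mul_apply]
  refine Finset.sum_congr rfl fun i _ => ?_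
  rw [Matrix.conjTranspose_apply, colM, Matrix.of_apply, Matrix.of_apply, RCLike.star_def]

theorem ind_of_DD_pos {p : EE N} {b : Fin n → EE N} (h : 0 < DD p b) (c : Fin n → ℂ)
    (h0 : colM b *ᵥ c = 0) : c = 0 := by
  by_contra hc
  have h1 : wedgeSq (Fin.cons p b : Fin (n + 1) → EE N) = 0 := by
    refine wedgeSq_zero_of_dep (c := Fin.cons 0 c) (fun h2 => hc ?_) ?_
    · funext i
      have := congrFun h2 i.succ
      simpa using this
    · rw [Fin.sum_univ_succ]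
      simp only [Fin.cons_zero, Fin.cons_succ, zero_smul, zero_add]
      rw [← colM_mulVec, h0]
  rw [DD, h1, zero_div] at h
  exact lt_irrefl _ h

/-- two representations: independence is inherited -/
theorem ind_of_eq {m : Type*} [Fintype m] [DecidableEq m] {b b₀ : Matrix m (Fin n) ℂ}
    (h : b * bᴴ = b₀ * b₀ᴴ) (h0 : ∀ c, b₀ *ᵥ c = 0 → c = 0) (c : Fin n → ℂ)
    (hc : b *ᵥ c = 0) : c = 0 := by
  have r0 : b₀.rank = n := by
    have h1 : Function.Injective b₀.mulVecLin := by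
      rw [← LinearMap.ker_eq_bot]
      refine LinearMap.ker_eq_bot'.2 fun x hx => h0 x ?_
      simpa using hx
    rw [Matrix.rank, LinearMap.finrank_range_of_inj h1]
    simp
  have r1 : b.rank = n := by
    rw [← Matrix.rank_self_mul_conjTranspose b, h, Matrix.rank_self_mul_conjTranspose, r0]
  have h2 := LinearMap.finrank_range_add_finrank_ker b.mulVecLin
  rw [Matrix.rank] at r1
  rw [r1] at h2
  have h3 : Module.finrank ℂ (LinearMap.ker b.mulVecLin) = 0 := by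
    simp at h2 ⊢
    omega
  have h4 : LinearMap.ker b.mulVecLin = ⊥ := Submodule.finrank_eq_zero.1 h3
  have h5 : c ∈ LinearMap.ker b.mulVecLin := by simpa using hc
  rw [h4] at h5
  exact (Submodule.mem_bot ℂ).1 h5

/-- every representing family is a `Rate2_936.Rep` -/
theorem rep_of {a : EE N → VV N} (ha : PosField I n a) {p : EE N} (hp : p ∈ Cone I)
    {b : Fin n → EE N} (hb : Defs_58.Rep I a p b) :
    Rate2_936.Rep (Tan I p) p (Matrix.of (a p)) (colM b) := by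
  obtain ⟨b₀, hb₀, hD⟩ := ha.rep p hp
  refine ⟨fun c => ?_, ?_, fun c hc => ?_, rep_eq hb⟩
  · rw [colM_mulVec]
    exact Submodule.sum_mem _ fun i _ => Submodule.smul_mem _ _ (hb.1 i)
  · funext i
    simp only [vecMul, dotProduct, colM, of_apply, Pi.star_apply, RCLike.star_def, Pi.zero_apply]
    rw [← hb.2.1 i]
    exact Finset.sum_congr rfl fun k _ => mul_comm _ _
  · exact ind_of_eq ((rep_eq hb).symm.trans (rep_eq hb₀)) (ind_of_DD_pos hD) c hc

section basic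
variable {Pi a : EE N → VV N} (hI : I.IsPrime) (hX : IsSmoothProjective I n) (hPi : PiData I Pi)
  (ha : PosField I n a)
include hI hX hPi ha

theorem Sm_posDef {p : EE N} (hp : p ∈ Cone I) :
    (Rate2_936.Sm p (Matrix.of (Pi p)) (Matrix.of (a p))).PosDef := by
  obtain ⟨b₀, hb₀, -⟩ := ha.rep p hp
  obtain ⟨h1, h2, -⟩ := tanStmt N n I hI hX p hp
  exact (rep_of ha hp hb₀).posDef (hPi.isPi p hp) h2 hp.2 h1

theorem GGf_posDef {p : EE N} (hp : p ∈ Cone I) : (GGf Pi a p).PosDef :=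
  GG_posDef (Sm_posDef hI hX hPi ha hp)

theorem GGf_smul {p : EE N} (hp : p ∈ Cone I) {c : ℂ} (hc : c ≠ 0) :
    GGf Pi a (c • p) = GGf Pi a p := by
  have hu : IsUnit (Rate2_936.Sm p (Matrix.of (Pi p)) (Matrix.of (a p))).det :=
    (Matrix.isUnit_iff_isUnit_det _).1 (Sm_posDef hI hX hPi ha hp).isUnit
  rw [GGf, hPi.inv p hp c hc, ha.hom p hp c hc]
  exact GG_smul hc p _ _ hu

end basic

/-! ### smoothness -/

theorem contDiffAt_coord (i : Fin (N + 1)) (p : EE N) : ContDiffAt ℝ ∞ (fun q : EE N => q i) p :=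
  contDiffAt_pi.1 contDiffAt_id i

theorem contDiffAt_nsq (p : EE N) : ContDiffAt ℝ ∞ (fun q : EE N => ((Frm290.nsq q : ℝ) : ℂ)) p := by
  have h : (fun q : EE N => ((Frm290.nsq q : ℝ) : ℂ)) = fun q => ∑ i, conj (q i) * q i := by
    funext q
    rw [← Frm290.star_dot_self]
    rfl
  rw [h]
  exact ContDiffAt.sum fun i _ => (contDiffAt_conj (contDiffAt_coord i p)).mul (contDiffAt_coord i p)

theorem smM_Cm (p : EE N) : SmM (fun q : EE N => Cm q) p := fun i x => by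
  simp only [Cm, of_apply]
  by_cases h : x.1 = i
  · simp only [h, if_true]
    exact contDiffAt_conj (contDiffAt_coord _ p)
  · simp only [h, if_false]
    exact contDiffAt_const

theorem smM_Wm (p : EE N) : SmM (fun q : EE N => Wm q) p := fun x i => by
  simp only [Wm, of_apply]
  refine ContDiffAt.sub ?_ ?_
  · by_cases h : x.1 = i
    · simp only [h, if_true]
      exact contDiffAt_coord _ p
    · simp only [h, if_false]
      exact contDiffAt_const
  · by_cases h : x.2 = i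
    · simp only [h, if_true]
      exact contDiffAt_coord _ p
    · simp only [h, if_false]
      exact contDiffAt_const

theorem nsqC_ne {p : EE N} (hp : p ≠ 0) : ((Frm290.nsq p : ℝ) : ℂ) ≠ 0 := by
  exact_mod_cast (Frm290.nsq_pos hp).ne'

theorem smM_Rm {p : EE N} (hp : p ≠ 0) : SmM (fun q : EE N => Rm q) p := by
  unfold Rm
  exact (SmM.const _).sub (SmM.smul ((contDiffAt_nsq p).inv (nsqC_ne hp)) ((smM_Wm p).mul (smM_Cm p)))

theorem smM_prj {p : EE N} (hp : p ≠ 0) : SmM (fun q : EE N => Frm290.prj q) p := by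
  unfold Frm290.prj
  refine (SmM.const _).sub (SmM.smul ((contDiffAt_nsq p).inv (nsqC_ne hp)) fun i j => ?_)
  simp only [vecMulVec_apply, Pi.star_apply, RCLike.star_def]
  exact (contDiffAt_coord i p).mul (contDiffAt_conj (contDiffAt_coord j p))

section smooth
variable {Pi a : EE N → VV N} (hI : I.IsPrime) (hX : IsSmoothProjective I n) (hPi : PiData I Pi)
  (ha : PosField I n a)
include hI hX hPi ha

theorem smM_Sm {p : EE N} (hp : p ∈ Cone I) :
    SmM (fun q : EE N => Rate2_936.Sm q (Matrix.of (Pi q)) (Matrix.of (a q))) p := by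
  unfold Rate2_936.Sm
  exact (SmM.of_fun (ha.smooth p hp)).add (SmM.smul (contDiffAt_nsq p)
    (((SmM.const _).sub (SmM.of_fun (hPi.smooth p hp))).add
      ((SmM.const _).sub (smM_prj hp.2))))

theorem smM_Gm {p : EE N} (hp : p ∈ Cone I) :
    SmM (fun q : EE N => Rate2_936.Gm q (Matrix.of (Pi q)) (Matrix.of (a q))) p := by
  unfold Rate2_936.Gm
  refine ((smM_prj hp.2).mul (SmM.inv (smM_Sm hI hX hPi ha hp) ?_)).mul (smM_prj hp.2)
  exact ((Matrix.isUnit_iff_isUnit_det _).1 (Sm_posDef hI hX hPi ha hp).isUnit).ne_zero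

theorem smM_GGf {p : EE N} (hp : p ∈ Cone I) : SmM (GGf Pi a) p := by
  unfold GGf GG
  exact (((smM_Cm p).conjT.mul (smM_Gm hI hX hPi ha hp)).mul (smM_Cm p)).add
    ((smM_Rm hp.2).conjT.mul (smM_Rm hp.2))

end smooth

end Crest.Agent.R269.GeoH_936
end
end

-- ▼ part R269/GeoQ_936
section

/-!
# Row 269, B9 (helper936): the functions `Q p c = |∑ c_j X_j(p)|²_h` of Lemma K: (h1), (h2), (h3)

* `Gam Pi a Y p` : Gram matrix of the fields `X_j` (in the form `wdg X_j p`) for `GGf`;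
* `Qf Pi a Y p c = Re (cᴴ Gam c)`;  `Qf_eq` : value through `GGf` and `wdg`;
* (h1) `Qf_rep`, (h2) `Qf_taylor`, (h3) `Qf_nonneg`, `Qf_le`;
* `exists_Q` : everything in one statement.
-/

set_option autoImplicit false
set_option linter.unusedSectionVars false
open Matrix Complex
open Crest.AlgGeometry.ProjEmb Crest.Agent.R269.Geo_328 Crest.Agent.R269.DefsS_731
open scoped ComplexConjugate ComplexOrder ContDiff Topology

noncomputable section
namespace Crest.Agent.R269.GeoQ_936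

open Crest.Agent.R269.Rate1_936 Crest.Agent.R269.GeoG_936 Crest.Agent.R269.SmM_936
  Crest.Agent.R269.GeoH_936
open Crest.Agent.R269.Defs_58 (PosField SmX DD wedgeSq TanFam)

variable {N n : ℕ} {I : Ideal (HomCoordRing N)}

/-- columns `X_j(p)` -/
def Xm (Y : Flds I) (p : EE N) : Matrix (Fin (N + 1)) (Fin Y.M) ℂ := Matrix.of fun k j => Y.at j p k

theorem Xm_mulVec (Y : Flds I) (p : EE N) (c : Fin Y.M → ℂ) : Xm Y p *ᵥ c = ∑ j, c j • Y.at j p := by
  funext k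
  simp only [Xm, mulVec, dotProduct, of_apply, Finset.sum_apply, Pi.smul_apply, smul_eq_mul]
  exact Finset.sum_congr rfl fun i _ => mul_comm _ _

theorem contDiff_eval (F : HomCoordRing N) : ContDiff ℝ ∞ (fun y : EE N => MvPolynomial.eval y F) := by
  induction F using MvPolynomial.induction_on with
  | C a => simpa using contDiff_const
  | add p q hp hq => simpa using hp.add hq
  | mul_X p i hp => simpa using hp.mul (contDiff_apply ℝ ℂ i)

theorem smM_Xm (Y : Flds I) (p : EE N) : SmM (Xm Y) p := fun k j => by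
  simp only [Xm, of_apply, Flds.at]
  exact (contDiff_eval _).contDiffAt

/-- Gram matrix of the fields for the form `a⁻¹` (times `|p|⁴`) -/
def Gam (Pi a : EE N → VV N) (Y : Flds I) (p : EE N) : Matrix (Fin Y.M) (Fin Y.M) ℂ :=
  (Wm p * Xm Y p)ᴴ * GGf Pi a p * (Wm p * Xm Y p)

/-- `Q p c = |∑ c_j X_j(p)|²_h |p|⁴` -/
def Qf (Pi a : EE N → VV N) (Y : Flds I) (p : EE N) (c : Fin Y.M → ℂ) : ℝ :=
  (star c ⬝ᵥ (Gam Pi a Y p *ᵥ c)).re

/-- `Wm p *ᵥ V` is `wdg V p` -/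
theorem Wm_eq_wdg (p V : EE N) : Wm p *ᵥ V = fun x => wdg V p x.1 x.2 := Wm_mulVec p V

theorem Gam_form (Pi a : EE N → VV N) (Y : Flds I) (p : EE N) (c : Fin Y.M → ℂ) :
    star c ⬝ᵥ (Gam Pi a Y p *ᵥ c) =
      star (Wm p *ᵥ ∑ j, c j • Y.at j p) ⬝ᵥ (GGf Pi a p *ᵥ (Wm p *ᵥ ∑ j, c j • Y.at j p)) := by
  rw [Gam, ← Matrix.mulVec_mulVec, ← Matrix.mulVec_mulVec, Matrix.dotProduct_mulVec,
    ← Matrix.star_mulVec, ← Matrix.mulVec_mulVec, Xm_mulVec]


section h1
variable {Pi a : EE N → VV N} (hI : I.IsPrime) (hX : IsSmoothProjective I n) (hPi : PiData I Pi)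
  (ha : PosField I n a)
include hI hX hPi ha

/-- the form `a⁻¹` of `∑ x_k b_k + r p` is `∑ |x_k|²` -/
theorem Gm_rep {p : EE N} (hp : p ∈ Cone I) {b : Fin n → EE N} (hb : Defs_58.Rep I a p b)
    (x y : Fin n → ℂ) (r s : ℂ) :
    star (∑ k, x k • b k + r • p) ⬝ᵥ (Rate2_936.Gm p (Matrix.of (Pi p)) (Matrix.of (a p)) *ᵥ
      (∑ k, y k • b k + s • p)) = star x ⬝ᵥ y := by
  obtain ⟨h1, h2, -⟩ := tanStmt N n I hI hX p hp
  have horth := (rep_of ha hp hb).orth (hPi.isPi p hp) h2 hp.2 h1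
  have hS := Sm_posDef hI hX hPi ha hp
  have hG := Rate2_936.Gm_isHermitian (p := p) hS.isHermitian
  have hGp := Rate2_936.Gm_mulVec_self (Pi := Matrix.of (Pi p)) (a := Matrix.of (a p)) hp.2
  set G := Rate2_936.Gm p (Matrix.of (Pi p)) (Matrix.of (a p)) with hGdef
  have hpG : ∀ w : EE N, star p ⬝ᵥ (G *ᵥ w) = 0 := by
    intro w
    rw [Matrix.dotProduct_mulVec]
    have : star p ᵥ* G = star (G *ᵥ p) := by rw [Matrix.star_mulVec, hG.eq]
    rw [this, hGp, star_zero, zero_dotProduct]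
  rw [Matrix.mulVec_add, Matrix.mulVec_smul, hGp, smul_zero, add_zero, star_add, star_smul,
    add_dotProduct, smul_dotProduct, hpG, smul_zero, add_zero, ← colM_mulVec, ← colM_mulVec,
    Matrix.star_mulVec, ← Matrix.dotProduct_mulVec, Matrix.mulVec_mulVec, Matrix.mulVec_mulVec,
    horth, Matrix.one_mulVec]

/-- (h1), sesquilinear form -/
theorem GGf_rep {p : EE N} (hp : p ∈ Cone I) {b : Fin n → EE N} (hb : Defs_58.Rep I a p b)
    (x y : Fin n → ℂ) (r s : ℂ) :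
    star (Wm p *ᵥ (∑ k, x k • b k + r • p)) ⬝ᵥ
      (GGf Pi a p *ᵥ (Wm p *ᵥ (∑ k, y k • b k + s • p))) = (nsq p : ℂ) ^ 2 * (star x ⬝ᵥ y) := by
  rw [GGf, GG_wdg hp.2, Gm_rep hI hX hPi ha hp hb]
  rfl

/-- (h1) -/
theorem Qf_rep (Y : Flds I) {p : EE N} (hp : p ∈ Cone I) {b : Fin n → EE N}
    (hb : Defs_58.Rep I a p b) {c : Fin Y.M → ℂ} {x : Fin n → ℂ} {r : ℂ}
    (h : ∑ j, c j • Y.at j p = ∑ k, x k • b k + r • p) :
    Qf Pi a Y p c = nsq p ^ 2 * ∑ k, ‖x k‖ ^ 2 := by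
  rw [Qf, Gam_form, h, GGf_rep hI hX hPi ha hp hb, Frm290.star_dot_self]
  have : (nsq p : ℂ) ^ 2 * ((Frm290.nsq x : ℝ) : ℂ) = ((nsq p ^ 2 * Frm290.nsq x : ℝ) : ℂ) := by
    push_cast; ring
  rw [this, Complex.ofReal_re]
  rfl


theorem smM_Gam (Y : Flds I) {p : EE N} (hp : p ∈ Cone I) : SmM (Gam Pi a Y) p := by
  unfold Gam
  exact ((((smM_Wm p).mul (smM_Xm Y p)).conjT).mul (smM_GGf hI hX hPi ha hp)).mul
    ((smM_Wm p).mul (smM_Xm Y p))

end h1

/-! ### (h2), (h3) -/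

/-- the compact shell of the cone -/
def shell (I : Ideal (HomCoordRing N)) (e : ℝ) : Set (EE N) :=
  {p | p ∈ affineCone I ∧ e ≤ nsq p ∧ nsq p ≤ 1}

theorem shell_sub {e : ℝ} (he : 0 < e) : shell I e ⊆ Cone I := by
  rintro p ⟨h1, h2, -⟩
  refine ⟨h1, ?_⟩
  rintro rfl
  have : nsq (0 : EE N) = 0 := by simp [nsq]
  rw [this] at h2
  exact absurd h2 (not_le.2 he)

theorem norm_sq_le_nsq (p : EE N) : ‖p‖ ^ 2 ≤ nsq p := by
  have h1 : ‖p‖ ≤ Real.sqrt (nsq p) := by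
    rw [pi_norm_le_iff_of_nonneg (Real.sqrt_nonneg _)]
    intro k
    refine Real.le_sqrt_of_sq_le ?_
    exact Finset.single_le_sum (f := fun k => ‖p k‖ ^ 2) (fun _ _ => by positivity)
      (Finset.mem_univ k)
  calc ‖p‖ ^ 2 ≤ Real.sqrt (nsq p) ^ 2 := pow_le_pow_left₀ (norm_nonneg _) h1 2
    _ = nsq p := Real.sq_sqrt (Finset.sum_nonneg fun _ _ => by positivity)

theorem isCompact_shell (I : Ideal (HomCoordRing N)) (e : ℝ) : IsCompact (shell I e) := by
  refine Metric.isCompact_of_isClosed_isBounded ?_ ?_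
  · exact (LevBr_901.isClosed_affineCone I).inter
      ((isClosed_le continuous_const LevBr_901.continuous_nsq).inter
        (isClosed_le LevBr_901.continuous_nsq continuous_const))
  · refine (Metric.isBounded_closedBall (x := (0 : EE N)) (r := 1)).subset ?_
    rintro p ⟨-, -, hp⟩
    rw [mem_closedBall_zero_iff]
    have h1 := norm_sq_le_nsq p
    nlinarith [norm_nonneg p]

/-- the real linear functional `m ↦ Re (cᴴ m c)` -/
def Lc {M : ℕ} (c : Fin M → ℂ) : (Fin M → Fin M → ℂ) →L[ℝ] ℝ :=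
  LinearMap.toContinuousLinearMap
    { toFun := fun m => (star c ⬝ᵥ (Matrix.of m *ᵥ c)).re
      map_add' := fun m m' => by
        have : Matrix.of (m + m') = Matrix.of m + Matrix.of m' := rfl
        rw [this, Matrix.add_mulVec, dotProduct_add, Complex.add_re]
      map_smul' := fun r m => by
        have : Matrix.of (r • m) = ((r : ℝ) : ℂ) • Matrix.of m := by
          ext i j; simp
        rw [this, Matrix.smul_mulVec, dotProduct_smul, smul_eq_mul, Complex.re_ofReal_mul]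
        rfl }

theorem Lc_apply {M : ℕ} (c : Fin M → ℂ) (m : Fin M → Fin M → ℂ) :
    Lc c m = (star c ⬝ᵥ (Matrix.of m *ᵥ c)).re := rfl

theorem Lc_le {M : ℕ} (c : Fin M → ℂ) (m : Fin M → Fin M → ℂ) :
    |Lc c m| ≤ M * (∑ j, ‖c j‖ ^ 2) * ‖m‖ := by
  rw [Lc_apply]
  have h1 : ∀ j k, ‖m j k‖ ≤ ‖m‖ := fun j k => (norm_le_pi_norm (m j) k).trans (norm_le_pi_norm m j)
  have h2 : ‖star c ⬝ᵥ (Matrix.of m *ᵥ c)‖ ≤ (∑ j, ‖c j‖) ^ 2 * ‖m‖ := by
    calc ‖star c ⬝ᵥ (Matrix.of m *ᵥ c)‖ ≤ ∑ j, ‖c j‖ * ∑ k, (‖m‖ * ‖c k‖) := by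
          rw [dotProduct]
          refine (norm_sum_le _ _).trans (Finset.sum_le_sum fun j _ => ?_)
          rw [norm_mul, Pi.star_apply, norm_star]
          refine mul_le_mul_of_nonneg_left ?_ (norm_nonneg _)
          rw [mulVec, dotProduct]
          refine (norm_sum_le _ _).trans (Finset.sum_le_sum fun k _ => ?_)
          rw [norm_mul, Matrix.of_apply]
          exact mul_le_mul_of_nonneg_right (h1 j k) (norm_nonneg _)
      _ = (∑ j, ‖c j‖) ^ 2 * ‖m‖ := by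
          rw [← Finset.sum_mul, ← Finset.mul_sum, pow_two]; ring
  have h3 : (∑ j, ‖c j‖) ^ 2 ≤ M * ∑ j, ‖c j‖ ^ 2 := by
    have := sq_sum_le_card_mul_sum_sq (s := (Finset.univ : Finset (Fin M))) (f := fun j => ‖c j‖)
    simpa using this
  calc |(star c ⬝ᵥ (Matrix.of m *ᵥ c)).re| ≤ ‖star c ⬝ᵥ (Matrix.of m *ᵥ c)‖ :=
        Complex.abs_re_le_norm _
    _ ≤ (∑ j, ‖c j‖) ^ 2 * ‖m‖ := h2
    _ ≤ _ := mul_le_mul_of_nonneg_right h3 (norm_nonneg _)

section h23
variable {Pi a : EE N → VV N} (hI : I.IsPrime) (hX : IsSmoothProjective I n) (hPi : PiData I Pi)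
  (ha : PosField I n a)
include hI hX hPi ha

/-- (h2) and (h3): uniform Taylor formula and bounds on the shell -/
theorem Qf_taylor (Y : Flds I) {e : ℝ} (he : 0 < e) :
    ∃ C : ℝ, 0 ≤ C ∧ ∀ p ∈ shell I e, ∀ c : Fin Y.M → ℂ,
      Qf Pi a Y p c ≤ C * ∑ j, ‖c j‖ ^ 2 ∧
      ∃ D : EE N →L[ℝ] ℝ, (∀ v, |D v| ≤ C * (∑ j, ‖c j‖ ^ 2) * Real.sqrt (nsq v)) ∧
        ∀ q ∈ shell I e, |Qf Pi a Y q c - Qf Pi a Y p c - D (q - p)| ≤
          C * (∑ j, ‖c j‖ ^ 2) * nsq (q - p) := by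
  obtain ⟨C, hC0, hC⟩ := Tay_936.taylor_compact (isCompact_shell I e)
    (g := fun p => (fun i j => Gam Pi a Y p i j : Fin Y.M → Fin Y.M → ℂ))
    (fun x hx => ((smM_Gam hI hX hPi ha Y (shell_sub he hx)).to_fun).of_le
      (WithTop.coe_le_coe.2 le_top))
  set g : EE N → (Fin Y.M → Fin Y.M → ℂ) := fun p => (fun i j => Gam Pi a Y p i j) with hg
  have hQ : ∀ p c, Qf Pi a Y p c = Lc c (g p) := fun p c => rfl
  refine ⟨Y.M * C, by positivity, fun p hp c => ?_⟩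
  set S := ∑ j, ‖c j‖ ^ 2 with hS
  have hS0 : 0 ≤ S := Finset.sum_nonneg fun _ _ => by positivity
  obtain ⟨h1, h2, h3⟩ := hC p hp
  refine ⟨?_, (Lc c).comp (fderiv ℝ g p), fun v => ?_, fun q hq => ?_⟩
  · rw [hQ]
    calc Lc c (g p) ≤ |Lc c (g p)| := le_abs_self _
      _ ≤ Y.M * S * ‖g p‖ := Lc_le c _
      _ ≤ Y.M * S * C := mul_le_mul_of_nonneg_left h1 (by positivity)
      _ = Y.M * C * S := by ring
  · rw [ContinuousLinearMap.comp_apply]
    have h4 : ‖fderiv ℝ g p v‖ ≤ C * Real.sqrt (nsq v) := by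
      refine (ContinuousLinearMap.le_opNorm _ _).trans ?_
      refine mul_le_mul h2 ?_ (norm_nonneg _) hC0
      exact Real.le_sqrt_of_sq_le (norm_sq_le_nsq v)
    calc |Lc c (fderiv ℝ g p v)| ≤ Y.M * S * ‖fderiv ℝ g p v‖ := Lc_le c _
      _ ≤ Y.M * S * (C * Real.sqrt (nsq v)) := mul_le_mul_of_nonneg_left h4 (by positivity)
      _ = Y.M * C * S * Real.sqrt (nsq v) := by ring
  · rw [hQ, hQ, ContinuousLinearMap.comp_apply, ← map_sub, ← map_sub]
    calc |Lc c (g q - g p - fderiv ℝ g p (q - p))|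
        ≤ Y.M * S * ‖g q - g p - fderiv ℝ g p (q - p)‖ := Lc_le c _
      _ ≤ Y.M * S * (C * nsq (q - p)) := by
          refine mul_le_mul_of_nonneg_left ((h3 q hq).trans ?_) (by positivity)
          exact mul_le_mul_of_nonneg_left (norm_sq_le_nsq _) hC0
      _ = Y.M * C * S * nsq (q - p) := by ring

end h23


end Crest.Agent.R269.GeoQ_936
end
end

-- ▼ part R269/GeoW_936
section

/-!
# Row 269, B9 → B2 (helper936): the Wold weight `Sop(p) = GG(p)^{1/2}` on the Hilbert space `FF N`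

`Gop Pi a p = toEuclideanCLM (GGf Pi a p)`, `Sop Pi a p = √(Gop Pi a p)`.

* `inner_Sop` : `⟪S v, S w⟫ = vᴴ GG w`;  `continuousOn_Sop`, `Sop_smul` (`ℂ*`-invariance);
* `Sw` : the extension by `1` outside the cone, `measurable_Sw`;
* `bounds` : `c ‖v‖² ≤ ‖S v‖² ≤ C ‖v‖²` on the whole cone;
* `inner_Sop_rep` : values on `(∑ x_k b_k + r p) ∧ p` for `Rep I a p b`;
* `rep_of_orth` : horizontal tangent vectors whose `V_i ∧ p` are `S`-orthonormal represent `a(p)`
  (`nsq p = 1`);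
* `Qf_eq_norm` : `Q p c = ‖S ((∑ c_j X_j) ∧ p)‖²`.
-/

set_option autoImplicit false
set_option linter.unusedSectionVars false
open Matrix Complex
open Crest.AlgGeometry.ProjEmb Crest.Agent.R269.Geo_328 Crest.Agent.R269.DefsS_731
open scoped ComplexConjugate ComplexOrder ContDiff Topology InnerProductSpace

noncomputable section
namespace Crest.Agent.R269.GeoW_936

open Crest.Agent.R269.Rate1_936 Crest.Agent.R269.GeoG_936 Crest.Agent.R269.SmM_936
  Crest.Agent.R269.GeoH_936 Crest.Agent.R269.GeoQ_936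
open Crest.Agent.R269.Defs_58 (PosField SmX DD wedgeSq TanFam)
open Crest.Agent.R269.Fib_402 (FF wE)

variable {N n : ℕ} {I : Ideal (HomCoordRing N)}

/-- `GG(p)` as an operator on `FF N` -/
def Gop (Pi a : EE N → VV N) (p : EE N) : FF N →L[ℂ] FF N :=
  Matrix.toEuclideanCLM (n := K2 N) (𝕜 := ℂ) (GGf Pi a p)

/-- the square root of `GG(p)` -/
def Sop (Pi a : EE N → VV N) (p : EE N) : FF N →L[ℂ] FF N := CFC.sqrt (Gop Pi a p)

theorem inner_Gop (Pi a : EE N → VV N) (p : EE N) (v w : FF N) :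
    ⟪v, Gop Pi a p w⟫_ℂ = star (WithLp.ofLp v) ⬝ᵥ (GGf Pi a p *ᵥ WithLp.ofLp w) := by
  rw [EuclideanSpace.inner_eq_star_dotProduct, Gop, Matrix.ofLp_toEuclideanCLM, dotProduct_comm]

/-- the linear map matrices → operators on plain functions -/
def toOp (N : ℕ) : (K2 N → K2 N → ℂ) →ₗ[ℂ] (FF N →L[ℂ] FF N) where
  toFun m := Matrix.toEuclideanCLM (n := K2 N) (𝕜 := ℂ) (Matrix.of m)
  map_add' m m' := by
    have : Matrix.of (m + m') = Matrix.of m + Matrix.of m' := rfl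
    rw [this, map_add]
  map_smul' c m := by
    have : Matrix.of (c • m) = c • Matrix.of m := rfl
    rw [this, map_smul]
    rfl

theorem wE_eq (V p : EE N) : WithLp.ofLp (wE V p) = Wm p *ᵥ V := by
  rw [Wm_eq_wdg]
  rfl

theorem measurableSet_Cone (I : Ideal (HomCoordRing N)) : MeasurableSet (Cone I) := by
  have h : Cone I = affineCone I ∩ {0}ᶜ := by
    ext p; rfl
  rw [h]
  exact (LevBr_901.isClosed_affineCone I).measurableSet.inter (measurableSet_singleton 0).compl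

section main
variable {Pi a : EE N → VV N} (hI : I.IsPrime) (hX : IsSmoothProjective I n) (hPi : PiData I Pi)
  (ha : PosField I n a)
include hI hX hPi ha

theorem Gop_nonneg {p : EE N} (hp : p ∈ Cone I) : 0 ≤ Gop Pi a p := by
  rw [ContinuousLinearMap.nonneg_iff_isPositive, ← ContinuousLinearMap.isPositive_toLinearMap_iff]
  have h := Matrix.isPositive_toEuclideanLin_iff.2 (GGf_posDef hI hX hPi ha hp).posSemidef
  exact h

theorem inner_Sop {p : EE N} (hp : p ∈ Cone I) (v w : FF N) :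
    ⟪Sop Pi a p v, Sop Pi a p w⟫_ℂ = star (WithLp.ofLp v) ⬝ᵥ (GGf Pi a p *ᵥ WithLp.ofLp w) := by
  have h0 := Gop_nonneg hI hX hPi ha hp
  have h1 : IsSelfAdjoint (Sop Pi a p) := (CFC.sqrt_nonneg (Gop Pi a p)).isSelfAdjoint
  have h2 : Sop Pi a p * Sop Pi a p = Gop Pi a p := CFC.sqrt_mul_sqrt_self _ h0
  have h3 := (ContinuousLinearMap.isSelfAdjoint_iff_isSymmetric.1 h1) v (Sop Pi a p w)
  have h4 : (Sop Pi a p) ((Sop Pi a p) w) = Gop Pi a p w := by
    rw [← h2]; rfl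
  rw [← inner_Gop, ← h4]
  exact h3

theorem norm_sq_Sop {p : EE N} (hp : p ∈ Cone I) (v : FF N) :
    ‖Sop Pi a p v‖ ^ 2 = (star (WithLp.ofLp v) ⬝ᵥ (GGf Pi a p *ᵥ WithLp.ofLp v)).re := by
  rw [← inner_Sop hI hX hPi ha hp v v, inner_self_eq_norm_sq_to_K]
  norm_cast

theorem Sop_smul {p : EE N} (hp : p ∈ Cone I) {c : ℂ} (hc : c ≠ 0) :
    Sop Pi a (c • p) = Sop Pi a p := by
  rw [Sop, Gop, GGf_smul hI hX hPi ha hp hc]
  rfl

theorem continuousOn_Sop : ContinuousOn (Sop Pi a) (Cone I) := by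
  have h1 : ContinuousOn (Gop Pi a) (Cone I) := by
    have h2 : ContinuousOn (fun p => (fun i j => GGf Pi a p i j : K2 N → K2 N → ℂ)) (Cone I) :=
      fun p hp => ((smM_GGf hI hX hPi ha hp).to_fun.continuousAt).continuousWithinAt
    exact (toOp N).continuous_of_finiteDimensional.comp_continuousOn h2
  exact CFC.continuousOn_sqrt.comp h1 fun p hp => Gop_nonneg hI hX hPi ha hp

theorem Sop_ne {p : EE N} (hp : p ∈ Cone I) {v : FF N} (hv : v ≠ 0) : Sop Pi a p v ≠ 0 := by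
  intro h
  have h1 := norm_sq_Sop hI hX hPi ha hp v
  have hv' : WithLp.ofLp v ≠ 0 := fun h0 => hv (by
    ext i
    exact congrFun h0 i)
  have h2 := (GGf_posDef hI hX hPi ha hp).dotProduct_mulVec_pos hv'
  have h3 := (Complex.lt_def.1 h2).1
  rw [h, norm_zero] at h1
  rw [← h1] at h3
  norm_num at h3

/-- uniform bounds on the whole cone -/
theorem bounds : ∃ c C : ℝ, 0 < c ∧ 0 ≤ C ∧ ∀ p ∈ Cone I, ∀ v : FF N,
    c * ‖v‖ ≤ ‖Sop Pi a p v‖ ∧ ‖Sop Pi a p v‖ ≤ C * ‖v‖ := by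
  have hK := (isCompact_shell I 1)
  have hsub : shell I 1 ⊆ Cone I := shell_sub one_pos
  have hS : ContinuousOn (Sop Pi a) (shell I 1) := (continuousOn_Sop hI hX hPi ha).mono hsub
  obtain ⟨C, hC⟩ := hK.exists_bound_of_continuousOn hS
  have hKv : IsCompact (shell I 1 ×ˢ Metric.sphere (0 : FF N) 1) := hK.prod (isCompact_sphere _ _)
  have hcont : ContinuousOn (fun q : EE N × FF N => ‖Sop Pi a q.1 q.2‖)
      (shell I 1 ×ˢ Metric.sphere (0 : FF N) 1) := by
    refine ContinuousOn.norm ?_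
    exact ContinuousOn.clm_apply (hS.comp continuousOn_fst fun q hq => hq.1) continuousOn_snd
  obtain ⟨c, hc0, hc⟩ := hKv.exists_forall_le' hcont (a := 0) (by
    rintro ⟨p, v⟩ ⟨hp, hv⟩
    rw [mem_sphere_zero_iff_norm] at hv
    exact norm_pos_iff.2 (Sop_ne hI hX hPi ha (hsub hp) (by
      rintro rfl
      simp at hv)))
  refine ⟨c, max C 0, hc0, le_max_right _ _, fun p hp v => ?_⟩
  have hP : 0 < nsq p := Fib_402.nsq_pos hp.2
  have hsq : 0 < Real.sqrt (nsq p) := Real.sqrt_pos.2 hP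
  have hrC : (((Real.sqrt (nsq p))⁻¹ : ℝ) : ℂ) ≠ 0 := by
    exact_mod_cast (inv_pos.2 hsq).ne'
  set p' : EE N := (((Real.sqrt (nsq p))⁻¹ : ℝ) : ℂ) • p with hp'
  have hp'C : p' ∈ shell I 1 := by
    have h1 : p' ∈ affineCone I := smul_mem_affineCone hX hp.1 _
    have h2 : nsq p' = 1 := by
      have h3 : nsq p' = ‖(((Real.sqrt (nsq p))⁻¹ : ℝ) : ℂ)‖ ^ 2 * nsq p := Frm290.nsq_smul _ p
      rw [h3, Complex.norm_real, Real.norm_eq_abs, sq_abs, inv_pow, Real.sq_sqrt hP.le,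
        inv_mul_cancel₀ hP.ne']
    exact ⟨h1, h2.ge, h2.le⟩
  have hSp : Sop Pi a p' = Sop Pi a p := Sop_smul hI hX hPi ha hp hrC
  rw [← hSp]
  constructor
  · rcases eq_or_ne v 0 with rfl | hv
    · simp
    · have hvn : 0 < ‖v‖ := norm_pos_iff.2 hv
      have h1 := hc (p', ((‖v‖⁻¹ : ℝ) : ℂ) • v) ⟨hp'C, by
        rw [mem_sphere_zero_iff_norm, norm_smul, Complex.norm_real, Real.norm_eq_abs,
          abs_of_pos (inv_pos.2 hvn), inv_mul_cancel₀ hvn.ne']⟩
      simp only [map_smul, norm_smul, Complex.norm_real, Real.norm_eq_abs,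
        abs_of_pos (inv_pos.2 hvn)] at h1
      calc c * ‖v‖ ≤ (‖v‖⁻¹ * ‖Sop Pi a p' v‖) * ‖v‖ := mul_le_mul_of_nonneg_right h1 hvn.le
        _ = ‖Sop Pi a p' v‖ := by field_simp
  · refine (ContinuousLinearMap.le_opNorm _ _).trans ?_
    exact mul_le_mul_of_nonneg_right ((hC p' hp'C).trans (le_max_left _ _)) (norm_nonneg _)


theorem Qf_eq_norm (Y : Flds I) {p : EE N} (hp : p ∈ Cone I) (c : Fin Y.M → ℂ) :
    Qf Pi a Y p c = ‖Sop Pi a p (wE (∑ j, c j • Y.at j p) p)‖ ^ 2 := by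
  rw [norm_sq_Sop hI hX hPi ha hp, wE_eq, Qf, Gam_form]

/-- `S`-orthonormal `V_i ∧ p` with horizontal tangent `V_i`: then `V` represents `a(p)` -/
theorem rep_of_orth {p : EE N} (hp : p ∈ Cone I) (hn1 : nsq p = 1) {V : Fin n → EE N}
    (hV : TanFam I p V) (hh : ∀ i, ∑ k, V i k * conj (p k) = 0)
    (horth : ∀ i j, ⟪Sop Pi a p (wE (V i) p), Sop Pi a p (wE (V j) p)⟫_ℂ = if i = j then 1 else 0) :
    Defs_58.Rep I a p V := by
  obtain ⟨h1, h2, -⟩ := tanStmt N n I hI hX p hp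
  obtain ⟨b₀, hb₀, -⟩ := ha.rep p hp
  have hrep := rep_of ha hp hb₀
  have hM : (colM V)ᴴ * Rate2_936.Gm p (Matrix.of (Pi p)) (Matrix.of (a p)) * colM V = 1 := by
    ext i j
    have h3 := horth i j
    rw [inner_Sop hI hX hPi ha hp, wE_eq, wE_eq, GGf, GG_wdg hp.2] at h3
    have h4 : ((Frm290.nsq p : ℝ) : ℂ) = 1 := by
      have : Frm290.nsq p = 1 := hn1
      rw [this, Complex.ofReal_one]
    rw [h4, one_pow, one_mul] at h3
    rw [Matrix.one_apply, ← h3, Matrix.mul_assoc, Matrix.mul_apply, dotProduct]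
    refine Finset.sum_congr rfl fun k _ => ?_
    rw [Matrix.conjTranspose_apply, colM, Matrix.of_apply, _root_.Pi.star_apply]
    congr 1
  have hcol : ∀ c, colM V *ᵥ c ∈ Tan I p := fun c => by
    rw [colM_mulVec]
    exact Submodule.sum_mem _ fun i _ => Submodule.smul_mem _ _ (hV i)
  have h5 := hrep.outer (hPi.isPi p hp) h2 hp.2 h1 hcol hM
  have hhor : star p ᵥ* colM V = 0 := by
    funext i
    simp only [vecMul, dotProduct, colM, of_apply, _root_.Pi.star_apply, RCLike.star_def, _root_.Pi.zero_apply]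
    rw [← hh i]
    exact Finset.sum_congr rfl fun k _ => mul_comm _ _
  have h6 : Frm290.prj p * colM V = colM V := Rate2_936.prj_mul_of_hor hhor
  have h7 : (colM V)ᴴ * Frm290.prj p = (colM V)ᴴ := by
    have := congrArg Matrix.conjTranspose h6
    rwa [Matrix.conjTranspose_mul, (Frm290.prj_isHermitian p).eq] at this
  rw [← Matrix.mul_assoc, h6, Matrix.mul_assoc, h7] at h5
  refine ⟨hV, hh, fun j k => ?_⟩
  have h8 := congrFun (congrFun h5 j) k
  rw [Matrix.mul_apply, Matrix.of_apply] at h8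
  rw [← h8]
  refine Finset.sum_congr rfl fun i _ => ?_
  rw [Matrix.conjTranspose_apply, colM, Matrix.of_apply, Matrix.of_apply, RCLike.star_def]

open Classical in
/-- `Sop` extended by `1` outside the cone -/
theorem measurable_Sop : ∃ Sw : EE N → (FF N →L[ℂ] FF N), Measurable Sw ∧
    ∀ p ∈ Cone I, Sw p = Sop Pi a p := by
  refine ⟨(Cone I).piecewise (Sop Pi a) (fun _ => 1), ?_, fun p hp => Set.piecewise_eq_of_mem _ _ _ hp⟩
  exact (continuousOn_Sop hI hX hPi ha).measurable_piecewise continuousOn_const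
    (measurableSet_Cone I)

end main

end Crest.Agent.R269.GeoW_936
end
end

-- ▼ part R269/WoldW_248
section

/-!
# R269 (helper248), leaf B2: weighted Wold decomposition

* `woldS` : weight `S : Ω → F →L[ℂ] F'`, `c ‖v‖ ≤ ‖S ω v‖ ≤ C ‖v‖`.
* `woldG` : weight `G : Ω → F →L[ℂ] F` self-adjoint, `c ‖v‖² ≤ re ⟪v, G ω v⟫`, `‖G ω‖ ≤ C`.
-/

set_option autoImplicit false
set_option linter.unusedSectionVars false

open MeasureTheory Filter Topology
open scoped ComplexConjugate InnerProductSpace ENNReal NNReal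

noncomputable section

namespace Crest.Agent.R269.WoldW_248

open Crest.Agent.R269.Wold290

variable {Ω : Type*} [MeasurableSpace Ω] {μ : Measure Ω}
variable {F F' : Type*} [NormedAddCommGroup F] [InnerProductSpace ℂ F]
  [NormedAddCommGroup F'] [InnerProductSpace ℂ F']

/-! ## multiplication operators -/

theorem aesm_op {S : Ω → F →L[ℂ] F'} (hS : AEStronglyMeasurable S μ) {Q : Ω → F}
    (hQ : AEStronglyMeasurable Q μ) : AEStronglyMeasurable (fun t => S t (Q t)) μ :=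
  (ContinuousLinearMap.id ℂ (F →L[ℂ] F')).aestronglyMeasurable_comp₂ hS hQ

theorem memLp_op {S : Ω → F →L[ℂ] F'} (hS : AEStronglyMeasurable S μ) {C : ℝ}
    (hC : ∀ᵐ t ∂μ, ‖S t‖ ≤ C) {Q : Ω → F} (hQ : MemLp Q 2 μ) : MemLp (fun t => S t (Q t)) 2 μ := by
  refine MemLp.of_le_mul (c := C) hQ (aesm_op hS hQ.1) ?_
  filter_upwards [hC] with t ht
  exact (S t).le_of_opNorm_le ht _

/-- multiplication by a bounded measurable operator function -/
def mulOp (S : Ω → F →L[ℂ] F') (hS : AEStronglyMeasurable S μ) (C : ℝ)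
    (hC : ∀ᵐ t ∂μ, ‖S t‖ ≤ C) : Lp F 2 μ →L[ℂ] Lp F' 2 μ :=
  LinearMap.mkContinuous
    { toFun := fun Q => (memLp_op hS hC (Lp.memLp Q)).toLp _
      map_add' := fun P Q => by
        rw [← MemLp.toLp_add]
        refine MemLp.toLp_congr _ _ ?_
        filter_upwards [Lp.coeFn_add P Q] with t h
        rw [h, Pi.add_apply, map_add, Pi.add_apply]
      map_smul' := fun c Q => by
        rw [RingHom.id_apply, ← MemLp.toLp_const_smul]
        refine MemLp.toLp_congr _ _ ?_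
        filter_upwards [Lp.coeFn_smul c Q] with t h
        rw [h, Pi.smul_apply, map_smul, Pi.smul_apply] } C fun Q => by
    show ‖(memLp_op hS hC (Lp.memLp Q)).toLp _‖ ≤ C * ‖Q‖
    refine Lp.norm_le_mul_norm_of_ae_le_mul ?_
    filter_upwards [(memLp_op hS hC (Lp.memLp Q)).coeFn_toLp, hC] with t h1 h2
    rw [h1]; exact (S t).le_of_opNorm_le h2 _

theorem coeFn_mulOp (S : Ω → F →L[ℂ] F') (hS : AEStronglyMeasurable S μ) (C : ℝ)
    (hC : ∀ᵐ t ∂μ, ‖S t‖ ≤ C) (Q : Lp F 2 μ) :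
    mulOp S hS C hC Q =ᵐ[μ] fun t => S t (Q t) :=
  (memLp_op hS hC (Lp.memLp Q)).coeFn_toLp

section S
variable {z : Ω → ℂ} [FiniteDimensional ℂ F] [FiniteDimensional ℂ F'] [IsProbabilityMeasure μ]

/-- **Weighted Wold decomposition**, weight given by its square root `S`. -/
theorem woldS (hz : UZ μ z) (S : Ω → F →L[ℂ] F') (hS : AEStronglyMeasurable S μ) {c C : ℝ}
    (hc : 0 < c) (hC : ∀ᵐ ω ∂μ, ‖S ω‖ ≤ C) (hlow : ∀ᵐ ω ∂μ, ∀ v : F, c * ‖v‖ ≤ ‖S ω v‖)
    (M : Submodule ℂ (Lp F 2 μ)) (hcl : IsClosed (M : Set (Lp F 2 μ)))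
    (hinv : ∀ f ∈ M, mz hz f ∈ M)
    (hpure : ∀ f : Lp F 2 μ, (∀ k : ℕ, ∃ g ∈ M, f = (mz hz)^[k] g) → f = 0) :
    ∃ (m : ℕ) (V : Fin m → Lp F 2 μ), (∀ i, V i ∈ M) ∧
      (∀ᵐ ω ∂μ, ∀ i j, ⟪S ω (V i ω), S ω (V j ω)⟫_ℂ = if i = j then 1 else 0) ∧
      (∀ i, ∀ᵐ ω ∂μ, ‖V i ω‖ ≤ c⁻¹) ∧
      (∀ f ∈ M, ∀ i, ∀ k : ℕ, 1 ≤ k → ∫ ω, z ω ^ k * ⟪S ω (V i ω), S ω (f ω)⟫_ℂ ∂μ = 0) ∧
      (∀ f ∈ M, ∀ᵐ ω ∂μ, f ω = ∑ i, ⟪S ω (V i ω), S ω (f ω)⟫_ℂ • V i ω) := by
  set T := mulOp S hS C hC with hT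
  have hTf : ∀ f : Lp F 2 μ, ∀ᵐ ω ∂μ, T f ω = S ω (f ω) := fun f => coeFn_mulOp S hS C hC f
  -- lower bound
  have hTlow : ∀ f : Lp F 2 μ, ‖f‖ ≤ c⁻¹ * ‖T f‖ := by
    intro f
    refine Lp.norm_le_mul_norm_of_ae_le_mul ?_
    filter_upwards [hTf f, hlow] with ω h1 h2
    rw [h1, ← div_eq_inv_mul, le_div_iff₀ hc, mul_comm]
    exact h2 _
  have hTinj : ∀ f g : Lp F 2 μ, T f = T g → f = g := by
    intro f g h
    have h1 := hTlow (f - g)
    rw [map_sub, h, sub_self, norm_zero, mul_zero] at h1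
    exact sub_eq_zero.1 (norm_le_zero_iff.1 h1)
  have hcomm : ∀ f : Lp F 2 μ, T (mz hz f) = mz hz (T f) := by
    intro f
    apply Lp.ext
    filter_upwards [hTf (mz hz f), coeFn_mz hz f, coeFn_mz hz (T f), hTf f] with ω h1 h2 h3 h4
    rw [h1, h2, h3, h4, map_smul]
  have hcommk : ∀ (k : ℕ) (f : Lp F 2 μ), T ((mz hz)^[k] f) = (mz hz)^[k] (T f) := by
    intro k
    induction k with
    | zero => intro f; rfl
    | succ k ih =>
      intro f
      rw [Function.iterate_succ_apply', hcomm, ih, Function.iterate_succ_apply']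
  set N : Submodule ℂ (Lp F' 2 μ) := M.map T.toLinearMap with hN
  have hNcl : IsClosed (N : Set (Lp F' 2 μ)) := by
    have hMc : CompleteSpace M := hcl.completeSpace_coe
    let T' : M →L[ℂ] Lp F' 2 μ := T.comp M.subtypeL
    have hal : AntilipschitzWith (Real.toNNReal c⁻¹) T' := by
      refine AddMonoidHomClass.antilipschitz_of_bound T' fun f => ?_
      rw [Real.coe_toNNReal _ (inv_nonneg.2 hc.le)]
      exact hTlow (f : Lp F 2 μ)
    have hr := hal.isClosed_range T'.uniformContinuous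
    convert hr using 1
    ext f
    constructor
    · rintro ⟨g, hg, rfl⟩; exact ⟨⟨g, hg⟩, rfl⟩
    · rintro ⟨g, rfl⟩; exact ⟨g, g.2, rfl⟩
  have hNinv : ∀ f ∈ N, mz hz f ∈ N := by
    rintro _ ⟨g, hg, rfl⟩
    exact ⟨mz hz g, hinv g hg, hcomm g⟩
  have hNpure : ∀ f : Lp F' 2 μ, (∀ k : ℕ, ∃ g ∈ N, f = (mz hz)^[k] g) → f = 0 := by
    intro f hf
    obtain ⟨_, ⟨f0, hf0, rfl⟩, h0⟩ := hf 0
    have hf0' : f = T f0 := h0
    have h1 : f0 = 0 := by
      refine hpure f0 fun k => ?_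
      obtain ⟨_, ⟨g, hg, rfl⟩, hk⟩ := hf k
      refine ⟨g, hg, hTinj _ _ ?_⟩
      rw [hcommk, ← hf0', hk]; rfl
    rw [hf0', h1, map_zero]
  obtain ⟨m, W, hWN, hWo, hWc, hWs⟩ := wold hz N hNcl hNinv hNpure
  choose V hVM hVW using hWN
  have hVae : ∀ᵐ ω ∂μ, ∀ i, W i ω = S ω (V i ω) := by
    rw [ae_all_iff]; intro i
    have h1 : W i = T (V i) := (hVW i).symm
    rw [h1]; exact hTf (V i)
  refine ⟨m, V, hVM, ?_, ?_, ?_, ?_⟩
  · filter_upwards [hWo, hVae] with ω h1 h2 i j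
    rw [← h2 i, ← h2 j]; exact h1 i j
  · intro i
    filter_upwards [hWo, hVae, hlow] with ω h1 h2 h3
    have h4 : ‖S ω (V i ω)‖ = 1 := by
      have h5 := h1 i i
      rw [if_pos rfl, h2 i] at h5
      have h6 : ‖S ω (V i ω)‖ ^ 2 = 1 := by
        rw [← inner_self_eq_norm_sq (𝕜 := ℂ), h5]; simp
      nlinarith [norm_nonneg (S ω (V i ω))]
    have h7 := h3 (V i ω)
    rw [h4, mul_comm, ← le_div_iff₀ hc, one_div] at h7
    exact h7
  · intro f hf i k hk
    have h1 := hWc (T f) ⟨f, hf, rfl⟩ i k hk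
    rw [← h1]
    refine integral_congr_ae ?_
    filter_upwards [hVae, hTf f] with ω h2 h3
    rw [h2 i, h3]
  · intro f hf
    filter_upwards [hWs (T f) ⟨f, hf, rfl⟩, hVae, hTf f, hlow] with ω h1 h2 h3 h4
    have h5 : S ω (f ω - ∑ i, ⟪S ω (V i ω), S ω (f ω)⟫_ℂ • V i ω) = 0 := by
      rw [map_sub, map_sum, sub_eq_zero]
      simp only [map_smul]
      rw [h3] at h1
      simp only [h2] at h1
      exact h1
    have h6 := h4 (f ω - ∑ i, ⟪S ω (V i ω), S ω (f ω)⟫_ℂ • V i ω)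
    rw [h5, norm_zero] at h6
    have h7 : ‖f ω - ∑ i, ⟪S ω (V i ω), S ω (f ω)⟫_ℂ • V i ω‖ ≤ 0 := by
      by_contra hne
      push Not at hne
      have := mul_pos hc hne
      linarith
    exact sub_eq_zero.1 (norm_le_zero_iff.1 h7)

end S

/-! ## weight given by a positive definite operator -/

section G
variable {z : Ω → ℂ} [FiniteDimensional ℂ F] [IsProbabilityMeasure μ]

theorem aesm_sqrt {G : Ω → F →L[ℂ] F} (hG : AEStronglyMeasurable G μ)
    (hp : ∀ᵐ ω ∂μ, (0 : F →L[ℂ] F) ≤ G ω) : AEStronglyMeasurable (fun ω => CFC.sqrt (G ω)) μ := by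
  classical
  have : CompleteSpace F := FiniteDimensional.complete ℂ F
  borelize (F →L[ℂ] F)
  have hcl : IsClosed {a : F →L[ℂ] F | 0 ≤ a} := isClosed_Ici
  have hm : Measurable (fun a : F →L[ℂ] F => if a ∈ {a : F →L[ℂ] F | 0 ≤ a} then CFC.sqrt a else 0) := by
    refine ContinuousOn.measurable_piecewise (f := CFC.sqrt) (g := fun _ => (0 : F →L[ℂ] F)) ?_
      continuousOn_const hcl.measurableSet
    exact CFC.continuousOn_sqrt
  have h1 : AEMeasurable (fun ω => (fun a : F →L[ℂ] F =>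
      if a ∈ {a : F →L[ℂ] F | 0 ≤ a} then CFC.sqrt a else 0) (G ω)) μ :=
    hm.comp_aemeasurable hG.aemeasurable
  refine (h1.aestronglyMeasurable).congr ?_
  filter_upwards [hp] with ω hω
  exact if_pos hω

/-- **Weighted Wold decomposition**, positive definite weight `G`. -/
theorem woldG (hz : UZ μ z) (G : Ω → F →L[ℂ] F) (hG : AEStronglyMeasurable G μ) {c C : ℝ}
    (hc : 0 < c) (hC : ∀ᵐ ω ∂μ, ‖G ω‖ ≤ C) (hsa : ∀ᵐ ω ∂μ, ∀ v w : F, ⟪G ω v, w⟫_ℂ = ⟪v, G ω w⟫_ℂ)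
    (hlow : ∀ᵐ ω ∂μ, ∀ v : F, c * ‖v‖ ^ 2 ≤ (⟪v, G ω v⟫_ℂ).re)
    (M : Submodule ℂ (Lp F 2 μ)) (hcl : IsClosed (M : Set (Lp F 2 μ)))
    (hinv : ∀ f ∈ M, mz hz f ∈ M)
    (hpure : ∀ f : Lp F 2 μ, (∀ k : ℕ, ∃ g ∈ M, f = (mz hz)^[k] g) → f = 0) :
    ∃ (m : ℕ) (V : Fin m → Lp F 2 μ), (∀ i, V i ∈ M) ∧
      (∀ᵐ ω ∂μ, ∀ i j, ⟪V i ω, G ω (V j ω)⟫_ℂ = if i = j then 1 else 0) ∧
      (∀ i, ∀ᵐ ω ∂μ, ‖V i ω‖ ^ 2 ≤ c⁻¹) ∧
      (∀ f ∈ M, ∀ i, ∀ k : ℕ, 1 ≤ k → ∫ ω, z ω ^ k * ⟪V i ω, G ω (f ω)⟫_ℂ ∂μ = 0) ∧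
      (∀ f ∈ M, ∀ᵐ ω ∂μ, f ω = ∑ i, ⟪V i ω, G ω (f ω)⟫_ℂ • V i ω) := by
  have : CompleteSpace F := FiniteDimensional.complete ℂ F
  have hpos : ∀ᵐ ω ∂μ, (0 : F →L[ℂ] F) ≤ G ω := by
    filter_upwards [hsa, hlow] with ω h1 h2
    rw [ContinuousLinearMap.nonneg_iff_isPositive, ContinuousLinearMap.isPositive_iff_complex]
    intro v
    have h3 : (⟪G ω v, v⟫_ℂ).im = 0 := by
      have h4 : (starRingEnd ℂ) ⟪G ω v, v⟫_ℂ = ⟪G ω v, v⟫_ℂ := by
        rw [inner_conj_symm, ← h1]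
      exact Complex.conj_eq_iff_im.1 h4
    have h5 : 0 ≤ (⟪G ω v, v⟫_ℂ).re := by
      rw [h1]
      exact (mul_nonneg hc.le (sq_nonneg _)).trans (h2 v)
    refine ⟨?_, ?_⟩
    · apply Complex.ext
      · simp
      · simp [h3]
    · simpa using h5
  set S : Ω → F →L[ℂ] F := fun ω => CFC.sqrt (G ω) with hSdef
  have hSm : AEStronglyMeasurable S μ := aesm_sqrt hG hpos
  have hSsa : ∀ ω, ∀ v w : F, ⟪S ω v, w⟫_ℂ = ⟪v, S ω w⟫_ℂ := by
    intro ω v w
    have h1 : (0 : F →L[ℂ] F) ≤ S ω := CFC.sqrt_nonneg _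
    rw [ContinuousLinearMap.nonneg_iff_isPositive] at h1
    exact h1.isSymmetric v w
  have hSS : ∀ᵐ ω ∂μ, ∀ v w : F, ⟪S ω v, S ω w⟫_ℂ = ⟪v, G ω w⟫_ℂ := by
    filter_upwards [hpos] with ω h1 v w
    rw [hSsa]
    have h2 : S ω * S ω = G ω := CFC.sqrt_mul_sqrt_self (G ω) h1
    rw [← h2]; rfl
  have hSn : ∀ᵐ ω ∂μ, ∀ v : F, ‖S ω v‖ ^ 2 = (⟪v, G ω v⟫_ℂ).re := by
    filter_upwards [hSS] with ω h v
    rw [← h v v, ← inner_self_eq_norm_sq (𝕜 := ℂ)]
    rfl
  have hSC : ∀ᵐ ω ∂μ, ‖S ω‖ ≤ Real.sqrt C := by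
    filter_upwards [hSn, hC] with ω h1 h2
    have hC0 : 0 ≤ C := (norm_nonneg _).trans h2
    refine ContinuousLinearMap.opNorm_le_bound _ (Real.sqrt_nonneg _) fun v => ?_
    refine abs_le_of_sq_le_sq' ?_ (by positivity) |>.2
    rw [mul_pow, Real.sq_sqrt hC0, h1]
    calc (⟪v, G ω v⟫_ℂ).re ≤ ‖⟪v, G ω v⟫_ℂ‖ := Complex.re_le_norm _
      _ ≤ ‖v‖ * ‖G ω v‖ := norm_inner_le_norm _ _
      _ ≤ ‖v‖ * (C * ‖v‖) := by
          gcongr; exact (G ω).le_of_opNorm_le h2 v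
      _ = C * ‖v‖ ^ 2 := by ring
  have hSlow : ∀ᵐ ω ∂μ, ∀ v : F, Real.sqrt c * ‖v‖ ≤ ‖S ω v‖ := by
    filter_upwards [hSn, hlow] with ω h1 h2 v
    refine abs_le_of_sq_le_sq' ?_ (norm_nonneg _) |>.2
    rw [mul_pow, Real.sq_sqrt hc.le, h1]
    exact h2 v
  obtain ⟨m, V, h1, h2, h3, h4, h5⟩ := woldS hz S hSm (Real.sqrt_pos.2 hc) hSC hSlow M hcl hinv hpure
  refine ⟨m, V, h1, ?_, ?_, ?_, ?_⟩
  · filter_upwards [h2, hSS] with ω h6 h7 i j
    rw [← h7]; exact h6 i j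
  · intro i
    filter_upwards [h3 i] with ω h6
    have h7 : (Real.sqrt c)⁻¹ ^ 2 = c⁻¹ := by rw [inv_pow, Real.sq_sqrt hc.le]
    rw [← h7]
    gcongr
  · intro f hf i k hk
    rw [← h4 f hf i k hk]
    refine integral_congr_ae ?_
    filter_upwards [hSS] with ω h7
    rw [h7]
  · intro f hf
    filter_upwards [h5 f hf, hSS] with ω h6 h7
    simp only [h7] at h6
    exact h6

end G

end Crest.Agent.R269.WoldW_248
end
end

-- ▼ part R269/WoldC_248
section

/-!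
# R269 (helper248), leaf B2: weighted Wold decomposition on the circle

* `isH2_smul` : product of an `H²` function with a bounded `H²` function;
* `wold_weighted` : closed `z`-invariant submodule of `H²`, positive definite weight `G`.
-/

set_option autoImplicit false
set_option linter.unusedSectionVars false

open MeasureTheory Filter Topology
open scoped ComplexConjugate InnerProductSpace ENNReal NNReal

noncomputable section

namespace Crest.Agent.R269.WoldW_248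

open Crest.Agent.R269.Wold290

variable {F : Type*} [NormedAddCommGroup F] [InnerProductSpace ℂ F]

/-! ## the circle -/

section circle
open Crest.Agent.R269.Hardy_142 AddCircle
variable [FiniteDimensional ℂ F]

theorem zt_eq_fourier : (fun t : TT => (fourier 1 t : ℂ)) = zt := by
  funext t
  have := fourier_nat 1 t
  simpa using this

theorem uz : UZ mu zt := zt_eq_fourier ▸ uz_addCircle

theorem fourierCoeff_zt_smul (Q : TT → F) (n : ℤ) :
    fourierCoeff (fun t => zt t • Q t) n = fourierCoeff Q (n - 1) := by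
  unfold fourierCoeff
  refine integral_congr_ae (Eventually.of_forall fun t => ?_)
  simp only [smul_smul]
  congr 1
  rw [← zt_eq_fourier, ← fourier_add]
  congr 2; ring

theorem fourierCoeff_zt_pow_smul (k : ℕ) (Q : TT → F) (n : ℤ) :
    fourierCoeff (fun t => zt t ^ k • Q t) n = fourierCoeff Q (n - k) := by
  induction k generalizing n with
  | zero => simp
  | succ k ih =>
    have h : (fun t : TT => zt t ^ (k + 1) • Q t) = fun t => zt t • (zt t ^ k • Q t) := by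
      funext t; rw [smul_smul, pow_succ']
    rw [h, fourierCoeff_zt_smul (F := F) (fun t => zt t ^ k • Q t), ih]
    congr 1; push_cast; ring

theorem isH2_zt_pow_smul {Q : TT → F} (hQ : IsH2 Q) (k : ℕ) : IsH2 (fun t => zt t ^ k • Q t) := by
  refine ⟨?_, fun n hn => ?_⟩
  · refine MemLp.of_le hQ.memLp (((continuous_zt.pow k).aestronglyMeasurable).smul hQ.memLp.1) ?_
    refine Eventually.of_forall fun t => ?_
    rw [norm_smul, norm_pow, norm_zt, one_pow, one_mul]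
  · rw [fourierCoeff_zt_pow_smul]
    exact hQ.coeff _ (by have := Int.natCast_nonneg k; omega)

theorem ext_zt_smul {Q : TT → F} (hQ : IsH2 Q) {w : ℂ} (hw : ‖w‖ < 1) :
    ext (fun t => zt t • Q t) w = w • ext Q w := by
  have : CompleteSpace F := FiniteDimensional.complete ℂ F
  have h1 : IsH2 (fun t => zt t • Q t) := by
    have := isH2_zt_pow_smul hQ 1
    simpa using this
  have h2 := hasSum_ext h1.integrable hw
  have h3 := (hasSum_ext hQ.integrable hw).const_smul w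
  have h4 : HasSum (fun k : ℕ => w ^ (k + 1) • fourierCoeff (fun t => zt t • Q t) ((k + 1 : ℕ) : ℤ))
      (w • ext Q w) := by
    convert h3 using 1
    funext k
    rw [fourierCoeff_zt_smul, smul_smul, pow_succ']
    congr 2; push_cast; ring
  have h5 := (hasSum_nat_add_iff
    (f := fun k : ℕ => w ^ k • fourierCoeff (fun t => zt t • Q t) (k : ℤ)) 1).1 h4
  simp only [Finset.range_one, Finset.sum_singleton, pow_zero, one_smul] at h5
  have h6 : fourierCoeff (fun t => zt t • Q t) ((0 : ℕ) : ℤ) = 0 := by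
    rw [fourierCoeff_zt_smul]; exact hQ.coeff _ (by simp)
  rw [h6, add_zero] at h5
  exact h2.unique h5

theorem ext_zt_pow_smul {Q : TT → F} (hQ : IsH2 Q) (k : ℕ) {w : ℂ} (hw : ‖w‖ < 1) :
    ext (fun t => zt t ^ k • Q t) w = w ^ k • ext Q w := by
  induction k with
  | zero => simp
  | succ k ih =>
    have h : (fun t : TT => zt t ^ (k + 1) • Q t) = fun t => zt t • (zt t ^ k • Q t) := by
      funext t; rw [smul_smul, pow_succ']
    rw [h, ext_zt_smul (isH2_zt_pow_smul hQ k) hw, ih, smul_smul, pow_succ']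

/-- `ext` as a continuous linear map on `L²` -/
def extL (w : ℂ) (hw : ‖w‖ < 1) : Lp F 2 mu →L[ℂ] F :=
  LinearMap.mkContinuous
    { toFun := fun Q => ext Q w
      map_add' := fun P Q => by
        rw [← ext_add ((Lp.memLp P).integrable (by norm_num)) ((Lp.memLp Q).integrable (by norm_num)) hw]
        exact congrFun (ext_congr (Lp.coeFn_add P Q)) w
      map_smul' := fun c Q => by
        rw [RingHom.id_apply, ← ext_const_smul]
        exact congrFun (ext_congr (Lp.coeFn_smul c Q)) w } ((1 - ‖w‖)⁻¹) fun Q => by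
    show ‖ext Q w‖ ≤ _
    refine (norm_ext_le ((Lp.memLp Q).integrable (by norm_num)) hw).trans ?_
    have h0 : 0 ≤ (1 - ‖w‖)⁻¹ := inv_nonneg.2 (by linarith)
    refine mul_le_mul_of_nonneg_left ?_ h0
    have h3 : eLpNorm Q 1 mu ≤ eLpNorm Q 2 mu :=
      eLpNorm_le_eLpNorm_of_exponent_le (by norm_num) (Lp.memLp Q).1
    rw [Lp.norm_def]
    have h5 : ∫ t, ‖Q t‖ ∂mu = (eLpNorm Q 1 mu).toReal := by
      rw [eLpNorm_one_eq_lintegral_enorm, integral_norm_eq_lintegral_enorm (Lp.memLp Q).1]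
    rw [h5]
    exact ENNReal.toReal_mono (Lp.memLp Q).2.ne h3

@[simp] theorem extL_apply (w : ℂ) (hw : ‖w‖ < 1) (Q : Lp F 2 mu) : extL w hw Q = ext Q w := rfl

/-- Fourier coefficient as a continuous linear map on `L²` -/
def coeffL (n : ℤ) : Lp F 2 mu →L[ℂ] F :=
  LinearMap.mkContinuous
    { toFun := fun Q => fourierCoeff Q n
      map_add' := fun P Q => by
        have hP : Integrable (fun t => fourier (-n) t • P t) mu :=
          ((Lp.memLp P).integrable (by norm_num)).bdd_smul 1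
            (map_continuous (fourier (-n))).aestronglyMeasurable
            (Eventually.of_forall fun t => by rw [fourier_apply]; exact (Circle.norm_coe _).le)
        have hQ : Integrable (fun t => fourier (-n) t • Q t) mu :=
          ((Lp.memLp Q).integrable (by norm_num)).bdd_smul 1
            (map_continuous (fourier (-n))).aestronglyMeasurable
            (Eventually.of_forall fun t => by rw [fourier_apply]; exact (Circle.norm_coe _).le)
        rw [fourierCoeff_congr_ae (Lp.coeFn_add P Q)]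
        unfold fourierCoeff
        rw [← integral_add hP hQ]
        simp only [Pi.add_apply, smul_add]
      map_smul' := fun c Q => by
        rw [RingHom.id_apply, fourierCoeff_congr_ae (Lp.coeFn_smul c Q)]
        unfold fourierCoeff
        rw [← integral_smul]
        simp only [Pi.smul_apply, smul_comm c] } 1 fun Q => by
    show ‖fourierCoeff Q n‖ ≤ _
    rw [one_mul]
    refine (norm_fourierCoeff_le Q n).trans ?_
    have h3 : eLpNorm Q 1 mu ≤ eLpNorm Q 2 mu :=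
      eLpNorm_le_eLpNorm_of_exponent_le (by norm_num) (Lp.memLp Q).1
    rw [Lp.norm_def]
    have h5 : ∫ t, ‖Q t‖ ∂mu = (eLpNorm Q 1 mu).toReal := by
      rw [eLpNorm_one_eq_lintegral_enorm, integral_norm_eq_lintegral_enorm (Lp.memLp Q).1]
    rw [h5]
    exact ENNReal.toReal_mono (Lp.memLp Q).2.ne h3

@[simp] theorem coeffL_apply (n : ℤ) (Q : Lp F 2 mu) : coeffL n Q = fourierCoeff Q n := rfl

/-- a continuous linear map on `L²(ℂ)` which kills the nonnegative characters kills `H²` -/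
theorem clm_eq_zero {G : Type*} [NormedAddCommGroup G] [NormedSpace ℂ G] (Φ : Lp ℂ 2 mu →L[ℂ] G)
    (hΦ : ∀ k : ℕ, Φ (fourierLp 2 (k : ℤ)) = 0) {q : TT → ℂ} (hq : IsH2 q) :
    Φ (hq.memLp.toLp q) = 0 := by
  have h := (hasSum_fourier_series_L2 (T := 2 * Real.pi) (hq.memLp.toLp q)).mapL Φ
  refine h.unique ?_
  convert hasSum_zero using 1
  funext n
  rw [map_smul]
  rcases lt_or_ge n 0 with hn | hn
  · have h1 : fourierCoeff (hq.memLp.toLp q) n = 0 := by
      rw [fourierCoeff_congr_ae hq.memLp.coeFn_toLp]; exact hq.coeff n hn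
    rw [h1, zero_smul]
  · obtain ⟨k, rfl⟩ := Int.eq_ofNat_of_zero_le hn
    rw [hΦ k, smul_zero]

/-- product of an `H²` function with a bounded `H²` function -/
theorem isH2_smul {q : TT → ℂ} {v : TT → F} (hq : IsH2 q) (hv : IsH2 v) {B : ℝ}
    (hB : ∀ᵐ t ∂mu, ‖v t‖ ≤ B) :
    IsH2 (fun t => q t • v t) ∧ ∀ w : ℂ, ‖w‖ < 1 → ext (fun t => q t • v t) w = ext q w • ext v w := by
  have : CompleteSpace F := FiniteDimensional.complete ℂ F
  set S : TT → ℂ →L[ℂ] F := fun t => (ContinuousLinearMap.id ℂ ℂ).smulRight (v t) with hS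
  have hSm : AEStronglyMeasurable S mu :=
    (ContinuousLinearMap.smulRightL ℂ ℂ F (ContinuousLinearMap.id ℂ ℂ)).continuous.comp_aestronglyMeasurable
      hv.memLp.1
  have hSB : ∀ᵐ t ∂mu, ‖S t‖ ≤ B := by
    filter_upwards [hB] with t ht
    rw [hS, ContinuousLinearMap.norm_smulRight_apply, ContinuousLinearMap.norm_id, one_mul]
    exact ht
  set T := mulOp S hSm B hSB with hT
  have hTq : ∀ {p : TT → ℂ} (hp : MemLp p 2 mu), T (hp.toLp p) =ᵐ[mu] fun t => p t • v t := by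
    intro p hp
    filter_upwards [coeFn_mulOp S hSm B hSB (hp.toLp p), hp.coeFn_toLp] with t h1 h2
    rw [hT, h1, h2]; simp [hS]
  have hTf : ∀ k : ℕ, T (fourierLp 2 (k : ℤ)) =ᵐ[mu] fun t => zt t ^ k • v t := by
    intro k
    filter_upwards [coeFn_mulOp S hSm B hSB (fourierLp 2 (k : ℤ)),
      coeFn_fourierLp (T := 2 * Real.pi) 2 (k : ℤ)] with t h1 h2
    rw [hT, h1, h2, fourier_nat]; simp [hS]
  refine ⟨⟨(Lp.memLp (T (hq.memLp.toLp q))).ae_eq (hTq hq.memLp), fun n hn => ?_⟩, fun w hw => ?_⟩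
  · have h1 := clm_eq_zero ((coeffL n).comp T) (fun k => by
      show coeffL n (T (fourierLp 2 (k : ℤ))) = 0
      rw [coeffL_apply, fourierCoeff_congr_ae (hTf k), fourierCoeff_zt_pow_smul]
      exact hv.coeff _ (by have := Int.natCast_nonneg k; omega)) hq
    have h2 : coeffL n (T (hq.memLp.toLp q)) = 0 := h1
    rw [coeffL_apply, fourierCoeff_congr_ae (hTq hq.memLp)] at h2
    exact h2
  · have h1 := clm_eq_zero ((extL w hw).comp T -
        (ContinuousLinearMap.toSpanSingleton ℂ (ext v w)).comp (extL (F := ℂ) w hw)) (fun k => by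
      have e1 : extL w hw (T (fourierLp 2 (k : ℤ))) = w ^ k • ext v w := by
        rw [extL_apply, congrFun (ext_congr (hTf k)) w, ext_zt_pow_smul hv k hw]
      have e2 : extL (F := ℂ) w hw (fourierLp 2 (k : ℤ)) = w ^ k := by
        have h3 : (fourierLp 2 (k : ℤ) : Lp ℂ 2 mu) =ᵐ[mu] fun t => zt t ^ k • (1:ℂ) := by
          filter_upwards [coeFn_fourierLp (T := 2 * Real.pi) 2 (k : ℤ)] with t h4
          rw [h4, fourier_nat]; simp
        have hone : (fun _ : TT => (1:ℂ)) = fourier 0 := by funext t; simp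
        have h5 : IsH2 (fun _ : TT => (1:ℂ)) := by
          refine ⟨memLp_const 1, fun n hn => ?_⟩
          have h6 := congrFun (fourierCoeff_fourier (T := 2 * Real.pi) 0) n
          rw [Pi.single_eq_of_ne hn.ne] at h6
          rw [hone]; exact h6
        have h7 : ext (fun _ : TT => (1:ℂ)) w = 1 := by
          have h8 := hasSum_ext h5.integrable hw
          have h9 : HasSum (fun k : ℕ => w ^ k • fourierCoeff (fun _ : TT => (1:ℂ)) (k : ℤ)) 1 := by
            convert hasSum_ite_eq (0 : ℕ) (1 : ℂ) using 1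
            funext j
            have h10 := congrFun (fourierCoeff_fourier (T := 2 * Real.pi) 0) (j : ℤ)
            rw [hone, h10]
            by_cases hj : j = 0
            · subst hj; simp
            · rw [Pi.single_eq_of_ne (by exact_mod_cast hj), smul_zero, if_neg hj]
          exact h8.unique h9
        rw [extL_apply, congrFun (ext_congr h3) w, ext_zt_pow_smul h5 k hw, h7]; simp
      show extL w hw (T (fourierLp 2 (k : ℤ))) -
        ContinuousLinearMap.toSpanSingleton ℂ (ext v w) (extL (F := ℂ) w hw (fourierLp 2 (k : ℤ))) = 0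
      rw [e1, e2]; simp) hq
    have h2 : ext (T (hq.memLp.toLp q)) w - ext (hq.memLp.toLp q) w • ext v w = 0 := h1
    rw [congrFun (ext_congr (hTq hq.memLp)) w, congrFun (ext_congr hq.memLp.coeFn_toLp) w] at h2
    exact sub_eq_zero.1 h2

/-- **Weighted Wold decomposition on the circle**: `M` a closed `z`-invariant subspace of `H²(F)`. -/
theorem wold_weighted (G : TT → F →L[ℂ] F) (hG : AEStronglyMeasurable G mu) {c C : ℝ}
    (hc : 0 < c) (hC : ∀ᵐ t ∂mu, ‖G t‖ ≤ C) (hsa : ∀ᵐ t ∂mu, ∀ v w : F, ⟪G t v, w⟫_ℂ = ⟪v, G t w⟫_ℂ)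
    (hlow : ∀ᵐ t ∂mu, ∀ v : F, c * ‖v‖ ^ 2 ≤ (⟪v, G t v⟫_ℂ).re)
    (M : Submodule ℂ (Lp F 2 mu)) (hcl : IsClosed (M : Set (Lp F 2 mu)))
    (hH : ∀ f ∈ M, IsH2 f) (hinv : ∀ f ∈ M, mz uz f ∈ M) :
    ∃ (m : ℕ) (V : Fin m → Lp F 2 mu), (∀ i, V i ∈ M) ∧
      (∀ᵐ t ∂mu, ∀ i j, ⟪V i t, G t (V j t)⟫_ℂ = if i = j then 1 else 0) ∧
      (∀ i, ∀ᵐ t ∂mu, ‖V i t‖ ^ 2 ≤ c⁻¹) ∧
      (∀ f ∈ M, (∀ i, IsH2 fun t => ⟪V i t, G t (f t)⟫_ℂ) ∧
        (∀ᵐ t ∂mu, f t = ∑ i, ⟪V i t, G t (f t)⟫_ℂ • V i t) ∧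
        (∀ᵐ t ∂mu, ∑ i, ‖⟪V i t, G t (f t)⟫_ℂ‖ ^ 2 = (⟪f t, G t (f t)⟫_ℂ).re) ∧
        ∀ w : ℂ, ‖w‖ < 1 → ext f w = ∑ i, ext (fun t => ⟪V i t, G t (f t)⟫_ℂ) w • ext (V i) w) := by
  have hcs : CompleteSpace F := FiniteDimensional.complete ℂ F
  have hpure : ∀ f : Lp F 2 mu, (∀ k : ℕ, ∃ g ∈ M, f = (mz uz)^[k] g) → f = 0 := by
    intro f hf
    have h0 : ∀ n : ℤ, fourierCoeff f n = 0 := by
      intro n
      obtain ⟨g, hg, hfg⟩ := hf (n.toNat + 1)
      have h1 : (f : TT → F) =ᵐ[mu] fun t => zt t ^ (n.toNat + 1) • g t := by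
        rw [hfg]; exact coeFn_mzk uz g _
      rw [fourierCoeff_congr_ae h1, fourierCoeff_zt_pow_smul]
      exact (hH g hg).coeff _ (by push_cast; have := Int.self_le_toNat n; omega)
    have h2 : (f : TT → F) =ᵐ[mu] (0 : Lp F 2 mu) := by
      refine ae_eq_of_coeff (Lp.memLp f) (Lp.memLp _) fun n => ?_
      rw [h0, fourierCoeff_congr_ae (Lp.coeFn_zero F 2 mu)]
      unfold fourierCoeff; simp
    exact Lp.ext h2
  obtain ⟨m, V, h1, h2, h3, h4, h5⟩ := woldG uz G hG hc hC hsa hlow M hcl hinv hpure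
  have hVb : ∀ i, ∀ᵐ t ∂mu, ‖V i t‖ ≤ Real.sqrt c⁻¹ := by
    intro i
    filter_upwards [h3 i] with t ht
    exact Real.le_sqrt_of_sq_le ht
  have hq : ∀ f ∈ M, ∀ i, IsH2 fun t => ⟪V i t, G t (f t)⟫_ℂ := by
    intro f hf i
    have hGf : MemLp (fun t => G t (f t)) 2 mu := memLp_op hG hC (Lp.memLp f)
    refine ⟨?_, fun n hn => ?_⟩
    · refine MemLp.of_le_mul (c := Real.sqrt c⁻¹) hGf ((Lp.memLp (V i)).1.inner hGf.1) ?_
      filter_upwards [hVb i] with t ht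
      exact (norm_inner_le_norm _ _).trans (mul_le_mul_of_nonneg_right ht (norm_nonneg _))
    · obtain ⟨k, rfl⟩ : ∃ k : ℕ, n = -(k : ℤ) := ⟨n.natAbs, by omega⟩
      have h6 := h4 f hf i k (by omega)
      unfold fourierCoeff
      rw [← h6]
      refine integral_congr_ae (Eventually.of_forall fun t => ?_)
      simp only [neg_neg, fourier_nat, smul_eq_mul]
  refine ⟨m, V, h1, h2, h3, fun f hf => ⟨hq f hf, h5 f hf, ?_, fun w hw => ?_⟩⟩
  · filter_upwards [h5 f hf, h2, hsa] with t h6 h7 h8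
    set q : Fin m → ℂ := fun i => ⟪V i t, G t (f t)⟫_ℂ with hqdef
    have h9 : ⟪f t, G t (f t)⟫_ℂ = ∑ i, (starRingEnd ℂ) (q i) * q i := by
      conv_lhs => rw [h6]
      rw [sum_inner]
      refine Finset.sum_congr rfl fun i _ => ?_
      rw [inner_smul_left]
      congr 1
      rw [← h6]
    rw [h9, Complex.re_sum]
    refine Finset.sum_congr rfl fun i _ => ?_
    have h10 : ((starRingEnd ℂ) (q i) * q i).re = ‖q i‖ ^ 2 := by
      rw [← Complex.normSq_eq_conj_mul_self, Complex.ofReal_re, Complex.normSq_eq_norm_sq]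
    exact h10.symm
  · have h6 : (f : TT → F) =ᵐ[mu] fun t => ∑ i, ⟪V i t, G t (f t)⟫_ℂ • V i t := h5 f hf
    rw [congrFun (ext_congr h6) w]
    have h7 : ∀ i, IsH2 (fun t => ⟪V i t, G t (f t)⟫_ℂ • V i t) ∧ ∀ w : ℂ, ‖w‖ < 1 →
        ext (fun t => ⟪V i t, G t (f t)⟫_ℂ • V i t) w = ext (fun t => ⟪V i t, G t (f t)⟫_ℂ) w • ext (V i) w :=
      fun i => isH2_smul (hq f hf i) (hH _ (h1 i)) (hVb i)
    have h8 : ext (fun t => ∑ i, ⟪V i t, G t (f t)⟫_ℂ • V i t) w
        = ∑ i, ext (fun t => ⟪V i t, G t (f t)⟫_ℂ • V i t) w := by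
      unfold ext
      rw [← integral_finsetSum _ fun i _ => integrable_kernel_smul (h7 i).1.integrable hw]
      simp only [Finset.smul_sum]
    rw [h8]
    exact Finset.sum_congr rfl fun i _ => (h7 i).2 w hw

end circle

end Crest.Agent.R269.WoldW_248
end
end

-- ▼ part R269/WoldD_248
section

/-!
# R269 (helper248), leaf B2: dimension of the wandering frame

* `card_le` : `G`-orthonormal vectors in a subspace of dimension `≤ n`;
* `finrank_ext_le` : values of elements of `M` at an interior point span at most `m` dimensions;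
* `linearIndependent_ext` : if they span `m` dimensions, the frame is independent at that point.
* `isClosed_fib` : `L²` functions with values in `E t` a.e. form a closed submodule.
* `H2sub` : the closed submodule of `L²` functions that are `H²`.
-/

set_option autoImplicit false
set_option linter.unusedSectionVars false

open MeasureTheory Filter Topology
open scoped ComplexConjugate InnerProductSpace ENNReal NNReal

noncomputable section

namespace Crest.Agent.R269.WoldW_248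

open Crest.Agent.R269.Wold290

section fib
variable {Ω : Type*} [MeasurableSpace Ω] {μ : Measure Ω}
variable {F : Type*} [NormedAddCommGroup F] [InnerProductSpace ℂ F]

/-- functions with values in `E t` a.e. -/
def fib (E : Ω → Submodule ℂ F) : Submodule ℂ (Lp F 2 μ) where
  carrier := {Q | ∀ᵐ t ∂μ, Q t ∈ E t}
  add_mem' := fun {P Q} hP hQ => by
    have h : ∀ᵐ t ∂μ, (P + Q : Lp F 2 μ) t ∈ E t := by
      filter_upwards [Lp.coeFn_add P Q, hP, hQ] with t h h1 h2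
      rw [h]; exact (E t).add_mem h1 h2
    exact h
  zero_mem' := by
    have h : ∀ᵐ t ∂μ, (0 : Lp F 2 μ) t ∈ E t := by
      filter_upwards [Lp.coeFn_zero F 2 μ] with t h
      rw [h]; exact (E t).zero_mem
    exact h
  smul_mem' := fun c Q hQ => by
    have h : ∀ᵐ t ∂μ, (c • Q : Lp F 2 μ) t ∈ E t := by
      filter_upwards [Lp.coeFn_smul c Q, hQ] with t h h1
      rw [h]; exact (E t).smul_mem _ h1
    exact h




end fib

section lin
variable {F : Type*} [NormedAddCommGroup F] [InnerProductSpace ℂ F]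

/-- `G`-orthonormal vectors are linearly independent -/
theorem linearIndependent_of_orth {m : ℕ} (G : F →L[ℂ] F) (v : Fin m → F)
    (h : ∀ i j, ⟪v i, G (v j)⟫_ℂ = if i = j then 1 else 0) : LinearIndependent ℂ v := by
  rw [Fintype.linearIndependent_iff]
  intro g hg i
  have h1 : ⟪v i, G (∑ j, g j • v j)⟫_ℂ = g i := by
    rw [map_sum, inner_sum]
    simp only [map_smul, inner_smul_right, h]
    simp
  rw [hg, map_zero, inner_zero_right] at h1
  exact h1.symm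

theorem card_le [FiniteDimensional ℂ F] {m n : ℕ} (G : F →L[ℂ] F) (v : Fin m → F)
    (h : ∀ i j, ⟪v i, G (v j)⟫_ℂ = if i = j then 1 else 0) (E : Submodule ℂ F)
    (hE : ∀ i, v i ∈ E) (hn : Module.finrank ℂ E ≤ n) : m ≤ n := by
  have h1 := linearIndependent_of_orth G v h
  have h2 : LinearIndependent ℂ (fun i => (⟨v i, hE i⟩ : E)) := by
    refine LinearIndependent.of_comp E.subtype ?_
    exact h1
  have h3 := h2.fintype_card_le_finrank
  rw [Fintype.card_fin] at h3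
  exact h3.trans hn

end lin

section circle
open Crest.Agent.R269.Hardy_142 AddCircle
variable {F : Type*} [NormedAddCommGroup F] [InnerProductSpace ℂ F] [FiniteDimensional ℂ F]

/-- the number of frame vectors is at most the fibre dimension -/
theorem wold_card_le {m n : ℕ} {G : TT → F →L[ℂ] F} {V : Fin m → Lp F 2 mu}
    (hV : ∀ᵐ t ∂mu, ∀ i j, ⟪V i t, G t (V j t)⟫_ℂ = if i = j then 1 else 0)
    {E : TT → Submodule ℂ F} (hE : ∀ i, ∀ᵐ t ∂mu, V i t ∈ E t)
    (hn : ∀ᵐ t ∂mu, Module.finrank ℂ (E t) ≤ n) : m ≤ n := by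
  obtain ⟨t, h1, h2, h3⟩ := (hV.and ((ae_all_iff.2 hE).and hn)).exists
  exact card_le (G t) (fun i => V i t) h1 (E t) h2 h3

/-- the values at an interior point of elements of `M` lie in the span of the frame -/
theorem wold_ext_mem {m : ℕ} {V : Fin m → Lp F 2 mu} {f : Lp F 2 mu} {w : ℂ} {q : Fin m → TT → ℂ}
    (h : ext f w = ∑ i, ext (q i) w • ext (V i) w) :
    ext f w ∈ Submodule.span ℂ (Set.range fun i => ext (V i) w) := by
  rw [h]
  exact Submodule.sum_mem _ fun i _ => Submodule.smul_mem _ _ (Submodule.subset_span ⟨i, rfl⟩)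

/-- a subspace contained in the span of `m` vectors has dimension at most `m` -/
theorem finrank_le_of_le_span {m : ℕ} (v : Fin m → F) (E : Submodule ℂ F)
    (hE : E ≤ Submodule.span ℂ (Set.range v)) : Module.finrank ℂ E ≤ m := by
  refine (Submodule.finrank_mono hE).trans ?_
  have := finrank_range_le_card (R := ℂ) v
  rw [Fintype.card_fin] at this
  exact this









end circle

end Crest.Agent.R269.WoldW_248
end
end

-- ▼ part R269/Ker3_430
section

/-!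
# R269 (S0411), LINE B, leaf B8 KER, part 3 (helper430): the averaged kernel inequality (N5)

* `trO a` : the function `tr_a ω` (`= ∑ ω_p(b_k)` for every frame `b` representing `a`), `smX_trO`, `trO_eq`;
* `KRep I Y Q p V` : the reproducing property at `p` (hypothesis of `Ker2_430.ker`);
* `ker_avg` : `bavg(tr_a ω) - C e_r ≤ avg_{|z| = r} ∑_i ω(H z)(V_i z)`.
-/

set_option autoImplicit false

open MeasureTheory MvPolynomial Crest.AlgGeometry.ProjEmb Crest.Agent.R269.Geo_328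
open Crest.Agent.R269.Defs_58 Crest.Agent.R269.DefsS_731 Crest.Agent.R269.Alp_927
open Crest.Agent.R269.Ker2_430 Metric Set Filter
open scoped Topology ComplexConjugate

noncomputable section

namespace Crest.Agent.R269.Ker3_430

variable {N n : ℕ} {I : Ideal (HomCoordRing N)}







/-- the reproducing property at the point `p` (hypothesis of `Ker2_430.ker`) -/
def KRep (I : Ideal (HomCoordRing N)) (Y : Flds I) (Q : EE N → (Fin Y.M → ℂ) → ℝ) (p : EE N)
    (V : Fin n → EE N) : Prop :=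
  ∃ (Ω : Type) (_ : MeasurableSpace Ω) (μ : Measure Ω) (_ : IsProbabilityMeasure μ) (Hs : Ω → EE N),
    Integrable Hs μ ∧ (∀ᵐ ω ∂μ, Hs ω ∈ Cone I ∧ nsq (Hs ω) = 1) ∧ ∫ ω, Hs ω ∂μ = p ∧
    ∀ c : Fin Y.M → ℂ, ∃ q : Fin n → ℂ, ∑ i, q i • wdg (V i) p = wdg (∑ j, c j • Y.at j p) p ∧
      ∑ i, ‖q i‖ ^ 2 ≤ ∫ ω, Q (Hs ω) c ∂μ

/-- the three inputs of B9 -/
structure QIn (I : Ideal (HomCoordRing N)) (n : ℕ) (a : EE N → VV N) (Y : Flds I)
    (Q : EE N → (Fin Y.M → ℂ) → ℝ) : Prop where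
  h1 : ∀ p ∈ Cone I, ∀ b : Fin n → EE N, Rep I a p b → ∀ (c : Fin Y.M → ℂ) (x : Fin n → ℂ) (r : ℂ),
      ∑ j, c j • Y.at j p = ∑ k, x k • b k + r • p → Q p c = nsq p ^ 2 * ∑ k, ‖x k‖ ^ 2
  h2 : ∃ C₂ : ℝ, ∀ p ∈ Cone I, 1 / 2 ≤ nsq p → nsq p ≤ 1 → ∀ c : Fin Y.M → ℂ,
      ∃ D : EE N →L[ℝ] ℝ, ∀ y ∈ Cone I, nsq y = 1 →
        Q y c ≤ Q p c + D (y - p) + C₂ * (∑ j, ‖c j‖ ^ 2) * nsq (y - p)
  h3 : ∃ C₃ : ℝ, ∀ y ∈ Cone I, nsq y = 1 → ∀ c : Fin Y.M → ℂ, Q y c ≤ C₃ * ∑ j, ‖c j‖ ^ 2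

/-- 936's `Qf` satisfies the three inputs -/
theorem qin_Qf (hI : I.IsPrime) (hX : IsSmoothProjective I n) {Pi a : EE N → VV N}
    (hPi : GeoH_936.PiData I Pi) (ha : PosField I n a) (Y : Flds I) :
    QIn I n a Y (GeoQ_936.Qf Pi a Y) := by
  refine ⟨fun p hp b hb c x r h => GeoQ_936.Qf_rep hI hX hPi ha Y hp hb h, ?_, ?_⟩
  · obtain ⟨C, hC, h⟩ := GeoQ_936.Qf_taylor hI hX hPi ha Y (e := 1 / 2) (by norm_num)
    refine ⟨C, fun p hp h1 h2 c => ?_⟩
    obtain ⟨-, D, -, hD⟩ := h p ⟨hp.1, h1, h2⟩ c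
    refine ⟨D, fun y hy hy1 => ?_⟩
    have := (abs_le.1 (hD y ⟨hy.1, by rw [hy1]; norm_num, hy1.le⟩)).2
    linarith
  · obtain ⟨C, hC, h⟩ := GeoQ_936.Qf_taylor hI hX hPi ha Y (e := 1 / 2) (by norm_num)
    exact ⟨C, fun y hy hy1 c => (h y ⟨hy.1, by rw [hy1]; norm_num, hy1.le⟩ c).1⟩

/-- (K1), (K2) at a point with the reproducing property -/
theorem ker_pt (hX : IsSmoothProjective I n) {a : EE N → VV N} (ha : PosField I n a) (Y : Flds I)
    {Q : EE N → (Fin Y.M → ℂ) → ℝ} (hQ : QIn I n a Y Q) :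
    ∃ (C : ℝ) (K : ℕ), 0 < C ∧ ∀ p ∈ Cone I, ∀ V : Fin n → EE N, TanFam I p V → KRep I Y Q p V →
      ∀ b : Fin n → EE N, Rep I a p b →
        (1 - C * (1 - nsq p)) * ∑ k, omg p (b k) ≤ ∑ i, omg p (V i) ∧
        nsq p ^ K * DD p b ≤ C * DD p V := by
  obtain ⟨C, K, hC, h⟩ := ker hX ha Y hQ.h1 hQ.h2 hQ.h3
  refine ⟨C, K, hC, ?_⟩
  rintro p hp V hV ⟨Ω, _, μ, _, Hs, k1, k2, k3, k4⟩ b hb
  exact h Ω μ Hs k1 k2 p hp k3 V hV k4 b hb



end Crest.Agent.R269.Ker3_430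
end
end

-- ▼ part R269/Frame_402
section

/-!
# R269 (S0411), Line B, WOLD-INST: the Wold frame of a normalised disc for a positive field (helper402)
-/

set_option autoImplicit false

open MvPolynomial Crest.AlgGeometry.ProjEmb Crest.Agent.R269.Geo_328 Crest.Agent.R269.DefsS_731
open Crest.Agent.R269.Fib_402 Crest.Agent.R269.Hardy_142 Crest.Agent.R269.Mod_402
open Crest.Agent.R269.Bd_402 Crest.Agent.R269.GeoW_936
open MeasureTheory Filter Metric Set
open scoped ContDiff Topology ComplexConjugate ENNReal InnerProductSpace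

namespace Crest.Agent.R269.Frame_402

noncomputable section

variable {N n : ℕ} {I : Ideal (HomCoordRing N)} {H : ℂ → EE N} {Hs : TT → EE N}

theorem mz_uz_mem {Y : Flds I} {f : Lp (FF N) 2 mu} (hf : f ∈ MM Y H) :
    Wold290.mz WoldW_248.uz f ∈ MM Y H := by
  have h1 : Wold290.mz WoldW_248.uz f = mzT f := by
    apply Lp.ext
    filter_upwards [coeFn_mzT f, Wold290.coeFn_mz WoldW_248.uz f] with t h1 h2
    rw [h1, h2]
  rw [h1]
  exact mzT_mem_MM hf

/-- boundary values of polynomial combinations -/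
theorem bdy_eq (h : BD I H Hs) {Y : Flds I} {c : Fin Y.M → Polynomial ℂ}
    {f : Lp (FF N) 2 mu} (hf : Bdy (VQ Y H c) f) :
    ∀ᵐ t ∂mu, f t = wE (Y.var c (zt t) (Hs t)) (Hs t) := by
  have hf2 : IsH2 (f : TT → FF N) := mem_HH.mp hf.1
  obtain ⟨s, hs, hs1, hs2⟩ := common_seq3 h.h2 hf2 hf2
  filter_upwards [hs2] with t ht
  have hlt : ∀ j, ‖((s j : ℝ) : ℂ) * zt t‖ < 1 := by
    intro j
    rw [norm_mul, norm_zt, mul_one, Complex.norm_real, Real.norm_eq_abs,
      abs_of_nonneg (hs j).1.le]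
    exact (hs j).2
  have h2 : Tendsto (fun j => H (s j * zt t)) atTop (𝓝 (Hs t)) := by
    have h3 : Tendsto (fun j => WithLp.ofLp (Hardy_142.ext (fun t => toH (Hs t)) (s j * zt t)))
        atTop (𝓝 (WithLp.ofLp (toH (Hs t)))) :=
      ((EuclideanSpace.equiv (Fin (N + 1)) ℂ).continuous.tendsto (toH (Hs t))).comp ht.1
    refine h3.congr fun j => ?_
    rw [h.ext_eq _ (hlt j)]
    rfl
  have hz : Tendsto (fun j => ((s j : ℝ) : ℂ) * zt t) atTop (𝓝 (zt t)) := by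
    have h4 : Tendsto (fun j => ((s j : ℝ) : ℂ)) atTop (𝓝 ((1:ℝ):ℂ)) :=
      (Complex.continuous_ofReal.tendsto 1).comp hs1
    simpa using h4.mul_const (zt t)
  have h3 : Tendsto (fun j => Y.var c (s j * zt t) (H (s j * zt t))) atTop
      (𝓝 (Y.var c (zt t) (Hs t))) := by
    unfold Flds.var
    refine tendsto_finsetSum _ fun k _ => ?_
    exact (((Polynomial.continuous (c k)).tendsto _).comp hz).smul
      (((at_continuous Y k).tendsto _).comp h2)
  have h4 : Tendsto (fun j => Hardy_142.ext (f : TT → FF N) (s j * zt t)) atTop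
      (𝓝 (wE (Y.var c (zt t) (Hs t)) (Hs t))) := by
    refine (tendsto_wE h3 h2).congr fun j => ?_
    rw [hf.2 _ (hlt j)]
    rfl
  exact tendsto_nhds_unique ht.2.1 h4

/-- every fibre vector at an interior point is the value of an element of the module -/
theorem exists_of_mem_Fib (Y : Flds I) (hH : IsDisc I H)
    (h1 : ∀ z ∈ ball (0 : ℂ) 1, nsq (H z) ≤ 1) {w : ℂ} (hw : ‖w‖ < 1) {v : FF N}
    (hv : v ∈ Fib I (H w)) : ∃ f ∈ MM Y H, Hardy_142.ext (f : TT → FF N) w = v := by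
  obtain ⟨V, hV, rfl⟩ := mem_Fib_iff.mp hv
  rw [← Y.span (H w) (hH.cone w (mem_ball_zero_iff.mpr hw))] at hV
  obtain ⟨c, hc⟩ := (Submodule.mem_span_range_iff_exists_fun ℂ).mp hV
  obtain ⟨f, hf⟩ := exists_bdy Y hH h1 (fun j => Polynomial.C (c j))
  refine ⟨f, (M0 Y H).le_topologicalClosure ⟨_, hf⟩, ?_⟩
  rw [hf.2 w hw]
  unfold VQ Flds.var
  simp only [Polynomial.eval_C]
  congr 1

/-- the data delivered by the Wold frame -/
structure WData (I : Ideal (HomCoordRing N)) (n : ℕ) (a : EE N → VV N) (Pi : EE N → VV N)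
    (Y : Flds I) (B : ℝ) (H : ℂ → EE N) (Hs : TT → EE N) (v : Fin n → Lp (FF N) 2 mu) : Prop where
  mem : ∀ i, v i ∈ MM Y H
  bdd : ∀ i, ∀ᵐ t ∂mu, ‖v i t‖ ≤ B
  ext_bdd : ∀ i, ∀ w : ℂ, ‖w‖ < 1 → ‖Hardy_142.ext (v i : TT → FF N) w‖ ≤ B
  rep : ∀ᵐ t ∂mu, Defs_58.Rep I a (Hs t) (fun i => hor (v i t) (Hs t))
  rep_wE : ∀ i, ∀ᵐ t ∂mu, wE (hor (v i t) (Hs t)) (Hs t) = v i t
  krep : ∀ w : ℂ, ‖w‖ < 1 → Ker3_430.KRep I Y (GeoQ_936.Qf Pi a Y) (H w)
    (fun i => hor (Hardy_142.ext (v i : TT → FF N) w) (H w))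

theorem exists_WData (hI : I.IsPrime) (hX : IsSmoothProjective I n) {Pi a : EE N → VV N}
    (hPi : GeoH_936.PiData I Pi) (ha : Defs_58.PosField I n a) (Y : Flds I) :
    ∃ B : ℝ, 0 ≤ B ∧ ∀ (H : ℂ → EE N) (Hs : TT → EE N), IsDisc I H → Normal H → BD I H Hs →
      ∃ v : Fin n → Lp (FF N) 2 mu, WData I n a Pi Y B H Hs v := by
  obtain ⟨c, C, hc, hC, hb⟩ := GeoW_936.bounds hI hX hPi ha
  obtain ⟨Sw, hSm, hSw⟩ := GeoW_936.measurable_Sop hI hX hPi ha
  refine ⟨c⁻¹, by positivity, ?_⟩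
  intro H Hs hH hN hBD
  set G : TT → FF N →L[ℂ] FF N := fun t => Sw (Hs t) * Sw (Hs t) with hG
  -- properties of `G` at good points
  have hSinner : ∀ p ∈ Cone I, ∀ v w : FF N, ⟪v, (Sw p * Sw p) w⟫_ℂ
      = ⟪Sop Pi a p v, Sop Pi a p w⟫_ℂ := by
    intro p hp v w
    rw [hSw p hp, inner_Sop hI hX hPi ha hp, ← inner_Gop]
    have h0 := Gop_nonneg hI hX hPi ha hp
    have h2 : Sop Pi a p * Sop Pi a p = Gop Pi a p := CFC.sqrt_mul_sqrt_self _ h0
    rw [h2]
  have hGm : AEStronglyMeasurable G mu := by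
    have h1 : Measurable (fun t => Sw (Hs t)) := hSm.comp hBD.meas
    exact (h1.mul h1).aestronglyMeasurable
  have hGC : ∀ᵐ t ∂mu, ‖G t‖ ≤ C * C := by
    filter_upwards [hBD.cone] with t ht
    have h1 : ‖Sw (Hs t)‖ ≤ C := by
      rw [hSw _ ht]
      exact ContinuousLinearMap.opNorm_le_bound _ hC fun v => (hb _ ht v).2
    exact (norm_mul_le _ _).trans (mul_le_mul h1 h1 (norm_nonneg _) hC)
  have hsa : ∀ᵐ t ∂mu, ∀ v w : FF N, ⟪G t v, w⟫_ℂ = ⟪v, G t w⟫_ℂ := by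
    filter_upwards [hBD.cone] with t ht
    intro v w
    rw [hG]
    simp only
    rw [hSinner _ ht, ← inner_conj_symm, hSinner _ ht, inner_conj_symm]
  have hlow : ∀ᵐ t ∂mu, ∀ v : FF N, c ^ 2 * ‖v‖ ^ 2 ≤ (⟪v, G t v⟫_ℂ).re := by
    filter_upwards [hBD.cone] with t ht
    intro v
    rw [hG]
    simp only
    rw [hSinner _ ht, inner_self_eq_norm_sq_to_K]
    have h1 := (hb _ ht v).1
    have h2 : (c * ‖v‖) ^ 2 ≤ ‖Sop Pi a (Hs t) v‖ ^ 2 :=
      pow_le_pow_left₀ (by positivity) h1 2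
    have h3 : ((‖Sop Pi a (Hs t) v‖ : ℂ) ^ 2).re = ‖Sop Pi a (Hs t) v‖ ^ 2 := by
      norm_cast
    rw [← mul_pow]
    exact h2.trans (le_of_eq h3.symm)
  obtain ⟨m, V, hVM, hVo, hVb, hVr⟩ := WoldW_248.wold_weighted G hGm (pow_pos hc 2) hGC hsa hlow
    (MM Y H) (isClosed_MM Y H) (fun f hf => mem_HH.mp (MM_le_HH Y H hf))
    (fun f hf => mz_uz_mem hf)
  -- the number of vectors
  have hm1 : m ≤ n := by
    refine WoldW_248.wold_card_le (G := G) hVo (E := fun t => Fib I (Hs t))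
      (fun i => hBD.mem_Fib hX hH (hVM i)) ?_
    filter_upwards [hBD.cone] with t ht
    exact (finrank_Fib hX ht).le
  have hspan : ∀ w : ℂ, ‖w‖ < 1 →
      Fib I (H w) ≤ Submodule.span ℂ (Set.range fun i => Hardy_142.ext (V i : TT → FF N) w) := by
    intro w hw v hv
    obtain ⟨f, hf, rfl⟩ := exists_of_mem_Fib Y hH hN.le_one hw hv
    exact WoldW_248.wold_ext_mem ((hVr f hf).2.2.2 w hw)
  have hm2 : n ≤ m := by
    have h0 : ‖(0:ℂ)‖ < 1 := by simp
    have := WoldW_248.finrank_le_of_le_span _ _ (hspan 0 h0)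
    rwa [finrank_Fib hX (hH.cone 0 (mem_ball_zero_iff.mpr h0))] at this
  obtain rfl : m = n := le_antisymm hm1 hm2
  have hbd : ∀ i, ∀ᵐ t ∂mu, ‖V i t‖ ≤ c⁻¹ := by
    intro i
    filter_upwards [hVb i] with t ht
    have h1 : ‖V i t‖ ^ 2 ≤ (c⁻¹) ^ 2 := by rw [inv_pow]; exact ht
    exact (pow_le_pow_iff_left₀ (norm_nonneg _) (by positivity) two_ne_zero).mp h1
  have hrepwE : ∀ i, ∀ᵐ t ∂mu, hor (V i t) (Hs t) ∈ Tan I (Hs t) ∧
      wE (hor (V i t) (Hs t)) (Hs t) = V i t := by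
    intro i
    filter_upwards [hBD.mem_Fib hX hH (hVM i), hBD.cone] with t h1 h2
    exact (mem_Fib hX h2).mp h1
  refine ⟨V, hVM, hbd, ?_, ?_, ?_, ?_⟩
  · intro i w hw
    exact (mem_HH.mp (MM_le_HH Y H (hVM i))).norm_ext_le_of_ae (hbd i) hw
  · filter_upwards [hBD.cone, hBD.nsq_eq, ae_all_iff.mpr hrepwE, hVo] with t h1 h2 h3 h4
    refine rep_of_orth hI hX hPi ha h1 h2 (fun i => (h3 i).1) (fun i => ?_) (fun i j => ?_)
    · have h5 := hor_perp h1.2 (hor (V i t) (Hs t))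
      rw [(h3 i).2] at h5
      exact h5
    · rw [(h3 i).2, (h3 j).2, ← h4 i j]
      exact (hSinner _ h1 _ _).symm
  · intro i
    filter_upwards [hrepwE i] with t ht
    exact ht.2
  · intro w hw
    refine ⟨TT, inferInstance, pmT w, isProb_pmT hw, Hs, integrable_pmT hw hBD.integrable, ?_,
      hBD.integral_pmT_eq hw, ?_⟩
    · exact ae_pmT w (by filter_upwards [hBD.cone, hBD.nsq_eq] with t h1 h2 using ⟨h1, h2⟩)
    intro d
    obtain ⟨f, hf⟩ := exists_bdy Y hH hN.le_one (fun j => Polynomial.C (d j))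
    have hfM : f ∈ MM Y H := (M0 Y H).le_topologicalClosure ⟨_, hf⟩
    obtain ⟨hq1, hq2, hq3, hq4⟩ := hVr f hfM
    refine ⟨fun i => Hardy_142.ext (fun t => ⟪V i t, G t (f t)⟫_ℂ) w, ?_, ?_⟩
    · have h1 := hq4 w hw
      rw [hf.2 w hw] at h1
      have h2 : ∀ i, Hardy_142.ext (V i : TT → FF N) w
          = wE (hor (Hardy_142.ext (V i : TT → FF N) w) (H w)) (H w) := fun i =>
        ((mem_Fib hX (hH.cone w (mem_ball_zero_iff.mpr hw))).mp
          (ext_mem_Fib hH (hVM i) hw)).2.symm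
      funext j k
      have h3 := congrArg (fun v : FF N => (EuclideanSpace.proj (𝕜 := ℂ) (j, k) : FF N →L[ℂ] ℂ) v) h1
      simp only [map_sum, map_smul, PiLp.proj_apply, smul_eq_mul] at h3
      unfold VQ Flds.var at h3
      simp only [Polynomial.eval_C] at h3
      simp only [Finset.sum_apply, _root_.Pi.smul_apply, smul_eq_mul]
      rw [show wdg (∑ j, d j • Y.at j (H w)) (H w) j k
        = wE (∑ j, d j • Y.at j (H w)) (H w) (j, k) from rfl, h3]
      refine Finset.sum_congr rfl fun i _ => ?_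
      rw [show wdg (hor (Hardy_142.ext (V i : TT → FF N) w) (H w)) (H w) j k
        = wE (hor (Hardy_142.ext (V i : TT → FF N) w) (H w)) (H w) (j, k) from rfl, ← h2 i]
    · have h1 : ∀ i, ‖Hardy_142.ext (fun t => ⟪V i t, G t (f t)⟫_ℂ) w‖ ^ 2
          ≤ ∫ t, pk w t * ‖⟪V i t, G t (f t)⟫_ℂ‖ ^ 2 ∂mu := fun i => (hq1 i).norm_sq_ext_le hw
      refine (Finset.sum_le_sum fun i _ => h1 i).trans ?_
      rw [← integral_finsetSum]
      · rw [integral_pmT hw]
        refine le_of_eq (integral_congr_ae ?_)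
        filter_upwards [hq3, bdy_eq hBD hf, hBD.cone] with t h2 h3 h4
        rw [← Finset.mul_sum, h2, smul_eq_mul, hG]
        simp only
        rw [hSinner _ h4, h3, Qf_eq_norm hI hX hPi ha Y h4, inner_self_eq_norm_sq_to_K]
        unfold Flds.var
        simp only [Polynomial.eval_C]
        norm_cast
      · intro i _
        exact pk_mul_integrable (norm_sq_integrable (hq1 i).memLp) hw

end

end Crest.Agent.R269.Frame_402
end

-- ▼ part R269/Rep_430
section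

/-!
# R269 (S0411), LINE B: the reproducing property (M4) from the weighted Wold decomposition (helper430)

`krep` : for the frame `V_i` of `wold_weighted` (weight `G t = Gop Pi a (Hs t)`, module `MM Y H`),
`Ker3_430.KRep I Y (Qf Pi a Y) (H z) (fun i => hor (ext (V i) z) (H z))` for every `z` in the disc.
-/

set_option autoImplicit false

open MvPolynomial Crest.AlgGeometry.ProjEmb Crest.Agent.R269.Geo_328 Crest.Agent.R269.DefsS_731
open Crest.Agent.R269.Fib_402 Crest.Agent.R269.Hardy_142 Crest.Agent.R269.Mod_402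
open Crest.Agent.R269.Bd_402 Crest.Agent.R269.Defs_58
open MeasureTheory Filter Metric Set
open scoped Topology ComplexConjugate ENNReal InnerProductSpace

namespace Crest.Agent.R269.Rep_430

noncomputable section

variable {N n : ℕ} {I : Ideal (HomCoordRing N)} {H : ℂ → EE N} {Hs : TT → EE N}

theorem wE_eq_wdg (V p : EE N) : (fun i j => wE V p (i, j)) = wdg V p := rfl


/-- constant coefficients: the boundary function of `z ↦ (∑ c_j X_j(H z)) ∧ H z` -/
theorem bdy_const (h : BD I H Hs) (Y : Flds I) (c : Fin Y.M → ℂ)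
    {f : Lp (FF N) 2 mu} (hf : Bdy (VQ Y H (fun j => Polynomial.C (c j))) f) :
    ∀ᵐ t ∂mu, f t = wE (∑ j, c j • Y.at j (Hs t)) (Hs t) := by
  have hf2 : IsH2 (f : TT → FF N) := mem_HH.mp hf.1
  obtain ⟨s, hs, hs1, hs2⟩ := common_seq3 h.h2 hf2 hf2
  filter_upwards [hs2] with t ht
  have hlt : ∀ j, ‖((s j : ℝ) : ℂ) * zt t‖ < 1 := by
    intro j
    rw [norm_mul, norm_zt, mul_one, Complex.norm_real, Real.norm_eq_abs,
      abs_of_nonneg (hs j).1.le]
    exact (hs j).2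
  have h2 : Tendsto (fun j => H (s j * zt t)) atTop (𝓝 (Hs t)) := by
    have h3 : Tendsto (fun j => WithLp.ofLp (Hardy_142.ext (fun t => toH (Hs t)) (s j * zt t)))
        atTop (𝓝 (WithLp.ofLp (toH (Hs t)))) :=
      ((EuclideanSpace.equiv (Fin (N + 1)) ℂ).continuous.tendsto (toH (Hs t))).comp ht.1
    refine h3.congr fun j => ?_
    rw [h.ext_eq _ (hlt j)]
    rfl
  have h4 : Tendsto (fun j => wE (∑ l, c l • Y.at l (H (s j * zt t))) (H (s j * zt t))) atTop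
      (𝓝 (wE (∑ l, c l • Y.at l (Hs t)) (Hs t))) := by
    refine tendsto_wE ?_ h2
    refine tendsto_finsetSum _ fun l _ => ?_
    exact (((at_continuous Y l).tendsto (Hs t)).comp h2).const_smul (c l)
  refine tendsto_nhds_unique ht.2.1 (h4.congr fun j => ?_)
  rw [hf.2 _ (hlt j)]
  show _ = wE (Y.var (fun j => Polynomial.C (c j)) _ _) _
  unfold Flds.var
  simp only [Polynomial.eval_C]

/-- **(M4)** the reproducing property at every point of the disc -/
theorem krep (hI : I.IsPrime) (hX : IsSmoothProjective I n) {Pi a : EE N → VV N}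
    (hPi : GeoH_936.PiData I Pi) (ha : PosField I n a) (Y : Flds I) (hH : IsDisc I H)
    (h1 : ∀ z ∈ ball (0 : ℂ) 1, nsq (H z) ≤ 1) (h : BD I H Hs)
    {m : ℕ} {V : Fin m → Lp (FF N) 2 mu} (hVM : ∀ i, V i ∈ MM Y H)
    {G : TT → FF N →L[ℂ] FF N} (hG : ∀ᵐ t ∂mu, G t = GeoW_936.Gop Pi a (Hs t))
    (hw : ∀ f ∈ MM Y H, (∀ i, IsH2 fun t => ⟪V i t, G t (f t)⟫_ℂ) ∧
      (∀ᵐ t ∂mu, ∑ i, ‖⟪V i t, G t (f t)⟫_ℂ‖ ^ 2 = (⟪f t, G t (f t)⟫_ℂ).re) ∧
      ∀ w : ℂ, ‖w‖ < 1 → ext f w = ∑ i, ext (fun t => ⟪V i t, G t (f t)⟫_ℂ) w • ext (V i) w)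
    {z : ℂ} (hz : z ∈ ball (0 : ℂ) 1) :
    Ker3_430.KRep I Y (GeoQ_936.Qf Pi a Y) (H z)
      (fun i => hor (ext (V i : TT → FF N) z) (H z)) := by
  have hz1 : ‖z‖ < 1 := mem_ball_zero_iff.mp hz
  refine ⟨TT, inferInstance, pmT z, isProb_pmT hz1, Hs, integrable_pmT hz1 h.integrable, ?_,
    h.integral_pmT_eq hz1, fun c => ?_⟩
  · exact ae_pmT z (by filter_upwards [h.cone, h.nsq_eq] with t k1 k2 using ⟨k1, k2⟩)
  obtain ⟨f, hf⟩ := exists_bdy Y hH h1 (fun j => Polynomial.C (c j))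
  have hfM : f ∈ MM Y H := (M0 Y H).le_topologicalClosure ⟨_, hf⟩
  obtain ⟨k1, k2, k3⟩ := hw f hfM
  refine ⟨fun i => ext (fun t => ⟪V i t, G t (f t)⟫_ℂ) z, ?_, ?_⟩
  · have e1 : ext (f : TT → FF N) z = wE (∑ j, c j • Y.at j (H z)) (H z) := by
      rw [hf.2 z hz1]
      show wE (Y.var (fun j => Polynomial.C (c j)) _ _) _ = _
      unfold Flds.var
      simp only [Polynomial.eval_C]
    have e2 : ∀ i, wE (hor (ext (V i : TT → FF N) z) (H z)) (H z) = ext (V i : TT → FF N) z :=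
      fun i => ((mem_Fib hX (hH.cone z hz)).mp (ext_mem_Fib hH (hVM i) hz1)).2
    have e3 := k3 z hz1
    rw [e1] at e3
    rw [← wE_eq_wdg (∑ j, c j • Y.at j (H z)), e3]
    ext i j
    simp only [Finset.sum_apply, _root_.Pi.smul_apply, smul_eq_mul, ← wE_eq_wdg, e2]
    simp only [WithLp.ofLp_sum, WithLp.ofLp_smul, Finset.sum_apply, _root_.Pi.smul_apply, smul_eq_mul]
  · have hi : ∀ i, Integrable (fun t => ‖⟪V i t, G t (f t)⟫_ℂ‖ ^ 2) mu := fun i =>
      norm_sq_integrable (k1 i).memLp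
    have e1 : ∀ i, ‖ext (fun t => ⟪V i t, G t (f t)⟫_ℂ) z‖ ^ 2
        ≤ ∫ t, pk z t * ‖⟪V i t, G t (f t)⟫_ℂ‖ ^ 2 ∂mu := fun i => (k1 i).norm_sq_ext_le hz1
    refine (Finset.sum_le_sum fun i _ => e1 i).trans (le_of_eq ?_)
    have hi2 : ∀ i, Integrable (fun t => pk z t * ‖⟪V i t, G t (f t)⟫_ℂ‖ ^ 2) mu := fun i => by
      have := pk_smul_integrable (hi i) hz1
      simpa only [smul_eq_mul] using this
    rw [← integral_finsetSum _ (fun i _ => hi2 i), integral_pmT hz1]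
    refine integral_congr_ae ?_
    filter_upwards [k2, hG, bdy_const h Y c hf, h.cone] with t t1 t2 t3 t4
    rw [← Finset.mul_sum, t1, smul_eq_mul, GeoW_936.Qf_eq_norm hI hX hPi ha Y t4, ← t3,
      GeoW_936.norm_sq_Sop hI hX hPi ha t4, t2, GeoW_936.inner_Gop]

end

end Crest.Agent.R269.Rep_430
end

-- ▼ part R269/Ker4_430
section

/-!
# R269 (S0411), LINE B, leaf B8 KER, part 4 (helper430): the fields `pos`, `k1`, `low`, `up` of 731's `WF`
-/

set_option autoImplicit false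

open MeasureTheory MvPolynomial Crest.AlgGeometry.ProjEmb Crest.Agent.R269.Geo_328
open Crest.Agent.R269.Defs_58 Crest.Agent.R269.DefsS_731
open Crest.Agent.R269.Ker2_430 Crest.Agent.R269.Ker3_430 Metric Set Filter
open scoped Topology ComplexConjugate

noncomputable section

namespace Crest.Agent.R269.Ker4_430

variable {N n : ℕ} {I : Ideal (HomCoordRing N)}

/-- `log DD` of the representing frames is bounded -/
theorem log_DD_bdd (hI : I.IsPrime) (hX : IsSmoothProjective I n) {a : EE N → VV N}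
    (ha : PosField I n a) : ∃ C : ℝ, 0 ≤ C ∧ ∀ p ∈ Cone I, ∀ b : Fin n → EE N, Rep I a p b →
      0 < DD p b ∧ |Real.log (DD p b)| ≤ C := by
  obtain ⟨D, hD, hD0, hDD⟩ := FldE_620.exists_detF hI hX ha
  obtain ⟨C, hC, h⟩ := LevBr_901.smX_bdd hX (FldE_620.smX_log hD hD0)
  refine ⟨C, hC, fun p hp b hb => ?_⟩
  rw [hDD p hp b hb]
  exact ⟨hD0 p hp, h p hp⟩

theorem sum_omg_nonneg {m : ℕ} (p : EE N) (W : Fin m → EE N) : 0 ≤ ∑ k, omg p (W k) :=
  Finset.sum_nonneg fun _ _ => LevBr_901.omg_nonneg _ _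

/-- `k1` is monotone in the constant -/
theorem k1_mono {C C' : ℝ} (hC : C ≤ C') {p : EE N} (hp : nsq p ≤ 1) {m m' : ℕ} {b : Fin m → EE N}
    {V : Fin m' → EE N} (h : (1 - C * (1 - nsq p)) * ∑ k, omg p (b k) ≤ ∑ i, omg p (V i)) :
    (1 - C' * (1 - nsq p)) * ∑ k, omg p (b k) ≤ ∑ i, omg p (V i) := by
  refine le_trans (mul_le_mul_of_nonneg_right ?_ (sum_omg_nonneg p b)) h
  have : C * (1 - nsq p) ≤ C' * (1 - nsq p) := mul_le_mul_of_nonneg_right hC (by linarith)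
  linarith

/-- **(F1)** the fields `k1`, `pos`, `low` -/
theorem fields (hI : I.IsPrime) (hX : IsSmoothProjective I n) {a : EE N → VV N}
    (ha : PosField I n a) (Y : Flds I) {Q : EE N → (Fin Y.M → ℂ) → ℝ} (hQ : QIn I n a Y Q) :
    ∃ C : ℝ, 0 ≤ C ∧ ∀ C' : ℝ, C ≤ C' → ∀ p ∈ Cone I, nsq p ≤ 1 → ∀ V : Fin n → EE N,
      TanFam I p V → KRep I Y Q p V →
      0 < DD p V ∧ (∀ b : Fin n → EE N, Rep I a p b →
        (1 - C' * (1 - nsq p)) * ∑ k, omg p (b k) ≤ ∑ i, omg p (V i)) ∧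
      -C' + C' * Real.log (nsq p) ≤ Real.log (DD p V) := by
  obtain ⟨C₁, K, hC₁, hker⟩ := ker_pt hX ha Y hQ
  obtain ⟨C₂, hC₂, hdet⟩ := log_DD_bdd hI hX ha
  refine ⟨C₁ + K + C₂ + |Real.log C₁|, by positivity, ?_⟩
  intro C' hC' p hp hp1 V hV hrep
  obtain ⟨b₀, hb₀, -⟩ := ha.rep p hp
  have hp0 := Alp_927.nsq_pos hp.2
  obtain ⟨hd0, hdl⟩ := hdet p hp b₀ hb₀
  have k2 := (hker p hp V hV hrep b₀ hb₀).2
  have hK : 0 < nsq p ^ K := by positivity
  have hpos : 0 < DD p V := by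
    have : 0 < C₁ * DD p V := lt_of_lt_of_le (mul_pos hK hd0) k2
    exact (mul_pos_iff_of_pos_left hC₁).1 this
  refine ⟨hpos, fun b hb => ?_, ?_⟩
  · refine k1_mono ?_ hp1 (hker p hp V hV hrep b hb).1
    have : 0 ≤ |Real.log C₁| := abs_nonneg _
    have : (0 : ℝ) ≤ K := Nat.cast_nonneg _
    linarith
  · have h1 := Real.log_le_log (mul_pos hK hd0) k2
    rw [Real.log_mul hK.ne' hd0.ne', Real.log_mul hC₁.ne' hpos.ne', Real.log_pow] at h1
    have h2 : Real.log (nsq p) ≤ 0 := Real.log_nonpos hp0.le hp1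
    have h3 := (abs_le.1 hdl).1
    have h4 := le_abs_self (Real.log C₁)
    have h5 : (C' - K) * Real.log (nsq p) ≤ 0 := by
      refine mul_nonpos_of_nonneg_of_nonpos ?_ h2
      have : 0 ≤ |Real.log C₁| := abs_nonneg _
      linarith
    have h6 : (0 : ℝ) ≤ K := Nat.cast_nonneg _
    nlinarith

/-- **(F2)** the field `up` -/
theorem up (hn : 1 ≤ n) {B : ℝ} : ∃ C : ℝ, 0 ≤ C ∧ ∀ C' : ℝ, C ≤ C' → ∀ p : EE N, p ≠ 0 →
    nsq p ≤ 1 → ∀ V : Fin n → EE N, 0 < DD p V →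
    ∑ i, ∑ j, ∑ k, ‖wdg (V i) p j k‖ ^ 2 ≤ B → Real.log (DD p V) ≤ C' - C' * Real.log (nsq p) := by
  have hn0 : (0 : ℝ) < n := by exact_mod_cast hn
  refine ⟨n * |Real.log (|B| + 1)| + 2 * n, by positivity, ?_⟩
  intro C' hC' p hp hp1 V hV hB
  have hp0 := Alp_927.nsq_pos hp
  have h1 := FldD_620.amgm hp V
  have h2 : ∑ i, omg p (V i) ≤ (|B| + 1) / nsq p ^ 2 := by
    have e1 : 2 * nsq p ^ 2 * ∑ i, omg p (V i) ≤ B := by
      rw [Finset.mul_sum]
      refine le_trans (le_of_eq ?_) hB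
      exact Finset.sum_congr rfl fun i _ => (sum_wdg_sq hp (V i)).symm
    rw [le_div_iff₀ (by positivity)]
    have e2 := sum_omg_nonneg p V
    have e3 : 0 ≤ (∑ i, omg p (V i)) * nsq p ^ 2 := by positivity
    have := le_abs_self B
    nlinarith
  have h3 : 0 < DD p V ^ ((n : ℝ)⁻¹) := Real.rpow_pos_of_pos hV _
  have h4 : DD p V ^ ((n : ℝ)⁻¹) ≤ (|B| + 1) / nsq p ^ 2 := by
    have e1 : (1 : ℝ) ≤ n := by exact_mod_cast hn
    calc DD p V ^ ((n : ℝ)⁻¹) ≤ n * DD p V ^ ((n : ℝ)⁻¹) := le_mul_of_one_le_left h3.le e1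
      _ ≤ _ := h1
      _ ≤ _ := h2
  have h5 := Real.log_le_log h3 h4
  have hB1 : 0 < |B| + 1 := by positivity
  rw [Real.log_rpow hV, Real.log_div hB1.ne' (by positivity), Real.log_pow] at h5
  have h6 : Real.log (DD p V) ≤ n * (Real.log (|B| + 1) - 2 * Real.log (nsq p)) := by
    have : (n : ℝ) * ((n : ℝ)⁻¹ * Real.log (DD p V)) = Real.log (DD p V) := by
      rw [← mul_assoc, mul_inv_cancel₀ hn0.ne', one_mul]
    rw [← this]
    exact mul_le_mul_of_nonneg_left (by exact_mod_cast h5) hn0.le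
  have h7 : Real.log (nsq p) ≤ 0 := Real.log_nonpos hp0.le hp1
  have h8 := le_abs_self (Real.log (|B| + 1))
  have h9 : n * Real.log (|B| + 1) ≤ n * |Real.log (|B| + 1)| := mul_le_mul_of_nonneg_left h8 hn0.le
  have h10 : (C' - 2 * n) * Real.log (nsq p) ≤ 0 := by
    refine mul_nonpos_of_nonneg_of_nonpos ?_ h7
    have : 0 ≤ n * |Real.log (|B| + 1)| := by positivity
    linarith
  nlinarith

end Crest.Agent.R269.Ker4_430
end
end

-- ▼ part R269/Rep2_430
section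

/-!
# R269 (S0411), LINE B: the fields `tan`, `hol`, `pos`, `k1`, `low`, `up` of `WF` for the Wold frame (helper430)

`frm V H i z = hor (ext (V i) z) (H z)`.
-/

set_option autoImplicit false

open MvPolynomial Crest.AlgGeometry.ProjEmb Crest.Agent.R269.Geo_328 Crest.Agent.R269.DefsS_731
open Crest.Agent.R269.Fib_402 Crest.Agent.R269.Hardy_142 Crest.Agent.R269.Mod_402
open Crest.Agent.R269.Bd_402 Crest.Agent.R269.Defs_58
open MeasureTheory Filter Metric Set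
open scoped Topology ComplexConjugate ENNReal InnerProductSpace

namespace Crest.Agent.R269.Rep2_430

noncomputable section

variable {N n : ℕ} {I : Ideal (HomCoordRing N)} {H : ℂ → EE N} {Hs : TT → EE N}

/-- the frame of tangent vectors along `H` -/
def frm {m : ℕ} (V : Fin m → Lp (FF N) 2 (mu : Measure TT)) (H : ℂ → EE N) (i : Fin m) (z : ℂ) : EE N :=
  hor (ext (V i : TT → FF N) z) (H z)

theorem frm_tan (hX : IsSmoothProjective I n) {Y : Flds I} (hH : IsDisc I H) {m : ℕ}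
    {V : Fin m → Lp (FF N) 2 mu} (hVM : ∀ i, V i ∈ MM Y H) (i : Fin m) {z : ℂ}
    (hz : z ∈ ball (0 : ℂ) 1) : frm V H i z ∈ Tan I (H z) :=
  ((mem_Fib hX (hH.cone z hz)).mp (ext_mem_Fib hH (hVM i) (mem_ball_zero_iff.mp hz))).1

theorem wE_frm (hX : IsSmoothProjective I n) {Y : Flds I} (hH : IsDisc I H) {m : ℕ}
    {V : Fin m → Lp (FF N) 2 mu} (hVM : ∀ i, V i ∈ MM Y H) (i : Fin m) {z : ℂ}
    (hz : z ∈ ball (0 : ℂ) 1) : wE (frm V H i z) (H z) = ext (V i : TT → FF N) z :=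
  ((mem_Fib hX (hH.cone z hz)).mp (ext_mem_Fib hH (hVM i) (mem_ball_zero_iff.mp hz))).2

theorem wdg_frm (hX : IsSmoothProjective I n) {Y : Flds I} (hH : IsDisc I H) {m : ℕ}
    {V : Fin m → Lp (FF N) 2 mu} (hVM : ∀ i, V i ∈ MM Y H) (i : Fin m) {z : ℂ}
    (hz : z ∈ ball (0 : ℂ) 1) (j k : Fin (N + 1)) :
    wdg (frm V H i z) (H z) j k = ext (V i : TT → FF N) z (j, k) := by
  rw [← wE_frm hX hH hVM i hz]
  rfl

theorem frm_hol (hX : IsSmoothProjective I n) {Y : Flds I} (hH : IsDisc I H) {m : ℕ}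
    {V : Fin m → Lp (FF N) 2 mu} (hVM : ∀ i, V i ∈ MM Y H) (i : Fin m) :
    DifferentiableOn ℂ (fun z => wdg (frm V H i z) (H z)) (ball 0 1) := by
  have h1 : DifferentiableOn ℂ (ext (V i : TT → FF N)) (ball 0 1) :=
    differentiableOn_ext (mem_HH.mp (MM_le_HH Y H (hVM i))).integrable
  rw [differentiableOn_pi]
  intro j
  rw [differentiableOn_pi]
  intro k
  have h2 : DifferentiableOn ℂ (fun z => ext (V i : TT → FF N) z (j, k)) (ball 0 1) := by
    have := (EuclideanSpace.equiv (Fin (N + 1) × Fin (N + 1)) ℂ).toContinuousLinearMap.differentiable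
      |>.comp_differentiableOn h1
    exact (differentiableOn_pi.1 this) (j, k)
  exact h2.congr fun z hz => wdg_frm hX hH hVM i hz j k



end

end Crest.Agent.R269.Rep2_430
end

-- ▼ part R269/WFA_402

/-!
# R269 (S0411), Line B: assembly of `WFStmt` (helper402)

`wf_of_var` : all fields of `WF` but `var` for the Wold frame `frm v H`.
-/

set_option autoImplicit false

open MvPolynomial Crest.AlgGeometry.ProjEmb Crest.Agent.R269.Geo_328 Crest.Agent.R269.DefsS_731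
open Crest.Agent.R269.Fib_402 Crest.Agent.R269.Hardy_142 Crest.Agent.R269.Mod_402
open Crest.Agent.R269.Bd_402 Crest.Agent.R269.GeoW_936 Crest.Agent.R269.Frame_402
open Crest.Agent.R269.Defs_58 Crest.Agent.R269.Iface_731 Crest.Agent.R269.WF_731
open Crest.Agent.R269.Rep2_430 (frm frm_tan frm_hol wE_frm wdg_frm)
open MeasureTheory Filter Metric Set
open scoped ContDiff Topology ComplexConjugate ENNReal InnerProductSpace

namespace Crest.Agent.R269.WFA_402

noncomputable section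

variable {N n : ℕ} {I : Ideal (HomCoordRing N)}

/-- the field `var` of `WF` -/
def VarF (I : Ideal (HomCoordRing N)) (n : ℕ) (a : EE N → VV N) (H : ℂ → EE N)
    (V : Fin n → ℂ → EE N) : Prop :=
  ∀ (c0 c1 : ℝ) (u1 : EE N → ℝ) (r1 κ t r cθ cω : ℝ) (u : EE N → ℝ) (T1 : ℝ), SmX I u1 →
    r1 ∈ Ioo (0 : ℝ) 1 → 0 < κ → 0 ≤ t → r ∈ Ioo (0 : ℝ) 1 → SmX I u → GeO I n cθ cω u →
    IsMx I n (Jf c0 c1 u1 r1) κ t r cθ cω u H T1 →
    ∀ tE : EE N → ℝ, SmX I tE → (∀ p ∈ Cone I, ∀ b : Fin n → EE N, Rep I a p b →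
      tE p = ∑ i, dens I n cθ cω u p (b i)) →
      ∑ i, (LJf c0 c1 u1 r1 H (V i) +
        κ * t * Real.circleAverage (fun z => ‖z‖ ^ 2 * omg (H z) (V i z)) 0 r) ≤
          κ * TE_499.bav tE H

theorem exists_const (hI : I.IsPrime) (hX : IsSmoothProjective I n) (hn : 1 ≤ n)
    {Pi a : EE N → VV N} (hPi : GeoH_936.PiData I Pi) (ha : PosField I n a) (Y : Flds I) (B : ℝ) :
    ∃ C : ℝ, 0 ≤ C ∧ ∀ (H : ℂ → EE N) (Hs : TT → EE N) (v : Fin n → Lp (FF N) 2 mu),
      IsDisc I H → Normal H → BD I H Hs → WData I n a Pi Y B H Hs v → VarF I n a H (frm v H) →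
      WF I n a C H (frm v H) := by
  obtain ⟨C₁, hC₁, h1⟩ := Ker4_430.fields hI hX ha Y (Ker3_430.qin_Qf hI hX hPi ha Y)
  obtain ⟨C₂, hC₂, h2⟩ := Ker4_430.up (N := N) hn (B := n * B ^ 2)
  refine ⟨C₁ + C₂, by positivity, ?_⟩
  intro H Hs v hH hN hBD hW hvar
  have key : ∀ z ∈ ball (0 : ℂ) 1, _ := fun z hz =>
    h1 (C₁ + C₂) (by linarith) (H z) (hH.cone z hz) (hN.le_one z hz) (fun i => frm v H i z)
      (fun i => frm_tan hX hH hW.mem i hz) (hW.krep z (mem_ball_zero_iff.mp hz))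
  have hbdd : ∀ z ∈ ball (0 : ℂ) 1,
      ∑ i, ∑ j, ∑ k, ‖wdg (frm v H i z) (H z) j k‖ ^ 2 ≤ n * B ^ 2 := by
    intro z hz
    have e0 : ∀ i, ∑ j, ∑ k, ‖wdg (frm v H i z) (H z) j k‖ ^ 2 ≤ B ^ 2 := by
      intro i
      have e1 : ∑ j, ∑ k, ‖wdg (frm v H i z) (H z) j k‖ ^ 2
          = ‖Hardy_142.ext (v i : TT → FF N) z‖ ^ 2 := by
        rw [EuclideanSpace.norm_sq_eq, Fintype.sum_prod_type]
        exact Finset.sum_congr rfl fun j _ => Finset.sum_congr rfl fun k _ => by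
          rw [wdg_frm hX hH hW.mem i hz]
      rw [e1]
      exact pow_le_pow_left₀ (norm_nonneg _) (hW.ext_bdd i z (mem_ball_zero_iff.mp hz)) 2
    refine (Finset.sum_le_sum fun i _ => e0 i).trans (le_of_eq ?_)
    simp
  refine
    { tan := fun i z hz => frm_tan hX hH hW.mem i hz
      hol := fun i => frm_hol hX hH hW.mem i
      pos := fun z hz => (key z hz).1
      k1 := fun z hz => (key z hz).2.1
      low := fun z hz => (key z hz).2.2
      up := fun z hz => h2 (C₁ + C₂) (by linarith) (H z) (hH.cone z hz).2 (hN.le_one z hz) _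
        (key z hz).1 (hbdd z hz)
      det := ?_
      var := hvar }
  exact StatDet_194.wf_det hI hX hH hN (fun i z hz => frm_tan hX hH hW.mem i hz)
    (fun i => frm_hol hX hH hW.mem i) (fun z hz => (key z hz).1) (fun z hz => (key z hz).2.2)
    hBD.h2 (fun z hz => hBD.ext_eq z (mem_ball_zero_iff.mp hz))
    (fun i => mem_HH.mp (MM_le_HH Y H (hW.mem i)))
    (fun i z hz => (wE_frm hX hH hW.mem i hz).symm) hW.rep

/-- the (VAR) input: for the Wold data of any normalised disc -/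
def VarStmt : Prop := ∀ (N n : ℕ) (I : Ideal (HomCoordRing N)), I.IsPrime →
  IsSmoothProjective I n → 1 ≤ n → ∀ (Pi a : EE N → VV N), GeoH_936.PiData I Pi → PosField I n a →
    ∀ (Y : Flds I) (B : ℝ) (H : ℂ → EE N) (Hs : TT → EE N) (v : Fin n → Lp (FF N) 2 mu),
      IsDisc I H → Normal H → BD I H Hs → WData I n a Pi Y B H Hs v → VarF I n a H (frm v H)

/-- everything but (VAR) -/
theorem wfStmt_of (hflds : ∀ (N n : ℕ) (I : Ideal (HomCoordRing N)), I.IsPrime →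
    IsSmoothProjective I n → Nonempty (Flds I)) (hV : VarStmt) : WFStmt := by
  intro N n I hI hX hn _ a ha
  obtain ⟨Pi, hPi⟩ := GeoH_936.exists_PiData hI hX
  obtain ⟨Y⟩ := hflds N n I hI hX
  obtain ⟨B, hB0, hB⟩ := exists_WData hI hX hPi ha Y
  obtain ⟨C, hC0, hC⟩ := exists_const hI hX hn hPi ha Y B
  refine ⟨C, hC0, fun H hH hN => ?_⟩
  obtain ⟨Hs, hBD⟩ := exists_BD hH hN
  obtain ⟨v, hv⟩ := hB H Hs hH hN hBD
  exact ⟨frm v H, hC H Hs v hH hN hBD hv (hV N n I hI hX hn Pi a hPi ha Y B H Hs v hH hN hBD hv)⟩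

end

end Crest.Agent.R269.WFA_402
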