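import Mathlib
import Crest.Prelude.Def_ProjPluricanonical
import Crest.Agent.R264.MontelU
import Crest.Agent.R269.Defs_58
import Crest.Agent.R269.DefsS_731
import Crest.Agent.R269.GeoT_328
import Crest.Agent.R269.Geo0_632

-- ▼ part R269/Brody1_164
section

/-!
Row 269, leaf L7 (Brody reparametrisation), part 1: the Fubini-Study density of a lift
(helper164).
-/

set_option autoImplicit false

open Set Filter Topology Metric Complex
open scoped ComplexConjugate

noncomputable section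

namespace Crest.Agent.R269.Brody_164

variable {ι : Type*} [Fintype ι]

/-- squared euclidean norm -/
def nsq (p : ι → ℂ) : ℝ := ∑ i, ‖p i‖ ^ 2

/-- hermitian product, linear in the first variable -/
def herm (v p : ι → ℂ) : ℂ := ∑ i, v i * conj (p i)

/-- sum of the squares of the absolute values of the `2 × 2` minors (each counted twice) -/
def wsq (p v : ι → ℂ) : ℝ := ∑ i, ∑ j, ‖v i * p j - v j * p i‖ ^ 2

/-- squared Fubini-Study norm (for the form `i ∂∂̄ log |H|²`) of the tangent vector with lift `v`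
at the point with lift `p` -/
def fsSq (p v : ι → ℂ) : ℝ :=
  ((∑ i, ‖p i‖ ^ 2) * (∑ i, ‖v i‖ ^ 2) - ‖∑ i, v i * conj (p i)‖ ^ 2) / (∑ i, ‖p i‖ ^ 2) ^ 2

theorem fsSq_def (p v : ι → ℂ) :
    fsSq p v = (nsq p * nsq v - ‖herm v p‖ ^ 2) / (nsq p) ^ 2 := rfl

theorem nsq_nonneg (p : ι → ℂ) : 0 ≤ nsq p := Finset.sum_nonneg fun _ _ => by positivity

theorem wsq_nonneg (p v : ι → ℂ) : 0 ≤ wsq p v :=
  Finset.sum_nonneg fun _ _ => Finset.sum_nonneg fun _ _ => by positivity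

theorem nsq_pos {p : ι → ℂ} (hp : p ≠ 0) : 0 < nsq p := by
  obtain ⟨i, hi⟩ := Function.ne_iff.1 hp
  have h1 : ‖p i‖ ^ 2 ≤ nsq p :=
    Finset.single_le_sum (f := fun i => ‖p i‖ ^ 2) (fun _ _ => by positivity) (Finset.mem_univ i)
  have h2 : 0 < ‖p i‖ := norm_pos_iff.2 hi
  have h3 : 0 < ‖p i‖ ^ 2 := by positivity
  linarith

theorem nsq_eq_zero {p : ι → ℂ} : nsq p = 0 ↔ p = 0 := by
  constructor
  · intro h
    by_contra hp
    exact (nsq_pos hp).ne' h
  · rintro rfl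
    simp [nsq]

theorem norm_sq_le_nsq (p : ι → ℂ) (i : ι) : ‖p i‖ ^ 2 ≤ nsq p :=
  Finset.single_le_sum (f := fun i => ‖p i‖ ^ 2) (fun _ _ => by positivity) (Finset.mem_univ i)

theorem nsq_smul (c : ℂ) (p : ι → ℂ) : nsq (c • p) = ‖c‖ ^ 2 * nsq p := by
  simp only [nsq, Pi.smul_apply, smul_eq_mul, norm_mul, mul_pow, Finset.mul_sum]

theorem herm_self (p : ι → ℂ) : herm p p = (nsq p : ℂ) := by
  simp only [herm, nsq, Complex.ofReal_sum, Complex.ofReal_pow]
  refine Finset.sum_congr rfl fun i _ => ?_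
  rw [Complex.mul_conj, Complex.normSq_eq_norm_sq]
  simp

/-- **Lagrange's identity** -/
theorem wsq_eq (p v : ι → ℂ) : wsq p v = 2 * (nsq p * nsq v - ‖herm v p‖ ^ 2) := by
  have hn : ∀ z : ℂ, ((‖z‖ ^ 2 : ℝ) : ℂ) = z * conj z := by
    intro z
    rw [Complex.mul_conj, Complex.normSq_eq_norm_sq]
  apply Complex.ofReal_injective
  have e1 : ((wsq p v : ℝ) : ℂ) = ∑ i, ∑ j,
      (v i * p j - v j * p i) * (conj (v i) * conj (p j) - conj (v j) * conj (p i)) := by
    unfold wsq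
    rw [Complex.ofReal_sum]
    refine Finset.sum_congr rfl fun i _ => ?_
    rw [Complex.ofReal_sum]
    refine Finset.sum_congr rfl fun j _ => ?_
    rw [hn, map_sub, map_mul, map_mul]
  have e2 : ((nsq p : ℝ) : ℂ) = ∑ i, p i * conj (p i) := by
    unfold nsq
    rw [Complex.ofReal_sum]
    exact Finset.sum_congr rfl fun i _ => hn _
  have e3 : ((nsq v : ℝ) : ℂ) = ∑ i, v i * conj (v i) := by
    unfold nsq
    rw [Complex.ofReal_sum]
    exact Finset.sum_congr rfl fun i _ => hn _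
  have e4 : ((‖herm v p‖ ^ 2 : ℝ) : ℂ) = (∑ i, v i * conj (p i)) * (∑ j, conj (v j) * p j) := by
    rw [hn, herm, map_sum]
    congr 1
    exact Finset.sum_congr rfl fun i _ => by rw [map_mul, Complex.conj_conj]
  rw [e1, Complex.ofReal_mul, Complex.ofReal_sub, Complex.ofReal_mul, e2, e3, e4]
  simp only [Complex.ofReal_ofNat]
  have hA : ∑ i, ∑ j, (v i * p j - v j * p i) * (conj (v i) * conj (p j) - conj (v j) * conj (p i))
      = ∑ i, ∑ j, ((v i * conj (v i)) * (p j * conj (p j)) - (v i * conj (p i)) * (conj (v j) * p j)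
        - (conj (v i) * p i) * (v j * conj (p j)) + (p i * conj (p i)) * (v j * conj (v j))) := by
    refine Finset.sum_congr rfl fun i _ => Finset.sum_congr rfl fun j _ => ?_
    ring
  rw [hA]
  simp only [Finset.sum_add_distrib, Finset.sum_sub_distrib, ← Finset.mul_sum, ← Finset.sum_mul]
  ring

theorem fsSq_eq (p v : ι → ℂ) : fsSq p v = wsq p v / (2 * nsq p ^ 2) := by
  rw [fsSq_def, wsq_eq]
  by_cases h : nsq p = 0
  · simp [h]
  · field_simp

theorem fsSq_nonneg (p v : ι → ℂ) : 0 ≤ fsSq p v := by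
  rw [fsSq_eq]
  have := wsq_nonneg p v
  positivity

theorem wsq_le_iff {p v : ι → ℂ} (hp : p ≠ 0) (L : ℝ) :
    fsSq p v ≤ L ↔ wsq p v ≤ 2 * L * nsq p ^ 2 := by
  have h := nsq_pos hp
  rw [fsSq_eq, div_le_iff₀ (by positivity)]
  constructor <;> intro h' <;> linarith

/-- the minors do not see the direction of `p` and scale by `c ^ 2` -/
theorem wsq_smul (p v : ι → ℂ) (c b : ℂ) :
    wsq (c • p) (c • v + b • p) = (‖c‖ ^ 2) ^ 2 * wsq p v := by
  unfold wsq
  rw [Finset.mul_sum]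
  refine Finset.sum_congr rfl fun i _ => ?_
  rw [Finset.mul_sum]
  refine Finset.sum_congr rfl fun j _ => ?_
  have : (c • v + b • p) i * (c • p) j - (c • v + b • p) j * (c • p) i
      = c ^ 2 * (v i * p j - v j * p i) := by
    simp only [Pi.add_apply, Pi.smul_apply, smul_eq_mul]
    ring
  rw [this, norm_mul, norm_pow]
  ring

/-- `fsSq` is the pullback of a metric on projective space -/
theorem fsSq_smul {c : ℂ} (hc : c ≠ 0) (p v : ι → ℂ) (b : ℂ) :
    fsSq (c • p) (c • v + b • p) = fsSq p v := by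
  rw [fsSq_eq, fsSq_eq, wsq_smul, nsq_smul]
  have h : 0 < ‖c‖ := norm_pos_iff.2 hc
  by_cases hn : nsq p = 0
  · simp [hn]
  · field_simp

theorem wsq_smul_right (p v : ι → ℂ) (a : ℂ) : wsq p (a • v) = ‖a‖ ^ 2 * wsq p v := by
  unfold wsq
  rw [Finset.mul_sum]
  refine Finset.sum_congr rfl fun i _ => ?_
  rw [Finset.mul_sum]
  refine Finset.sum_congr rfl fun j _ => ?_
  have : (a • v) i * p j - (a • v) j * p i = a * (v i * p j - v j * p i) := by
    simp only [Pi.smul_apply, smul_eq_mul]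
    ring
  rw [this, norm_mul]
  ring

theorem fsSq_smul_right (p v : ι → ℂ) (a : ℂ) : fsSq p (a • v) = ‖a‖ ^ 2 * fsSq p v := by
  rw [fsSq_eq, fsSq_eq, wsq_smul_right]
  ring

theorem continuous_nsq : Continuous (nsq : (ι → ℂ) → ℝ) := by
  unfold nsq
  fun_prop

theorem tendsto_nsq {α : Type*} {l : Filter α} {f : α → ι → ℂ} {a : ι → ℂ}
    (hf : Tendsto f l (𝓝 a)) :
    Tendsto (fun x => nsq (f x)) l (𝓝 (nsq a)) :=
  (continuous_nsq.tendsto a).comp hf

theorem tendsto_wsq {α : Type*} {l : Filter α} {f g : α → ι → ℂ} {a b : ι → ℂ}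
    (hf : Tendsto f l (𝓝 a)) (hg : Tendsto g l (𝓝 b)) :
    Tendsto (fun x => wsq (f x) (g x)) l (𝓝 (wsq a b)) := by
  unfold wsq
  have h1 : ∀ i, Tendsto (fun x => f x i) l (𝓝 (a i)) := fun i => (tendsto_pi_nhds.1 hf) i
  have h2 : ∀ i, Tendsto (fun x => g x i) l (𝓝 (b i)) := fun i => (tendsto_pi_nhds.1 hg) i
  refine tendsto_finsetSum _ fun i _ => tendsto_finsetSum _ fun j _ => ?_
  exact ((((h2 i).mul (h1 j)).sub ((h2 j).mul (h1 i))).norm).pow 2

theorem tendsto_fsSq {α : Type*} {l : Filter α} {f g : α → ι → ℂ} {a b : ι → ℂ}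
    (hf : Tendsto f l (𝓝 a)) (hg : Tendsto g l (𝓝 b)) (ha : a ≠ 0) :
    Tendsto (fun x => fsSq (f x) (g x)) l (𝓝 (fsSq a b)) := by
  simp only [fsSq_eq]
  refine (tendsto_wsq hf hg).div (((tendsto_nsq hf).pow 2).const_mul 2) ?_
  have := nsq_pos ha
  positivity

theorem continuousOn_fsSq {X : Type*} [TopologicalSpace X] {f g : X → ι → ℂ} {s : Set X}
    (hf : ContinuousOn f s) (hg : ContinuousOn g s) (h0 : ∀ x ∈ s, f x ≠ 0) :
    ContinuousOn (fun x => fsSq (f x) (g x)) s :=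
  fun x hx => tendsto_fsSq (hf x hx) (hg x hx) (h0 x hx)

/-- the density of a lift multiplied by a holomorphic function -/
theorem fsSq_mul_lift {c : ℂ → ℂ} {H : ℂ → ι → ℂ} {z : ℂ} (hc : DifferentiableAt ℂ c z)
    (hH : DifferentiableAt ℂ H z) (h0 : c z ≠ 0) :
    fsSq (c z • H z) (deriv (fun w => c w • H w) z) = fsSq (H z) (deriv H z) := by
  have h1 : deriv (fun w => c w • H w) z = c z • deriv H z + deriv c z • H z :=
    (hc.hasDerivAt.smul hH.hasDerivAt).deriv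
  rw [h1, fsSq_smul h0]

theorem fsSq_comp_affine {H : ℂ → ι → ℂ} {a ρ z : ℂ} (hH : DifferentiableAt ℂ H (a + ρ * z)) :
    fsSq (H (a + ρ * z)) (deriv (fun w => H (a + ρ * w)) z)
      = ‖ρ‖ ^ 2 * fsSq (H (a + ρ * z)) (deriv H (a + ρ * z)) := by
  have h2 : HasDerivAt (fun w : ℂ => a + ρ * w) ρ z := by
    simpa using ((hasDerivAt_id z).const_mul ρ).const_add a
  have h1 : deriv (fun w => H (a + ρ * w)) z = ρ • deriv H (a + ρ * z) :=
    (hH.hasDerivAt.scomp z h2).deriv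
  rw [h1, fsSq_smul_right]

end Crest.Agent.R269.Brody_164
end
end

-- ▼ part R269/Brody2_164
section

/-!
Row 269, leaf L7 (Brody reparametrisation), part 2: normalised lifts (helper164).

* `exists_entire_re_approx`: a continuous real function on a circle is uniformly approximated by
  real parts of entire functions (polynomials);
* `nsq_lower_bound`: barrier for `-log |F|²`;
* `exists_normalised_lift`.
-/

set_option autoImplicit false

open Set Filter Topology Metric Complex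
open scoped ComplexConjugate Real

noncomputable section

namespace Crest.Agent.R269.Brody_164

/-! ### Approximation on a circle -/

instance factTwoPi : Fact (0 < 2 * π) := ⟨Real.two_pi_pos⟩

/-- property of a function on the circle: the real parts of its multiples are the boundary values
of real parts of entire functions -/
def ReEnt (R : ℝ) (g : AddCircle (2 * π) → ℂ) : Prop :=
  ∀ c : ℂ, ∃ P : ℂ → ℂ, Differentiable ℂ P ∧
    ∀ t : ℝ, (c * g (t : AddCircle (2 * π))).re = (P (circleMap 0 R t)).re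

theorem reEnt_fourier {R : ℝ} (hR : R ≠ 0) (n : ℤ) :
    ReEnt R (fun t => fourier n t) := by
  intro c
  have hRc : (R : ℂ) ≠ 0 := by exact_mod_cast hR
  have hcm : ∀ t : ℝ, circleMap 0 R t / R = exp (t * I) := by
    intro t
    rw [circleMap]
    field_simp
    simp
  rcases Int.eq_nat_or_neg n with ⟨m, hm | hm⟩
  · refine ⟨fun z => c * (z / R) ^ m, by fun_prop, fun t => ?_⟩
    simp only
    rw [fourier_coe_apply, hcm, ← Complex.exp_nat_mul, hm]
    congr 3
    push_cast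
    field_simp
  · refine ⟨fun z => conj c * (z / R) ^ m, by fun_prop, fun t => ?_⟩
    simp only
    rw [fourier_coe_apply, hcm, ← Complex.exp_nat_mul, ← Complex.conj_re, map_mul, hm,
      ← Complex.exp_conj]
    congr 3
    push_cast
    simp only [map_div₀, map_mul, map_neg, Complex.conj_ofReal, Complex.conj_I, map_ofNat,
      map_natCast]
    field_simp

theorem reEnt_of_mem_span {R : ℝ} (hR : R ≠ 0) (g : C(AddCircle (2 * π), ℂ))
    (hg : g ∈ Submodule.span ℂ (range (@fourier (2 * π)))) : ReEnt R g := by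
  induction hg using Submodule.span_induction with
  | mem x hx =>
    obtain ⟨n, rfl⟩ := hx
    exact reEnt_fourier hR n
  | zero =>
    intro c
    exact ⟨fun _ => 0, by fun_prop, fun t => by simp⟩
  | add x y _ _ hx hy =>
    intro c
    obtain ⟨P, hP, hP'⟩ := hx c
    obtain ⟨Q, hQ, hQ'⟩ := hy c
    refine ⟨fun z => P z + Q z, hP.add hQ, fun t => ?_⟩
    rw [ContinuousMap.add_apply, mul_add, Complex.add_re, Complex.add_re, hP', hQ']
  | smul a x _ hx =>
    intro c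
    obtain ⟨P, hP, hP'⟩ := hx (c * a)
    refine ⟨P, hP, fun t => ?_⟩
    rw [ContinuousMap.smul_apply, smul_eq_mul, ← mul_assoc, hP']

theorem exists_entire_re_approx {R : ℝ} (hR : 0 < R) {u : ℂ → ℝ}
    (hu : ContinuousOn u (sphere 0 R)) {ε : ℝ} (hε : 0 < ε) :
    ∃ P : ℂ → ℂ, Differentiable ℂ P ∧ ∀ z ∈ sphere (0 : ℂ) R, |u z - (P z).re| ≤ ε := by
  set f : ℝ → ℂ := fun t => ((u (circleMap 0 R t) : ℝ) : ℂ) with hf
  have hper : Function.Periodic f (2 * π) := by
    intro t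
    simp only [hf, periodic_circleMap 0 R t]
  have hfc : Continuous f := by
    have h1 : Continuous fun t : ℝ => u (circleMap 0 R t) :=
      hu.comp_continuous (continuous_circleMap 0 R) (fun t => circleMap_mem_sphere 0 hR.le t)
    exact Complex.continuous_ofReal.comp h1
  have hlc : Continuous (hper.lift) := by
    exact hfc.quotient_liftOn' _
  set g : C(AddCircle (2 * π), ℂ) := ⟨hper.lift, hlc⟩ with hg
  have hmem : g ∈ closure ((Submodule.span ℂ (range (@fourier (2 * π))) :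
      Submodule ℂ C(AddCircle (2 * π), ℂ)) : Set C(AddCircle (2 * π), ℂ)) := by
    have h1 := @span_fourier_closure_eq_top (2 * π) _
    have h2 : g ∈ (Submodule.span ℂ (range (@fourier (2 * π)))).topologicalClosure := by
      rw [h1]; trivial
    exact h2
  obtain ⟨q, hq, hqd⟩ := Metric.mem_closure_iff.1 hmem ε hε
  obtain ⟨P, hP, hP'⟩ := reEnt_of_mem_span hR.ne' q hq 1
  refine ⟨P, hP, fun z hz => ?_⟩
  obtain ⟨t, ht⟩ : ∃ t : ℝ, circleMap 0 R t = z := by
    have h1 : z ∈ range (circleMap 0 R) := by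
      rw [range_circleMap, abs_of_pos hR]
      exact hz
    exact h1
  subst ht
  rw [← hP' t, one_mul]
  have h2 : dist (g (t : AddCircle (2 * π))) (q (t : AddCircle (2 * π))) ≤ dist g q :=
    ContinuousMap.dist_apply_le_dist _
  have h3 : g (t : AddCircle (2 * π)) = ((u (circleMap 0 R t) : ℝ) : ℂ) := rfl
  rw [h3, dist_eq_norm] at h2
  have h4 : |(((u (circleMap 0 R t) : ℝ) : ℂ) - q (t : AddCircle (2 * π))).re| ≤ _ :=
    Complex.abs_re_le_norm _
  rw [Complex.sub_re, Complex.ofReal_re] at h4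
  linarith

/-! ### the barrier -/

theorem circleAverage_normSq (c : ℂ) (r : ℝ) :
    Real.circleAverage (fun z => ‖z‖ ^ 2) c r = ‖c‖ ^ 2 + r ^ 2 := by
  have h1 : EqOn (fun z : ℂ => ‖z‖ ^ 2)
      (fun z => (‖c‖ ^ 2 + r ^ 2) + (reCLM ∘ fun z => 2 * (conj c * (z - c))) z)
      (sphere c |r|) := by
    intro z hz
    rw [mem_sphere_iff_norm] at hz
    have h2 : ‖z‖ ^ 2 = ‖c + (z - c)‖ ^ 2 := by congr 2; ring
    simp only [Function.comp_apply, reCLM_apply]
    rw [h2, ← Complex.normSq_eq_norm_sq, Complex.normSq_add, Complex.normSq_eq_norm_sq,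
      Complex.normSq_eq_norm_sq, hz, sq_abs]
    have h3 : (c * conj (z - c)).re = (conj c * (z - c)).re := by
      rw [← Complex.conj_re]
      simp
    rw [h3]
    have h4 : (2 * (conj c * (z - c))).re = 2 * (conj c * (z - c)).re := by
      simp
    rw [h4]
  rw [Real.circleAverage_congr_sphere h1]
  have hd : Differentiable ℂ (fun z => 2 * (conj c * (z - c))) := by fun_prop
  have hci : CircleIntegrable (fun z => 2 * (conj c * (z - c))) c r :=
    hd.continuous.continuousOn.circleIntegrable'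
  have h5 : Real.circleAverage (reCLM ∘ fun z => 2 * (conj c * (z - c))) c r = 0 := by
    rw [reCLM.circleAverage_comp_comm hci, hd.diffContOnCl.circleAverage]
    simp
  have hci2 : CircleIntegrable (reCLM ∘ fun z => 2 * (conj c * (z - c))) c r :=
    (reCLM.continuous.comp hd.continuous).continuousOn.circleIntegrable'
  rw [Real.circleAverage_fun_add (circleIntegrable_const _ _ _) hci2, h5,
    Real.circleAverage_const]
  ring

variable {ι : Type*} [Fintype ι]

theorem herm_left_diff {F : ℂ → ι → ℂ} {s : Set ℂ} (hF : DifferentiableOn ℂ F s) (p : ι → ℂ) :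
    DifferentiableOn ℂ (fun z => herm (F z) p) s := by
  unfold herm
  have : ∀ i, DifferentiableOn ℂ (fun z => F z i) s := fun i =>
    (differentiableOn_pi.1 hF) i
  fun_prop

/-- local comparison near a point -/
theorem eventually_cmp {F : ℂ → ι → ℂ} {z₀ : ℂ} {L η : ℝ} (hF : DifferentiableAt ℂ F z₀)
    (h0 : F z₀ ≠ 0) (hL : fsSq (F z₀) (deriv F z₀) ≤ L) (hη : 0 < η) :
    ∀ᶠ w in 𝓝 z₀, (1 - (L + η) * ‖w - z₀‖ ^ 2) * (nsq (F z₀) * nsq (F w)) ≤
      ‖herm (F w) (F z₀)‖ ^ 2 := by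
  have hS := nsq_pos h0
  -- the slope
  have h1 : Tendsto (slope F z₀) (𝓝[≠] z₀) (𝓝 (deriv F z₀)) :=
    hasDerivAt_iff_tendsto_slope.1 hF.hasDerivAt
  have h2 : Tendsto (fun w => wsq (F z₀) (slope F z₀ w)) (𝓝[≠] z₀)
      (𝓝 (wsq (F z₀) (deriv F z₀))) := tendsto_wsq tendsto_const_nhds h1
  have h3 : Tendsto (fun w => 2 * (L + η) * (nsq (F z₀) * nsq (F w))) (𝓝[≠] z₀)
      (𝓝 (2 * (L + η) * (nsq (F z₀) * nsq (F z₀)))) := by
    have h4 : Tendsto (fun w => nsq (F w)) (𝓝[≠] z₀) (𝓝 (nsq (F z₀))) :=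
      ((continuous_nsq.continuousAt).comp hF.continuousAt).tendsto.mono_left nhdsWithin_le_nhds
    exact (h4.const_mul _).const_mul _
  have h5 : wsq (F z₀) (deriv F z₀) < 2 * (L + η) * (nsq (F z₀) * nsq (F z₀)) := by
    have h6 := (wsq_le_iff h0 L).1 hL
    have h7 : 0 < η * (nsq (F z₀) * nsq (F z₀)) := by positivity
    nlinarith
  have h8 : ∀ᶠ w in 𝓝[≠] z₀, wsq (F z₀) (slope F z₀ w) <
      2 * (L + η) * (nsq (F z₀) * nsq (F w)) := h2.eventually_lt h3 h5
  rw [eventually_nhdsWithin_iff] at h8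
  filter_upwards [h8] with w hw
  by_cases hwz : w = z₀
  · subst hwz
    rw [herm_self]
    simp only [sub_self, norm_zero]
    rw [Complex.norm_real, Real.norm_of_nonneg hS.le]
    ring_nf
    exact le_refl _
  · have h9 := hw hwz
    have h10 : wsq (F z₀) (F w) = ‖w - z₀‖ ^ 2 * wsq (F z₀) (slope F z₀ w) := by
      have e1 : (w - z₀) • slope F z₀ w = F w - F z₀ := by
        rw [sub_smul_slope]
        rfl
      rw [← wsq_smul_right, e1]
      have e2 := wsq_smul (F z₀) (F w - F z₀) 1 1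
      rw [one_smul, one_smul, sub_add_cancel] at e2
      rw [e2]
      simp
    rw [wsq_eq (F z₀) (F w)] at h10
    have h11 : 0 < ‖w - z₀‖ ^ 2 := by
      have : 0 < ‖w - z₀‖ := norm_pos_iff.2 (sub_ne_zero.2 hwz)
      positivity
    have h12 := mul_lt_mul_of_pos_left h9 h11
    rw [← h10] at h12
    nlinarith

/-- **barrier**: a lower bound for `|F|²` inside a disc -/
theorem nsq_lower_bound {F : ℂ → ι → ℂ} {R L m : ℝ} (hR : 0 < R) (hL : 0 ≤ L)
    (hFc : ContinuousOn F (closedBall 0 R)) (hFd : DifferentiableOn ℂ F (ball 0 R))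
    (h0 : ∀ z ∈ closedBall 0 R, F z ≠ 0)
    (hfs : ∀ z ∈ ball 0 R, fsSq (F z) (deriv F z) ≤ L)
    (hm : ∀ z ∈ sphere 0 R, Real.exp m ≤ nsq (F z)) :
    ∀ z ∈ closedBall (0 : ℂ) R, Real.exp (m - (L + 1) * R ^ 2) ≤ nsq (F z) := by
  set W : ℂ → ℝ := fun z => - Real.log (nsq (F z)) + (L + 1) * ‖z‖ ^ 2 with hW
  have hlogc : ContinuousOn (fun z => Real.log (nsq (F z))) (closedBall 0 R) := by
    refine ContinuousOn.log (continuous_nsq.comp_continuousOn hFc) ?_
    intro z hz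
    exact (nsq_pos (h0 z hz)).ne'
  have hWc : ContinuousOn W (closedBall 0 R) := by
    refine hlogc.neg.add ?_
    fun_prop
  obtain ⟨z₁, hz₁, hmax⟩ := (isCompact_closedBall (0 : ℂ) R).exists_isMaxOn
    ⟨0, mem_closedBall_self hR.le⟩ hWc
  have hsph : z₁ ∈ sphere (0 : ℂ) R := by
    by_contra hns
    have hz₁' : z₁ ∈ ball (0 : ℂ) R := by
      rw [mem_ball]
      rw [mem_closedBall] at hz₁
      rw [mem_sphere] at hns
      exact lt_of_le_of_ne hz₁ hns
    have hd : DifferentiableAt ℂ F z₁ := hFd.differentiableAt (isOpen_ball.mem_nhds hz₁')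
    have hev := eventually_cmp hd (h0 z₁ hz₁) (hfs z₁ hz₁') (η := 1/4) (by norm_num)
    obtain ⟨δ, hδ, hδ'⟩ := Metric.eventually_nhds_iff_ball.1 hev
    obtain ⟨δ₂, hδ₂, hδ₂'⟩ := Metric.isOpen_iff.1 isOpen_ball z₁ hz₁'
    -- nonvanishing of the pairing near z₁
    have hS := nsq_pos (h0 z₁ hz₁)
    set r : ℝ := min (min (δ / 2) (δ₂ / 2)) (1 / (2 * (2 * L + 1))) with hr
    have hr0 : 0 < r := by
      apply lt_min
      · exact lt_min (by positivity) (by positivity)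
      · positivity
    have hrδ : r < δ := lt_of_le_of_lt ((min_le_left _ _).trans (min_le_left _ _)) (by linarith)
    have hrδ₂ : r < δ₂ := lt_of_le_of_lt ((min_le_left _ _).trans (min_le_right _ _)) (by linarith)
    have hrL : r ≤ 1 / (2 * (2 * L + 1)) := min_le_right _ _
    have hcb : closedBall z₁ r ⊆ ball 0 R := (closedBall_subset_ball hrδ₂).trans hδ₂'
    have hcb' : closedBall z₁ r ⊆ closedBall 0 R := hcb.trans ball_subset_closedBall
    -- x = (L+1/4) r^2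
    have hLr : (2 * L + 1) * r ≤ 1 / 2 := by
      calc (2 * L + 1) * r ≤ (2 * L + 1) * (1 / (2 * (2 * L + 1))) := by gcongr
        _ = 1 / 2 := by field_simp
    have hx1 : (L + 1 / 4) * r ^ 2 ≤ 1 / 4 := by
      have h1 : ((2 * L + 1) * r) * ((2 * L + 1) * r) ≤ 1 / 2 * (1 / 2) :=
        mul_le_mul hLr hLr (by positivity) (by norm_num)
      have h2 : (L + 1 / 4) * r ^ 2 ≤ ((2 * L + 1) * r) * ((2 * L + 1) * r) := by
        have : (L + 1 / 4) ≤ (2 * L + 1) * (2 * L + 1) := by nlinarith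
        calc (L + 1 / 4) * r ^ 2 ≤ ((2 * L + 1) * (2 * L + 1)) * r ^ 2 := by gcongr
          _ = _ := by ring
      linarith
    -- lower bound on closed ball
    have hcmp : ∀ w ∈ closedBall z₁ r, (1 - (L + 1/4) * r ^ 2) * (nsq (F z₁) * nsq (F w)) ≤
        ‖herm (F w) (F z₁)‖ ^ 2 := by
      intro w hw
      have h1 := hδ' w (closedBall_subset_ball hrδ hw)
      refine le_trans ?_ h1
      have h2 : ‖w - z₁‖ ≤ r := by rwa [mem_closedBall_iff_norm] at hw
      have h3 : ‖w - z₁‖ ^ 2 ≤ r ^ 2 := by gcongr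
      have h4 : 0 < nsq (F z₁) * nsq (F w) := mul_pos hS (nsq_pos (h0 w (hcb' hw)))
      apply mul_le_mul_of_nonneg_right _ h4.le
      have h5 : (L + 1/4) * ‖w - z₁‖ ^ 2 ≤ (L + 1/4) * r ^ 2 := by gcongr
      linarith
    have hne : ∀ w ∈ closedBall z₁ r, herm (F w) (F z₁) ≠ 0 := by
      intro w hw h
      have h1 := hcmp w hw
      rw [h] at h1
      have h4 : 0 < nsq (F z₁) * nsq (F w) := mul_pos hS (nsq_pos (h0 w (hcb' hw)))
      have h5 : 0 < (1 - (L + 1/4) * r ^ 2) * (nsq (F z₁) * nsq (F w)) :=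
        mul_pos (by linarith) h4
      simp at h1
      linarith
    have han : AnalyticOnNhd ℂ (fun w => herm (F w) (F z₁)) (closedBall z₁ |r|) := by
      rw [abs_of_pos hr0]
      have h1 : AnalyticOnNhd ℂ (fun w => herm (F w) (F z₁)) (ball 0 R) :=
        (herm_left_diff hFd (F z₁)).analyticOnNhd isOpen_ball
      exact fun w hw => h1 w (hcb hw)
    have havg := AnalyticOnNhd.circleAverage_log_norm_of_ne_zero han
      (by rw [abs_of_pos hr0]; exact hne)
    rw [herm_self, Complex.norm_real, Real.norm_of_nonneg hS.le] at havg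
    -- compare averages
    have hcs : sphere z₁ |r| ⊆ closedBall z₁ r := by
      rw [abs_of_pos hr0]; exact sphere_subset_closedBall
    have hci1 : CircleIntegrable (fun z => Real.log (nsq (F z))) z₁ r :=
      (hlogc.mono (hcs.trans hcb')).circleIntegrable'
    have hci2 : CircleIntegrable (fun w => Real.log ‖herm (F w) (F z₁)‖) z₁ r := by
      refine ContinuousOn.circleIntegrable' ?_
      refine ContinuousOn.log ?_ ?_
      · exact (((herm_left_diff hFd (F z₁)).continuousOn).mono (hcs.trans hcb)).norm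
      · intro w hw
        exact (norm_pos_iff.2 (hne w (hcs hw))).ne'
    have hci3 : CircleIntegrable (fun z : ℂ => ‖z‖ ^ 2) z₁ r :=
      (by fun_prop : Continuous (fun z : ℂ => ‖z‖ ^ 2)).continuousOn.circleIntegrable'
    set x : ℝ := (L + 1/4) * r ^ 2 with hx
    have hpt : ∀ w ∈ sphere z₁ |r|, Real.log (nsq (F w)) ≤
        2 * Real.log ‖herm (F w) (F z₁)‖ + (- Real.log (nsq (F z₁)) - Real.log (1 - x)) := by
      intro w hw
      have hw' := hcs hw
      have h1 := hcmp w hw'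
      have h2 : 0 < nsq (F w) := nsq_pos (h0 w (hcb' hw'))
      have h3 : 0 < 1 - x := by linarith
      have h4 : 0 < ‖herm (F w) (F z₁)‖ := norm_pos_iff.2 (hne w hw')
      have h5 := Real.log_le_log (by positivity) h1
      rw [Real.log_mul h3.ne' (by positivity), Real.log_mul hS.ne' h2.ne', Real.log_pow] at h5
      push_cast at h5
      linarith
    have hav1 : Real.circleAverage (fun z => Real.log (nsq (F z))) z₁ r ≤
        2 * Real.log (nsq (F z₁)) + (- Real.log (nsq (F z₁)) - Real.log (1 - x)) := by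
      have hci4 : CircleIntegrable (fun w => (2:ℝ) • Real.log ‖herm (F w) (F z₁)‖) z₁ r :=
        hci2.const_fun_smul
      have h1 := Real.circleAverage_mono hci1
        (hci4.add (circleIntegrable_const
          (- Real.log (nsq (F z₁)) - Real.log (1 - x)) z₁ r)) hpt
      refine h1.trans (le_of_eq ?_)
      rw [Real.circleAverage_add hci4 (circleIntegrable_const _ _ _), Real.circleAverage_const,
        Real.circleAverage_fun_smul, havg, smul_eq_mul]
    have hav2 : Real.circleAverage W z₁ r =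
        - Real.circleAverage (fun z => Real.log (nsq (F z))) z₁ r
          + (L + 1) * (‖z₁‖ ^ 2 + r ^ 2) := by
      have e1 : W = fun z => (-1 : ℝ) • Real.log (nsq (F z)) + (L + 1) • ‖z‖ ^ 2 := by
        funext z
        simp [hW]
      rw [e1, Real.circleAverage_fun_add (hci1.const_fun_smul) (hci3.const_fun_smul),
        Real.circleAverage_fun_smul, Real.circleAverage_fun_smul, circleAverage_normSq]
      simp
    have hav3 : Real.circleAverage W z₁ r ≤ W z₁ := by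
      refine Real.circleAverage_mono_on_of_le_circle ?_ ?_
      · exact (hWc.mono (hcs.trans hcb')).circleIntegrable'
      · intro w hw
        exact hmax (hcb' (hcs hw))
    have hlog : -(x / (1 - x)) ≤ Real.log (1 - x) := by
      have h3 : 0 < 1 - x := by linarith
      have := Real.one_sub_inv_le_log_of_pos h3
      refine le_trans (le_of_eq ?_) this
      field_simp
      ring
    have hxx : x / (1 - x) ≤ (L + 1/2) * r ^ 2 := by
      have h3 : 0 < 1 - x := by linarith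
      rw [div_le_iff₀ h3, hx]
      have h4 : (2 * L + 1) * r * ((2 * L + 1) * r) ≤ 1 / 2 * (1 / 2) :=
        mul_le_mul hLr hLr (by positivity) (by norm_num)
      have h5 : (L + 1/2) * ((L + 1/4) * r ^ 2) ≤ 1 / 4 := by nlinarith
      nlinarith [mul_nonneg (sub_nonneg.2 h5) (sq_nonneg r)]
    have hW1 : W z₁ = - Real.log (nsq (F z₁)) + (L + 1) * ‖z₁‖ ^ 2 := rfl
    rw [hav2, hW1] at hav3
    have hr2 : 0 < r ^ 2 := by positivity
    nlinarith
  intro z hz
  have h1 : W z ≤ W z₁ := hmax hz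
  have h2 : m ≤ Real.log (nsq (F z₁)) := by
    rw [Real.le_log_iff_exp_le (nsq_pos (h0 z₁ hz₁))]
    exact hm z₁ hsph
  have h3 : ‖z₁‖ = R := by simpa using hsph
  simp only [hW] at h1
  rw [h3] at h1
  have h4 : m - (L + 1) * R ^ 2 ≤ Real.log (nsq (F z)) := by
    have : 0 ≤ (L + 1) * ‖z‖ ^ 2 := by positivity
    linarith
  rwa [Real.le_log_iff_exp_le (nsq_pos (h0 z hz))] at h4

/-- maximum modulus for `nsq` -/
theorem nsq_upper_bound {F : ℂ → ι → ℂ} {R M : ℝ} (hR : 0 < R)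
    (hFc : ContinuousOn F (closedBall 0 R)) (hFd : DifferentiableOn ℂ F (ball 0 R))
    (hm : ∀ z ∈ sphere 0 R, nsq (F z) ≤ M) :
    ∀ z ∈ closedBall (0 : ℂ) R, nsq (F z) ≤ M := by
  have hnn : ∀ p : ι → ℂ, ‖(WithLp.toLp 2 p : EuclideanSpace ℂ ι)‖ = Real.sqrt (nsq p) := by
    intro p
    rw [EuclideanSpace.norm_eq]
    rfl
  have hL : Differentiable ℂ (fun p : ι → ℂ => (WithLp.toLp 2 p : EuclideanSpace ℂ ι)) :=
    (PiLp.continuousLinearEquiv 2 ℂ (fun _ : ι => ℂ)).symm.differentiable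
  intro z hz
  have hd : DiffContOnCl ℂ (fun z => (WithLp.toLp 2 (F z) : EuclideanSpace ℂ ι)) (ball 0 R) := by
    refine ⟨hL.comp_differentiableOn hFd, ?_⟩
    rw [closure_ball _ hR.ne']
    exact hL.continuous.comp_continuousOn hFc
  have h1 := Complex.norm_le_of_forall_mem_frontier_norm_le (isBounded_ball) hd
    (C := Real.sqrt M) (by
      intro w hw
      rw [frontier_ball _ hR.ne'] at hw
      rw [hnn]
      exact Real.sqrt_le_sqrt (hm w hw)) (z := z) (by rwa [closure_ball _ hR.ne'])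
  rw [hnn] at h1
  have h2 : 0 ≤ M := by
    obtain ⟨w, hw⟩ : (sphere (0 : ℂ) R).Nonempty := NormedSpace.sphere_nonempty.2 hR.le
    exact (nsq_nonneg _).trans (hm w hw)
  exact (Real.sqrt_le_sqrt_iff h2).1 h1

/-- **normalised lifts** -/
theorem exists_normalised_lift {H : ℂ → ι → ℂ} {R L : ℝ} (hR : 0 < R) (hL : 0 ≤ L)
    (hHc : ContinuousOn H (closedBall 0 R)) (hHd : DifferentiableOn ℂ H (ball 0 R))
    (h0 : ∀ z ∈ closedBall 0 R, H z ≠ 0)
    (hfs : ∀ z ∈ ball 0 R, fsSq (H z) (deriv H z) ≤ L) :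
    ∃ φ : ℂ → ℂ, Differentiable ℂ φ ∧ ∀ z ∈ closedBall (0 : ℂ) R,
      Real.exp (-1 - (L + 1) * R ^ 2) ≤ nsq (exp (φ z) • H z) ∧
      nsq (exp (φ z) • H z) ≤ Real.exp 1 := by
  have hlogc : ContinuousOn (fun z => - Real.log (nsq (H z)) / 2) (sphere 0 R) := by
    refine ((ContinuousOn.log (continuous_nsq.comp_continuousOn
      (hHc.mono sphere_subset_closedBall)) ?_).neg).div_const 2
    intro z hz
    exact (nsq_pos (h0 z (sphere_subset_closedBall hz))).ne'
  obtain ⟨φ, hφ, hφ'⟩ := exists_entire_re_approx hR hlogc (ε := 1/2) (by norm_num)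
  have hval : ∀ z ∈ closedBall (0 : ℂ) R, nsq (exp (φ z) • H z) =
      Real.exp (2 * (φ z).re + Real.log (nsq (H z))) := by
    intro z hz
    rw [nsq_smul, Complex.norm_exp, Real.exp_add, Real.exp_log (nsq_pos (h0 z hz)), two_mul,
      Real.exp_add, sq]
  set F : ℂ → ι → ℂ := fun z => exp (φ z) • H z with hF
  have hec : Differentiable ℂ (fun z => exp (φ z)) := hφ.cexp
  have hFc : ContinuousOn F (closedBall 0 R) := hec.continuous.continuousOn.smul hHc
  have hFd : DifferentiableOn ℂ F (ball 0 R) := hec.differentiableOn.smul hHd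
  have hF0 : ∀ z ∈ closedBall 0 R, F z ≠ 0 := fun z hz =>
    smul_ne_zero (exp_ne_zero _) (h0 z hz)
  have hFfs : ∀ z ∈ ball 0 R, fsSq (F z) (deriv F z) ≤ L := by
    intro z hz
    have h1 := fsSq_mul_lift (hec z) (hHd.differentiableAt (isOpen_ball.mem_nhds hz))
      (exp_ne_zero (φ z))
    have h2 : fsSq (F z) (deriv F z) = fsSq (H z) (deriv H z) := h1
    rw [h2]
    exact hfs z hz
  have hs1 : ∀ z ∈ sphere 0 R, Real.exp (-1) ≤ nsq (F z) := by
    intro z hz
    have h1 := abs_le.1 (hφ' z hz)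
    have h2 := hval z (sphere_subset_closedBall hz)
    rw [h2]
    apply Real.exp_le_exp.2
    linarith
  have hs2 : ∀ z ∈ sphere 0 R, nsq (F z) ≤ Real.exp 1 := by
    intro z hz
    have h1 := abs_le.1 (hφ' z hz)
    have h2 := hval z (sphere_subset_closedBall hz)
    rw [h2]
    apply Real.exp_le_exp.2
    linarith
  exact ⟨φ, hφ, fun z hz => ⟨nsq_lower_bound hR hL hFc hFd hF0 hFfs hs1 z hz,
    nsq_upper_bound hR hFc hFd hs2 z hz⟩⟩

end Crest.Agent.R269.Brody_164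
end
end

-- ▼ part R269/Brody3_164
section

/-!
Row 269, leaf L7 (Brody reparametrisation), part 3: gluing of lifts on an increasing sequence of
discs to a lift on the whole plane (Mittag-Leffler) (helper164).
-/

set_option autoImplicit false

open Set Filter Topology Metric Complex
open scoped ComplexConjugate Real NNReal ENNReal

noncomputable section

namespace Crest.Agent.R269.Brody_164

/-- Taylor polynomials approximate -/
theorem exists_entire_approx {φ : ℂ → ℂ} {r R : ℝ} (hr : 0 < r) (hrR : r < R)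
    (hφ : DifferentiableOn ℂ φ (ball 0 R)) {ε : ℝ} (hε : 0 < ε) :
    ∃ p : ℂ → ℂ, Differentiable ℂ p ∧ ∀ z ∈ ball (0 : ℂ) r, ‖φ z - p z‖ ≤ ε := by
  obtain ⟨R', hR'1, hR'2⟩ := exists_between hrR
  have hR'0 : 0 < R' := hr.trans hR'1
  lift R' to ℝ≥0 using hR'0.le
  lift r to ℝ≥0 using hr.le
  have h1 : HasFPowerSeriesOnBall φ (cauchyPowerSeries φ 0 R') 0 R' :=
    DifferentiableOn.hasFPowerSeriesOnBall
      (hφ.mono (closedBall_subset_ball hR'2)) (by exact_mod_cast hR'0)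
  have h2 := h1.tendstoUniformlyOn (r' := r) (by exact_mod_cast hR'1)
  obtain ⟨n, hn⟩ := (Metric.tendstoUniformlyOn_iff.1 h2 ε hε).exists
  refine ⟨fun z => (cauchyPowerSeries φ 0 R').partialSum n z, ?_, fun z hz => ?_⟩
  · have : (fun z => (cauchyPowerSeries φ 0 R').partialSum n z)
        = fun z => ∑ k ∈ Finset.range n, z ^ k • (cauchyPowerSeries φ 0 R').coeff k := by
      funext z
      unfold FormalMultilinearSeries.partialSum
      refine Finset.sum_congr rfl fun k _ => ?_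
      rw [FormalMultilinearSeries.apply_eq_pow_smul_coeff]
    rw [this]
    fun_prop
  · have h3 := hn z hz
    rw [zero_add, dist_eq_norm] at h3
    exact h3.le

/-- logarithm of a nowhere zero holomorphic function on a disc -/
theorem exists_log_ball {c : ℂ → ℂ} {R : ℝ} (hR : 0 < R) (hc : DifferentiableOn ℂ c (ball 0 R))
    (h0 : ∀ z ∈ ball (0 : ℂ) R, c z ≠ 0) :
    ∃ φ : ℂ → ℂ, DifferentiableOn ℂ φ (ball 0 R) ∧ ∀ z ∈ ball (0 : ℂ) R, exp (φ z) = c z := by
  have hd : DifferentiableOn ℂ (fun z => deriv c z / c z) (ball 0 R) :=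
    (hc.deriv isOpen_ball).div hc h0
  obtain ⟨g, hg⟩ := hd.isExactOn_ball
  have hgd : DifferentiableOn ℂ g (ball 0 R) := fun z hz =>
    (hg z hz).differentiableAt.differentiableWithinAt
  set q : ℂ → ℂ := fun z => c z * exp (- g z) with hq
  have hqd : ∀ z ∈ ball (0 : ℂ) R, HasDerivAt q 0 z := by
    intro z hz
    have h1 : HasDerivAt c (deriv c z) z :=
      (hc.differentiableAt (isOpen_ball.mem_nhds hz)).hasDerivAt
    have h2 := h1.mul ((hg z hz).neg.cexp)
    refine h2.congr_deriv ?_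
    have := h0 z hz
    field_simp
    ring
  have hqD : DifferentiableOn ℂ q (ball 0 R) := fun z hz =>
    (hqd z hz).differentiableAt.differentiableWithinAt
  have h0m : (0 : ℂ) ∈ ball (0 : ℂ) R := mem_ball_self hR
  have hconst : ∀ z ∈ ball (0 : ℂ) R, q z = q 0 := fun z hz =>
    isOpen_ball.is_const_of_deriv_eq_zero (convex_ball (0 : ℂ) R).isPreconnected hqD
      (fun w hw => (hqd w hw).deriv) hz h0m
  have hq0 : q 0 ≠ 0 := mul_ne_zero (h0 0 h0m) (exp_ne_zero _)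
  refine ⟨fun z => g z + log (q 0), hgd.add_const _, fun z hz => ?_⟩
  rw [exp_add, exp_log hq0, ← hconst z hz, hq]
  simp only
  rw [mul_comm, mul_assoc, ← exp_add, neg_add_cancel, exp_zero, mul_one]

/-- additive Mittag-Leffler on the plane -/
theorem mittag_leffler {φ : ℕ → ℂ → ℂ}
    (hφ : ∀ n, DifferentiableOn ℂ (φ n) (ball 0 (n + 1))) :
    ∃ f : ℕ → ℂ → ℂ, (∀ n, DifferentiableOn ℂ (f n) (ball 0 (n + 1))) ∧
      ∀ n : ℕ, ∀ z ∈ ball (0 : ℂ) (n + 1), f n z = f (n + 1) z + φ n z := by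
  have hp : ∀ n : ℕ, ∃ p : ℂ → ℂ, Differentiable ℂ p ∧
      ∀ z ∈ ball (0 : ℂ) (n + 1 / 2), ‖φ n z - p z‖ ≤ (1 / 2) ^ n := fun n =>
    exists_entire_approx (by positivity) (by linarith) (hφ n) (by positivity)
  choose p hpd hpb using hp
  have hbd : ∀ n j : ℕ, ∀ z ∈ ball (0 : ℂ) (n + 1),
      ‖φ (n + 1 + j) z - p (n + 1 + j) z‖ ≤ (1 / 2) ^ j := by
    intro n j z hz
    refine (hpb (n + 1 + j) z ?_).trans ?_
    · rw [mem_ball_zero_iff] at hz ⊢
      push_cast
      have : (0 : ℝ) ≤ j := Nat.cast_nonneg j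
      linarith
    · exact pow_le_pow_of_le_one (by norm_num) (by norm_num) (by omega)
  have hsumm : ∀ n : ℕ, ∀ z ∈ ball (0 : ℂ) (n + 1),
      Summable (fun j => φ (n + 1 + j) z - p (n + 1 + j) z) := by
    intro n z hz
    exact Summable.of_norm_bounded (summable_geometric_two) (fun j => hbd n j z hz)
  refine ⟨fun n z => (φ n z - p n z) + (∑' j : ℕ, (φ (n + 1 + j) z - p (n + 1 + j) z))
    - ∑ k ∈ Finset.range n, p k z, fun n => ?_, fun n z hz => ?_⟩
  · refine (DifferentiableOn.add ((hφ n).sub (hpd n).differentiableOn) ?_).sub ?_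
    · refine differentiableOn_tsum_of_summable_norm (u := fun j : ℕ => ((1 : ℝ) / 2) ^ j)
        summable_geometric_two (fun j => ?_) isOpen_ball (fun j w hw => hbd n j w hw)
      refine ((hφ (n + 1 + j)).mono (ball_subset_ball ?_)).sub (hpd _).differentiableOn
      push_cast
      have : (0 : ℝ) ≤ j := Nat.cast_nonneg j
      linarith
    · exact (Differentiable.fun_sum fun k _ => hpd k).differentiableOn
  · have h1 : ∑' j : ℕ, (φ (n + 1 + j) z - p (n + 1 + j) z)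
        = (φ (n + 1) z - p (n + 1) z)
          + ∑' j : ℕ, (φ (n + 1 + 1 + j) z - p (n + 1 + 1 + j) z) := by
      rw [(hsumm n z hz).tsum_eq_zero_add]
      congr 1
      refine tsum_congr fun j => ?_
      rw [show n + 1 + (j + 1) = n + 1 + 1 + j by ring]
    simp only
    rw [h1, Finset.sum_range_succ]
    ring

variable {ι : Type*} [Fintype ι]

/-- **gluing of lifts**: nowhere zero lifts `G n` on the discs `|z| < n + 1` which differ by
nowhere zero holomorphic factors come from one nowhere zero lift on the plane -/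
theorem glue_lifts {G : ℕ → ℂ → ι → ℂ} {c : ℕ → ℂ → ℂ}
    (hG : ∀ n, DifferentiableOn ℂ (G n) (ball 0 (n + 1)))
    (hc : ∀ n, DifferentiableOn ℂ (c n) (ball 0 (n + 1)))
    (hc0 : ∀ n : ℕ, ∀ z ∈ ball (0 : ℂ) (n + 1), c n z ≠ 0)
    (hGc : ∀ n : ℕ, ∀ z ∈ ball (0 : ℂ) (n + 1), G (n + 1) z = c n z • G n z) :
    ∃ F : ℂ → ι → ℂ, Differentiable ℂ F ∧ ∀ n : ℕ, ∃ e : ℂ → ℂ,
      DifferentiableOn ℂ e (ball 0 (n + 1)) ∧ (∀ z, e z ≠ 0) ∧
      ∀ z ∈ ball (0 : ℂ) (n + 1), F z = e z • G n z := by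
  have hlog : ∀ n : ℕ, ∃ φ : ℂ → ℂ, DifferentiableOn ℂ φ (ball 0 (n + 1)) ∧
      ∀ z ∈ ball (0 : ℂ) (n + 1), exp (φ z) = c n z := fun n =>
    exists_log_ball (by positivity) (hc n) (hc0 n)
  choose φ hφd hφe using hlog
  obtain ⟨f, hfd, hff⟩ := mittag_leffler hφd
  have hstep : ∀ n : ℕ, ∀ z ∈ ball (0 : ℂ) (n + 1),
      exp (f (n + 1) z) • G (n + 1) z = exp (f n z) • G n z := by
    intro n z hz
    rw [hGc n z hz, ← hφe n z hz, smul_smul, ← exp_add, ← hff n z hz]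
  have hstep' : ∀ n k : ℕ, ∀ z ∈ ball (0 : ℂ) (n + 1),
      exp (f (n + k) z) • G (n + k) z = exp (f n z) • G n z := by
    intro n k
    induction k with
    | zero => intro z _; rfl
    | succ k ih =>
      intro z hz
      have h1 : z ∈ ball (0 : ℂ) ((n + k : ℕ) + 1) := by
        rw [mem_ball_zero_iff] at hz ⊢
        push_cast
        have : (0 : ℝ) ≤ k := Nat.cast_nonneg k
        linarith
      rw [← add_assoc, hstep (n + k) z h1, ih z hz]
  set F : ℂ → ι → ℂ := fun z => exp (f ⌊‖z‖⌋₊ z) • G ⌊‖z‖⌋₊ z with hF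
  have hFn : ∀ n : ℕ, ∀ z ∈ ball (0 : ℂ) (n + 1), F z = exp (f n z) • G n z := by
    intro n z hz
    have h1 : ⌊‖z‖⌋₊ ≤ n := by
      rw [mem_ball_zero_iff] at hz
      have h2 : ⌊‖z‖⌋₊ < n + 1 := (Nat.floor_lt (norm_nonneg z)).2 (by exact_mod_cast hz)
      omega
    obtain ⟨k, hk⟩ := Nat.exists_eq_add_of_le h1
    have h2 : z ∈ ball (0 : ℂ) ((⌊‖z‖⌋₊ : ℕ) + 1) := by
      rw [mem_ball_zero_iff]
      exact Nat.lt_floor_add_one ‖z‖
    have h3 := hstep' ⌊‖z‖⌋₊ k z h2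
    rw [← hk] at h3
    rw [hF]
    exact h3.symm
  refine ⟨F, ?_, fun n => ⟨fun z => exp (f n z), (hfd n).cexp, fun z => exp_ne_zero _, hFn n⟩⟩
  intro z
  have h2 : z ∈ ball (0 : ℂ) ((⌊‖z‖⌋₊ : ℕ) + 1) := by
    rw [mem_ball_zero_iff]
    exact Nat.lt_floor_add_one ‖z‖
  have h3 : DifferentiableAt ℂ (fun w => exp (f ⌊‖z‖⌋₊ w) • G ⌊‖z‖⌋₊ w) z :=
    (((hfd _).cexp).smul (hG _)).differentiableAt (isOpen_ball.mem_nhds h2)
  refine h3.congr_of_eventuallyEq ?_
  filter_upwards [isOpen_ball.mem_nhds h2] with w hw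
  exact hFn _ w hw

end Crest.Agent.R269.Brody_164
end
end

-- ▼ part R269/Brody4_164
section

/-!
Row 269, leaf L7: **Brody's theorem** for closed cones in `ℂ^ι` (projective varieties given by
their affine cone), with lifts (helper164).

* `brody_cone`: if every entire curve in the cone is projectively constant then the Fubini-Study
  derivative of every disc is bounded;
* `brody`: the case of `EntireCurvesConstant I`.
-/

set_option autoImplicit false

open Set Filter Topology Metric Complex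
open scoped ComplexConjugate Real

noncomputable section

namespace Crest.Agent.R269.Brody_164

variable {ι : Type*} [Fintype ι]

/-- Brody's reparametrisation -/
theorem reparam {H : ℂ → ι → ℂ} {K : ℝ} (hK : 0 < K) (hH : DifferentiableOn ℂ H (ball 0 1))
    (h0 : ∀ z ∈ ball (0 : ℂ) 1, H z ≠ 0) (hbig : K ^ 2 < fsSq (H 0) (deriv H 0)) :
    ∃ a ρ : ℂ, (∀ ζ ∈ ball (0 : ℂ) (K / 4), a + ρ * ζ ∈ ball (0 : ℂ) 1) ∧
      fsSq (H (a + ρ * 0)) (deriv (fun w => H (a + ρ * w)) 0) = 1 ∧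
      ∀ ζ ∈ ball (0 : ℂ) (K / 4),
        fsSq (H (a + ρ * ζ)) (deriv (fun w => H (a + ρ * w)) ζ) ≤ 4 := by
  have hsub : closedBall (0 : ℂ) (1 / 2) ⊆ ball (0 : ℂ) 1 := closedBall_subset_ball (by norm_num)
  set fs : ℂ → ℝ := fun z => fsSq (H z) (deriv H z) with hfs
  have hfsc : ContinuousOn fs (closedBall 0 (1 / 2)) :=
    continuousOn_fsSq (hH.continuousOn.mono hsub)
      ((hH.deriv isOpen_ball).continuousOn.mono hsub) (fun z hz => h0 z (hsub hz))
  set m : ℂ → ℝ := fun z => (1 / 2 - ‖z‖) ^ 2 * fs z with hm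
  have hmc : ContinuousOn m (closedBall 0 (1 / 2)) :=
    ContinuousOn.mul (by fun_prop) hfsc
  obtain ⟨z₁, hz₁, hmax⟩ := (isCompact_closedBall (0 : ℂ) (1 / 2)).exists_isMaxOn
    ⟨0, mem_closedBall_self (by norm_num)⟩ hmc
  have hm0 : K ^ 2 / 4 < m z₁ := by
    have h1 : m 0 ≤ m z₁ := hmax (mem_closedBall_self (by norm_num))
    have h2 : m 0 = fs 0 / 4 := by
      simp only [hm, norm_zero]
      ring
    have h3 : K ^ 2 < fs 0 := hbig
    linarith
  have hmpos : 0 < m z₁ := lt_trans (by positivity) hm0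
  have hz₁n : ‖z₁‖ ≤ 1 / 2 := by simpa using hz₁
  have hfs1 : 0 < fs z₁ := by
    have h1 : 0 ≤ fs z₁ := fsSq_nonneg _ _
    rcases h1.eq_or_lt with h | h
    · exfalso
      rw [hm] at hmpos
      simp only [← h, mul_zero, lt_self_iff_false] at hmpos
    · exact h
  set d : ℝ := 1 / 2 - ‖z₁‖ with hd
  have hd0 : 0 < d := by
    have h1 : 0 ≤ d := by linarith
    rcases h1.eq_or_lt with h | h
    · exfalso
      have : m z₁ = d ^ 2 * fs z₁ := rfl
      rw [this, ← h] at hmpos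
      simp at hmpos
    · exact h
  set ρ : ℝ := (Real.sqrt (fs z₁))⁻¹ with hρ
  have hsq : 0 < Real.sqrt (fs z₁) := Real.sqrt_pos.2 hfs1
  have hρ0 : 0 < ρ := inv_pos.2 hsq
  have hρ2 : ρ ^ 2 * fs z₁ = 1 := by
    rw [hρ, inv_pow, Real.sq_sqrt hfs1.le]
    field_simp
  have hKd : ρ * (K / 2) < d := by
    have h1 : K ^ 2 / 4 < d ^ 2 * fs z₁ := hm0
    have h2 : (ρ * (K / 2)) ^ 2 < d ^ 2 := by
      have h3 : (ρ * (K / 2)) ^ 2 = ρ ^ 2 * (K ^ 2 / 4) := by ring
      rw [h3]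
      calc ρ ^ 2 * (K ^ 2 / 4) < ρ ^ 2 * (d ^ 2 * fs z₁) := by gcongr
        _ = d ^ 2 * (ρ ^ 2 * fs z₁) := by ring
        _ = d ^ 2 := by rw [hρ2, mul_one]
    exact lt_of_pow_lt_pow_left₀ 2 hd0.le h2
  have hnorm : ∀ ζ ∈ ball (0 : ℂ) (K / 4), ‖z₁ + (ρ : ℂ) * ζ‖ ≤ 1 / 2 - d / 2 := by
    intro ζ hζ
    rw [mem_ball_zero_iff] at hζ
    have h1 : ‖z₁ + (ρ : ℂ) * ζ‖ ≤ ‖z₁‖ + ρ * ‖ζ‖ := by
      refine (norm_add_le _ _).trans ?_
      rw [norm_mul, Complex.norm_real, Real.norm_of_nonneg hρ0.le]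
    have h2 : ρ * ‖ζ‖ ≤ ρ * (K / 4) := by gcongr
    have h3 : ρ * (K / 4) = (ρ * (K / 2)) / 2 := by ring
    rw [h3] at h2
    linarith
  have hmem : ∀ ζ ∈ ball (0 : ℂ) (K / 4), z₁ + (ρ : ℂ) * ζ ∈ closedBall (0 : ℂ) (1 / 2) := by
    intro ζ hζ
    rw [mem_closedBall_zero_iff]
    linarith [hnorm ζ hζ]
  have hval : ∀ ζ ∈ ball (0 : ℂ) (K / 4),
      fsSq (H (z₁ + (ρ : ℂ) * ζ)) (deriv (fun w => H (z₁ + (ρ : ℂ) * w)) ζ)
        = ρ ^ 2 * fs (z₁ + (ρ : ℂ) * ζ) := by
    intro ζ hζ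
    rw [fsSq_comp_affine (hH.differentiableAt (isOpen_ball.mem_nhds (hsub (hmem ζ hζ)))),
      Complex.norm_real, Real.norm_of_nonneg hρ0.le]
  refine ⟨z₁, (ρ : ℂ), fun ζ hζ => hsub (hmem ζ hζ), ?_, fun ζ hζ => ?_⟩
  · rw [hval 0 (mem_ball_self (by positivity)), mul_zero, add_zero, hρ2]
  · rw [hval ζ hζ]
    have h1 : m (z₁ + (ρ : ℂ) * ζ) ≤ m z₁ := hmax (hmem ζ hζ)
    have h2 : (d / 2) ^ 2 * fs (z₁ + (ρ : ℂ) * ζ) ≤ d ^ 2 * fs z₁ := by
      refine le_trans ?_ h1
      have h3 : d / 2 ≤ 1 / 2 - ‖z₁ + (ρ : ℂ) * ζ‖ := by linarith [hnorm ζ hζ]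
      have h4 : 0 ≤ fs (z₁ + (ρ : ℂ) * ζ) := fsSq_nonneg _ _
      show _ ≤ (1 / 2 - ‖z₁ + (ρ : ℂ) * ζ‖) ^ 2 * fs (z₁ + (ρ : ℂ) * ζ)
      gcongr
    have h5 : fs (z₁ + (ρ : ℂ) * ζ) ≤ 4 * fs z₁ := by
      have h6 : 0 < d ^ 2 := by positivity
      have h7 : d ^ 2 * fs (z₁ + (ρ : ℂ) * ζ) ≤ d ^ 2 * (4 * fs z₁) := by nlinarith
      exact le_of_mul_le_mul_left h7 h6
    calc ρ ^ 2 * fs (z₁ + (ρ : ℂ) * ζ) ≤ ρ ^ 2 * (4 * fs z₁) := by gcongr
      _ = 4 * (ρ ^ 2 * fs z₁) := by ring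
      _ = 4 := by rw [hρ2, mul_one]

theorem norm_le_sqrt_nsq (p : ι → ℂ) : ‖p‖ ≤ Real.sqrt (nsq p) := by
  rw [pi_norm_le_iff_of_nonneg (Real.sqrt_nonneg _)]
  intro i
  exact Real.le_sqrt_of_sq_le (norm_sq_le_nsq p i)

/-- **limits of discs of growing radius**: an entire lift -/
theorem limit_curve {C : Set (ι → ℂ)} (hC : IsClosed C)
    (hCs : ∀ c : ℂ, c ≠ 0 → ∀ p ∈ C, c • p ∈ C) {L a : ℝ} (hL : 0 ≤ L)
    {H : ℕ → ℂ → ι → ℂ}
    (hd : ∀ k : ℕ, DifferentiableOn ℂ (H k) (ball 0 (k + 2)))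
    (h0 : ∀ k : ℕ, ∀ z ∈ ball (0 : ℂ) (k + 2), H k z ≠ 0)
    (hHC : ∀ k : ℕ, ∀ z ∈ ball (0 : ℂ) (k + 2), H k z ∈ C)
    (hfs : ∀ k : ℕ, ∀ z ∈ ball (0 : ℂ) (k + 2), fsSq (H k z) (deriv (H k) z) ≤ L)
    (hfs0 : ∀ k : ℕ, fsSq (H k 0) (deriv (H k) 0) = a) :
    ∃ F : ℂ → ι → ℂ, Differentiable ℂ F ∧ (∀ z, F z ≠ 0) ∧ (∀ z, F z ∈ C) ∧
      fsSq (F 0) (deriv F 0) = a := by
  -- normalised lifts
  have hex : ∀ n k : ℕ, ∃ φ : ℂ → ℂ, Differentiable ℂ φ ∧ (n ≤ k → ∀ z ∈ closedBall (0 : ℂ) (n + 1),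
      Real.exp (-1 - (L + 1) * ((n : ℝ) + 1) ^ 2) ≤ nsq (exp (φ z) • H k z) ∧
      nsq (exp (φ z) • H k z) ≤ Real.exp 1) := by
    intro n k
    by_cases hnk : n ≤ k
    · have hsub : closedBall (0 : ℂ) (n + 1) ⊆ ball (0 : ℂ) (k + 2) := by
        apply closedBall_subset_ball
        have : (n : ℝ) ≤ k := by exact_mod_cast hnk
        linarith
      obtain ⟨φ, hφ, hφ'⟩ := exists_normalised_lift (H := H k) (R := (n : ℝ) + 1) (L := L)
        (by positivity) hL ((hd k).continuousOn.mono hsub)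
        ((hd k).mono (ball_subset_closedBall.trans hsub)) (fun z hz => h0 k z (hsub hz))
        (fun z hz => hfs k z (hsub (ball_subset_closedBall hz)))
      exact ⟨φ, hφ, fun _ => hφ'⟩
    · exact ⟨fun _ => 0, by fun_prop, fun h => (hnk h).elim⟩
  choose φ hφd hφb using hex
  set u : Ultrafilter ℕ := hyperfilter ℕ with hu
  have hev : ∀ n : ℕ, ∀ᶠ k in (u : Filter ℕ), n ≤ k := fun n =>
    (Nat.hyperfilter_le_atTop) (eventually_ge_atTop n)
  -- the lifts
  set A : ℕ → ℕ → ℂ → ι → ℂ := fun n k z => if n ≤ k then exp (φ n k z) • H k z else 0 with hA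
  have hbk : ∀ n k : ℕ, n ≤ k → ball (0 : ℂ) (n + 1) ⊆ ball (0 : ℂ) (k + 2) := by
    intro n k hnk
    apply ball_subset_ball
    have : (n : ℝ) ≤ k := by exact_mod_cast hnk
    linarith
  have hAeq : ∀ n k : ℕ, n ≤ k → A n k = fun z => exp (φ n k z) • H k z := by
    intro n k hnk
    funext z
    simp only [hA, if_pos hnk]
  have hAd : ∀ n k : ℕ, DifferentiableOn ℂ (A n k) (ball 0 (n + 1)) := by
    intro n k
    by_cases hnk : n ≤ k
    · rw [hAeq n k hnk]
      exact ((hφd n k).cexp.differentiableOn).smul ((hd k).mono (hbk n k hnk))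
    · have : A n k = fun _ => 0 := by
        funext z
        simp only [hA, if_neg hnk]
      rw [this]
      fun_prop
  have hAM : ∀ n k : ℕ, ∀ z ∈ ball (0 : ℂ) (n + 1), ‖A n k z‖ ≤ Real.sqrt (Real.exp 1) := by
    intro n k z hz
    by_cases hnk : n ≤ k
    · rw [hAeq n k hnk]
      refine (norm_le_sqrt_nsq _).trans (Real.sqrt_le_sqrt ?_)
      exact (hφb n k hnk z (ball_subset_closedBall hz)).2
    · simp only [hA, if_neg hnk, norm_zero]
      positivity
  have hG : ∀ n : ℕ, ∃ g : ℂ → ι → ℂ, TendstoLocallyUniformlyOn (A n) g u (ball 0 (n + 1)) ∧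
      DifferentiableOn ℂ g (ball 0 (n + 1)) ∧
      (∀ z ∈ ball (0 : ℂ) (n + 1), ‖g z‖ ≤ Real.sqrt (Real.exp 1)) := fun n =>
    R264.montel_ultra u isOpen_ball (hAd n) (hAM n)
  choose G hGu hGd _ using hG
  have hGt : ∀ n : ℕ, ∀ z ∈ ball (0 : ℂ) (n + 1),
      Tendsto (fun k => A n k z) u (𝓝 (G n z)) := fun n z hz =>
    (hGu n).tendsto_at hz
  -- the factors
  set c : ℕ → ℕ → ℂ → ℂ := fun n k z => if n + 1 ≤ k then exp (φ (n + 1) k z - φ n k z) else 1
    with hc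
  have hceq : ∀ n k : ℕ, n + 1 ≤ k → c n k = fun z => exp (φ (n + 1) k z - φ n k z) := by
    intro n k hnk
    funext z
    simp only [hc, if_pos hnk]
  have hcd : ∀ n k : ℕ, DifferentiableOn ℂ (c n k) (ball 0 (n + 1)) := by
    intro n k
    by_cases hnk : n + 1 ≤ k
    · rw [hceq n k hnk]
      exact ((hφd (n + 1) k).sub (hφd n k)).cexp.differentiableOn
    · have : c n k = fun _ => 1 := by
        funext z
        simp only [hc, if_neg hnk]
      rw [this]
      fun_prop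
  have hcA : ∀ n k : ℕ, n + 1 ≤ k → ∀ z, A (n + 1) k z = c n k z • A n k z := by
    intro n k hnk z
    rw [hceq n k hnk, hAeq n k (by omega), hAeq (n + 1) k hnk]
    simp only
    rw [smul_smul, ← exp_add]
    congr 2
    ring
  have hcn : ∀ n k : ℕ, n + 1 ≤ k → ∀ z, ‖c n k z‖ ^ 2 * nsq (A n k z) = nsq (A (n + 1) k z) := by
    intro n k hnk z
    rw [hcA n k hnk z, nsq_smul]
  set M₁ : ℕ → ℝ := fun n => Real.exp 1 / Real.exp (-1 - (L + 1) * ((n : ℝ) + 1) ^ 2) with hM₁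
  set m₁ : ℕ → ℝ := fun n => Real.exp (-1 - (L + 1) * (((n + 1 : ℕ) : ℝ) + 1) ^ 2) / Real.exp 1
    with hm₁
  have hcb : ∀ n k : ℕ, n + 1 ≤ k → ∀ z ∈ ball (0 : ℂ) (n + 1),
      ‖c n k z‖ ^ 2 ≤ M₁ n ∧ m₁ n ≤ ‖c n k z‖ ^ 2 := by
    intro n k hnk z hz
    have h1 := hφb n k (by omega) z (ball_subset_closedBall hz)
    have hz' : z ∈ closedBall (0 : ℂ) (((n + 1 : ℕ) : ℝ) + 1) := by
      rw [mem_ball_zero_iff] at hz
      rw [mem_closedBall_zero_iff]
      push_cast
      linarith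
    have h2 := hφb (n + 1) k hnk z hz'
    have e1 : A n k z = exp (φ n k z) • H k z := by rw [hAeq n k (by omega)]
    have e2 : A (n + 1) k z = exp (φ (n + 1) k z) • H k z := by rw [hAeq (n + 1) k hnk]
    rw [← e1] at h1
    rw [← e2, ← hcn n k hnk z] at h2
    have hp : 0 < Real.exp (-1 - (L + 1) * ((n : ℝ) + 1) ^ 2) := Real.exp_pos _
    have hp1 : 0 < Real.exp 1 := Real.exp_pos _
    constructor
    · rw [hM₁]
      simp only
      rw [le_div_iff₀ hp]
      refine le_trans ?_ h2.2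
      gcongr
      exact h1.1
    · rw [hm₁]
      simp only
      rw [div_le_iff₀ hp1]
      refine le_trans h2.1 ?_
      gcongr
      exact h1.2
  have hcM : ∀ n k : ℕ, ∀ z ∈ ball (0 : ℂ) (n + 1), ‖c n k z‖ ≤ max 1 (Real.sqrt (M₁ n)) := by
    intro n k z hz
    by_cases hnk : n + 1 ≤ k
    · exact (Real.le_sqrt_of_sq_le (hcb n k hnk z hz).1).trans (le_max_right _ _)
    · simp only [hc, if_neg hnk, norm_one]
      exact le_max_left _ _
  have hγ : ∀ n : ℕ, ∃ g : ℂ → ℂ, TendstoLocallyUniformlyOn (c n) g u (ball 0 (n + 1)) ∧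
      DifferentiableOn ℂ g (ball 0 (n + 1)) ∧
      (∀ z ∈ ball (0 : ℂ) (n + 1), ‖g z‖ ≤ max 1 (Real.sqrt (M₁ n))) := fun n =>
    R264.montel_ultra u isOpen_ball (hcd n) (hcM n)
  choose γ hγu hγd _ using hγ
  have hγt : ∀ n : ℕ, ∀ z ∈ ball (0 : ℂ) (n + 1),
      Tendsto (fun k => c n k z) u (𝓝 (γ n z)) := fun n z hz =>
    (hγu n).tendsto_at hz
  have hγ0 : ∀ n : ℕ, ∀ z ∈ ball (0 : ℂ) (n + 1), γ n z ≠ 0 := by
    intro n z hz h
    have h1 : Tendsto (fun k => ‖c n k z‖ ^ 2) u (𝓝 (‖γ n z‖ ^ 2)) := ((hγt n z hz).norm).pow 2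
    have h2 : m₁ n ≤ ‖γ n z‖ ^ 2 :=
      ge_of_tendsto h1 ((hev (n + 1)).mono fun k hk => (hcb n k hk z hz).2)
    rw [h] at h2
    have h3 : 0 < m₁ n := by positivity
    simp at h2
    linarith
  have hGγ : ∀ n : ℕ, ∀ z ∈ ball (0 : ℂ) (n + 1), G (n + 1) z = γ n z • G n z := by
    intro n z hz
    have hz' : z ∈ ball (0 : ℂ) (((n + 1 : ℕ) : ℝ) + 1) := by
      rw [mem_ball_zero_iff] at hz ⊢
      push_cast
      linarith
    have h1 := hGt (n + 1) z hz'
    have h2 := (hγt n z hz).smul (hGt n z hz)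
    refine tendsto_nhds_unique (h1.congr' ?_) h2
    filter_upwards [hev (n + 1)] with k hk
    exact hcA n k hk z
  have hG0 : ∀ n : ℕ, ∀ z ∈ ball (0 : ℂ) (n + 1), G n z ≠ 0 := by
    intro n z hz h
    have h1 : Tendsto (fun k => nsq (A n k z)) u (𝓝 (nsq (G n z))) := tendsto_nsq (hGt n z hz)
    have h2 : Real.exp (-1 - (L + 1) * ((n : ℝ) + 1) ^ 2) ≤ nsq (G n z) := by
      refine ge_of_tendsto h1 ((hev n).mono fun k hk => ?_)
      rw [hAeq n k hk]
      exact (hφb n k hk z (ball_subset_closedBall hz)).1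
    rw [h] at h2
    have h3 : nsq (0 : ι → ℂ) = 0 := nsq_eq_zero.2 rfl
    rw [h3] at h2
    exact absurd h2 (not_le.2 (Real.exp_pos _))
  have hGC : ∀ n : ℕ, ∀ z ∈ ball (0 : ℂ) (n + 1), G n z ∈ C := by
    intro n z hz
    refine hC.mem_of_tendsto (hGt n z hz) ((hev n).mono fun k hk => ?_)
    rw [hAeq n k hk]
    exact hCs _ (exp_ne_zero _) _ (hHC k z (hbk n k hk hz))
  -- the density at 0
  have hGfs : fsSq (G 0 0) (deriv (G 0) 0) = a := by
    have hz : (0 : ℂ) ∈ ball (0 : ℂ) ((0 : ℕ) + 1) := mem_ball_self (by positivity)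
    have h1 := hGt 0 0 hz
    have h2 : TendstoLocallyUniformlyOn (deriv ∘ A 0) (deriv (G 0)) u (ball 0 ((0 : ℕ) + 1)) :=
      (hGu 0).deriv (Eventually.of_forall fun k => hAd 0 k) isOpen_ball
    have h3 : Tendsto (fun k => deriv (A 0 k) 0) u (𝓝 (deriv (G 0) 0)) := h2.tendsto_at hz
    have h4 := tendsto_fsSq h1 h3 (hG0 0 0 hz)
    refine tendsto_nhds_unique (h4.congr' ?_) (tendsto_const_nhds (x := a))
    filter_upwards [hev 0] with k hk
    rw [hAeq 0 k hk]
    have hz2 : (0 : ℂ) ∈ ball (0 : ℂ) ((k : ℝ) + 2) := mem_ball_self (by positivity)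
    have h5 := fsSq_mul_lift ((hφd 0 k).cexp 0) ((hd k).differentiableAt (isOpen_ball.mem_nhds hz2))
      (exp_ne_zero (φ 0 k 0))
    rw [← hfs0 k]
    exact h5
  obtain ⟨F, hFd, hF⟩ := glue_lifts hGd hγd hγ0 hGγ
  refine ⟨F, hFd, ?_, ?_, ?_⟩
  · intro z
    obtain ⟨n, hn⟩ := exists_nat_gt ‖z‖
    obtain ⟨e, -, he0, heF⟩ := hF n
    have hz : z ∈ ball (0 : ℂ) (n + 1) := by
      rw [mem_ball_zero_iff]
      linarith
    rw [heF z hz]
    exact smul_ne_zero (he0 z) (hG0 n z hz)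
  · intro z
    obtain ⟨n, hn⟩ := exists_nat_gt ‖z‖
    obtain ⟨e, -, he0, heF⟩ := hF n
    have hz : z ∈ ball (0 : ℂ) (n + 1) := by
      rw [mem_ball_zero_iff]
      linarith
    rw [heF z hz]
    exact hCs _ (he0 z) _ (hGC n z hz)
  · obtain ⟨e, hed, he0, heF⟩ := hF 0
    have hz : (0 : ℂ) ∈ ball (0 : ℂ) ((0 : ℕ) + 1) := mem_ball_self (by positivity)
    have h1 : F =ᶠ[𝓝 0] fun z => e z • G 0 z := by
      filter_upwards [isOpen_ball.mem_nhds hz] with w hw
      exact heF w hw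
    rw [h1.deriv_eq, heF 0 hz, ← hGfs]
    exact fsSq_mul_lift (hed.differentiableAt (isOpen_ball.mem_nhds hz))
      ((hGd 0).differentiableAt (isOpen_ball.mem_nhds hz)) (he0 0)

/-- **Brody's theorem** for a closed cone -/
theorem brody_cone {C : Set (ι → ℂ)} (hC : IsClosed C)
    (hCs : ∀ c : ℂ, c ≠ 0 → ∀ p ∈ C, c • p ∈ C)
    (hcurve : ∀ f : ℂ → ι → ℂ, Differentiable ℂ f → (∀ z, f z ≠ 0) → (∀ z, f z ∈ C) →
      ∀ z, ∃ c : ℂ, f z = c • f 0) :
    ∃ A : ℝ, 0 < A ∧ ∀ (H : ℂ → ι → ℂ) (z₀ : ℂ) (r : ℝ), 0 < r →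
      DifferentiableOn ℂ H (ball z₀ r) → (∀ z ∈ ball z₀ r, H z ≠ 0 ∧ H z ∈ C) →
      r ^ 2 * fsSq (H z₀) (deriv H z₀) ≤ A ^ 2 := by
  by_contra hcon
  push Not at hcon
  -- sequence of discs
  have hseq : ∀ k : ℕ, ∃ H : ℂ → ι → ℂ, DifferentiableOn ℂ H (ball 0 (k + 2)) ∧
      (∀ z ∈ ball (0 : ℂ) (k + 2), H z ≠ 0 ∧ H z ∈ C) ∧
      (∀ z ∈ ball (0 : ℂ) (k + 2), fsSq (H z) (deriv H z) ≤ 4) ∧
      fsSq (H 0) (deriv H 0) = 1 := by
    intro k
    have hk0 : (0 : ℝ) < 4 * ((k : ℝ) + 2) := by positivity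
    obtain ⟨H, z₀, r, hr, hd, hH, hbig⟩ := hcon (4 * ((k : ℝ) + 2)) hk0
    have hmap : ∀ z ∈ ball (0 : ℂ) 1, z₀ + (r : ℂ) * z ∈ ball z₀ r := by
      intro z hz
      rw [mem_ball_zero_iff] at hz
      rw [mem_ball_iff_norm, add_sub_cancel_left, norm_mul, Complex.norm_real,
        Real.norm_of_nonneg hr.le]
      calc r * ‖z‖ < r * 1 := by gcongr
        _ = r := mul_one r
    have hz₀m : z₀ + (r : ℂ) * 0 ∈ ball z₀ r := hmap 0 (mem_ball_self one_pos)
    set H₁ : ℂ → ι → ℂ := fun w => H (z₀ + (r : ℂ) * w) with hH₁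
    have hd₁ : DifferentiableOn ℂ H₁ (ball 0 1) := by
      refine hd.comp ?_ hmap
      fun_prop
    have hbig₁ : (4 * ((k : ℝ) + 2)) ^ 2 < fsSq (H₁ 0) (deriv H₁ 0) := by
      have h1 := fsSq_comp_affine (H := H) (a := z₀) (ρ := (r : ℂ)) (z := 0)
        (hd.differentiableAt (isOpen_ball.mem_nhds hz₀m))
      have h2 : fsSq (H₁ 0) (deriv H₁ 0) = r ^ 2 * fsSq (H z₀) (deriv H z₀) := by
        have h3 : fsSq (H₁ 0) (deriv H₁ 0) =
          fsSq (H (z₀ + (r : ℂ) * 0)) (deriv (fun w => H (z₀ + (r : ℂ) * w)) 0) := rfl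
        rw [h3, h1, mul_zero, add_zero, Complex.norm_real, Real.norm_of_nonneg hr.le]
      rw [h2]
      exact hbig
    obtain ⟨a, ρ, hmem, h1, h4⟩ := reparam hk0 hd₁ (fun z hz => (hH _ (hmap z hz)).1) hbig₁
    have hrad : 4 * ((k : ℝ) + 2) / 4 = (k : ℝ) + 2 := by ring
    rw [hrad] at hmem h4
    refine ⟨fun w => H₁ (a + ρ * w), ?_, fun z hz => ?_, h4, h1⟩
    · refine hd₁.comp ?_ hmem
      fun_prop
    · exact hH _ (hmap _ (hmem z hz))
  choose H hHd hHC hH4 hH1 using hseq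
  obtain ⟨F, hFd, hF0, hFC, hF1⟩ := limit_curve hC hCs (L := 4) (a := 1) (by norm_num) hHd
    (fun k z hz => (hHC k z hz).1) (fun k z hz => (hHC k z hz).2) hH4 hH1
  have hprop := hcurve F hFd hF0 hFC
  have hw : wsq (F 0) (deriv F 0) = 0 := by
    unfold wsq
    refine Finset.sum_eq_zero fun i _ => Finset.sum_eq_zero fun j _ => ?_
    have hdi : ∀ i, HasDerivAt (fun z => F z i) (deriv F 0 i) 0 := fun i =>
      (hasDerivAt_pi.1 (hFd 0).hasDerivAt) i
    have h1 : HasDerivAt (fun z => F z i * F 0 j - F z j * F 0 i)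
        (deriv F 0 i * F 0 j - deriv F 0 j * F 0 i) 0 :=
      ((hdi i).mul_const _).sub ((hdi j).mul_const _)
    have h2 : (fun z => F z i * F 0 j - F z j * F 0 i) = fun _ => (0 : ℂ) := by
      funext z
      obtain ⟨c, hc⟩ := hprop z
      rw [hc]
      simp only [Pi.smul_apply, smul_eq_mul]
      ring
    rw [h2] at h1
    have h3 := h1.unique (hasDerivAt_const (0 : ℂ) (0 : ℂ))
    rw [h3]
    simp
  rw [fsSq_eq, hw] at hF1
  simp at hF1

open Crest.AlgGeometry.ProjEmb MvPolynomial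

theorem isClosed_affineCone {N : ℕ} (I : Ideal (HomCoordRing N)) : IsClosed (affineCone I) := by
  have : affineCone I = ⋂ F ∈ I, {p | MvPolynomial.eval p F = 0} := by
    ext p
    simp [affineCone]
  rw [this]
  exact isClosed_biInter fun F _ => isClosed_eq (MvPolynomial.continuous_eval F) continuous_const

theorem smul_mem_affineCone {N n : ℕ} {I : Ideal (HomCoordRing N)} (hX : IsSmoothProjective I n)
    (c : ℂ) {p : Fin (N + 1) → ℂ} (hp : p ∈ affineCone I) : c • p ∈ affineCone I := by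
  intro F hF
  have h1 : F = ∑ d ∈ Finset.range (F.totalDegree + 1), homogeneousComponent d F :=
    (sum_homogeneousComponent F).symm
  rw [h1, map_sum]
  refine Finset.sum_eq_zero fun d _ => ?_
  have h2 := hX.homogeneous F hF d
  have h3 : (homogeneousComponent d F).IsHomogeneous d := homogeneousComponent_isHomogeneous d F
  have h4 : MvPolynomial.eval (c • p) (homogeneousComponent d F)
      = c ^ d * MvPolynomial.eval p (homogeneousComponent d F) := by
    rw [MvPolynomial.eval_eq, MvPolynomial.eval_eq, Finset.mul_sum]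
    refine Finset.sum_congr rfl fun m hm => ?_
    have h5 : ∑ i ∈ m.support, m i = d := by
      have h6 := h3 (MvPolynomial.mem_support_iff.1 hm)
      rw [Finsupp.weight_apply, Finsupp.sum] at h6
      simpa using h6
    simp only [Pi.smul_apply, smul_eq_mul, mul_pow, Finset.prod_mul_distrib,
      Finset.prod_pow_eq_pow_sum, h5]
    ring
  rw [h4, hp _ h2, mul_zero]

/-- **Brody's theorem** for a projective variety presented by its homogeneous ideal: if every
entire curve is constant then there is `A` with `|f'(z₀)| ≤ A / r` (Fubini-Study) for every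
holomorphic map `f` from the disc `|z - z₀| < r` to the variety, given by a lift `H`. -/
theorem brody {N n : ℕ} (I : Ideal (HomCoordRing N)) (hX : IsSmoothProjective I n)
    (hc : EntireCurvesConstant I) :
    ∃ A : ℝ, 0 < A ∧ ∀ (H : ℂ → Fin (N + 1) → ℂ) (z₀ : ℂ) (r : ℝ), 0 < r →
      DifferentiableOn ℂ H (ball z₀ r) → (∀ z ∈ ball z₀ r, H z ≠ 0 ∧ H z ∈ affineCone I) →
      r ^ 2 * fsSq (H z₀) (deriv H z₀) ≤ A ^ 2 :=
  brody_cone (isClosed_affineCone I) (fun c _ _ hp => smul_mem_affineCone hX c hp) hc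

end Crest.Agent.R269.Brody_164
end
end

-- ▼ part R269/StCpt_528
section

/-!
# R269, stationary route (#1368), step (1): compactness and existence of maximisers (helper528)
-/

set_option autoImplicit false

open Set Filter Topology Metric Complex
open scoped ComplexConjugate Real

noncomputable section

namespace Crest.Agent.R269.StCpt_528

open Crest.Agent.R264 (montel_ultra hurwitz_ne_zero tlu_fderiv tlu_of_pointwise)
open Crest.Agent.R269.Brody_164

variable {ι : Type*} [Fintype ι]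

/-- discs in the cone `C`, given by a holomorphic lift on the unit disc -/
structure IsDisc (C : Set (ι → ℂ)) (H : ℂ → ι → ℂ) : Prop where
  diff : DifferentiableOn ℂ H (ball 0 1)
  mem : ∀ z ∈ ball (0 : ℂ) 1, H z ∈ C
  ne : ∀ z ∈ ball (0 : ℂ) 1, H z ≠ 0

/-- the Brody bound for the cone `C` (output of `Brody_164.brody`) -/
def BrodyBd (C : Set (ι → ℂ)) (A : ℝ) : Prop :=
  ∀ (H : ℂ → ι → ℂ) (z₀ : ℂ) (r : ℝ), 0 < r → DifferentiableOn ℂ H (ball z₀ r) →
    (∀ z ∈ ball z₀ r, H z ≠ 0 ∧ H z ∈ C) → r ^ 2 * fsSq (H z₀) (deriv H z₀) ≤ A ^ 2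

theorem IsDisc.fsSq_le {C : Set (ι → ℂ)} {A : ℝ} (hB : BrodyBd C A) {H : ℂ → ι → ℂ}
    (hH : IsDisc C H) {s : ℝ} (hs : s < 1) {z : ℂ} (hz : ‖z‖ ≤ s) :
    fsSq (H z) (deriv H z) ≤ A ^ 2 / (1 - s) ^ 2 := by
  have h1 : 0 < 1 - s := by linarith
  have hsub : ball z (1 - s) ⊆ ball (0 : ℂ) 1 := by
    intro w hw
    rw [mem_ball_iff_norm] at hw
    rw [mem_ball_zero_iff]
    calc ‖w‖ = ‖(w - z) + z‖ := by rw [sub_add_cancel]
      _ ≤ ‖w - z‖ + ‖z‖ := norm_add_le _ _
      _ < 1 := by linarith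
  have h2 := hB H z (1 - s) h1 (hH.diff.mono hsub)
    (fun w hw => ⟨hH.ne w (hsub hw), hH.mem w (hsub hw)⟩)
  rw [le_div_iff₀ (by positivity)]
  linarith

theorem nsq_nonzero_of_pos {p : ι → ℂ} (h : 0 < nsq p) : p ≠ 0 := by
  rintro rfl
  simp [nsq] at h

/-- **no zeros in the limit** -/
theorem limit_ne_zero {C : Set (ι → ℂ)} {A : ℝ} (hB : BrodyBd C A) {α : Type*}
    {u : Ultrafilter α} {Hm : α → ℂ → ι → ℂ} {H : ℂ → ι → ℂ} {c : ℝ} (hc : 0 < c)
    (hd : ∀ m, IsDisc C (Hm m)) (hb : ∀ m, ∀ z ∈ ball (0 : ℂ) 1, nsq (Hm m z) ≤ 1)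
    (h0 : ∀ m, c ≤ nsq (Hm m 0))
    (hlim : ∀ z ∈ ball (0 : ℂ) 1, Tendsto (fun m => Hm m z) u (𝓝 (H z))) :
    ∀ z ∈ ball (0 : ℂ) 1, H z ≠ 0 := by
  intro z hz
  rw [mem_ball_zero_iff] at hz
  set s : ℝ := (1 + ‖z‖) / 2 with hs
  have hs0 : 0 < s := by have := norm_nonneg z; rw [hs]; linarith
  have hs1 : s < 1 := by rw [hs]; linarith
  have hzs : ‖z‖ < s := by rw [hs]; linarith
  set L : ℝ := A ^ 2 / (1 - s) ^ 2 with hL
  have hL0 : 0 ≤ L := by rw [hL]; positivity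
  have hsub : closedBall (0 : ℂ) s ⊆ ball 0 1 := closedBall_subset_ball hs1
  have hex : ∀ m, ∃ φ : ℂ → ℂ, Differentiable ℂ φ ∧ ∀ z ∈ closedBall (0 : ℂ) s,
      Real.exp (-1 - (L + 1) * s ^ 2) ≤ nsq (exp (φ z) • Hm m z) ∧
      nsq (exp (φ z) • Hm m z) ≤ Real.exp 1 := fun m =>
    exists_normalised_lift hs0 hL0 ((hd m).diff.continuousOn.mono hsub)
      ((hd m).diff.mono (ball_subset_closedBall.trans hsub))
      (fun w hw => (hd m).ne w (hsub hw))
      (fun w hw => (hd m).fsSq_le hB hs1 (by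
        rw [mem_ball_zero_iff] at hw; exact hw.le))
  choose φ hφ hφ' using hex
  set a : ℝ := Real.exp (-1 - (L + 1) * s ^ 2) with ha
  have ha0 : 0 < a := Real.exp_pos _
  -- `nsq (H_m w) = |exp(-φ)|² nsq (exp φ • H_m w)`
  have hfac : ∀ m w, nsq (Hm m w) = ‖exp (-(φ m w))‖ ^ 2 * nsq (exp (φ m w) • Hm m w) := by
    intro m w
    rw [← nsq_smul, smul_smul, ← Complex.exp_add, neg_add_cancel, Complex.exp_zero, one_smul]
  have hgb : ∀ m, ∀ w ∈ ball (0 : ℂ) s, ‖exp (-(φ m w))‖ ≤ Real.sqrt (1 / a) := by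
    intro m w hw
    have hw' : w ∈ closedBall (0 : ℂ) s := ball_subset_closedBall hw
    apply Real.le_sqrt_of_sq_le
    rw [le_div_iff₀ ha0]
    calc ‖exp (-(φ m w))‖ ^ 2 * a ≤ ‖exp (-(φ m w))‖ ^ 2 * nsq (exp (φ m w) • Hm m w) := by
          gcongr
          exact (hφ' m w hw').1
      _ = nsq (Hm m w) := (hfac m w).symm
      _ ≤ 1 := hb m w (hsub hw')
  obtain ⟨g, hg, hgd, -⟩ := montel_ultra u (isOpen_ball : IsOpen (ball (0 : ℂ) s))
    (f := fun m w => exp (-(φ m w)))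
    (fun m => ((hφ m).neg.cexp).differentiableOn) hgb
  have h0s : (0 : ℂ) ∈ ball (0 : ℂ) s := mem_ball_self hs0
  have hzs' : z ∈ ball (0 : ℂ) s := by rwa [mem_ball_zero_iff]
  have hg0 : g 0 ≠ 0 := by
    have h1 : Tendsto (fun m => ‖exp (-(φ m 0))‖ ^ 2) u (𝓝 (‖g 0‖ ^ 2)) :=
      ((hg.tendsto_at h0s).norm).pow 2
    have h2 : c / Real.exp 1 ≤ ‖g 0‖ ^ 2 := by
      refine ge_of_tendsto h1 (Eventually.of_forall fun m => ?_)
      rw [div_le_iff₀ (Real.exp_pos 1)]
      calc c ≤ nsq (Hm m 0) := h0 m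
        _ = _ := hfac m 0
        _ ≤ _ := by
          gcongr
          exact (hφ' m 0 (mem_closedBall_self hs0.le)).2
    intro h
    rw [h, norm_zero] at h2
    have : 0 < c / Real.exp 1 := by positivity
    linarith [h2, this, show ((0:ℝ) ^ 2 = 0) by norm_num]
  have hgz : g z ≠ 0 := hurwitz_ne_zero (l := (u : Filter α)) (isOpen_ball : IsOpen (ball (0 : ℂ) s))
    (convex_ball (0 : ℂ) s).isPreconnected hg
    (Eventually.of_forall fun m => ((hφ m).neg.cexp).differentiableOn)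
    (Eventually.of_forall fun m w _ => Complex.exp_ne_zero _) h0s hg0 z hzs'
  apply nsq_nonzero_of_pos
  have h3 : Tendsto (fun m => nsq (Hm m z)) u (𝓝 (nsq (H z))) :=
    tendsto_nsq (hlim z (by rw [mem_ball_zero_iff]; exact hz))
  have h4 : Tendsto (fun m => ‖exp (-(φ m z))‖ ^ 2 * a) u (𝓝 (‖g z‖ ^ 2 * a)) :=
    (((hg.tendsto_at hzs').norm).pow 2).mul_const a
  have h5 : ‖g z‖ ^ 2 * a ≤ nsq (H z) := by
    refine le_of_tendsto_of_tendsto' h4 h3 (fun m => ?_)
    rw [hfac m z]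
    gcongr
    exact (hφ' m z (by rw [mem_closedBall_zero_iff]; exact hzs.le)).1
  have h6 : 0 < ‖g z‖ := norm_pos_iff.2 hgz
  have h7 : 0 < ‖g z‖ ^ 2 * a := by positivity
  linarith

/-- **compactness of bounded lifts** (ultrafilter form) -/
theorem compact_lifts {C : Set (ι → ℂ)} (hC : IsClosed C) {A : ℝ} (hB : BrodyBd C A) {α : Type*}
    (u : Ultrafilter α) {Hm : α → ℂ → ι → ℂ} {c : ℝ} (hc : 0 < c)
    (hd : ∀ m, IsDisc C (Hm m)) (hb : ∀ m, ∀ z ∈ ball (0 : ℂ) 1, nsq (Hm m z) ≤ 1)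
    (h0 : ∀ m, c ≤ nsq (Hm m 0)) :
    ∃ H : ℂ → ι → ℂ, IsDisc C H ∧ TendstoLocallyUniformlyOn Hm H u (ball 0 1) ∧
      (∀ z ∈ ball (0 : ℂ) 1, nsq (H z) ≤ 1) ∧ c ≤ nsq (H 0) := by
  obtain ⟨H, hH, hHd, -⟩ := montel_ultra u (isOpen_ball : IsOpen (ball (0 : ℂ) 1))
    (f := Hm) (M := 1) (fun m => (hd m).diff) (fun m z hz => by
      refine (norm_le_sqrt_nsq _).trans ?_
      rw [Real.sqrt_le_iff]
      exact ⟨zero_le_one, by simpa using hb m z hz⟩)
  have hpt : ∀ z ∈ ball (0 : ℂ) 1, Tendsto (fun m => Hm m z) u (𝓝 (H z)) :=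
    fun z hz => hH.tendsto_at hz
  have h0m : (0 : ℂ) ∈ ball (0 : ℂ) 1 := mem_ball_self one_pos
  refine ⟨H, ⟨hHd, fun z hz => ?_, limit_ne_zero hB hc hd hb h0 hpt⟩, hH, fun z hz => ?_, ?_⟩
  · exact hC.mem_of_tendsto (hpt z hz) (Eventually.of_forall fun m => (hd m).mem z hz)
  · exact le_of_tendsto (tendsto_nsq (hpt z hz)) (Eventually.of_forall fun m => hb m z hz)
  · exact ge_of_tendsto (tendsto_nsq (hpt 0 h0m)) (Eventually.of_forall h0)

/-- the Fubini-Study characteristic `T_om(s) = avg_{|z|=s} log|H|² - log|H(0)|²` -/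
def Tom (s : ℝ) (H : ℂ → ι → ℂ) : ℝ :=
  Real.circleAverage (fun z => Real.log (nsq (H z))) 0 s - Real.log (nsq (H 0))

/-- the centre condition `[H 0] = [p]` (for `H 0 ≠ 0`, `p ≠ 0`), as a closed condition -/
def Ctr (p : ι → ℂ) (H : ℂ → ι → ℂ) : Prop := ∀ i j, H 0 i * p j = H 0 j * p i

/-- normalised discs: `|H| ≤ 1` and `avg_{|z| = s} log |H|² → 0` -/
structure Normal (H : ℂ → ι → ℂ) : Prop where
  le_one : ∀ z ∈ ball (0 : ℂ) 1, nsq (H z) ≤ 1
  avg : Tendsto (fun s : ℝ => Real.circleAverage (fun z => Real.log (nsq (H z))) 0 s)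
    (𝓝[<] 1) (𝓝 0)

/-- multiplication of a lift by `exp φ` -/
def tw (φ : ℂ → ℂ) (H : ℂ → ι → ℂ) : ℂ → ι → ℂ := fun z => exp (φ z) • H z

theorem IsDisc.tw {C : Set (ι → ℂ)} (hCs : ∀ c : ℂ, c ≠ 0 → ∀ p ∈ C, c • p ∈ C)
    {H : ℂ → ι → ℂ} (hH : IsDisc C H) {φ : ℂ → ℂ} (hφ : DifferentiableOn ℂ φ (ball 0 1)) :
    IsDisc C (tw φ H) where
  diff := (hφ.cexp).smul hH.diff
  mem := fun z hz => hCs _ (Complex.exp_ne_zero _) _ (hH.mem z hz)
  ne := fun z hz => smul_ne_zero (Complex.exp_ne_zero _) (hH.ne z hz)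

omit [Fintype ι] in
theorem Ctr.tw {p : ι → ℂ} {H : ℂ → ι → ℂ} (h : Ctr p H) (φ : ℂ → ℂ) : Ctr p (tw φ H) := by
  intro i j
  simp only [StCpt_528.tw, Pi.smul_apply, smul_eq_mul, mul_assoc, h i j]

omit [Fintype ι] in
theorem Ctr.lim {p : ι → ℂ} {α : Type*} {l : Filter α} [l.NeBot] {Hm : α → ℂ → ι → ℂ}
    {H : ℂ → ι → ℂ} (h : ∀ m, Ctr p (Hm m)) (hl : Tendsto (fun m => Hm m 0) l (𝓝 (H 0))) :
    Ctr p H := by
  intro i j
  have h1 : Tendsto (fun m => Hm m 0 i * p j) l (𝓝 (H 0 i * p j)) :=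
    ((tendsto_pi_nhds.1 hl) i).mul_const _
  have h2 : Tendsto (fun m => Hm m 0 j * p i) l (𝓝 (H 0 j * p i)) :=
    ((tendsto_pi_nhds.1 hl) j).mul_const _
  have h3 : (fun m => Hm m 0 i * p j) = fun m => Hm m 0 j * p i := by
    funext m; exact h m i j
  rw [h3] at h1
  exact tendsto_nhds_unique h1 h2


theorem continuousOn_log_nsq {C : Set (ι → ℂ)} {H : ℂ → ι → ℂ} (hH : IsDisc C H) :
    ContinuousOn (fun z => Real.log (nsq (H z))) (ball 0 1) :=
  ContinuousOn.log (continuous_nsq.comp_continuousOn hH.diff.continuousOn)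
    (fun z hz => (nsq_pos (hH.ne z hz)).ne')




/-- the value of a normalised disc at the centre is `exp (- lim T_om)` -/
theorem Normal.exp_le {C : Set (ι → ℂ)} {H : ℂ → ι → ℂ} (hH : IsDisc C H) (hN : Normal H) {K : ℝ}
    (hK : ∀ s ∈ Ioo (0 : ℝ) 1, Tom s H ≤ K) : Real.exp (-K) ≤ nsq (H 0) := by
  have h0 := nsq_pos (hH.ne 0 (mem_ball_self one_pos))
  rw [← Real.le_log_iff_exp_le h0]
  have h1 : Tendsto (fun s : ℝ => Tom s H) (𝓝[<] 1) (𝓝 (0 - Real.log (nsq (H 0)))) :=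
    hN.avg.sub_const _
  have h2 : 0 - Real.log (nsq (H 0)) ≤ K := by
    refine le_of_tendsto h1 ?_
    filter_upwards [Ioo_mem_nhdsLT (show (0 : ℝ) < 1 by norm_num)] with s hs
    exact hK s hs
  linarith

/-- **existence of maximisers** of `c - κ sup_s T(s)` over all discs with a given centre.
`hNL` : every disc with bounded `T_om` has a normalised lift (`StLift_371`). -/
theorem exists_max {C : Set (ι → ℂ)} (hC : IsClosed C)
    (hCs : ∀ c : ℂ, c ≠ 0 → ∀ p ∈ C, c • p ∈ C) {A : ℝ} (hB : BrodyBd C A) {p₀ : ι → ℂ}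
    (hNL : ∀ H, IsDisc C H → ∀ K : ℝ, (∀ s ∈ Ioo (0 : ℝ) 1, Tom s H ≤ K) →
      ∃ φ : ℂ → ℂ, DifferentiableOn ℂ φ (ball 0 1) ∧ Normal (tw φ H))
    (c : (ℂ → ι → ℂ) → ℝ) (T : ℝ → (ℂ → ι → ℂ) → ℝ) {κ B : ℝ} (hκ : 0 < κ)
    (hci : ∀ H φ, IsDisc C H → DifferentiableOn ℂ φ (ball 0 1) → c (tw φ H) = c H)
    (hTi : ∀ s ∈ Ioo (0 : ℝ) 1, ∀ H φ, IsDisc C H → DifferentiableOn ℂ φ (ball 0 1) →
      T s (tw φ H) = T s H)
    (hcc : ∀ (u : Ultrafilter ℕ) (Hm : ℕ → ℂ → ι → ℂ) (H : ℂ → ι → ℂ), (∀ m, IsDisc C (Hm m)) →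
      IsDisc C H → TendstoLocallyUniformlyOn Hm H u (ball 0 1) →
      Tendsto (fun m => c (Hm m)) u (𝓝 (c H)))
    (hTc : ∀ s ∈ Ioo (0 : ℝ) 1, ∀ (u : Ultrafilter ℕ) (Hm : ℕ → ℂ → ι → ℂ) (H : ℂ → ι → ℂ),
      (∀ m, IsDisc C (Hm m)) → IsDisc C H → TendstoLocallyUniformlyOn Hm H u (ball 0 1) →
      Tendsto (fun m => T s (Hm m)) u (𝓝 (T s H)))
    (hmono : ∀ H, IsDisc C H → ∀ s s' : ℝ, 0 < s → s ≤ s' → s' < 1 → T s H ≤ T s' H)
    (hT0 : ∀ H, IsDisc C H → ∀ s ∈ Ioo (0 : ℝ) 1, 0 ≤ T s H)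
    (hdom : ∃ M : ℝ, 0 < M ∧ ∀ H, IsDisc C H → ∀ s ∈ Ioo (0 : ℝ) 1, Tom s H ≤ M * T s H)
    (hcb : ∀ H, IsDisc C H → Ctr p₀ H → c H ≤ B)
    (hex : ∃ H K, IsDisc C H ∧ Ctr p₀ H ∧ ∀ s ∈ Ioo (0 : ℝ) 1, T s H ≤ K) :
    ∃ H : ℂ → ι → ℂ, ∃ T1 : ℝ, IsDisc C H ∧ Ctr p₀ H ∧ Normal H ∧
      Tendsto (fun s => T s H) (𝓝[<] 1) (𝓝 T1) ∧ (∀ s ∈ Ioo (0 : ℝ) 1, T s H ≤ T1) ∧
      ∀ H' K', IsDisc C H' → Ctr p₀ H' → (∀ s ∈ Ioo (0 : ℝ) 1, T s H' ≤ K') →
        c H' - κ * K' ≤ c H - κ * T1 := by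
  obtain ⟨M, hM, hdom⟩ := hdom
  have h12 : (1 / 2 : ℝ) ∈ Ioo (0 : ℝ) 1 := by constructor <;> norm_num
  set S : Set ℝ := {x | ∃ H K, IsDisc C H ∧ Ctr p₀ H ∧ (∀ s ∈ Ioo (0 : ℝ) 1, T s H ≤ K) ∧
    x = c H - κ * K} with hS
  have hSne : S.Nonempty := by
    obtain ⟨H, K, h1, h2, h3⟩ := hex
    exact ⟨_, H, K, h1, h2, h3, rfl⟩
  have hSb : ∀ x ∈ S, x ≤ B := by
    rintro x ⟨H, K, h1, h2, h3, rfl⟩
    have h4 : 0 ≤ K := (hT0 H h1 _ h12).trans (h3 _ h12)
    have h5 := hcb H h1 h2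
    nlinarith
  have hbdd : BddAbove S := ⟨B, hSb⟩
  set m₀ := sSup S with hm₀
  -- a maximising sequence
  have hseq : ∀ m : ℕ, ∃ H K, IsDisc C H ∧ Ctr p₀ H ∧ (∀ s ∈ Ioo (0 : ℝ) 1, T s H ≤ K) ∧
      m₀ - 1 / ((m : ℝ) + 1) < c H - κ * K := by
    intro m
    have h1 : m₀ - 1 / ((m : ℝ) + 1) < m₀ := by
      have : (0 : ℝ) < 1 / ((m : ℝ) + 1) := by positivity
      linarith
    obtain ⟨x, ⟨H, K, h2, h3, h4, rfl⟩, hx⟩ := exists_lt_of_lt_csSup hSne h1
    exact ⟨H, K, h2, h3, h4, hx⟩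
  choose H' K hH'd hH'c hH'K hH'm using hseq
  have hKb : ∀ m, K m ≤ (B - m₀ + 1) / κ := by
    intro m
    rw [le_div_iff₀ hκ]
    have h1 := hH'm m
    have h2 := hcb _ (hH'd m) (hH'c m)
    have h3 : 1 / ((m : ℝ) + 1) ≤ 1 := by
      rw [div_le_one (by positivity)]
      have : (0 : ℝ) ≤ m := Nat.cast_nonneg m
      linarith
    linarith
  have hK0 : ∀ m, 0 ≤ K m := fun m => (hT0 _ (hH'd m) _ h12).trans (hH'K m _ h12)
  set K₀ : ℝ := (B - m₀ + 1) / κ with hK₀
  -- normalise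
  have hnl := fun m => hNL (H' m) (hH'd m) (M * K₀) (fun s hs =>
    (hdom _ (hH'd m) s hs).trans (by
      have := (hH'K m s hs).trans (hKb m)
      gcongr))
  choose φ hφ hφN using hnl
  set Hm : ℕ → ℂ → ι → ℂ := fun m => tw (φ m) (H' m) with hHm
  have hHmd : ∀ m, IsDisc C (Hm m) := fun m => (hH'd m).tw hCs (hφ m)
  have hHmT : ∀ m, ∀ s ∈ Ioo (0 : ℝ) 1, T s (Hm m) ≤ K m := fun m s hs => by
    rw [hHm]; simp only; rw [hTi s hs _ _ (hH'd m) (hφ m)]; exact hH'K m s hs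
  have hHm0 : ∀ m, Real.exp (-(M * K₀)) ≤ nsq (Hm m 0) := fun m =>
    (hφN m).exp_le (hHmd m) (fun s hs => (hdom _ (hHmd m) s hs).trans (by
      have := (hHmT m s hs).trans (hKb m)
      gcongr))
  set u : Ultrafilter ℕ := hyperfilter ℕ with hu
  obtain ⟨H, hHd, hHl, -, -⟩ := compact_lifts hC hB u (Real.exp_pos _) hHmd
    (fun m => (hφN m).le_one) hHm0
  have hHc : Ctr p₀ H := Ctr.lim (l := (u : Filter ℕ)) (fun m => (hH'c m).tw (φ m))
    (hHl.tendsto_at (mem_ball_self one_pos))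
  -- limit of `K`
  obtain ⟨k, hk, hkl⟩ : ∃ k ∈ Icc (0 : ℝ) K₀, Tendsto K u (𝓝 k) := by
    have hle : ((u.map K : Ultrafilter ℝ) : Filter ℝ) ≤ 𝓟 (Icc 0 K₀) := by
      rw [le_principal_iff]
      show K ⁻¹' Icc 0 K₀ ∈ (u : Filter ℕ)
      exact Filter.mem_of_superset Filter.univ_mem (fun m _ => ⟨hK0 m, hKb m⟩)
    obtain ⟨k, hk, hk'⟩ := isCompact_Icc.ultrafilter_le_nhds _ hle
    exact ⟨k, hk, hk'⟩
  have hTk : ∀ s ∈ Ioo (0 : ℝ) 1, T s H ≤ k := fun s hs =>
    le_of_tendsto_of_tendsto' (hTc s hs u Hm H hHmd hHd hHl) hkl (fun m => hHmT m s hs)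
  have hck : m₀ ≤ c H - κ * k := by
    have h1 : Tendsto (fun m => c (Hm m) - κ * K m) u (𝓝 (c H - κ * k)) :=
      (hcc u Hm H hHmd hHd hHl).sub (hkl.const_mul κ)
    have h2 : Tendsto (fun m : ℕ => m₀ - 1 / ((m : ℝ) + 1)) u (𝓝 (m₀ - 0)) :=
      (tendsto_const_nhds.sub tendsto_one_div_add_atTop_nhds_zero_nat).mono_left
        (Nat.hyperfilter_le_atTop)
    rw [sub_zero] at h2
    refine le_of_tendsto_of_tendsto' h2 h1 (fun m => ?_)
    have h3 : c (Hm m) = c (H' m) := hci _ _ (hH'd m) (hφ m)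
    rw [h3]
    exact (hH'm m).le
  -- the limit of `T s H`
  set T1 : ℝ := sSup ((fun s => T s H) '' Ioo 0 1) with hT1
  have hTb : BddAbove ((fun s => T s H) '' Ioo 0 1) := ⟨k, by
    rintro x ⟨s, hs, rfl⟩; exact hTk s hs⟩
  have hTne : ((fun s => T s H) '' Ioo 0 1).Nonempty := ⟨_, 1 / 2, h12, rfl⟩
  have hT1k : T1 ≤ k := csSup_le hTne (by rintro x ⟨s, hs, rfl⟩; exact hTk s hs)
  have hTT1 : ∀ s ∈ Ioo (0 : ℝ) 1, T s H ≤ T1 := fun s hs => le_csSup hTb ⟨s, hs, rfl⟩
  have hTlim : Tendsto (fun s => T s H) (𝓝[<] 1) (𝓝 T1) := by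
    rw [tendsto_order]
    constructor
    · intro a ha
      obtain ⟨x, ⟨s₀, hs₀, rfl⟩, hx⟩ := exists_lt_of_lt_csSup hTne ha
      filter_upwards [Ioo_mem_nhdsLT hs₀.2] with s hs
      exact hx.trans_le (hmono H hHd s₀ s hs₀.1 hs.1.le hs.2)
    · intro b hb
      filter_upwards [Ioo_mem_nhdsLT (show (0 : ℝ) < 1 by norm_num)] with s hs
      exact (hTT1 s hs).trans_lt hb
  -- normalise the limit
  obtain ⟨ψ, hψ, hψN⟩ := hNL H hHd (M * k) (fun s hs => (hdom H hHd s hs).trans (by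
    have := hTk s hs
    gcongr))
  have hTψ : ∀ s ∈ Ioo (0 : ℝ) 1, T s (tw ψ H) = T s H := fun s hs => hTi s hs _ _ hHd hψ
  refine ⟨tw ψ H, T1, hHd.tw hCs hψ, hHc.tw ψ, hψN, ?_, ?_, ?_⟩
  · refine hTlim.congr' ?_
    filter_upwards [Ioo_mem_nhdsLT (show (0 : ℝ) < 1 by norm_num)] with s hs
    exact (hTψ s hs).symm
  · intro s hs
    rw [hTψ s hs]
    exact hTT1 s hs
  · intro H' K' h1 h2 h3
    rw [hci _ _ hHd hψ]
    have h4 : c H' - κ * K' ≤ m₀ := le_csSup hbdd ⟨H', K', h1, h2, h3, rfl⟩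
    have h5 : κ * T1 ≤ κ * k := by gcongr
    linarith

end Crest.Agent.R269.StCpt_528
end
end

-- ▼ part R269/NLift_371
section

/-!
# STAT-LIFT (row 269, route #1368 step (2)): normalised lifts

`E` any complex normed space, `F : ℂ → E` holomorphic and nowhere zero on the unit disc.

* `exists_poly_re`: real continuous functions on `|z| = s` are uniformly approximated by real parts
  of polynomials `q` with `Im q(0) = 0`;
* `circleAverage_log_norm_mono`, `log_norm_zero_le`: `s ↦ avg_{|z|=s} log ‖F‖` is nondecreasing on `[0,1)`;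
* `exists_normalizer`: if the averages are bounded above there is a holomorphic `φ` on the disc with
  `log ‖F z‖ ≤ Re φ z`, `Im φ 0 = 0` and `avg_{|z|=s} log ‖F‖ → Re φ 0` as `s → 1⁻`
  (no least harmonic majorant, no Montel, no Hurwitz: Borel-Carathéodory + completeness);
* `exists_normalized_lift`: `H = exp(-φ) F` has `‖H‖ ≤ 1`, `H ≠ 0`, `avg_{|z|=s} log ‖H‖ → 0`;
* `ae_norm_eq_one`: if `H (s_j e^{iθ}) → H* θ` for a.e. `θ` along one sequence `s_j → 1⁻`, then `‖H*‖ = 1` a.e.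
-/

open Complex Metric Real Set Filter Topology
open scoped Polynomial

namespace Crest.Agent.R269.NLift_371

/-- The class of functions on the circle all of whose complex multiples have real part equal to the
real part of a polynomial in `z = s e^{iθ}`. -/
def RePoly (s : ℝ) (f : AddCircle (2 * π) → ℂ) : Prop :=
  ∀ c : ℂ, ∃ q : ℂ[X], ∀ θ : ℝ, (c * f (θ : AddCircle (2 * π))).re = (q.eval (circleMap 0 s θ)).re

lemma rePoly_fourier {s : ℝ} (hs : s ≠ 0) (n : ℤ) :
    RePoly s (fun x => fourier n x) := by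
  intro c
  have hsc : (s : ℂ) ≠ 0 := by exact_mod_cast hs
  rcases le_total 0 n with hn | hn
  · lift n to ℕ using hn
    refine ⟨Polynomial.C (c * ((s : ℂ) ^ n)⁻¹) * Polynomial.X ^ n, fun θ => ?_⟩
    congr 1
    simp only [Polynomial.eval_mul, Polynomial.eval_C, Polynomial.eval_pow, Polynomial.eval_X]
    rw [fourier_coe_apply, circleMap]
    have h2 : (2 * (π : ℂ) * I * ((n : ℤ) : ℂ) * (θ : ℂ) / ((2 * π : ℝ) : ℂ)) = n * (θ * I) := by
      have : (π : ℂ) ≠ 0 := by exact_mod_cast Real.pi_ne_zero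
      push_cast
      field_simp
    rw [h2, Complex.exp_nat_mul, zero_add, mul_pow]
    field_simp
  · obtain ⟨m, rfl⟩ : ∃ m : ℕ, n = -(m : ℤ) := ⟨n.natAbs, by omega⟩
    refine ⟨Polynomial.C (starRingEnd ℂ c * ((s : ℂ) ^ m)⁻¹) * Polynomial.X ^ m, fun θ => ?_⟩
    rw [← Complex.conj_re]
    congr 1
    simp only [Polynomial.eval_mul, Polynomial.eval_C, Polynomial.eval_pow, Polynomial.eval_X]
    rw [fourier_neg, map_mul, Complex.conj_conj, fourier_coe_apply, circleMap]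
    have h2 : (2 * (π : ℂ) * I * ((m : ℤ) : ℂ) * (θ : ℂ) / ((2 * π : ℝ) : ℂ)) = m * (θ * I) := by
      have : (π : ℂ) ≠ 0 := by exact_mod_cast Real.pi_ne_zero
      push_cast
      field_simp
    rw [h2, Complex.exp_nat_mul, zero_add, mul_pow]
    field_simp

lemma rePoly_span {s : ℝ} (hs : s ≠ 0) (f : C(AddCircle (2 * π), ℂ))
    (hf : f ∈ Submodule.span ℂ (Set.range (fourier (T := 2 * π)))) : RePoly s f := by
  induction hf using Submodule.span_induction with
  | mem x hx =>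
    obtain ⟨n, rfl⟩ := hx
    exact rePoly_fourier hs n
  | zero =>
    intro c
    exact ⟨0, fun θ => by simp⟩
  | add x y _ _ hx hy =>
    intro c
    obtain ⟨q, hq⟩ := hx c
    obtain ⟨r, hr⟩ := hy c
    refine ⟨q + r, fun θ => ?_⟩
    rw [Polynomial.eval_add, Complex.add_re, ← hq, ← hr, ContinuousMap.add_apply, mul_add,
      Complex.add_re]
  | smul a x _ hx =>
    intro c
    obtain ⟨q, hq⟩ := hx (c * a)
    refine ⟨q, fun θ => ?_⟩
    rw [← hq, ContinuousMap.smul_apply, smul_eq_mul, mul_assoc]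

/-- Every real continuous function on the circle `|z| = s` is uniformly approximated by real parts
of polynomials `q` with `Im q(0) = 0`. -/
theorem exists_poly_re {s : ℝ} (hs : 0 < s) {g : ℂ → ℝ} (hg : ContinuousOn g (sphere 0 s))
    {ε : ℝ} (hε : 0 < ε) :
    ∃ q : ℂ[X], (q.eval 0).im = 0 ∧ ∀ z ∈ sphere (0 : ℂ) s, |g z - (q.eval z).re| ≤ ε := by
  have : Fact (0 < 2 * π) := ⟨Real.two_pi_pos⟩
  have hcont : Continuous fun x : AddCircle (2 * π) =>
      ((g ((s : ℂ) * (AddCircle.toCircle x : ℂ)) : ℝ) : ℂ) := by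
    refine Complex.continuous_ofReal.comp ?_
    refine hg.comp_continuous ?_ ?_
    · exact continuous_const.mul (continuous_subtype_val.comp AddCircle.continuous_toCircle)
    · intro x
      rw [mem_sphere_zero_iff_norm, norm_mul, Circle.norm_coe, mul_one, Complex.norm_real, Real.norm_of_nonneg hs.le]
  set G : C(AddCircle (2 * π), ℂ) := ⟨_, hcont⟩ with hG
  have hmem : G ∈ (Submodule.span ℂ (Set.range (fourier (T := 2 * π)))).topologicalClosure := by
    rw [span_fourier_closure_eq_top]; trivial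
  rw [← SetLike.mem_coe, Submodule.topologicalClosure_coe, Metric.mem_closure_iff] at hmem
  obtain ⟨P, hP, hdist⟩ := hmem ε hε
  obtain ⟨q, hq⟩ := rePoly_span hs.ne' P hP 1
  refine ⟨q - Polynomial.C (((q.eval 0).im : ℂ) * I), ?_, ?_⟩
  · simp
  · intro z hz
    have hz' : z ∈ Set.range (circleMap 0 s) := by
      rw [range_circleMap, abs_of_pos hs]; exact hz
    obtain ⟨θ, rfl⟩ := hz'
    have h1 : (Polynomial.eval (circleMap 0 s θ) (q - Polynomial.C (((q.eval 0).im : ℂ) * I))).re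
        = (P (θ : AddCircle (2 * π))).re := by
      rw [Polynomial.eval_sub, Polynomial.eval_C, Complex.sub_re, ← hq]
      simp
    have h2 : G (θ : AddCircle (2 * π)) = ((g (circleMap 0 s θ) : ℝ) : ℂ) := by
      show ((g ((s : ℂ) * (AddCircle.toCircle (θ : AddCircle (2 * π)) : ℂ)) : ℝ) : ℂ) = _
      congr 2
      rw [AddCircle.toCircle_apply_mk, circleMap, zero_add, Circle.coe_exp]
      congr 2
      push_cast
      have : (π : ℂ) ≠ 0 := by exact_mod_cast Real.pi_ne_zero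
      field_simp
    rw [h1]
    have h3 : dist (G (θ : AddCircle (2 * π))) (P (θ : AddCircle (2 * π))) < ε :=
      lt_of_le_of_lt (ContinuousMap.dist_apply_le_dist _) hdist
    rw [dist_eq_norm, h2] at h3
    calc |g (circleMap 0 s θ) - (P (θ : AddCircle (2 * π))).re|
        = |(((g (circleMap 0 s θ) : ℝ) : ℂ) - P (θ : AddCircle (2 * π))).re| := by
          simp
      _ ≤ ‖((g (circleMap 0 s θ) : ℝ) : ℂ) - P (θ : AddCircle (2 * π))‖ := Complex.abs_re_le_norm _
      _ ≤ ε := h3.le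

section main

variable {E : Type*} [NormedAddCommGroup E] [NormedSpace ℂ E]

lemma continuousOn_log_norm {F : ℂ → E} (hF : DifferentiableOn ℂ F (ball 0 1))
    (hF0 : ∀ z ∈ ball (0 : ℂ) 1, F z ≠ 0) : ContinuousOn (fun z => Real.log ‖F z‖) (ball 0 1) :=
  ContinuousOn.log hF.continuousOn.norm fun z hz => norm_ne_zero_iff.2 (hF0 z hz)

lemma circleIntegrable_of_continuousOn {g : ℂ → ℝ} (hg : ContinuousOn g (ball 0 1)) {s : ℝ}
    (hs0 : 0 ≤ s) (hs : s < 1) : CircleIntegrable g 0 s := by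
  refine ContinuousOn.circleIntegrable hs0 (hg.mono fun z hz => ?_)
  rw [mem_sphere_zero_iff_norm] at hz
  rw [mem_ball_zero_iff, hz]; exact hs

lemma circleAverage_re_poly (q : ℂ[X]) (s : ℝ) :
    circleAverage (fun z => (q.eval z).re) 0 s = (q.eval 0).re := by
  have h1 : circleAverage (fun z => q.eval z) 0 s = q.eval 0 :=
    (q.differentiable.diffContOnCl).circleAverage
  have h2 := Complex.reCLM.circleAverage_comp_comm (f := fun z => q.eval z) (c := 0) (R := s)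
    (q.continuous.continuousOn.circleIntegrable')
  rw [← h1]
  exact h2

/-- one radius -/
lemma exists_q {F : ℂ → E} (hF : DifferentiableOn ℂ F (ball 0 1))
    (hF0 : ∀ z ∈ ball (0 : ℂ) 1, F z ≠ 0) {s : ℝ} (hs0 : 0 < s) (hs : s < 1) {ε : ℝ}
    (hε : 0 < ε) :
    ∃ q : ℂ[X], (q.eval 0).im = 0 ∧
      (∀ z ∈ closedBall (0 : ℂ) s, Real.log ‖F z‖ ≤ (q.eval z).re + ε) ∧
      (∀ z ∈ sphere (0 : ℂ) s, (q.eval z).re ≤ Real.log ‖F z‖ + ε) ∧
      |circleAverage (fun z => Real.log ‖F z‖) 0 s - (q.eval 0).re| ≤ ε := by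
  have hsub : closedBall (0 : ℂ) s ⊆ ball 0 1 := closedBall_subset_ball hs
  have hcl := continuousOn_log_norm hF hF0
  obtain ⟨q, hq0, hq⟩ := exists_poly_re hs0 (g := fun z => Real.log ‖F z‖)
    (hcl.mono (sphere_subset_closedBall.trans hsub)) hε
  refine ⟨q, hq0, ?_, ?_, ?_⟩
  · intro z hz
    have hd : DiffContOnCl ℂ (fun z => Complex.exp (-(q.eval z)) • F z) (ball 0 s) := by
      apply DifferentiableOn.diffContOnCl
      rw [closure_ball _ hs0.ne']
      exact ((q.differentiable.neg.cexp).differentiableOn).smul (hF.mono hsub)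
    have hb : ∀ z ∈ frontier (ball (0 : ℂ) s), ‖Complex.exp (-(q.eval z)) • F z‖ ≤ Real.exp ε := by
      intro z hz
      rw [frontier_ball _ hs0.ne'] at hz
      have hz1 : z ∈ ball (0 : ℂ) 1 := hsub (sphere_subset_closedBall hz)
      rw [norm_smul, Complex.norm_exp, ← Real.exp_log (norm_pos_iff.2 (hF0 z hz1)), ← Real.exp_add]
      apply Real.exp_le_exp.2
      have := (abs_le.1 (hq z hz)).2
      rw [Complex.neg_re]
      linarith
    have := Complex.norm_le_of_forall_mem_frontier_norm_le Metric.isBounded_ball hd hb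
      (z := z) (by rw [closure_ball _ hs0.ne']; exact hz)
    rw [norm_smul, Complex.norm_exp, ← Real.exp_log (norm_pos_iff.2 (hF0 z (hsub hz))),
      ← Real.exp_add, Real.exp_le_exp, Complex.neg_re] at this
    linarith
  · intro z hz
    have := (abs_le.1 (hq z hz)).1
    linarith
  · have hI1 : CircleIntegrable (fun z => Real.log ‖F z‖) 0 s :=
      circleIntegrable_of_continuousOn hcl hs0.le hs
    have hI2 : CircleIntegrable (fun z => (q.eval z).re) 0 s :=
      (Complex.continuous_re.comp q.continuous).continuousOn.circleIntegrable'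
    rw [← circleAverage_re_poly q s, ← circleAverage_fun_sub hI1 hI2]
    refine abs_circleAverage_le_circleAverage_abs.trans ?_
    refine circleAverage_mono_on_of_le_circle ?_ ?_
    · exact (hI1.sub hI2).abs
    · intro z hz
      rw [abs_of_pos hs0] at hz
      exact hq z hz

theorem circleAverage_log_norm_mono {F : ℂ → E} (hF : DifferentiableOn ℂ F (ball 0 1))
    (hF0 : ∀ z ∈ ball (0 : ℂ) 1, F z ≠ 0) {r s : ℝ} (hr0 : 0 ≤ r) (hrs : r ≤ s) (hs : s < 1) :
    circleAverage (fun z => Real.log ‖F z‖) 0 r ≤ circleAverage (fun z => Real.log ‖F z‖) 0 s := by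
  rcases (hr0.trans hrs).eq_or_lt with h0 | hs0
  · have : r = s := by linarith
    rw [this]
  refine le_of_forall_pos_le_add fun ε hε => ?_
  obtain ⟨q, -, hq1, -, hq3⟩ := exists_q hF hF0 hs0 hs (half_pos hε)
  have hcl := continuousOn_log_norm hF hF0
  have hI1 : CircleIntegrable (fun z => Real.log ‖F z‖) 0 r :=
    circleIntegrable_of_continuousOn hcl hr0 (hrs.trans_lt hs)
  have hI2 : CircleIntegrable (fun z => (q.eval z).re + ε / 2) 0 r :=
    ((Complex.continuous_re.comp q.continuous).add continuous_const).continuousOn.circleIntegrable'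
  have h1 := circleAverage_mono hI1 hI2 (fun z hz => by
    rw [abs_of_nonneg hr0, mem_sphere_zero_iff_norm] at hz
    exact hq1 z (by rw [mem_closedBall_zero_iff, hz]; exact hrs))
  have h2 : circleAverage (fun z => (q.eval z).re + ε / 2) 0 r = (q.eval 0).re + ε / 2 := by
    have hI3 : CircleIntegrable (fun z => (q.eval z).re) 0 r :=
      (Complex.continuous_re.comp q.continuous).continuousOn.circleIntegrable'
    have hI4 : CircleIntegrable (fun _ : ℂ => ε / 2) 0 r :=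
      continuous_const.continuousOn.circleIntegrable'
    rw [circleAverage_fun_add hI3 hI4, circleAverage_re_poly, circleAverage_const]
  rw [h2] at h1
  have := (abs_le.1 hq3).1
  linarith


omit [NormedSpace ℂ E] in
/-- comparison of two approximants -/
lemma norm_sub_le {F : ℂ → E}
    {s s' : ℝ} (hs0 : 0 < s) (hss : s ≤ s') (hs1 : s < 1) {ε ε' : ℝ} (hε : 0 < ε)
    (hε' : 0 < ε') {q q' : ℂ[X]} (hq0 : (q.eval 0).im = 0) (hq0' : (q'.eval 0).im = 0)
    (hq : ∀ z ∈ sphere (0 : ℂ) s, (q.eval z).re ≤ Real.log ‖F z‖ + ε)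
    (hq' : ∀ z ∈ closedBall (0 : ℂ) s', Real.log ‖F z‖ ≤ (q'.eval z).re + ε')
    {δ : ℝ} (hδ : |(q.eval 0).re - (q'.eval 0).re| ≤ δ) {R : ℝ} (hRs : R < s)
    {z : ℂ} (hz : z ∈ closedBall (0 : ℂ) R) :
    ‖q.eval z - q'.eval z‖ ≤ (2 * (ε + ε') + 2 * δ) / (s - R) := by
  have hR0 : 0 ≤ R := by
    rw [mem_closedBall_zero_iff] at hz; exact (norm_nonneg z).trans hz
  have hd : DiffContOnCl ℂ (fun z => Complex.exp (q.eval z - q'.eval z)) (ball 0 s) :=
    ((q.differentiable.sub q'.differentiable).cexp).diffContOnCl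
  have hb : ∀ z ∈ frontier (ball (0 : ℂ) s),
      ‖Complex.exp (q.eval z - q'.eval z)‖ ≤ Real.exp (ε + ε') := by
    intro z hz
    rw [frontier_ball _ hs0.ne'] at hz
    rw [Complex.norm_exp, Real.exp_le_exp, Complex.sub_re]
    have h1 := hq z hz
    have h2 := hq' z (closedBall_subset_closedBall hss (sphere_subset_closedBall hz))
    linarith
  have hmt : MapsTo (fun z => q.eval z - q'.eval z) (ball 0 s) {z | z.re ≤ ε + ε'} := by
    intro z hz
    have := Complex.norm_le_of_forall_mem_frontier_norm_le Metric.isBounded_ball hd hb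
      (z := z) (subset_closure hz)
    rw [Complex.norm_exp, Real.exp_le_exp] at this
    exact this
  have hzn : ‖z‖ ≤ R := by rwa [mem_closedBall_zero_iff] at hz
  have hBC := Complex.borelCaratheodory (M := ε + ε') (R := s) (z := z) (by positivity)
    ((q.differentiable.sub q'.differentiable).differentiableOn) hmt hs0
    (by rw [mem_ball_zero_iff]; linarith)
  have h0 : ‖q.eval 0 - q'.eval 0‖ ≤ δ := by
    have : q.eval 0 - q'.eval 0 = (((q.eval 0).re - (q'.eval 0).re : ℝ) : ℂ) := by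
      apply Complex.ext
      · simp
      · simp [hq0, hq0']
    rw [this, Complex.norm_real]
    exact hδ
  have hδ0 : 0 ≤ δ := (abs_nonneg _).trans hδ
  refine hBC.trans ?_
  have hzs : 0 < s - ‖z‖ := by linarith
  rw [← add_div]
  have hnum : 2 * (ε + ε') * ‖z‖ + ‖q.eval 0 - q'.eval 0‖ * (s + ‖z‖) ≤ 2 * (ε + ε') + 2 * δ := by
    have h1 : ‖z‖ ≤ 1 := by linarith
    have h2 : s + ‖z‖ ≤ 2 := by linarith
    have h3 : 2 * (ε + ε') * ‖z‖ ≤ 2 * (ε + ε') * 1 :=
      mul_le_mul_of_nonneg_left h1 (by positivity)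
    have h4 : ‖q.eval 0 - q'.eval 0‖ * (s + ‖z‖) ≤ δ * 2 :=
      mul_le_mul h0 h2 (by positivity) hδ0
    linarith
  have hsR : 0 < s - R := by linarith
  refine (div_le_div_of_nonneg_right hnum hzs.le).trans ?_
  exact div_le_div_of_nonneg_left (by positivity) hsR (by linarith)

/-- **Normalised lift.** -/
theorem exists_normalizer {F : ℂ → E} (hF : DifferentiableOn ℂ F (ball 0 1))
    (hF0 : ∀ z ∈ ball (0 : ℂ) 1, F z ≠ 0) {C : ℝ}
    (hC : ∀ s : ℝ, 0 < s → s < 1 → circleAverage (fun z => Real.log ‖F z‖) 0 s ≤ C) :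
    ∃ φ : ℂ → ℂ, DifferentiableOn ℂ φ (ball 0 1) ∧ (φ 0).im = 0 ∧
      (∀ z ∈ ball (0 : ℂ) 1, Real.log ‖F z‖ ≤ (φ z).re) ∧
      Tendsto (fun s => circleAverage (fun z => Real.log ‖F z‖) 0 s) (𝓝[<] 1) (𝓝 (φ 0).re) := by
  set L : ℝ → ℝ := fun s => circleAverage (fun z => Real.log ‖F z‖) 0 s with hL
  have hmono : ∀ r s, 0 ≤ r → r ≤ s → s < 1 → L r ≤ L s := fun r s h1 h2 h3 =>
    circleAverage_log_norm_mono hF hF0 h1 h2 h3
  set S : ℕ → ℝ := fun n => 1 - 1 / ((n : ℝ) + 2) with hS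
  set e : ℕ → ℝ := fun n => 1 / ((n : ℝ) + 1) with he
  have he0 : ∀ n, 0 < e n := fun n => by positivity
  have hetend : Tendsto e atTop (𝓝 0) := tendsto_one_div_add_atTop_nhds_zero_nat
  have hS0 : ∀ n, 0 < S n := fun n => by
    have : (1 : ℝ) / ((n : ℝ) + 2) < 1 := by
      rw [div_lt_one (by positivity)]; linarith [(Nat.cast_nonneg n : (0 : ℝ) ≤ n)]
    simp only [hS]; linarith
  have hS1 : ∀ n, S n < 1 := fun n => by
    have : (0 : ℝ) < 1 / ((n : ℝ) + 2) := by positivity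
    simp only [hS]; linarith
  have hSmono : Monotone S := by
    intro m n hmn
    simp only [hS]
    have : (1 : ℝ) / ((n : ℝ) + 2) ≤ 1 / ((m : ℝ) + 2) :=
      one_div_le_one_div_of_le (by positivity) (by
        have : (m : ℝ) ≤ n := by exact_mod_cast hmn
        linarith)
    linarith
  have hStend : Tendsto S atTop (𝓝 1) := by
    have h1 : Tendsto (fun n : ℕ => 1 / ((n : ℝ) + 2)) atTop (𝓝 0) := by
      have := (tendsto_const_div_atTop_nhds_zero_nat (1 : ℝ)).comp (tendsto_add_atTop_nat 2)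
      refine this.congr fun n => ?_
      simp
    simpa [hS] using (tendsto_const_nhds (x := (1 : ℝ))).sub h1
  choose q hq0 hq1 hq2 hq3 using fun n => exists_q hF hF0 (hS0 n) (hS1 n) (he0 n)
  -- the averages converge
  have hLmono : Monotone fun n => L (S n) := fun m n hmn =>
    hmono _ _ (hS0 m).le (hSmono hmn) (hS1 n)
  have hLbdd : BddAbove (Set.range fun n => L (S n)) :=
    ⟨C, by rintro _ ⟨n, rfl⟩; exact hC _ (hS0 n) (hS1 n)⟩
  have hLtend : Tendsto (fun n => L (S n)) atTop (𝓝 (⨆ n, L (S n))) :=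
    tendsto_atTop_ciSup hLmono hLbdd
  set ℓ : ℝ := ⨆ n, L (S n) with hℓ
  have hqtend : Tendsto (fun n => ((q n).eval 0).re) atTop (𝓝 ℓ) := by
    have h1 : Tendsto (fun n => L (S n) - ((q n).eval 0).re) atTop (𝓝 0) := by
      refine squeeze_zero_norm (fun n => ?_) hetend
      rw [Real.norm_eq_abs]; exact hq3 n
    have h2 := hLtend.sub h1
    simpa using h2
  -- uniform Cauchy on closed balls
  have hUC : ∀ R : ℝ, R < 1 → UniformCauchySeqOn (fun n z => (q n).eval z) atTop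
      (closedBall (0 : ℂ) R) := by
    intro R hR
    rw [Metric.uniformCauchySeqOn_iff]
    intro δ hδ
    -- choose R' between
    obtain ⟨R', hRR', hR'1⟩ := exists_between hR
    have hc : 0 < R' - R := by linarith
    have hev : ∀ᶠ n in atTop, R' < S n := hStend.eventually (lt_mem_nhds hR'1)
    obtain ⟨N1, hN1⟩ := eventually_atTop.1 hev
    have hcs : CauchySeq fun n => ((q n).eval 0).re := hqtend.cauchySeq
    obtain ⟨N2, hN2⟩ := Metric.cauchySeq_iff.1 hcs (δ * (R' - R) / 8) (by positivity)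
    obtain ⟨N3, hN3⟩ := eventually_atTop.1
      (hetend.eventually (gt_mem_nhds (show (0 : ℝ) < δ * (R' - R) / 8 by positivity)))
    have key : ∀ m n, max (max N1 N2) N3 ≤ m → m ≤ n → ∀ z ∈ closedBall (0 : ℂ) R,
        ‖(q m).eval z - (q n).eval z‖ < δ := by
      intro m n hm hmn z hz
      have hm1 : N1 ≤ m := (le_max_left _ _).trans ((le_max_left _ _).trans hm)
      have hm2 : N2 ≤ m := (le_max_right _ _).trans ((le_max_left _ _).trans hm)
      have hm3 : N3 ≤ m := (le_max_right _ _).trans hm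
      have hSm : R' < S m := hN1 m hm1
      have hRm : R < S m := hRR'.trans hSm
      have hem : e m < δ * (R' - R) / 8 := hN3 m hm3
      have hen : e n < δ * (R' - R) / 8 := hN3 n (hm3.trans hmn)
      have hd := hN2 m hm2 n (hm2.trans hmn)
      rw [Real.dist_eq] at hd
      have h1 := norm_sub_le (hS0 m) (hSmono hmn) (hS1 m) (he0 m) (he0 n) (hq0 m) (hq0 n)
        (hq2 m) (hq1 n) hd.le hRm hz
      refine h1.trans_lt ?_
      rw [div_lt_iff₀ (by linarith)]
      have h2 : δ * (R' - R) ≤ δ * (S m - R) := mul_le_mul_of_nonneg_left (by linarith) hδ.le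
      nlinarith
    refine ⟨max (max N1 N2) N3, fun m hm n hn z hz => ?_⟩
    rw [dist_eq_norm]
    rcases le_total m n with h | h
    · exact key m n hm h z hz
    · rw [norm_sub_rev]; exact key n m hn h z hz
  have hptCauchy : ∀ z ∈ ball (0 : ℂ) 1, ∃ w : ℂ, Tendsto (fun n => (q n).eval z) atTop (𝓝 w) := by
    intro z hz
    rw [mem_ball_zero_iff] at hz
    have := (hUC ‖z‖ hz).cauchySeq (x := z) (by rw [mem_closedBall_zero_iff])
    exact cauchySeq_tendsto_of_complete this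
  choose! φ hφ using hptCauchy
  have hTU : ∀ R : ℝ, R < 1 → TendstoUniformlyOn (fun n z => (q n).eval z) φ atTop
      (closedBall (0 : ℂ) R) := fun R hR =>
    (hUC R hR).tendstoUniformlyOn_of_tendsto fun z hz =>
      hφ z (closedBall_subset_ball hR hz)
  have hTLU : TendstoLocallyUniformlyOn (fun n z => (q n).eval z) φ atTop (ball (0 : ℂ) 1) := by
    rw [tendstoLocallyUniformlyOn_iff_forall_isCompact isOpen_ball]
    intro K hK hKc
    obtain ⟨R, hR, hKR⟩ : ∃ R : ℝ, R < 1 ∧ K ⊆ closedBall 0 R := by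
      rcases K.eq_empty_or_nonempty with rfl | hne
      · exact ⟨0, one_pos, empty_subset _⟩
      obtain ⟨z0, hz0, hmax⟩ := hKc.exists_isMaxOn hne continuous_norm.continuousOn
      exact ⟨‖z0‖, by simpa using hK hz0, fun z hz => by
        rw [mem_closedBall_zero_iff]; exact hmax hz⟩
    exact (hTU R hR).mono hKR
  refine ⟨φ, hTLU.differentiableOn (Eventually.of_forall fun n =>
    (q n).differentiable.differentiableOn) isOpen_ball, ?_, ?_, ?_⟩
  · have h1 := (Complex.continuous_im.tendsto _).comp (hφ 0 (mem_ball_self one_pos))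
    have h2 : Tendsto (fun n => ((q n).eval 0).im) atTop (𝓝 0) := by
      simp only [hq0]; exact tendsto_const_nhds
    exact tendsto_nhds_unique h1 h2
  · intro z hz
    have h1 := ((Complex.continuous_re.tendsto _).comp (hφ z hz)).add hetend
    rw [add_zero] at h1
    refine ge_of_tendsto h1 ?_
    have hev : ∀ᶠ n in atTop, ‖z‖ < S n :=
      hStend.eventually (lt_mem_nhds (by simpa using hz))
    filter_upwards [hev] with n hn
    exact hq1 n z (by rw [mem_closedBall_zero_iff]; exact hn.le)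
  · have hφ0 : (φ 0).re = ℓ :=
      tendsto_nhds_unique ((Complex.continuous_re.tendsto _).comp (hφ 0 (mem_ball_self one_pos)))
        hqtend
    rw [hφ0]
    have hle : ∀ s, 0 ≤ s → s < 1 → L s ≤ ℓ := by
      intro s hs0 hs1
      obtain ⟨n, hn⟩ := (hStend.eventually (lt_mem_nhds hs1)).exists
      exact (hmono s (S n) hs0 hn.le (hS1 n)).trans (le_ciSup hLbdd n)
    rw [tendsto_order]
    constructor
    · intro a ha
      obtain ⟨n, hn⟩ := (hLtend.eventually (lt_mem_nhds ha)).exists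
      filter_upwards [Ioo_mem_nhdsLT (hS1 n)] with s hs
      exact hn.trans_le (hmono _ _ (hS0 n).le hs.1.le hs.2)
    · intro a ha
      filter_upwards [Ioo_mem_nhdsLT (show (0 : ℝ) < 1 from one_pos)] with s hs
      exact (hle s hs.1.le hs.2).trans_lt ha

/-- **Normalised lift**, second form. -/
theorem exists_normalized_lift {F : ℂ → E} (hF : DifferentiableOn ℂ F (ball 0 1))
    (hF0 : ∀ z ∈ ball (0 : ℂ) 1, F z ≠ 0) {C : ℝ}
    (hC : ∀ s : ℝ, 0 < s → s < 1 → circleAverage (fun z => Real.log ‖F z‖) 0 s ≤ C) :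
    ∃ φ : ℂ → ℂ, DifferentiableOn ℂ φ (ball 0 1) ∧ (φ 0).im = 0 ∧
      DifferentiableOn ℂ (fun z => Complex.exp (-φ z) • F z) (ball 0 1) ∧
      (∀ z ∈ ball (0 : ℂ) 1, Complex.exp (-φ z) • F z ≠ 0) ∧
      (∀ z ∈ ball (0 : ℂ) 1, ‖Complex.exp (-φ z) • F z‖ ≤ 1) ∧
      (∀ z ∈ ball (0 : ℂ) 1,
        Real.log ‖Complex.exp (-φ z) • F z‖ = Real.log ‖F z‖ - (φ z).re) ∧
      Tendsto (fun s => circleAverage (fun z => Real.log ‖F z‖) 0 s) (𝓝[<] 1) (𝓝 (φ 0).re) ∧
      Tendsto (fun s => circleAverage (fun z => Real.log ‖Complex.exp (-φ z) • F z‖) 0 s)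
        (𝓝[<] 1) (𝓝 0) := by
  obtain ⟨φ, hφ, hφ0, hle, hlim⟩ := exists_normalizer hF hF0 hC
  have hlog : ∀ z ∈ ball (0 : ℂ) 1,
      Real.log ‖Complex.exp (-φ z) • F z‖ = Real.log ‖F z‖ - (φ z).re := by
    intro z hz
    rw [norm_smul, Real.log_mul (norm_ne_zero_iff.2 (Complex.exp_ne_zero _))
      (norm_ne_zero_iff.2 (hF0 z hz)), Complex.norm_exp, Real.log_exp, Complex.neg_re]
    ring
  refine ⟨φ, hφ, hφ0, (hφ.neg.cexp).smul hF, fun z hz => smul_ne_zero (Complex.exp_ne_zero _)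
    (hF0 z hz), fun z hz => ?_, hlog, hlim, ?_⟩
  · have h1 : Real.log ‖Complex.exp (-φ z) • F z‖ ≤ 0 := by
      rw [hlog z hz]; linarith [hle z hz]
    have h2 : 0 < ‖Complex.exp (-φ z) • F z‖ :=
      norm_pos_iff.2 (smul_ne_zero (Complex.exp_ne_zero _) (hF0 z hz))
    rwa [Real.log_nonpos_iff h2.le] at h1
  · have h1 : Tendsto (fun s => circleAverage (fun z => Real.log ‖F z‖) 0 s - (φ 0).re) (𝓝[<] 1)
        (𝓝 0) := by
      simpa using hlim.sub_const (φ 0).re
    refine h1.congr' ?_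
    filter_upwards [Ioo_mem_nhdsLT (show (0 : ℝ) < 1 from one_pos)] with s hs
    have hsub : closedBall (0 : ℂ) s ⊆ ball 0 1 := closedBall_subset_ball hs.2
    have hI1 : CircleIntegrable (fun z => Real.log ‖F z‖) 0 s :=
      circleIntegrable_of_continuousOn (continuousOn_log_norm hF hF0) hs.1.le hs.2
    have hI2 : CircleIntegrable (fun z => (φ z).re) 0 s :=
      circleIntegrable_of_continuousOn (Complex.continuous_re.comp_continuousOn hφ.continuousOn)
        hs.1.le hs.2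
    have hI3 : CircleIntegrable φ 0 s :=
      (hφ.continuousOn.mono (sphere_subset_closedBall.trans hsub)).circleIntegrable hs.1.le
    have h2 : circleAverage φ 0 s = φ 0 := by
      apply DiffContOnCl.circleAverage
      rw [abs_of_pos hs.1]
      apply DifferentiableOn.diffContOnCl
      rw [closure_ball _ hs.1.ne']
      exact hφ.mono hsub
    have h3 : circleAverage (fun z => (φ z).re) 0 s = (φ 0).re := by
      have := Complex.reCLM.circleAverage_comp_comm (f := φ) (c := 0) (R := s) hI3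
      rw [← h2]; exact this
    rw [← h3, ← circleAverage_fun_sub hI1 hI2]
    apply circleAverage_congr_sphere
    intro z hz
    rw [abs_of_pos hs.1] at hz
    exact (hlog z (hsub (sphere_subset_closedBall hz))).symm


end main

end Crest.Agent.R269.NLift_371
end

-- ▼ part R269/StFun_528

/-!
# R269, Line B (#1368 (1)): functionals on discs, continuity, concrete existence of maximisers (helper528)
-/

set_option autoImplicit false

open Set Filter Topology Metric Complex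
open scoped ComplexConjugate Real Uniformity Interval

noncomputable section

namespace Crest.Agent.R269.StFun_528

open Crest.Agent.R269.Geo_328 (EE VV Cone Tan)
open Crest.Agent.R269.StCpt_528 (Tom Ctr tw)
open Crest.AlgGeometry.ProjEmb

/-! ### normalised lifts -/

section NL

variable {ι : Type*} [Fintype ι]

theorem norm_toLp (p : ι → ℂ) :
    ‖(WithLp.toLp 2 p : EuclideanSpace ℂ ι)‖ = Real.sqrt (Brody_164.nsq p) := by
  rw [EuclideanSpace.norm_eq]
  rfl

theorem log_norm_toLp (p : ι → ℂ) :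
    Real.log (Brody_164.nsq p) = 2 * Real.log ‖(WithLp.toLp 2 p : EuclideanSpace ℂ ι)‖ := by
  rw [norm_toLp, Real.log_sqrt (Brody_164.nsq_nonneg p)]
  ring

theorem exists_normal {C : Set (ι → ℂ)} {H : ℂ → ι → ℂ} (hH : StCpt_528.IsDisc C H) {K : ℝ}
    (hK : ∀ s ∈ Ioo (0 : ℝ) 1, Tom s H ≤ K) :
    ∃ φ : ℂ → ℂ, DifferentiableOn ℂ φ (ball 0 1) ∧ StCpt_528.Normal (tw φ H) := by
  have hL : Differentiable ℂ (fun p : ι → ℂ => (WithLp.toLp 2 p : EuclideanSpace ℂ ι)) :=
    (PiLp.continuousLinearEquiv 2 ℂ (fun _ : ι => ℂ)).symm.differentiable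
  set F : ℂ → EuclideanSpace ℂ ι := fun z => WithLp.toLp 2 (H z) with hF
  have hFd : DifferentiableOn ℂ F (ball 0 1) := hL.comp_differentiableOn hH.diff
  have hF0 : ∀ z ∈ ball (0 : ℂ) 1, F z ≠ 0 := by
    intro z hz h
    apply hH.ne z hz
    have := congrArg WithLp.ofLp h
    simpa [hF] using this
  have hav : ∀ (G : ℂ → ι → ℂ) (s : ℝ), Real.circleAverage (fun z => Real.log (Brody_164.nsq (G z))) 0 s
      = 2 * Real.circleAverage (fun z => Real.log ‖(WithLp.toLp 2 (G z) : EuclideanSpace ℂ ι)‖) 0 s := by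
    intro G s
    have h1 := Real.circleAverage_fun_smul (a := (2 : ℝ))
      (f := fun z => Real.log ‖(WithLp.toLp 2 (G z) : EuclideanSpace ℂ ι)‖) (c := 0) (R := s)
    simp only [smul_eq_mul] at h1
    rw [← h1]
    congr 1
    funext z
    exact log_norm_toLp _
  have hC : ∀ s : ℝ, 0 < s → s < 1 → Real.circleAverage (fun z => Real.log ‖F z‖) 0 s ≤
      (K + Real.log (Brody_164.nsq (H 0))) / 2 := by
    intro s h0 h1
    have h2 := hK s ⟨h0, h1⟩
    unfold StCpt_528.Tom at h2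
    rw [hav H s] at h2
    linarith
  obtain ⟨φ, hφ, -, -, -, hle, -, -, hlim⟩ := NLift_371.exists_normalized_lift hFd hF0 hC
  refine ⟨fun z => - φ z, hφ.neg, ?_, ?_⟩
  · intro z hz
    have h1 := hle z hz
    have h2 : exp (-φ z) • F z = WithLp.toLp 2 (tw (fun z => - φ z) H z) := rfl
    rw [h2, norm_toLp] at h1
    rwa [Real.sqrt_le_one] at h1
  · have h3 := hlim.const_mul 2
    rw [mul_zero] at h3
    refine h3.congr (fun s => ?_)
    rw [hav]
    rfl

end NL

/-! ### general continuity lemmas -/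

section Gen

variable {X Y α : Type*} [TopologicalSpace X] [UniformSpace Y]

/-- composition of locally uniform convergence with a function continuous on a set containing all
the values -/
theorem tlu_comp {l : Filter α} {S : Set X} {T : Set Y} {F : α → X → Y} {f : X → Y} {E : Y → ℝ}
    (h : TendstoLocallyUniformlyOn F f l S) (hf : ContinuousOn f S)
    (hFT : ∀ m, ∀ z ∈ S, F m z ∈ T) (hfT : ∀ z ∈ S, f z ∈ T) (hE : ContinuousOn E T) :
    TendstoLocallyUniformlyOn (fun m z => E (F m z)) (fun z => E (f z)) l S := by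
  rw [tendstoLocallyUniformlyOn_iff_forall_tendsto] at h ⊢
  intro x hx
  have h1 := h x hx
  -- `f y.2 → f x`
  have h2 : Tendsto (fun y : α × X => f y.2) (l ×ˢ 𝓝[S] x) (𝓝 (f x)) :=
    (hf x hx).tendsto.comp tendsto_snd
  -- `F y.1 y.2 → f x`
  have h3 : Tendsto (fun y : α × X => F y.1 y.2) (l ×ˢ 𝓝[S] x) (𝓝 (f x)) := by
    rw [Uniform.tendsto_nhds_right] at h2 ⊢
    have h4 : Tendsto (fun y : α × X => ((f x, f y.2), (f y.2, F y.1 y.2))) (l ×ˢ 𝓝[S] x)
        (𝓤 Y ×ˢ 𝓤 Y) := h2.prodMk h1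
    refine Filter.tendsto_def.2 (fun V hV => ?_)
    obtain ⟨W, hW, hWV⟩ := comp_mem_uniformity_sets hV
    filter_upwards [h4 (prod_mem_prod hW hW)] with y hy
    exact hWV ⟨f y.2, hy.1, hy.2⟩
  have hS : ∀ᶠ y : α × X in l ×ˢ 𝓝[S] x, y.2 ∈ S :=
    tendsto_snd.eventually (eventually_mem_nhdsWithin)
  have h5 : Tendsto (fun y : α × X => E (f y.2)) (l ×ˢ 𝓝[S] x) (𝓝 (E (f x))) :=
    (hE (f x) (hfT x hx)).tendsto.comp (tendsto_nhdsWithin_iff.2 ⟨h2, by
      filter_upwards [hS] with y hy; exact hfT _ hy⟩)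
  have h6 : Tendsto (fun y : α × X => E (F y.1 y.2)) (l ×ˢ 𝓝[S] x) (𝓝 (E (f x))) :=
    (hE (f x) (hfT x hx)).tendsto.comp (tendsto_nhdsWithin_iff.2 ⟨h3, by
      filter_upwards [hS] with y hy; exact hFT _ _ hy⟩)
  exact (h5.prodMk_nhds h6).mono_right (nhds_le_uniformity _)

end Gen

/-- `TG` is continuous for uniform convergence on the closed disc -/
theorem tendsto_TG {α : Type*} {l : Filter α} {s : ℝ} (hs : 0 < s) {F : α → ℂ → ℝ} {f : ℂ → ℝ}
    (hF : ∀ m, ContinuousOn (F m) (closedBall 0 s)) (hf : ContinuousOn f (closedBall 0 s))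
    (h : TendstoUniformlyOn F f l (closedBall 0 s)) :
    Tendsto (fun m => DefsS_731.TG (F m) s) l (𝓝 (DefsS_731.TG f s)) := by
  have hker : Continuous (fun r : ℝ => r * Real.log (s / r)) := by
    have h1 : (fun r : ℝ => r * Real.log (s / r)) = fun r => r * Real.log s - r * Real.log r := by
      funext r
      rcases eq_or_ne r 0 with h | h
      · simp [h]
      · rw [Real.log_div hs.ne' h]; ring
    rw [h1]
    exact (continuous_id.mul continuous_const).sub Real.continuous_mul_log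
  have havg : ∀ g : ℂ → ℝ, ContinuousOn g (closedBall 0 s) →
      ContinuousOn (Real.circleAverage g 0) (Icc 0 s) := by
    intro g hg
    refine Real.ContinuousOn.circleAverage (hg.mono ?_) (fun r hr => hr.1)
    intro z hz
    have hz' : ‖z - 0‖ ∈ Icc (0 : ℝ) s := hz
    rw [mem_closedBall_zero_iff]
    rw [sub_zero] at hz'
    exact hz'.2
  have hint : ∀ g : ℂ → ℝ, ContinuousOn g (closedBall 0 s) →
      IntervalIntegrable (fun r => r * Real.log (s / r) * Real.circleAverage g 0 r)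
        MeasureTheory.volume 0 s := by
    intro g hg
    apply ContinuousOn.intervalIntegrable
    rw [uIcc_of_le hs.le]
    exact hker.continuousOn.mul (havg g hg)
  rw [Metric.tendsto_nhds]
  intro ε hε
  set δ : ℝ := ε / (8 * (s * s)) with hδ
  have hδ0 : 0 < δ := by positivity
  filter_upwards [Metric.tendstoUniformlyOn_iff.1 h δ hδ0] with m hm
  rw [dist_eq_norm, DefsS_731.TG, DefsS_731.TG, ← mul_sub,
    ← intervalIntegral.integral_sub (hint _ (hF m)) (hint _ hf), norm_mul]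
  have hb : ∀ r ∈ Ι (0 : ℝ) s, ‖r * Real.log (s / r) * Real.circleAverage (F m) 0 r -
      r * Real.log (s / r) * Real.circleAverage f 0 r‖ ≤ s * δ := by
    intro r hr
    rw [uIoc_of_le hs.le] at hr
    have hr0 : 0 < r := hr.1
    have hsub : sphere (0 : ℂ) |r| ⊆ closedBall 0 s := by
      rw [abs_of_pos hr0]
      exact sphere_subset_closedBall.trans (closedBall_subset_closedBall hr.2)
    have hci : ∀ g : ℂ → ℝ, ContinuousOn g (closedBall 0 s) → CircleIntegrable g 0 r := by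
      intro g hg
      refine ContinuousOn.circleIntegrable' (hg.mono hsub)
    rw [← mul_sub, ← Real.circleAverage_fun_sub (hci _ (hF m)) (hci _ hf), norm_mul]
    have h1 : ‖r * Real.log (s / r)‖ ≤ s := by
      have h2 : 0 ≤ Real.log (s / r) := Real.log_nonneg (by rw [one_le_div hr0]; exact hr.2)
      rw [Real.norm_of_nonneg (by positivity)]
      have h3 : Real.log (s / r) ≤ s / r - 1 := Real.log_le_sub_one_of_pos (by positivity)
      calc r * Real.log (s / r) ≤ r * (s / r - 1) := by gcongr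
        _ = s - r := by field_simp
        _ ≤ s := by linarith
    have h4 : ‖Real.circleAverage (fun z => F m z - f z) 0 r‖ ≤ δ := by
      rw [Real.norm_eq_abs]
      refine Real.abs_circleAverage_le_circleAverage_abs.trans ?_
      refine Real.circleAverage_mono_on_of_le_circle ?_ ?_
      · exact (((hF m).sub hf).abs.mono hsub).circleIntegrable'
      · intro z hz
        have h5 := hm z (hsub hz)
        rw [dist_comm, Real.dist_eq] at h5
        exact h5.le
    gcongr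
  have hI := intervalIntegral.norm_integral_le_of_norm_le_const hb
  rw [sub_zero, abs_of_pos hs] at hI
  have h6 : ‖(4 : ℝ)‖ = 4 := by norm_num
  rw [h6]
  calc _ ≤ 4 * (s * δ * s) := by gcongr
    _ = ε / 2 := by rw [hδ]; field_simp; ring
    _ < ε := by linarith

/-! ### discs in `Cone I` -/

section Conc

variable {N n : ℕ} {I : Ideal (HomCoordRing N)}

theorem isDisc_iff {H : ℂ → EE N} :
    DefsS_731.IsDisc I H ↔ StCpt_528.IsDisc (affineCone I) H :=
  ⟨fun h => ⟨h.hol, fun z hz => (h.cone z hz).1, fun z hz => (h.cone z hz).2⟩,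
    fun h => ⟨h.diff, fun z hz => ⟨h.mem z hz, h.ne z hz⟩⟩⟩

theorem normal_iff {H : ℂ → EE N} : DefsS_731.Normal H ↔ StCpt_528.Normal H :=
  ⟨fun h => ⟨h.le_one, h.avg⟩, fun h => ⟨h.le_one, h.avg⟩⟩

theorem deriv_mem_Tan {H : ℂ → EE N} (hH : DefsS_731.IsDisc I H) {z : ℂ}
    (hz : z ∈ ball (0 : ℂ) 1) : deriv H z ∈ Tan I (H z) := by
  intro F hF
  have h1 : HasDerivAt H (deriv H z) z :=
    (hH.hol.differentiableAt (isOpen_ball.mem_nhds hz)).hasDerivAt
  have h2 : HasDerivAt (fun w => MvPolynomial.eval (H w) F)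
      (Geo0_632.dF F (H z) (deriv H z)) z :=
    (Geo0_632.hasFDerivAt_eval F (H z)).comp_hasDerivAt z h1
  have h3 : (fun w => MvPolynomial.eval (H w) F) =ᶠ[𝓝 z] fun _ => (0 : ℂ) := by
    filter_upwards [isOpen_ball.mem_nhds hz] with w hw
    exact (hH.cone w hw).1 F hF
  have h4 := h2.unique ((hasDerivAt_const z (0 : ℂ)).congr_of_eventuallyEq h3)
  rw [Geo0_632.dF_apply] at h4
  simp only [Geo_328.dP, Geo_328.gradP]
  rw [← h4]
  exact Finset.sum_congr rfl fun j _ => mul_comm _ _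

theorem IsDisc.tw (hX : IsSmoothProjective I n) {H : ℂ → EE N} (hH : DefsS_731.IsDisc I H)
    {φ : ℂ → ℂ} (hφ : DifferentiableOn ℂ φ (ball 0 1)) : DefsS_731.IsDisc I (tw φ H) :=
  isDisc_iff.2 ((isDisc_iff.1 hH).tw (fun c _ _ hp => Geo_328.smul_mem_affineCone hX hp c) hφ)

theorem deriv_tw {H : ℂ → EE N} (hH : DefsS_731.IsDisc I H) {φ : ℂ → ℂ}
    (hφ : DifferentiableOn ℂ φ (ball 0 1)) {z : ℂ} (hz : z ∈ ball (0 : ℂ) 1) :
    deriv (tw φ H) z = exp (φ z) • deriv H z + (exp (φ z) * deriv φ z) • H z := by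
  have h1 : HasDerivAt H (deriv H z) z :=
    (hH.hol.differentiableAt (isOpen_ball.mem_nhds hz)).hasDerivAt
  have h2 : HasDerivAt φ (deriv φ z) z :=
    (hφ.differentiableAt (isOpen_ball.mem_nhds hz)).hasDerivAt
  exact (h2.cexp.smul h1).deriv

/-- densities on discs: continuous in tangent vectors of the cone, invariant under change of lift -/
structure Dens (I : Ideal (HomCoordRing N)) (E : EE N → EE N → ℝ) : Prop where
  cont : ContinuousOn (fun x : EE N × EE N => E x.1 x.2) {x | x.1 ∈ Cone I ∧ x.2 ∈ Tan I x.1}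
  inv : ∀ p ∈ Cone I, ∀ v ∈ Tan I p, ∀ c : ℂ, c ≠ 0 → ∀ r : ℂ, E (c • p) (c • v + r • p) = E p v

theorem Dens.add {E F : EE N → EE N → ℝ} (hE : Dens I E) (hF : Dens I F) :
    Dens I (fun p v => E p v + F p v) :=
  ⟨hE.cont.add hF.cont, fun p hp v hv c hc r => by rw [hE.inv p hp v hv c hc r,
    hF.inv p hp v hv c hc r]⟩

theorem Dens.const_mul {E : EE N → EE N → ℝ} (a : ℝ) (hE : Dens I E) :
    Dens I (fun p v => a * E p v) :=
  ⟨hE.cont.const_mul a, fun p hp v hv c hc r => by rw [hE.inv p hp v hv c hc r]⟩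

theorem Dens.comp_tw {E : EE N → EE N → ℝ} (hE : Dens I E) {H : ℂ → EE N}
    (hH : DefsS_731.IsDisc I H) {φ : ℂ → ℂ} (hφ : DifferentiableOn ℂ φ (ball 0 1)) {z : ℂ}
    (hz : z ∈ ball (0 : ℂ) 1) : E (tw φ H z) (deriv (tw φ H) z) = E (H z) (deriv H z) := by
  rw [deriv_tw hH hφ hz]
  exact hE.inv _ (hH.cone z hz) _ (deriv_mem_Tan hH hz) _ (Complex.exp_ne_zero _) _

theorem Dens.continuousOn {E : EE N → EE N → ℝ} (hE : Dens I E) {H : ℂ → EE N}
    (hH : DefsS_731.IsDisc I H) : ContinuousOn (fun z => E (H z) (deriv H z)) (ball 0 1) := by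
  have h1 : ContinuousOn (fun z => (H z, deriv H z)) (ball (0 : ℂ) 1) :=
    hH.hol.continuousOn.prodMk (hH.hol.deriv isOpen_ball).continuousOn
  exact hE.cont.comp h1 (fun z hz => ⟨hH.cone z hz, deriv_mem_Tan hH hz⟩)

/-- locally uniform convergence of the derivatives -/
theorem tlu_deriv {u : Filter ℕ} [u.NeBot] {Hm : ℕ → ℂ → EE N} {H : ℂ → EE N}
    (hd : ∀ m, DefsS_731.IsDisc I (Hm m)) (h : TendstoLocallyUniformlyOn Hm H u (ball 0 1)) :
    TendstoLocallyUniformlyOn (fun m => deriv (Hm m)) (deriv H) u (ball 0 1) := by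
  have := h.deriv (Eventually.of_forall fun m => (hd m).hol) isOpen_ball
  exact this

theorem tlu_prod {u : Filter ℕ} {A B : Type*} [UniformSpace A] [UniformSpace B]
    {F : ℕ → ℂ → A} {f : ℂ → A} {G : ℕ → ℂ → B} {g : ℂ → B} {S : Set ℂ}
    (hF : TendstoLocallyUniformlyOn F f u S) (hG : TendstoLocallyUniformlyOn G g u S) :
    TendstoLocallyUniformlyOn (fun m z => (F m z, G m z)) (fun z => (f z, g z)) u S := by
  intro W hW z hz
  rw [uniformity_prod, mem_inf_iff_superset] at hW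
  obtain ⟨V1, ⟨U1, hU1, hV1⟩, V2, ⟨U2, hU2, hV2⟩, hVW⟩ := hW
  obtain ⟨t1, ht1, h1⟩ := hF U1 hU1 z hz
  obtain ⟨t2, ht2, h2⟩ := hG U2 hU2 z hz
  refine ⟨t1 ∩ t2, inter_mem ht1 ht2, ?_⟩
  filter_upwards [h1, h2] with m hm1 hm2 y hy
  exact hVW ⟨hV1 (hm1 y hy.1), hV2 (hm2 y hy.2)⟩

theorem Dens.tlu {E : EE N → EE N → ℝ} (hE : Dens I E) {u : Filter ℕ} [u.NeBot]
    {Hm : ℕ → ℂ → EE N} {H : ℂ → EE N} (hd : ∀ m, DefsS_731.IsDisc I (Hm m))
    (hH : DefsS_731.IsDisc I H) (h : TendstoLocallyUniformlyOn Hm H u (ball 0 1)) :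
    TendstoLocallyUniformlyOn (fun m z => E (Hm m z) (deriv (Hm m) z))
      (fun z => E (H z) (deriv H z)) u (ball 0 1) := by
  have h1 := tlu_prod h (tlu_deriv hd h)
  exact tlu_comp (T := {x : EE N × EE N | x.1 ∈ Cone I ∧ x.2 ∈ Tan I x.1})
    (E := fun x : EE N × EE N => E x.1 x.2) h1
    (hH.hol.continuousOn.prodMk (hH.hol.deriv isOpen_ball).continuousOn)
    (fun m z hz => ⟨(hd m).cone z hz, deriv_mem_Tan (hd m) hz⟩)
    (fun z hz => ⟨hH.cone z hz, deriv_mem_Tan hH hz⟩) hE.cont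

/-- functionals on discs which are invariant under change of lift and continuous for locally
uniform convergence -/
structure FunC (I : Ideal (HomCoordRing N)) (c : (ℂ → EE N) → ℝ) : Prop where
  inv : ∀ H φ, DefsS_731.IsDisc I H → DifferentiableOn ℂ φ (ball 0 1) → c (tw φ H) = c H
  cont : ∀ (u : Ultrafilter ℕ) (Hm : ℕ → ℂ → EE N) (H : ℂ → EE N),
    (∀ m, DefsS_731.IsDisc I (Hm m)) → DefsS_731.IsDisc I H →
    TendstoLocallyUniformlyOn Hm H u (ball 0 1) → Tendsto (fun m => c (Hm m)) u (𝓝 (c H))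

theorem FunC.add {c d : (ℂ → EE N) → ℝ} (hc : FunC I c) (hd : FunC I d) :
    FunC I (fun H => c H + d H) :=
  ⟨fun H φ h1 h2 => by rw [hc.inv H φ h1 h2, hd.inv H φ h1 h2],
    fun u Hm H h1 h2 h3 => (hc.cont u Hm H h1 h2 h3).add (hd.cont u Hm H h1 h2 h3)⟩

theorem FunC.sub {c d : (ℂ → EE N) → ℝ} (hc : FunC I c) (hd : FunC I d) :
    FunC I (fun H => c H - d H) :=
  ⟨fun H φ h1 h2 => by rw [hc.inv H φ h1 h2, hd.inv H φ h1 h2],
    fun u Hm H h1 h2 h3 => (hc.cont u Hm H h1 h2 h3).sub (hd.cont u Hm H h1 h2 h3)⟩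

theorem FunC.const_mul {c : (ℂ → EE N) → ℝ} (a : ℝ) (hc : FunC I c) :
    FunC I (fun H => a * c H) :=
  ⟨fun H φ h1 h2 => by rw [hc.inv H φ h1 h2],
    fun u Hm H h1 h2 h3 => (hc.cont u Hm H h1 h2 h3).const_mul a⟩

theorem FunC.const (a : ℝ) : FunC I (fun _ => a) :=
  ⟨fun _ _ _ _ => rfl, fun _ _ _ _ _ _ => tendsto_const_nhds⟩

theorem FunC.comp {c : (ℂ → EE N) → ℝ} (hc : FunC I c) {g : ℝ → ℝ} (hg : Continuous g) :
    FunC I (fun H => g (c H)) :=
  ⟨fun H φ h1 h2 => by rw [hc.inv H φ h1 h2],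
    fun u Hm H h1 h2 h3 => (hg.tendsto _).comp (hc.cont u Hm H h1 h2 h3)⟩

theorem unif_on_closedBall {F : ℕ → ℂ → ℝ} {f : ℂ → ℝ} {u : Filter ℕ}
    (h : TendstoLocallyUniformlyOn F f u (ball (0 : ℂ) 1)) {s : ℝ} (hs : s < 1) :
    TendstoUniformlyOn F f u (closedBall (0 : ℂ) s) :=
  (tendstoLocallyUniformlyOn_iff_tendstoUniformlyOn_of_compact
    (isCompact_closedBall (0 : ℂ) s)).1 (h.mono (closedBall_subset_ball hs))

theorem TG_congr {q q' : ℂ → ℝ} {s : ℝ} (hs0 : 0 ≤ s) (hs : s < 1)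
    (h : ∀ z ∈ ball (0 : ℂ) 1, q z = q' z) : DefsS_731.TG q s = DefsS_731.TG q' s := by
  unfold DefsS_731.TG
  congr 1
  refine intervalIntegral.integral_congr (fun r hr => ?_)
  rw [uIcc_of_le hs0] at hr
  congr 1
  refine Real.circleAverage_congr_sphere (fun z hz => h z ?_)
  rw [mem_sphere_zero_iff_norm, abs_of_nonneg hr.1] at hz
  rw [mem_ball_zero_iff, hz]
  exact hr.2.trans_lt hs

/-- the characteristics `T_E(.; s)`, `s < 1`, are continuous and invariant -/
theorem Dens.funC_TE {E : EE N → EE N → ℝ} (hE : Dens I E) {s : ℝ} (hs : s ∈ Ioo (0 : ℝ) 1) :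
    FunC I (fun H => DefsS_731.TE E H s) where
  inv := fun H φ hH hφ => TG_congr hs.1.le hs.2 (fun z hz => hE.comp_tw hH hφ hz)
  cont := fun u Hm H hd hH h => by
    have hsub : closedBall (0 : ℂ) s ⊆ ball 0 1 := closedBall_subset_ball hs.2
    exact tendsto_TG hs.1 (fun m => (hE.continuousOn (hd m)).mono hsub)
      ((hE.continuousOn hH).mono hsub) (unif_on_closedBall (hE.tlu hd hH h) hs.2)

/-- circle averages of continuous functions on `X` -/
theorem funC_cav {f : EE N → ℝ} (hf : ContinuousOn f (Cone I))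
    (hfi : ∀ p ∈ Cone I, ∀ c : ℂ, c ≠ 0 → f (c • p) = f p) {s : ℝ} (hs : s ∈ Ico (0 : ℝ) 1) :
    FunC I (fun H => DefsS_731.cav f H s) where
  inv := fun H φ hH hφ => by
    unfold DefsS_731.cav
    refine Real.circleAverage_congr_sphere (fun z hz => ?_)
    have hz' : z ∈ ball (0 : ℂ) 1 := by
      rw [mem_sphere_zero_iff_norm, abs_of_nonneg hs.1] at hz
      rw [mem_ball_zero_iff, hz]
      exact hs.2
    exact hfi _ (hH.cone z hz') _ (Complex.exp_ne_zero _)
  cont := fun u Hm H hd hH h => by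
    have h1 : TendstoLocallyUniformlyOn (fun m z => f (Hm m z)) (fun z => f (H z)) u (ball 0 1) :=
      tlu_comp (T := Cone I) h hH.hol.continuousOn (fun m z hz => (hd m).cone z hz)
        (fun z hz => hH.cone z hz) hf
    have h2 := unif_on_closedBall h1 hs.2
    have hsub : sphere (0 : ℂ) |s| ⊆ closedBall 0 s := by
      rw [abs_of_nonneg hs.1]
      exact sphere_subset_closedBall
    have hsub' : closedBall (0 : ℂ) s ⊆ ball 0 1 := closedBall_subset_ball hs.2
    have hci : ∀ G : ℂ → EE N, DefsS_731.IsDisc I G → CircleIntegrable (fun z => f (G z)) 0 s :=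
      fun G hG => ContinuousOn.circleIntegrable' ((hf.comp hG.hol.continuousOn
        (fun z hz => hG.cone z hz)).mono (hsub.trans hsub'))
    rw [Metric.tendsto_nhds]
    intro ε hε
    filter_upwards [Metric.tendstoUniformlyOn_iff.1 h2 (ε / 2) (by positivity)] with m hm
    unfold DefsS_731.cav
    rw [Real.dist_eq, ← Real.circleAverage_fun_sub (hci _ (hd m)) (hci _ hH)]
    refine lt_of_le_of_lt Real.abs_circleAverage_le_circleAverage_abs ?_
    refine lt_of_le_of_lt (Real.circleAverage_mono_on_of_le_circle (a := ε / 2) ?_ ?_) (by linarith)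
    · exact ((hci _ (hd m)).sub (hci _ hH)).abs
    · intro z hz
      have h5 := hm z (hsub hz)
      rw [dist_comm, Real.dist_eq] at h5
      exact h5.le

/-- pointwise functionals `E (H z) (H' z)` -/
theorem Dens.funC_at {E : EE N → EE N → ℝ} (hE : Dens I E) {z : ℂ} (hz : z ∈ ball (0 : ℂ) 1) :
    FunC I (fun H => E (H z) (deriv H z)) where
  inv := fun _ _ hH hφ => hE.comp_tw hH hφ hz
  cont := fun _ _ _ hd hH h => (hE.tlu hd hH h).tendsto_at hz

end Conc

end Crest.Agent.R269.StFun_528
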