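import Mathlib
import Crest.Agent.R269.SVar2_740
import Crest.Agent.R269.Mod_402
import Crest.Agent.R269.WF_731
import Crest.Agent.R269.StDens_528
import Crest.Agent.R269.FldF_620
import Crest.Agent.R269.Hardy2_142
import Crest.Agent.R269.StatDet_194
import Crest.Agent.R269.Bd_402

-- ▼ part R269/SVar3_740
section

/-!
# R269 (S0411), Line B, leaf B7 (VAR), final form (helper740)

(VAR) for all fields `z v`, `v ∈ M(H)` (`Mod_402.MM`), in terms of the boundary values.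

* `QF I q C` : density, quadratic, bounded by `C ω`;  `qh q p v = q p (hor v p)`;
* `tendsto_circ` : the interior terms are continuous;
* `limsup_bdy` : semicontinuity of the boundary term (Fatou);
* `var_MM` : the final inequality.
-/

set_option autoImplicit false

open MeasureTheory Set Filter Topology Metric
open Crest.AlgGeometry.ProjEmb Crest.Agent.R269.Geo_328
open Crest.Agent.R269.Levi2_599 Crest.Agent.R269.DefsS_731 Crest.Agent.R269.StFun_528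
open Crest.Agent.R269.Hardy_142 Crest.Agent.R269.Mod_402 Crest.Agent.R269.Fib_402
open Crest.Agent.R269.SVar2_740
open Crest.Agent.R269.Defs_58 (omg alpha SmX)
open scoped ComplexConjugate ENNReal

noncomputable section

namespace Crest.Agent.R269.SVar3_740

variable {N n : ℕ} {I : Ideal (HomCoordRing N)}

/-! ### quadratic densities -/

/-- density, quadratic in `v`, bounded by `C ω` -/
structure QF (I : Ideal (HomCoordRing N)) (q : EE N → EE N → ℝ) (C : ℝ) : Prop where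
  dens : Dens I q
  smul : ∀ p ∈ Cone I, ∀ v ∈ Tan I p, ∀ c : ℂ, q p (c • v) = ‖c‖ ^ 2 * q p v
  bdd : ∀ p ∈ Cone I, ∀ v ∈ Tan I p, |q p v| ≤ C * omg p v

theorem qf_omg (I : Ideal (HomCoordRing N)) : QF I omg 1 where
  dens := StMax_528.dens_omg
  smul := fun p _ v _ c => LevBr_901.omg_smul_vec p v c
  bdd := fun p _ v _ => by rw [abs_of_nonneg (LevBr_901.omg_nonneg p v), one_mul]

theorem exists_qf_lev (hI : I.IsPrime) (hX : IsSmoothProjective I n) {u : EE N → ℝ}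
    (hu : SmX I u) : ∃ C, QF I (Defs_58.lev u) C := by
  obtain ⟨C, hC⟩ := (PosC_632.frm_lev hI hX hu).bdd hX
  exact ⟨C, ⟨StMax_528.dens_lev hX hu, fun p _ v _ c => LevBr_901.lev_smul_vec u p v c, hC⟩⟩

theorem exists_qf_alpha (hI : I.IsPrime) (hX : IsSmoothProjective I n) :
    ∃ C, QF I (alpha I n) C := by
  obtain ⟨C, hC⟩ := (PosC_632.frm_alpha hI hX).bdd hX
  exact ⟨C, ⟨StDens_528.dens_alpha hI hX, fun p _ v _ c => FldF_620.alpha_smul_vec p v c, hC⟩⟩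

theorem QF.add {q q' : EE N → EE N → ℝ} {C C' : ℝ} (h : QF I q C) (h' : QF I q' C') :
    QF I (fun p v => q p v + q' p v) (C + C') where
  dens := h.dens.add h'.dens
  smul := fun p hp v hv c => by rw [h.smul p hp v hv c, h'.smul p hp v hv c]; ring
  bdd := fun p hp v hv => (abs_add_le _ _).trans
    ((add_le_add (h.bdd p hp v hv) (h'.bdd p hp v hv)).trans (le_of_eq (by ring)))

theorem QF.const_mul {q : EE N → EE N → ℝ} {C : ℝ} (a : ℝ) (h : QF I q C) :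
    QF I (fun p v => a * q p v) (|a| * C) where
  dens := h.dens.const_mul a
  smul := fun p hp v hv c => by rw [h.smul p hp v hv c]; ring
  bdd := fun p hp v hv => by
    rw [abs_mul, mul_assoc]
    exact mul_le_mul_of_nonneg_left (h.bdd p hp v hv) (abs_nonneg a)

theorem exists_qf_dens (hI : I.IsPrime) (hX : IsSmoothProjective I n) (cθ cω : ℝ) {u : EE N → ℝ}
    (hu : SmX I u) : ∃ C, QF I (Iface_731.dens I n cθ cω u) C := by
  obtain ⟨C1, h1⟩ := exists_qf_alpha hI hX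
  obtain ⟨C2, h2⟩ := exists_qf_lev hI hX hu
  exact ⟨_, ((h1.const_mul cθ).add ((qf_omg I).const_mul cω)).add h2⟩

/-- the form on the fibres -/
def qh (q : EE N → EE N → ℝ) (p : EE N) (v : FF N) : ℝ := q p (hor v p)

theorem qh_wE {q : EE N → EE N → ℝ} {C : ℝ} (hq : QF I q C) {p V : EE N} (hp : p ∈ Cone I)
    (hV : V ∈ Tan I p) : qh q p (wE V p) = q p V := by
  unfold qh
  rw [hor_wE hp.2]
  have h := hq.dens.inv p hp V hV 1 one_ne_zero (-((∑ j, V j * conj (p j)) / (nsq p : ℂ)))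
  rw [one_smul, one_smul, neg_smul, ← sub_eq_add_neg] at h
  exact h

theorem qh_bdd {q : EE N → EE N → ℝ} {C : ℝ} (hq : QF I q C) {p : EE N} (hp : p ∈ Cone I)
    {v : FF N} (hv : v ∈ Fib I p) : |qh q p v| ≤ C * (‖v‖ ^ 2 / (2 * nsq p ^ 2)) := by
  obtain ⟨V, hV, rfl⟩ := mem_Fib_iff.mp hv
  rw [qh_wE hq hp hV, norm_sq_wE hp.2]
  have h0 : nsq p ≠ 0 := (Fib_402.nsq_pos hp.2).ne'
  have e : 2 * nsq p ^ 2 * omg p V / (2 * nsq p ^ 2) = omg p V := by
    field_simp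
  rw [e]
  exact hq.bdd p hp V hV


theorem tendsto_hor {α : Type*} {l : Filter α} {p : α → EE N} {v : α → FF N} {p₀ : EE N}
    {v₀ : FF N} (hp₀ : p₀ ≠ 0) (h1 : Tendsto p l (𝓝 p₀)) (h2 : Tendsto v l (𝓝 v₀)) :
    Tendsto (fun x => hor (v x) (p x)) l (𝓝 (hor v₀ p₀)) := by
  have h0 : (nsq p₀ : ℂ) ≠ 0 := by exact_mod_cast (Fib_402.nsq_pos hp₀).ne'
  have hcn : Continuous (nsq : EE N → ℝ) := by
    unfold nsq
    fun_prop
  rw [tendsto_pi_nhds]
  intro i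
  simp only [hor]
  have hn : Tendsto (fun x => (nsq (p x) : ℂ)) l (𝓝 (nsq p₀ : ℂ)) :=
    (Complex.continuous_ofReal.comp hcn).continuousAt.tendsto.comp h1
  refine Tendsto.div (tendsto_finsetSum _ fun j _ => ?_) hn h0
  refine Tendsto.mul ?_ ?_
  · exact ((PiLp.continuous_apply 2 _ (i, j)).tendsto v₀).comp h2
  · exact (Complex.continuous_conj.tendsto _).comp ((tendsto_pi_nhds.mp h1) j)

theorem tendsto_qh (hX : IsSmoothProjective I n) {q : EE N → EE N → ℝ} {C : ℝ} (hq : QF I q C)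
    {α : Type*} {l : Filter α} {p : α → EE N} {v : α → FF N} {p₀ : EE N} {v₀ : FF N}
    (hp : ∀ᶠ x in l, p x ∈ Cone I) (hv : ∀ᶠ x in l, v x ∈ Fib I (p x)) (hp₀ : p₀ ∈ Cone I)
    (hv₀ : v₀ ∈ Fib I p₀) (h1 : Tendsto p l (𝓝 p₀)) (h2 : Tendsto v l (𝓝 v₀)) :
    Tendsto (fun x => qh q (p x) (v x)) l (𝓝 (qh q p₀ v₀)) := by
  have h3 := tendsto_hor hp₀.2 h1 h2
  have hmem : (p₀, hor v₀ p₀) ∈ {x : EE N × EE N | x.1 ∈ Cone I ∧ x.2 ∈ Tan I x.1} :=
    ⟨hp₀, ((mem_Fib hX hp₀).mp hv₀).1⟩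
  have h4 := hq.dens.cont _ hmem
  have h5 : Tendsto (fun x => (p x, hor (v x) (p x))) l
      (𝓝[{x : EE N × EE N | x.1 ∈ Cone I ∧ x.2 ∈ Tan I x.1}] (p₀, hor v₀ p₀)) := by
    refine tendsto_nhdsWithin_iff.2 ⟨h1.prodMk_nhds h3, ?_⟩
    filter_upwards [hp, hv] with x hx1 hx2
    exact ⟨hx1, ((mem_Fib hX hx1).mp hx2).1⟩
  exact h4.tendsto.comp h5

theorem cont_qh (hX : IsSmoothProjective I n) {q : EE N → EE N → ℝ} {C : ℝ} (hq : QF I q C)
    {α : Type*} [TopologicalSpace α] {S : Set α} {P : α → EE N} {v : α → FF N}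
    (hP : ContinuousOn P S) (hv : ContinuousOn v S) (hPc : ∀ z ∈ S, P z ∈ Cone I)
    (hvf : ∀ z ∈ S, v z ∈ Fib I (P z)) : ContinuousOn (fun z => qh q (P z) (v z)) S := by
  intro z hz
  exact tendsto_qh hX hq (eventually_nhdsWithin_of_forall hPc)
    (eventually_nhdsWithin_of_forall hvf) (hPc z hz) (hvf z hz) (hP z hz) (hv z hz)

/-! ### interior terms -/


theorem smul_zt_mem {s : ℝ} (hs : s ∈ Ico (0 : ℝ) 1) (t : TT) : (s : ℂ) * zt t ∈ ball (0 : ℂ) 1 := by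
  rw [mem_ball_zero_iff, norm_mul, norm_zt, mul_one, Complex.norm_real, Real.norm_eq_abs,
    abs_of_nonneg hs.1]
  exact hs.2

/-- the interior term of radius `r` -/
def itr (q : EE N → EE N → ℝ) (H : ℂ → EE N) (r : ℝ) (F : ℂ → FF N) : ℝ :=
  Real.circleAverage (fun z => ‖z‖ ^ 2 * qh q (H z) (F z)) 0 r

theorem tendsto_circ (hX : IsSmoothProjective I n) {q : EE N → EE N → ℝ} {C : ℝ} (hq : QF I q C)
    (hC : 0 ≤ C) {H : ℂ → EE N} (hH : IsDisc I H) {r : ℝ} (hr : r ∈ Ico (0 : ℝ) 1)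
    {F : ℕ → ℂ → FF N} {F0 : ℂ → FF N} (hF : ∀ k, ContinuousOn (F k) (ball 0 1))
    (hFf : ∀ k, ∀ z ∈ ball (0 : ℂ) 1, F k z ∈ Fib I (H z))
    (hF0f : ∀ z ∈ ball (0 : ℂ) 1, F0 z ∈ Fib I (H z)) {B : ℝ}
    (hB : ∀ k, ∀ t : TT, ‖F k (r * zt t)‖ ≤ B)
    (hlim : ∀ z ∈ ball (0 : ℂ) 1, Tendsto (fun k => F k z) atTop (𝓝 (F0 z))) :
    Tendsto (fun k => itr q H r (F k)) atTop (𝓝 (itr q H r F0)) := by
  unfold itr
  simp only [circleAverage_eq]
  -- lower bound of `nsq (H z)` on the circle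
  have hcn : Continuous (nsq : EE N → ℝ) := by unfold nsq; fun_prop
  have hHc : Continuous (fun t : TT => H (r * zt t)) := by
    have h1 : Continuous (fun t : TT => (r : ℂ) * zt t) := continuous_const.mul continuous_zt
    exact hH.hol.continuousOn.comp_continuous h1 (fun t => smul_zt_mem hr t)
  obtain ⟨t0, ht0⟩ := (hcn.comp hHc).exists_forall_le_of_hasCompactSupport
    (HasCompactSupport.of_compactSpace _)
  set m : ℝ := nsq (H (r * zt t0)) with hm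
  have hm0 : 0 < m := Fib_402.nsq_pos (hH.cone _ (smul_zt_mem hr t0)).2
  have hB0 : 0 ≤ B := (norm_nonneg _).trans (hB 0 t0)
  refine tendsto_integral_of_dominated_convergence (fun _ => C * (B ^ 2 / (2 * m ^ 2))) ?_ ?_ ?_ ?_
  · intro k
    have h1 : Continuous (fun t : TT => (r : ℂ) * zt t) := continuous_const.mul continuous_zt
    have h2 : ContinuousOn (fun z => ‖z‖ ^ 2 * qh q (H z) (F k z)) (ball 0 1) :=
      (continuous_norm.pow 2).continuousOn.mul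
        (cont_qh hX hq hH.hol.continuousOn (hF k) (fun z hz => hH.cone z hz) (hFf k))
    exact (h2.comp_continuous h1 (fun t => smul_zt_mem hr t)).aestronglyMeasurable
  · exact integrable_const _
  · intro k
    refine Eventually.of_forall fun t => ?_
    have hz := smul_zt_mem hr t
    rw [norm_mul, Real.norm_eq_abs, Real.norm_eq_abs]
    have h1 : |‖(r : ℂ) * zt t‖ ^ 2| ≤ 1 := by
      rw [abs_of_nonneg (by positivity)]
      rw [mem_ball_zero_iff] at hz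
      exact pow_le_one₀ (norm_nonneg _) hz.le
    have h2 := qh_bdd hq (hH.cone _ hz) (hFf k _ hz)
    have h3 : ‖F k (r * zt t)‖ ^ 2 / (2 * nsq (H (r * zt t)) ^ 2) ≤ B ^ 2 / (2 * m ^ 2) := by
      have h4 : m ≤ nsq (H (r * zt t)) := ht0 t
      have h5 := hB k t
      gcongr
    calc |‖(r : ℂ) * zt t‖ ^ 2| * |qh q (H (r * zt t)) (F k (r * zt t))|
        ≤ 1 * (C * (‖F k (r * zt t)‖ ^ 2 / (2 * nsq (H (r * zt t)) ^ 2))) := by
          refine mul_le_mul h1 h2 (abs_nonneg _) zero_le_one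
      _ ≤ C * (B ^ 2 / (2 * m ^ 2)) := by
          rw [one_mul]
          exact mul_le_mul_of_nonneg_left h3 hC
  · refine Eventually.of_forall fun t => ?_
    have hz := smul_zt_mem hr t
    refine Tendsto.const_mul _ ?_
    exact tendsto_qh hX hq (Eventually.of_forall fun _ => hH.cone _ hz)
      (Eventually.of_forall fun k => hFf k _ hz) (hH.cone _ hz) (hF0f _ hz) tendsto_const_nhds
      (hlim _ hz)

/-! ### boundary values -/

theorem subseq_ae {φ : ℕ → TT → ℝ} (h0 : ∀ j t, 0 ≤ φ j t) (hint : ∀ j, Integrable (φ j) mu)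
    (hlim : Tendsto (fun j => ∫ t, φ j t ∂mu) atTop (𝓝 0)) :
    ∃ ns : ℕ → ℕ, StrictMono ns ∧ ∀ᵐ t ∂mu, Tendsto (fun j => φ (ns j) t) atTop (𝓝 0) := by
  have h : TendstoInMeasure mu φ atTop (fun _ => (0 : ℝ)) := by
    refine tendstoInMeasure_of_tendsto_eLpNorm (p := 1) one_ne_zero
      (fun j => (hint j).aestronglyMeasurable) aestronglyMeasurable_const ?_
    have e : ∀ j, eLpNorm (φ j - fun _ => (0 : ℝ)) 1 mu = ENNReal.ofReal (∫ t, φ j t ∂mu) := by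
      intro j
      rw [eLpNorm_one_eq_lintegral_enorm, ofReal_integral_eq_lintegral_ofReal (hint j)
        (Eventually.of_forall (h0 j))]
      refine lintegral_congr fun t => ?_
      rw [Pi.sub_apply, sub_zero, Real.enorm_eq_ofReal (h0 j t)]
    simp only [e]
    have := (ENNReal.continuous_ofReal.tendsto 0).comp hlim
    rw [ENNReal.ofReal_zero] at this
    exact this
  exact h.exists_seq_tendsto_ae

theorem cont_slice {E : Type*} [NormedAddCommGroup E] {F : ℂ → E} (hF : ContinuousOn F (ball 0 1))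
    {s : ℝ} (hs : s ∈ Ico (0 : ℝ) 1) : Continuous (fun t : TT => F (s * zt t)) :=
  hF.comp_continuous (continuous_const.mul continuous_zt) (fun t => smul_zt_mem hs t)

/-- along a subsequence the slices of an `H²` function converge a.e. -/
theorem exists_subseq {E : Type*} [NormedAddCommGroup E] [InnerProductSpace ℂ E]
    [FiniteDimensional ℂ E] {Q : TT → E} (hQ : IsH2 Q) {s : ℕ → ℝ}
    (hs : ∀ j, s j ∈ Ioo (0 : ℝ) 1) (hs1 : Tendsto s atTop (𝓝 1)) :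
    ∃ ns : ℕ → ℕ, StrictMono ns ∧
      ∀ᵐ t ∂mu, Tendsto (fun j => ext Q (s (ns j) * zt t)) atTop (𝓝 (Q t)) := by
  have hc : CompleteSpace E := FiniteDimensional.complete ℂ E
  have hsl : Tendsto s atTop (𝓝[<] 1) :=
    tendsto_nhdsWithin_iff.2 ⟨hs1, Eventually.of_forall fun j => (hs j).2⟩
  have hext : ContinuousOn (Hardy_142.ext Q) (ball 0 1) :=
    (differentiableOn_ext hQ.integrable).continuousOn
  have hint : ∀ j, Integrable (fun t => ‖Hardy_142.ext Q (s j * zt t) - Q t‖ ^ 2) mu := by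
    intro j
    have h1 : MemLp (fun t => Hardy_142.ext Q (s j * zt t)) 2 mu :=
      memLp_of_continuous (cont_slice hext ⟨(hs j).1.le, (hs j).2⟩)
    exact norm_sq_integrable (h1.sub hQ.memLp)
  have hlim : Tendsto (fun j => ∫ t, ‖Hardy_142.ext Q (s j * zt t) - Q t‖ ^ 2 ∂mu) atTop (𝓝 0) :=
    hQ.tendsto_slice.comp hsl
  obtain ⟨ns, hns, h⟩ := subseq_ae (fun j t => by positivity) hint hlim
  refine ⟨ns, hns, ?_⟩
  filter_upwards [h] with t ht
  exact tendsto_of_sq ht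

/-- boundary values of the disc -/
structure BH (I : Ideal (HomCoordRing N)) (H : ℂ → EE N) (Hs : TT → EE N) (s : ℕ → ℝ) : Prop where
  mem : ∀ j, s j ∈ Ioo (0 : ℝ) 1
  one : Tendsto s atTop (𝓝 1)
  lim : ∀ᵐ t ∂mu, Tendsto (fun j => H (s j * zt t)) atTop (𝓝 (Hs t))
  nsq : ∀ᵐ t ∂mu, nsq (Hs t) = 1

theorem BH.subseq {H : ℂ → EE N} {Hs : TT → EE N} {s : ℕ → ℝ} (h : BH I H Hs s) {ns : ℕ → ℕ}
    (hns : StrictMono ns) : BH I H Hs (fun j => s (ns j)) where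
  mem := fun j => h.mem _
  one := h.one.comp hns.tendsto_atTop
  lim := by
    filter_upwards [h.lim] with t ht
    exact ht.comp hns.tendsto_atTop
  nsq := h.nsq

theorem BH.cone {H : ℂ → EE N} {Hs : TT → EE N} {s : ℕ → ℝ} (h : BH I H Hs s)
    (hH : IsDisc I H) : ∀ᵐ t ∂mu, Hs t ∈ Cone I := by
  filter_upwards [h.lim, h.nsq] with t h1 h2
  refine ⟨?_, ?_⟩
  · refine (LevBr_901.isClosed_affineCone I).mem_of_tendsto h1 (Eventually.of_forall fun j => ?_)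
    exact (hH.cone _ (smul_zt_mem ⟨(h.mem j).1.le, (h.mem j).2⟩ t)).1
  · rintro h3
    rw [h3] at h2
    simp [Geo_328.nsq] at h2

theorem at_mem_Tan (Y : Flds I) {p : EE N} (hp : p ∈ Cone I) (j : Fin Y.M) :
    Y.at j p ∈ Tan I p := by
  rw [← Y.span p hp]
  exact Submodule.subset_span ⟨j, rfl⟩

theorem var_mem_Tan (Y : Flds I) (c : Fin Y.M → Polynomial ℂ) {p : EE N} (hp : p ∈ Cone I)
    (z : ℂ) : Y.var c z p ∈ Tan I p :=
  Submodule.sum_mem _ fun j _ => Submodule.smul_mem _ _ (at_mem_Tan Y hp j)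

theorem cont_var (Y : Flds I) (c : Fin Y.M → Polynomial ℂ) :
    Continuous (fun x : ℂ × EE N => Y.var c x.1 x.2) := by
  unfold Flds.var
  refine continuous_finsetSum _ fun j _ => ?_
  exact ((Polynomial.continuous (c j)).comp continuous_fst).smul
    ((at_continuous Y j).comp continuous_snd)

theorem diff_var (Y : Flds I) (c : Fin Y.M → Polynomial ℂ) {H : ℂ → EE N} (hH : IsDisc I H) :
    DifferentiableOn ℂ (fun z => Y.var c z (H z)) (ball 0 1) := by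
  unfold Flds.var
  refine DifferentiableOn.fun_sum fun j _ => ?_
  exact (Polynomial.differentiable (c j)).differentiableOn.smul (at_differentiable Y j hH.hol)

/-- boundary values of the elements of `M0` -/
theorem bdy_eq (Y : Flds I) {H : ℂ → EE N} {Hs : TT → EE N} {s : ℕ → ℝ}
    (h : BH I H Hs s) {c : Fin Y.M → Polynomial ℂ} {f : Lp (FF N) 2 mu} (hf : Bdy (VQ Y H c) f) :
    ∀ᵐ t ∂mu, f t = wE (Y.var c (zt t) (Hs t)) (Hs t) := by
  have hH2 : IsH2 (f : TT → FF N) := mem_HH.mp hf.1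
  obtain ⟨ns, hns, h1⟩ := exists_subseq hH2 h.mem h.one
  have h' := h.subseq hns
  filter_upwards [h1, h'.lim] with t h2 h3
  have hz : ∀ j, ‖(s (ns j) : ℂ) * zt t‖ < 1 := fun j => by
    have := smul_zt_mem (s := s (ns j)) ⟨(h.mem _).1.le, (h.mem _).2⟩ t
    rwa [mem_ball_zero_iff] at this
  have hzt : Tendsto (fun j => (s (ns j) : ℂ) * zt t) atTop (𝓝 (zt t)) := by
    have h4 : Tendsto (fun j => ((s (ns j) : ℝ) : ℂ)) atTop (𝓝 ((1 : ℝ) : ℂ)) :=
      (Complex.continuous_ofReal.tendsto 1).comp h'.one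
    have := h4.mul_const (zt t)
    rwa [Complex.ofReal_one, one_mul] at this
  have h5 : Tendsto (fun j => VQ Y H c (s (ns j) * zt t)) atTop
      (𝓝 (wE (Y.var c (zt t) (Hs t)) (Hs t))) := by
    have h7 : Tendsto (fun j => ((s (ns j) : ℂ) * zt t, H ((s (ns j) : ℂ) * zt t))) atTop
        (𝓝 (zt t, Hs t)) := hzt.prodMk_nhds h3
    have h8 : Tendsto (fun x : ℂ × EE N => Y.var c x.1 x.2) (𝓝 (zt t, Hs t))
        (𝓝 (Y.var c (zt t) (Hs t))) := (cont_var Y c).tendsto (zt t, Hs t)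
    have h9 := h8.comp h7
    simp only [Function.comp_def] at h9
    exact tendsto_wE h9 h3
  have h6 : Tendsto (fun j => ext (f : TT → FF N) (s (ns j) * zt t)) atTop
      (𝓝 (wE (Y.var c (zt t) (Hs t)) (Hs t))) := by
    refine h5.congr fun j => ?_
    rw [hf.2 _ (hz j)]
  exact tendsto_nhds_unique h2 h6

/-- the boundary term for polynomial fields -/
theorem poly_bdy {q : EE N → EE N → ℝ} {C : ℝ} (hq : QF I q C) (Y : Flds I) {H : ℂ → EE N}
    {Hs : TT → EE N} {s : ℕ → ℝ} (h : BH I H Hs s) (hH : IsDisc I H)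
    {c : Fin Y.M → Polynomial ℂ} {f : Lp (FF N) 2 mu} (hf : Bdy (VQ Y H c) f) {M : ℝ}
    (hM : ∀ z ∈ ball (0 : ℂ) 1, |q (H z) (z • Y.var c z (H z))| ≤ M) :
    AEStronglyMeasurable (fun t => qh q (Hs t) (f t)) mu ∧
      Tendsto (fun j => Real.circleAverage (fun z => q (H z) (z • Y.var c z (H z))) 0 (s j)) atTop
        (𝓝 (∫ t, qh q (Hs t) (f t) ∂mu)) := by
  set g : ℂ → ℝ := fun z => q (H z) (z • Y.var c z (H z)) with hg
  have hgc : ContinuousOn g (ball 0 1) :=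
    cont_qV hq.dens hH (continuousOn_id.smul (diff_var Y c hH).continuousOn)
      (fun z hz => (Tan I (H z)).smul_mem z (var_mem_Tan Y c (hH.cone z hz) z))
  have hs : ∀ j, s j ∈ Ico (0 : ℝ) 1 := fun j => ⟨(h.mem j).1.le, (h.mem j).2⟩
  have hlim : ∀ᵐ t ∂mu, Tendsto (fun j => g (s j * zt t)) atTop (𝓝 (qh q (Hs t) (f t))) := by
    filter_upwards [h.lim, h.cone hH, bdy_eq Y h hf] with t h1 h2 h3
    have hV : Y.var c (zt t) (Hs t) ∈ Tan I (Hs t) := var_mem_Tan Y c h2 _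
    have e : qh q (Hs t) (f t) = q (Hs t) (zt t • Y.var c (zt t) (Hs t)) := by
      rw [h3, qh_wE hq h2 hV, hq.smul _ h2 _ hV, norm_zt, one_pow, one_mul]
    rw [e]
    have hzt : Tendsto (fun j => (s j : ℂ) * zt t) atTop (𝓝 (zt t)) := by
      have h4 : Tendsto (fun j => ((s j : ℝ) : ℂ)) atTop (𝓝 ((1 : ℝ) : ℂ)) :=
        (Complex.continuous_ofReal.tendsto 1).comp h.one
      have := h4.mul_const (zt t)
      rwa [Complex.ofReal_one, one_mul] at this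
    have h7 : Tendsto (fun j => ((s j : ℂ) * zt t, H ((s j : ℂ) * zt t))) atTop
        (𝓝 (zt t, Hs t)) := hzt.prodMk_nhds h1
    have h8 : Tendsto (fun x : ℂ × EE N => Y.var c x.1 x.2) (𝓝 (zt t, Hs t))
        (𝓝 (Y.var c (zt t) (Hs t))) := (cont_var Y c).tendsto (zt t, Hs t)
    have h9 := h8.comp h7
    simp only [Function.comp_def] at h9
    have h10 : Tendsto (fun j => (H (s j * zt t), ((s j : ℂ) * zt t) •
        Y.var c ((s j : ℂ) * zt t) (H (s j * zt t)))) atTop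
        (𝓝[{x : EE N × EE N | x.1 ∈ Cone I ∧ x.2 ∈ Tan I x.1}]
          (Hs t, zt t • Y.var c (zt t) (Hs t))) := by
      refine tendsto_nhdsWithin_iff.2 ⟨h1.prodMk_nhds (hzt.smul h9), ?_⟩
      refine Eventually.of_forall fun j => ?_
      have hz := hH.cone _ (smul_zt_mem (hs j) t)
      exact ⟨hz, (Tan I _).smul_mem _ (var_mem_Tan Y c hz _)⟩
    have h11 := hq.dens.cont (Hs t, zt t • Y.var c (zt t) (Hs t))
      ⟨h2, (Tan I _).smul_mem _ hV⟩
    have h12 := h11.tendsto.comp h10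
    simp only [Function.comp_def] at h12
    exact h12
  have hmeas : ∀ j, AEStronglyMeasurable (fun t => g (s j * zt t)) mu := fun j =>
    (cont_slice hgc (hs j)).aestronglyMeasurable
  refine ⟨aestronglyMeasurable_of_tendsto_ae atTop hmeas hlim, ?_⟩
  simp only [circleAverage_eq]
  refine tendsto_integral_of_dominated_convergence (fun _ => M) hmeas (integrable_const _) ?_ hlim
  intro j
  refine Eventually.of_forall fun t => ?_
  rw [Real.norm_eq_abs]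
  exact hM _ (smul_zt_mem (hs j) t)

/-- integrability of the boundary term -/
theorem bdy_integrable {q : EE N → EE N → ℝ} {C : ℝ} (hq : QF I q C)
    {Hs : TT → EE N} (hc : ∀ᵐ t ∂mu, Hs t ∈ Cone I) (h1 : ∀ᵐ t ∂mu, nsq (Hs t) = 1)
    {f : TT → FF N} (hf : MemLp f 2 mu) (hff : ∀ᵐ t ∂mu, f t ∈ Fib I (Hs t))
    (hm : AEStronglyMeasurable (fun t => qh q (Hs t) (f t)) mu) :
    Integrable (fun t => qh q (Hs t) (f t)) mu := by
  refine Integrable.mono' ((norm_sq_integrable hf).const_mul (C / 2)) hm ?_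
  filter_upwards [hc, h1, hff] with t h2 h3 h4
  rw [Real.norm_eq_abs]
  have := qh_bdd hq h2 h4
  rw [h3] at this
  refine this.trans (le_of_eq ?_)
  ring

/-- semicontinuity of the boundary term -/
theorem limsup_bdy (hX : IsSmoothProjective I n) {q : EE N → EE N → ℝ} {C : ℝ} (hq : QF I q C)
    {Hs : TT → EE N} (hc : ∀ᵐ t ∂mu, Hs t ∈ Cone I) (h1 : ∀ᵐ t ∂mu, nsq (Hs t) = 1)
    {f : ℕ → Lp (FF N) 2 mu} {f0 : Lp (FF N) 2 mu} (hlim : Tendsto f atTop (𝓝 f0))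
    (hff : ∀ k, ∀ᵐ t ∂mu, f k t ∈ Fib I (Hs t))
    (hm : ∀ k, AEStronglyMeasurable (fun t => qh q (Hs t) (f k t)) mu) :
    Integrable (fun t => qh q (Hs t) (f0 t)) mu ∧ (∀ᵐ t ∂mu, f0 t ∈ Fib I (Hs t)) ∧
      ∃ ns : ℕ → ℕ, StrictMono ns ∧ ∀ b : ℝ, ∫ t, qh q (Hs t) (f0 t) ∂mu < b →
        ∀ᶠ k in atTop, ∫ t, qh q (Hs t) (f (ns k) t) ∂mu < b := by
  -- a subsequence converging a.e.
  have hL2 : Tendsto (fun k => ∫ t, ‖(f k - f0 : Lp (FF N) 2 mu) t‖ ^ 2 ∂mu) atTop (𝓝 0) := by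
    have e : ∀ k, ∫ t, ‖(f k - f0 : Lp (FF N) 2 mu) t‖ ^ 2 ∂mu = ‖f k - f0‖ ^ 2 := fun k =>
      integral_norm_sq_Lp (f k - f0)
    simp only [e]
    have h2 := (tendsto_iff_norm_sub_tendsto_zero.1 hlim).pow 2
    simpa using h2
  obtain ⟨ns, hns, hae⟩ := subseq_ae
    (φ := fun k t => ‖(f k - f0 : Lp (FF N) 2 mu) t‖ ^ 2) (fun j t => by positivity)
    (fun k => norm_sq_integrable (Lp.memLp (f k - f0))) hL2
  have hae2 : ∀ᵐ t ∂mu, Tendsto (fun k => f (ns k) t) atTop (𝓝 (f0 t)) := by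
    have h3 : ∀ᵐ t ∂mu, ∀ k, (f k - f0 : Lp (FF N) 2 mu) t = f k t - f0 t := by
      rw [ae_all_iff]
      intro k
      exact Lp.coeFn_sub (f k) f0
    filter_upwards [hae, h3] with t h4 h5
    refine tendsto_of_sq ?_
    refine h4.congr fun k => ?_
    rw [h5]
  have hf0 : ∀ᵐ t ∂mu, f0 t ∈ Fib I (Hs t) := by
    have h3 : ∀ᵐ t ∂mu, ∀ k, f k t ∈ Fib I (Hs t) := ae_all_iff.2 hff
    filter_upwards [hae2, h3] with t h4 h5
    exact (Submodule.closed_of_finiteDimensional (Fib I (Hs t))).mem_of_tendsto h4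
      (Eventually.of_forall fun k => h5 _)
  have hqlim : ∀ᵐ t ∂mu, Tendsto (fun k => qh q (Hs t) (f (ns k) t)) atTop
      (𝓝 (qh q (Hs t) (f0 t))) := by
    have h3 : ∀ᵐ t ∂mu, ∀ k, f k t ∈ Fib I (Hs t) := ae_all_iff.2 hff
    filter_upwards [hae2, h3, hf0, hc] with t h4 h5 h6 h7
    exact tendsto_qh hX hq (Eventually.of_forall fun _ => h7)
      (Eventually.of_forall fun k => h5 _) h7 h6 tendsto_const_nhds h4
  have hm0 : AEStronglyMeasurable (fun t => qh q (Hs t) (f0 t)) mu :=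
    aestronglyMeasurable_of_tendsto_ae atTop (fun k => hm (ns k)) hqlim
  have hi0 := bdy_integrable hq hc h1 (Lp.memLp f0) hf0 hm0
  have hik := fun k => bdy_integrable hq hc h1 (Lp.memLp (f k)) (hff k) (hm k)
  refine ⟨hi0, hf0, ns, hns, ?_⟩
  -- Fatou
  set K : ℝ := C / 2 with hK
  have hsqi : ∀ g : Lp (FF N) 2 mu, Integrable (fun t => ‖g t‖ ^ 2) mu := fun g =>
    norm_sq_integrable (Lp.memLp g)
  have hnn : ∀ g : Lp (FF N) 2 mu, (∀ᵐ t ∂mu, g t ∈ Fib I (Hs t)) →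
      ∀ᵐ t ∂mu, 0 ≤ K * ‖g t‖ ^ 2 - qh q (Hs t) (g t) := by
    intro g hg
    filter_upwards [hc, h1, hg] with t h2 h3 h4
    have := (abs_le.1 (qh_bdd hq h2 h4)).2
    rw [h3] at this
    have e : C * (‖g t‖ ^ 2 / (2 * 1 ^ 2)) = K * ‖g t‖ ^ 2 := by rw [hK]; ring
    rw [e] at this
    linarith
  have hig : ∀ g : Lp (FF N) 2 mu, Integrable (fun t => qh q (Hs t) (g t)) mu →
      Integrable (fun t => K * ‖g t‖ ^ 2 - qh q (Hs t) (g t)) mu := fun g hg =>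
    ((hsqi g).const_mul K).sub hg
  have hval : ∀ g : Lp (FF N) 2 mu, Integrable (fun t => qh q (Hs t) (g t)) mu →
      ∫ t, (K * ‖g t‖ ^ 2 - qh q (Hs t) (g t)) ∂mu
        = K * ‖g‖ ^ 2 - ∫ t, qh q (Hs t) (g t) ∂mu := by
    intro g hg
    rw [integral_sub ((hsqi g).const_mul K) hg, integral_const_mul, integral_norm_sq_Lp]
  have hfat : ENNReal.ofReal (K * ‖f0‖ ^ 2 - ∫ t, qh q (Hs t) (f0 t) ∂mu) ≤
      liminf (fun k => ENNReal.ofReal (K * ‖f (ns k)‖ ^ 2 -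
        ∫ t, qh q (Hs t) (f (ns k) t) ∂mu)) atTop := by
    have h2 : ∀ g : Lp (FF N) 2 mu, Integrable (fun t => qh q (Hs t) (g t)) mu →
        (∀ᵐ t ∂mu, g t ∈ Fib I (Hs t)) →
        ENNReal.ofReal (K * ‖g‖ ^ 2 - ∫ t, qh q (Hs t) (g t) ∂mu)
          = ∫⁻ t, ENNReal.ofReal (K * ‖g t‖ ^ 2 - qh q (Hs t) (g t)) ∂mu := by
      intro g hg hgf
      rw [← hval g hg, ofReal_integral_eq_lintegral_ofReal (hig g hg) (hnn g hgf)]
    rw [h2 f0 hi0 hf0]
    have h3 : (fun k => ENNReal.ofReal (K * ‖f (ns k)‖ ^ 2 -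
        ∫ t, qh q (Hs t) (f (ns k) t) ∂mu)) = fun k =>
        ∫⁻ t, ENNReal.ofReal (K * ‖f (ns k) t‖ ^ 2 - qh q (Hs t) (f (ns k) t)) ∂mu :=
      funext fun k => h2 (f (ns k)) (hik _) (hff _)
    rw [h3]
    refine le_trans (lintegral_mono_ae ?_) (lintegral_liminf_le' fun k =>
      ((hig (f (ns k)) (hik _)).aestronglyMeasurable.aemeasurable).ennreal_ofReal)
    filter_upwards [hqlim, hae2] with t h4 h5
    have h6 : Tendsto (fun k => K * ‖f (ns k) t‖ ^ 2 - qh q (Hs t) (f (ns k) t)) atTop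
        (𝓝 (K * ‖f0 t‖ ^ 2 - qh q (Hs t) (f0 t))) := ((h5.norm.pow 2).const_mul K).sub h4
    have h7 := (ENNReal.continuous_ofReal.tendsto _).comp h6
    exact h7.liminf_eq.symm.le
  intro b hb
  set A : ℝ := ∫ t, qh q (Hs t) (f0 t) ∂mu with hA
  set δ : ℝ := (b - A) / 2 with hδ
  have hδ0 : 0 < δ := by rw [hδ]; linarith
  have hN : Tendsto (fun k => K * ‖f (ns k)‖ ^ 2) atTop (𝓝 (K * ‖f0‖ ^ 2)) :=
    (((hlim.comp hns.tendsto_atTop).norm).pow 2).const_mul K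
  have ev1 : ∀ᶠ k in atTop, K * ‖f (ns k)‖ ^ 2 < K * ‖f0‖ ^ 2 + δ :=
    hN.eventually (gt_mem_nhds (by linarith))
  have hk0 : ∀ k, 0 ≤ K * ‖f (ns k)‖ ^ 2 - ∫ t, qh q (Hs t) (f (ns k) t) ∂mu := fun k => by
    rw [← hval _ (hik _)]
    exact integral_nonneg_of_ae (hnn _ (hff _))
  have ev2 : ∀ᶠ k in atTop, K * ‖f0‖ ^ 2 - A - δ <
      K * ‖f (ns k)‖ ^ 2 - ∫ t, qh q (Hs t) (f (ns k) t) ∂mu := by
    rcases lt_or_ge (K * ‖f0‖ ^ 2 - A - δ) 0 with h2 | h2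
    · exact Eventually.of_forall fun k => h2.trans_le (hk0 k)
    · have h3 : ENNReal.ofReal (K * ‖f0‖ ^ 2 - A - δ) < ENNReal.ofReal (K * ‖f0‖ ^ 2 - A) :=
        (ENNReal.ofReal_lt_ofReal_iff (by linarith)).2 (by linarith)
      have h4 := eventually_lt_of_lt_liminf (lt_of_lt_of_le h3 hfat)
      filter_upwards [h4] with k h5
      exact (ENNReal.ofReal_lt_ofReal_iff_of_nonneg h2).1 h5
  filter_upwards [ev1, ev2] with k h2 h3
  rw [hδ] at h2 h3
  linarith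

/-! ### the inequality -/

/-- the left-hand side of (VAR) -/
def LH (c0 c1 : ℝ) (u1 : EE N → ℝ) (r1 κ t r : ℝ) (H : ℂ → EE N) (F : ℂ → FF N) : ℝ :=
  c0 * qh omg (H 0) (F 0) + c1 * itr omg H r1 F + itr (Defs_58.lev u1) H r1 F
    + κ * t * itr omg H r F

theorem itr_eq {q : EE N → EE N → ℝ} {C : ℝ} (hq : QF I q C) {H V : ℂ → EE N}
    (hH : IsDisc I H) (hV : ∀ z ∈ ball (0 : ℂ) 1, V z ∈ Tan I (H z)) {F : ℂ → FF N}
    (hF : ∀ z ∈ ball (0 : ℂ) 1, F z = wE (V z) (H z)) {r : ℝ} (hr : r ∈ Ico (0 : ℝ) 1) :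
    itr q H r F = Real.circleAverage (fun z => ‖z‖ ^ 2 * q (H z) (V z)) 0 r := by
  unfold itr
  refine Real.circleAverage_congr_sphere fun z hz => ?_
  have hz' := sphere_mem hr hz
  rw [hF z hz', qh_wE hq (hH.cone z hz') (hV z hz')]

theorem LH_eq (hI : I.IsPrime) (hX : IsSmoothProjective I n) {c0 c1 : ℝ} {u1 : EE N → ℝ}
    (hu1 : SmX I u1) {r1 κ t r : ℝ} (hr1 : r1 ∈ Ico (0 : ℝ) 1) (hr : r ∈ Ico (0 : ℝ) 1)
    {H V : ℂ → EE N} (hH : IsDisc I H) (hV : ∀ z ∈ ball (0 : ℂ) 1, V z ∈ Tan I (H z))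
    {F : ℂ → FF N} (hF : ∀ z ∈ ball (0 : ℂ) 1, F z = wE (V z) (H z)) :
    LH c0 c1 u1 r1 κ t r H F = WF_731.LJf c0 c1 u1 r1 H V +
      κ * t * Real.circleAverage (fun z => ‖z‖ ^ 2 * omg (H z) (V z)) 0 r := by
  have h0 : (0 : ℂ) ∈ ball (0 : ℂ) 1 := mem_ball_self one_pos
  obtain ⟨C, hC⟩ := exists_qf_lev hI hX hu1
  unfold LH WF_731.LJf
  rw [itr_eq (qf_omg I) hH hV hF hr1, itr_eq (qf_omg I) hH hV hF hr, itr_eq hC hH hV hF hr1,
    hF 0 h0, qh_wE (qf_omg I) (hH.cone 0 h0) (hV 0 h0)]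

/-- (VAR) for polynomial fields -/
theorem var_M0 (hI : I.IsPrime) (hX : IsSmoothProjective I n) (Y : Flds I) {c0 c1 : ℝ}
    {u1 : EE N → ℝ} (hu1 : SmX I u1) {r1 κ t r cθ cω : ℝ} (hr1 : r1 ∈ Ico (0 : ℝ) 1)
    (hr : r ∈ Ico (0 : ℝ) 1) (hκ : 0 ≤ κ) {u : EE N → ℝ} (hu : SmX I u)
    (hG : Iface_731.GeO I n cθ cω u) {H : ℂ → EE N} {T1 : ℝ}
    (hmx : WF_731.IsMx I n (WF_731.Jf c0 c1 u1 r1) κ t r cθ cω u H T1)
    {Hs : TT → EE N} {s : ℕ → ℝ} (h : BH I H Hs s) {c : Fin Y.M → Polynomial ℂ}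
    (hvar : HasVar I n H (fun z => z • Y.var c z (H z)))
    {f : Lp (FF N) 2 mu} (hf : Bdy (VQ Y H c) f) :
    AEStronglyMeasurable (fun t => qh (Iface_731.dens I n cθ cω u) (Hs t) (f t)) mu ∧
    LH c0 c1 u1 r1 κ t r H (ext (f : TT → FF N))
      ≤ κ * ∫ t, qh (Iface_731.dens I n cθ cω u) (Hs t) (f t) ∂mu := by
  have hH := hmx.disc
  have h0 : (0 : ℂ) ∈ ball (0 : ℂ) 1 := mem_ball_self one_pos
  obtain ⟨CE, hqE⟩ := exists_qf_dens hI hX cθ cω hu
  obtain ⟨Cu, hqu⟩ := exists_qf_lev hI hX hu1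
  obtain ⟨ρ0, Ht, hV, ⟨Co, dO, fo⟩, ⟨Ca, da, fa⟩, hlev⟩ := hvar
  obtain ⟨Cv, dv, fv⟩ := hlev u hu
  obtain ⟨Cw, dw, fw⟩ := hlev u1 hu1
  set V : ℂ → EE N := fun z => Y.var c z (H z) with hVdef
  have hVd : DifferentiableOn ℂ V (ball 0 1) := diff_var Y c hH
  have hVt : ∀ z ∈ ball (0 : ℂ) 1, V z ∈ Tan I (H z) := fun z hz =>
    var_mem_Tan Y c (hH.cone z hz) z
  have hV't : ∀ z ∈ ball (0 : ℂ) 1, z • V z ∈ Tan I (H z) := fun z hz =>
    (Tan I (H z)).smul_mem z (hVt z hz)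
  have hV'c : ContinuousOn (fun z => z • V z) (ball 0 1) := continuousOn_id.smul hVd.continuousOn
  have fE : Fam (Iface_731.dens I n cθ cω u) H (fun z => z • V z) Ht ρ0 _ _ :=
    ((fa.const_mul cθ).add (fo.const_mul cω)).add fv
  have f1 : Fam (fun p v => c1 * omg p v + Defs_58.lev u1 p v) H (fun z => z • V z) Ht ρ0 _ _ :=
    (fo.const_mul c1).add fw
  have hq1 := ((qf_omg I).const_mul c1).add hqu
  obtain ⟨M, hM⟩ := fE.exists_bound hV.pos
  obtain ⟨hmeas, hlim⟩ := poly_bdy hqE Y h hH hf hM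
  refine ⟨hmeas, ?_⟩
  set A : ℝ := ∫ t, qh (Iface_731.dens I n cθ cω u) (Hs t) (f t) ∂mu with hA
  have hEpos : ∀ p ∈ Cone I, ∀ v ∈ Tan I p, 0 ≤ Iface_731.dens I n cθ cω u p v :=
    fun p hp v hv => (LevBr_901.omg_nonneg p v).trans (hG p hp v hv)
  have hTE1 : ∀ G : ℂ → EE N, IsDisc I G →
      TE (fun p v => c1 * omg p v + Defs_58.lev u1 p v) G r1
        = c1 * TE omg G r1 + (cav u1 G r1 - u1 (G 0)) := by
    intro G hGd
    have e1 := TE_499.TE_add (E := fun p v => c1 * omg p v) (E' := Defs_58.lev u1)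
      (((qf_omg I).dens.const_mul c1).cont) hqu.dens.cont hGd hr1.1 hr1.2
    have e2 := TE_499.TE_const_mul c1 omg G r1
    have e3 := TE_499.jensen_cav (fun p hp => LevBr_901.smX_two hu1 hp) hGd hr1.1 hr1.2
    have e4 : TE (Defs_58.lev u1) G r1 = TE (LevC_653.lev u1) G r1 := by
      have : (Defs_58.lev u1 : EE N → EE N → ℝ) = LevC_653.lev u1 := by
        funext p v; exact LevBr_901.lev_eq u1 p v
      rw [this]
    rw [e1, e2, e3, e4]
  -- derivative at the centre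
  have hder : deriv (fun z => z • V z) 0 = V 0 := by
    have h1 : HasDerivAt V (deriv V 0) 0 :=
      (hVd.differentiableAt (isOpen_ball.mem_nhds h0)).hasDerivAt
    have h2 := (hasDerivAt_id (0 : ℂ)).smul h1
    simp only [id, one_smul, zero_smul, zero_add] at h2
    exact h2.deriv
  have key : ∀ ε > 0, LH c0 c1 u1 r1 κ t r H (ext (f : TT → FF N)) ≤ κ * (A + ε) := by
    intro ε hε
    have hB : ∃ᶠ s in 𝓝[<] (1 : ℝ), Real.circleAverage
        (fun z => Iface_731.dens I n cθ cω u (H z) (z • V z)) 0 s ≤ A + ε := by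
      have h1 : Tendsto s atTop (𝓝[<] 1) :=
        tendsto_nhdsWithin_iff.2 ⟨h.one, Eventually.of_forall fun j => (h.mem j).2⟩
      have h2 : ∀ᶠ j in atTop, Real.circleAverage
        (fun z => Iface_731.dens I n cθ cω u (H z) (z • V z)) 0 (s j) ≤ A + ε :=
        (hlim.eventually (gt_mem_nhds (show A < A + ε by linarith))).mono fun j hj => hj.le
      exact h1.frequently h2.frequently
    have h3 := var_poly (E := Iface_731.dens I n cθ cω u)
      (E1 := fun p v => c1 * omg p v + Defs_58.lev u1 p v) (c0 := c0) (κ := κ) (t := t)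
      (r1 := r1) (r := r) (T1 := T1) hqE.dens hq1.dens (qf_omg I).dens hEpos hH hV hV'c hV't
      fE f1 fo hκ hr1 hr hmx.lim (by
        intro G K hGd hG0 hGK
        have h4 := hmx.max G K hGd ⟨1, one_ne_zero, by rw [one_smul]; exact hG0⟩ hGK
        unfold WF_731.Jf at h4
        rw [hTE1 G hGd, hTE1 H hH]
        linarith) hB
    refine le_trans (le_of_eq ?_) h3
    have hF : ∀ z ∈ ball (0 : ℂ) 1, Hardy_142.ext (f : TT → FF N) z = wE (V z) (H z) :=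
      fun z hz => hf.2 z (by rwa [mem_ball_zero_iff] at hz)
    have hsm : ∀ {q : EE N → EE N → ℝ} {C' : ℝ}, QF I q C' → ∀ {ρ : ℝ}, ρ ∈ Ico (0 : ℝ) 1 →
        itr q H ρ (ext (f : TT → FF N))
          = Real.circleAverage (fun z => q (H z) (z • V z)) 0 ρ := by
      intro q C' hq ρ hρ
      rw [itr_eq hq hH hVt hF hρ]
      refine Real.circleAverage_congr_sphere fun z hz => ?_
      have hz' := sphere_mem hρ hz
      rw [hq.smul _ (hH.cone z hz') _ (hVt z hz')]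
    unfold LH
    rw [hsm (qf_omg I) hr1, hsm (qf_omg I) hr, hsm hqu hr1, hF 0 h0,
      qh_wE (qf_omg I) (hH.cone 0 h0) (hVt 0 h0), hder]
    have hc1 : ContinuousOn (fun z => omg (H z) (z • V z)) (ball 0 1) :=
      cont_qV (qf_omg I).dens hH hV'c hV't
    have hc2 : ContinuousOn (fun z => Defs_58.lev u1 (H z) (z • V z)) (ball 0 1) :=
      cont_qV hqu.dens hH hV'c hV't
    have hcc : ContinuousOn (fun z => c1 * omg (H z) (z • V z)) (ball 0 1) :=
      continuousOn_const.mul hc1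
    rw [Real.circleAverage_fun_add (cI hcc hr1) (cI hc2 hr1)]
    have e5 : Real.circleAverage (fun z => c1 * omg (H z) (z • V z)) 0 r1
        = c1 * Real.circleAverage (fun z => omg (H z) (z • V z)) 0 r1 := by
      have := Real.circleAverage_fun_smul (a := c1) (f := fun z => omg (H z) (z • V z))
        (c := (0 : ℂ)) (R := r1)
      simp only [smul_eq_mul] at this
      exact this
    rw [e5]
    ring
  refine le_of_forall_pos_le_add fun ε hε => ?_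
  have hε' : 0 < ε / (κ + 1) := by positivity
  have h4 := key _ hε'
  refine h4.trans ?_
  have h5 : κ * (ε / (κ + 1)) ≤ ε := by
    rw [mul_div_assoc', div_le_iff₀ (by positivity)]
    nlinarith
  rw [mul_add]
  linarith

/-- **(VAR)** for all `f ∈ M(H)` -/
theorem var_MM (hI : I.IsPrime) (hX : IsSmoothProjective I n) (Y : Flds I) {c0 c1 : ℝ}
    {u1 : EE N → ℝ} (hu1 : SmX I u1) {r1 κ t r cθ cω : ℝ} (hr1 : r1 ∈ Ico (0 : ℝ) 1)
    (hr : r ∈ Ico (0 : ℝ) 1) (hκ : 0 ≤ κ) {u : EE N → ℝ} (hu : SmX I u)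
    (hG : Iface_731.GeO I n cθ cω u) {H : ℂ → EE N} {T1 : ℝ}
    (hmx : WF_731.IsMx I n (WF_731.Jf c0 c1 u1 r1) κ t r cθ cω u H T1)
    {Hs : TT → EE N} {s : ℕ → ℝ} (h : BH I H Hs s)
    (hvar : ∀ c : Fin Y.M → Polynomial ℂ, HasVar I n H (fun z => z • Y.var c z (H z)))
    {f : Lp (FF N) 2 mu} (hf : f ∈ MM Y H) {V : ℂ → EE N}
    (hV : ∀ z ∈ ball (0 : ℂ) 1, V z ∈ Tan I (H z))
    (hVf : ∀ z ∈ ball (0 : ℂ) 1, wE (V z) (H z) = ext (f : TT → FF N) z) :
    Integrable (fun t => Iface_731.dens I n cθ cω u (Hs t) (hor (f t) (Hs t))) mu ∧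
    WF_731.LJf c0 c1 u1 r1 H V +
        κ * t * Real.circleAverage (fun z => ‖z‖ ^ 2 * omg (H z) (V z)) 0 r
      ≤ κ * ∫ t, Iface_731.dens I n cθ cω u (Hs t) (hor (f t) (Hs t)) ∂mu := by
  have hH := hmx.disc
  obtain ⟨CE, hqE⟩ := exists_qf_dens hI hX cθ cω hu
  obtain ⟨Cu, hqu⟩ := exists_qf_lev hI hX hu1
  -- approximating sequence
  obtain ⟨g, hg, hglim⟩ := mem_closure_iff_seq_limit.1
    (show f ∈ closure (M0 Y H : Set (Lp (FF N) 2 mu)) from hf)
  choose c hc using hg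
  have hvk := fun k => var_M0 hI hX Y hu1 hr1 hr hκ hu hG hmx h (hvar (c k)) (hc k)
  have hcone := h.cone hH
  have hfib : ∀ k, ∀ᵐ t ∂mu, g k t ∈ Fib I (Hs t) := by
    intro k
    filter_upwards [bdy_eq Y h (hc k), hcone] with t h1 h2
    rw [h1]
    exact mem_Fib_iff.mpr ⟨_, var_mem_Tan Y (c k) h2 _, rfl⟩
  obtain ⟨hi, hf0, ns, hns, hsup⟩ := limsup_bdy hX hqE hcone h.nsq hglim hfib (fun k => (hvk k).1)
  refine ⟨hi, ?_⟩
  rw [← LH_eq hI hX hu1 hr1 hr hH hV (fun z hz => (hVf z hz).symm)]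
  -- convergence of the left-hand side
  have hval : ∀ w ∈ ball (0 : ℂ) 1, Tendsto (fun k => Hardy_142.ext (g (ns k) : TT → FF N) w)
      atTop (𝓝 (Hardy_142.ext (f : TT → FF N) w)) := by
    intro w hw
    rw [mem_ball_zero_iff] at hw
    exact ((evL w hw).continuous.tendsto f).comp (hglim.comp hns.tendsto_atTop)
  have hgM : ∀ k, g k ∈ MM Y H := fun k => (M0 Y H).le_topologicalClosure ⟨c k, hc k⟩
  have hcont : ∀ e : Lp (FF N) 2 mu,
      ContinuousOn (Hardy_142.ext (e : TT → FF N)) (ball 0 1) := fun e =>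
    (differentiableOn_ext (integrable_Lp e)).continuousOn
  have hfibz : ∀ e ∈ MM Y H, ∀ z ∈ ball (0 : ℂ) 1,
      Hardy_142.ext (e : TT → FF N) z ∈ Fib I (H z) := fun e he z hz =>
    ext_mem_Fib hH he (by rwa [mem_ball_zero_iff] at hz)
  obtain ⟨G, hGb⟩ := (Metric.isBounded_range_of_tendsto g hglim).exists_norm_le
  have hbound : ∀ ρ ∈ Ico (0 : ℝ) 1, ∀ k, ∀ τ : TT,
      ‖Hardy_142.ext (g (ns k) : TT → FF N) (ρ * zt τ)‖ ≤ (1 - ρ)⁻¹ * G := by
    intro ρ hρ k τ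
    have h1 : ‖(ρ : ℂ) * zt τ‖ = ρ := by
      rw [norm_mul, norm_zt, mul_one, Complex.norm_real, Real.norm_eq_abs, abs_of_nonneg hρ.1]
    have h2 := norm_ext_le (integrable_Lp (g (ns k))) (w := (ρ : ℂ) * zt τ) (by rw [h1]; exact hρ.2)
    rw [h1] at h2
    refine h2.trans (mul_le_mul_of_nonneg_left ?_ (inv_nonneg.2 (by linarith [hρ.2])))
    exact (integral_norm_le (g (ns k))).trans (hGb _ ⟨ns k, rfl⟩)
  have hitr : ∀ {q : EE N → EE N → ℝ} {C' : ℝ}, QF I q C' → ∀ {ρ : ℝ}, ρ ∈ Ico (0 : ℝ) 1 →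
      Tendsto (fun k => itr q H ρ (ext (g (ns k) : TT → FF N))) atTop
        (𝓝 (itr q H ρ (ext (f : TT → FF N)))) := by
    intro q C' hq ρ hρ
    have hq' : QF I q (max C' 0) :=
      ⟨hq.dens, hq.smul, fun p hp v hv => (hq.bdd p hp v hv).trans
        (mul_le_mul_of_nonneg_right (le_max_left _ _) (LevBr_901.omg_nonneg p v))⟩
    exact tendsto_circ hX hq' (le_max_right _ _) hH hρ (fun k => hcont (g (ns k)))
      (fun k => hfibz _ (hgM _)) (hfibz _ hf) (hbound ρ hρ) hval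
  have h0 : (0 : ℂ) ∈ ball (0 : ℂ) 1 := mem_ball_self one_pos
  have hpt : Tendsto (fun k => qh omg (H 0) (Hardy_142.ext (g (ns k) : TT → FF N) 0)) atTop
      (𝓝 (qh omg (H 0) (Hardy_142.ext (f : TT → FF N) 0))) :=
    tendsto_qh hX (qf_omg I) (Eventually.of_forall fun _ => hH.cone 0 h0)
      (Eventually.of_forall fun k => hfibz _ (hgM _) 0 h0) (hH.cone 0 h0) (hfibz _ hf 0 h0)
      tendsto_const_nhds (hval 0 h0)
  have hLH : Tendsto (fun k => LH c0 c1 u1 r1 κ t r H (ext (g (ns k) : TT → FF N))) atTop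
      (𝓝 (LH c0 c1 u1 r1 κ t r H (ext (f : TT → FF N)))) := by
    unfold LH
    exact (((hpt.const_mul c0).add ((hitr (qf_omg I) hr1).const_mul c1)).add (hitr hqu hr1)).add
      ((hitr (qf_omg I) hr).const_mul (κ * t))
  set A : ℝ := ∫ t, Iface_731.dens I n cθ cω u (Hs t) (hor (f t) (Hs t)) ∂mu with hA
  refine le_of_forall_pos_le_add fun ε hε => ?_
  have hε' : 0 < ε / (κ + 1) := by positivity
  have h5 : κ * (ε / (κ + 1)) ≤ ε := by
    rw [mul_div_assoc', div_le_iff₀ (by positivity)]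
    nlinarith
  have h6 : LH c0 c1 u1 r1 κ t r H (ext (f : TT → FF N)) ≤ κ * (A + ε / (κ + 1)) := by
    refine le_of_tendsto hLH ?_
    filter_upwards [hsup (A + ε / (κ + 1)) (show A < A + ε / (κ + 1) by linarith)] with k hk
    exact (hvk (ns k)).2.trans (mul_le_mul_of_nonneg_left hk.le hκ)
  rw [mul_add] at h6
  linarith

end Crest.Agent.R269.SVar3_740
end
end

-- ▼ part R269/WFvar_731

/-!
# R269 (S0411), Line B: the field `var` of `WF_731.WF` (helper731)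

From the inequality (VAR) for each vector of the frame (boundary densities of `H²` boundary functions) and the
boundary identity `Rep I a (Hs t) (fun i => hor (Q i t) (Hs t))` a.e.
-/

set_option autoImplicit false

open Filter Topology Set Metric MeasureTheory MvPolynomial Crest.AlgGeometry.ProjEmb
open Crest.Agent.R269.Geo_328 Crest.Agent.R269.Defs_58 Crest.Agent.R269.DefsS_731
open Crest.Agent.R269.Hardy_142 Crest.Agent.R269.StatPot_194 Crest.Agent.R269.Fib_402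
open Crest.Agent.R269.WF_731 Crest.Agent.R269.Iface_731
open Crest.Agent.R269.TE_499 (TE1 bav)

namespace Crest.Agent.R269.WFvar_731

noncomputable section

variable {N n : ℕ} {I : Ideal (HomCoordRing N)} {H : ℂ → EE N}

/-- a smooth function: the boundary average is the average of the boundary function -/
theorem bav_eq (hI : I.IsPrime) (hX : IsSmoothProjective I n) (hH : IsDisc I H) (hN : Normal H)
    {s : ℕ → ℝ} (hs : ∀ j, s j ∈ Ioo (0 : ℝ) 1) (hs1 : Tendsto s atTop (𝓝 1)) {Hs : TT → EE N}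
    (hlim : ∀ᵐ t ∂mu, Tendsto (fun j => H (s j * zt t)) atTop (𝓝 (Hs t)))
    {ψ : EE N → ℝ} (hψ : SmX I ψ) : bav ψ H = ∫ t, ψ (Hs t) ∂mu := by
  have hB : BData (n := 0) I H (fun i => i.elim0) s Hs (fun i => i.elim0) :=
    { disc := hH
      normal := hN
      tan := fun z hz i => i.elim0
      hol := fun i => i.elim0
      sI := hs
      s1 := hs1
      Hnsq := StatDet_194.ae_nsq_one hH hN hs hs1 hlim
      Hlim := hlim
      vlim := fun i => i.elim0 }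
  obtain ⟨B, -, hBd⟩ := LevBr_901.smX_bdd hX hψ
  have h1 : Tendsto (fun j => cav ψ H (s j)) atTop (𝓝 (∫ t, ψ (Hs t) ∂mu)) := by
    refine tendsto_avg_of_bdd hs ?_ (fun z hz => hBd _ (hH.cone z hz)) ?_
    · intro z hz
      refine ContinuousAt.continuousWithinAt ?_
      exact ContinuousAt.comp (g := ψ) ((hψ.1 _ (hH.cone z hz)).continuousAt)
        (hB.analyticAt hz).continuousAt
    · filter_upwards [hB.Hs_cone, hlim] with t h1 h2
      exact ((hψ.1 _ h1).continuousAt.tendsto).comp h2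
  have h2 := (StatDet_194.tendsto_cav_bav hI hX hH hN hψ).comp hB.sI'
  exact tendsto_nhds_unique h2 h1

/-- (VAR) for one vector of the frame -/
def Var1 (I : Ideal (HomCoordRing N)) (n : ℕ) (H : ℂ → EE N) (Hs : TT → EE N) (V : ℂ → EE N)
    (Q : TT → FF N) : Prop :=
  ∀ (c0 c1 : ℝ) (u1 : EE N → ℝ) (r1 κ t r cθ cω : ℝ) (u : EE N → ℝ) (T1 : ℝ), SmX I u1 →
    r1 ∈ Ioo (0 : ℝ) 1 → 0 < κ → 0 ≤ t → r ∈ Ioo (0 : ℝ) 1 → SmX I u → GeO I n cθ cω u →
    IsMx I n (Jf c0 c1 u1 r1) κ t r cθ cω u H T1 →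
    Integrable (fun x => dens I n cθ cω u (Hs x) (hor (Q x) (Hs x))) mu ∧
      LJf c0 c1 u1 r1 H V + κ * t * Real.circleAverage (fun z => ‖z‖ ^ 2 * omg (H z) (V z)) 0 r ≤
        κ * ∫ x, dens I n cθ cω u (Hs x) (hor (Q x) (Hs x)) ∂mu

/-- the field `var` of `WF_731.WF`, literally -/
theorem wf_var (hI : I.IsPrime) (hX : IsSmoothProjective I n) {a : EE N → VV N}
    (hH : IsDisc I H) (hN : Normal H)
    {s : ℕ → ℝ} (hs : ∀ j, s j ∈ Ioo (0 : ℝ) 1) (hs1 : Tendsto s atTop (𝓝 1)) {Hs : TT → EE N}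
    (hlim : ∀ᵐ t ∂mu, Tendsto (fun j => H (s j * zt t)) atTop (𝓝 (Hs t)))
    (hcone : ∀ᵐ t ∂mu, Hs t ∈ Cone I)
    {V : Fin n → ℂ → EE N} {Q : Fin n → TT → FF N} (hvar : ∀ i, Var1 I n H Hs (V i) (Q i))
    (hrep : ∀ᵐ t ∂mu, Rep I a (Hs t) (fun i => hor (Q i t) (Hs t))) :
    ∀ (c0 c1 : ℝ) (u1 : EE N → ℝ) (r1 κ t r cθ cω : ℝ) (u : EE N → ℝ) (T1 : ℝ), SmX I u1 →
    r1 ∈ Ioo (0 : ℝ) 1 → 0 < κ → 0 ≤ t → r ∈ Ioo (0 : ℝ) 1 → SmX I u → GeO I n cθ cω u →
    IsMx I n (Jf c0 c1 u1 r1) κ t r cθ cω u H T1 →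
    ∀ tE : EE N → ℝ, SmX I tE → (∀ p ∈ Cone I, ∀ b : Fin n → EE N, Rep I a p b →
      tE p = ∑ i, dens I n cθ cω u p (b i)) →
      ∑ i, (LJf c0 c1 u1 r1 H (V i) +
        κ * t * Real.circleAverage (fun z => ‖z‖ ^ 2 * omg (H z) (V i z)) 0 r) ≤ κ * bav tE H := by
  intro c0 c1 u1 r1 κ t r cθ cω u T1 h1 h2 h3 h4 h5 h6 h7 h8 tE h9 h10
  have hv := fun i => hvar i c0 c1 u1 r1 κ t r cθ cω u T1 h1 h2 h3 h4 h5 h6 h7 h8
  refine (Finset.sum_le_sum fun i _ => (hv i).2).trans ?_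
  rw [← Finset.mul_sum, ← integral_finsetSum _ (fun i _ => (hv i).1),
    bav_eq hI hX hH hN hs hs1 hlim h9]
  refine le_of_eq ?_
  congr 1
  refine integral_congr_ae ?_
  filter_upwards [hcone, hrep] with x hx hr
  exact (h10 _ hx _ hr).symm

open Crest.Agent.R269.Bd_402

/-- a sequence of radii along which `H` tends to its boundary function a.e. -/
theorem exists_seq {Hs : TT → EE N} (hBD : BD I H Hs) : ∃ s : ℕ → ℝ, (∀ j, s j ∈ Ioo (0 : ℝ) 1) ∧
    Tendsto s atTop (𝓝 1) ∧ ∀ᵐ t ∂mu, Tendsto (fun j => H (s j * zt t)) atTop (𝓝 (Hs t)) := by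
  obtain ⟨s, hs, hs1, hs2⟩ := common_seq3 hBD.h2 hBD.h2 hBD.h2
  refine ⟨s, hs, hs1, ?_⟩
  filter_upwards [hs2] with t ht
  have h3 : Tendsto (fun j => WithLp.ofLp (Hardy_142.ext (fun t => toH (Hs t)) (s j * zt t)))
      atTop (𝓝 (WithLp.ofLp (toH (Hs t)))) :=
    ((EuclideanSpace.equiv (Fin (N + 1)) ℂ).continuous.tendsto (toH (Hs t))).comp ht.1
  refine h3.congr fun j => ?_
  rw [hBD.ext_eq _ (mem_ball_zero_iff.1 (mem_ball_smul_zt (hs j) t))]
  rfl

/-- the field `var` of `WF_731.WF` from 402's boundary data -/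
theorem wf_var_BD (hI : I.IsPrime) (hX : IsSmoothProjective I n) {a : EE N → VV N}
    (hH : IsDisc I H) (hN : Normal H) {Hs : TT → EE N} (hBD : BD I H Hs)
    {V : Fin n → ℂ → EE N} {Q : Fin n → TT → FF N} (hvar : ∀ i, Var1 I n H Hs (V i) (Q i))
    (hrep : ∀ᵐ t ∂mu, Rep I a (Hs t) (fun i => hor (Q i t) (Hs t))) :
    ∀ (c0 c1 : ℝ) (u1 : EE N → ℝ) (r1 κ t r cθ cω : ℝ) (u : EE N → ℝ) (T1 : ℝ), SmX I u1 →
    r1 ∈ Ioo (0 : ℝ) 1 → 0 < κ → 0 ≤ t → r ∈ Ioo (0 : ℝ) 1 → SmX I u → GeO I n cθ cω u →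
    IsMx I n (Jf c0 c1 u1 r1) κ t r cθ cω u H T1 →
    ∀ tE : EE N → ℝ, SmX I tE → (∀ p ∈ Cone I, ∀ b : Fin n → EE N, Rep I a p b →
      tE p = ∑ i, dens I n cθ cω u p (b i)) →
      ∑ i, (LJf c0 c1 u1 r1 H (V i) +
        κ * t * Real.circleAverage (fun z => ‖z‖ ^ 2 * omg (H z) (V i z)) 0 r) ≤ κ * bav tE H := by
  obtain ⟨s, hs, hs1, hlim⟩ := exists_seq hBD
  exact wf_var hI hX hH hN hs hs1 hlim hBD.cone hvar hrep

end

end Crest.Agent.R269.WFvar_731
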