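import Mathlib
import Crest.Agent.R269.WFvar_731_Mg
import Crest.Agent.R269.Var3_60
import Crest.Agent.R269.WFA_402
import Crest.Agent.R269.Fin_731
import Crest.Prelude.Def_ProjPluricanonical
import Crest.Agent.R269.H0tw_795
import Crest.Agent.R269.Cnt8_197
import Crest.Agent.R269.Chart_632
import Crest.Agent.R269.Reg10_241
import Crest.Agent.R269.PAsm5_976_Mg
import Crest.Agent.R269.Alp5_927
import Crest.Agent.R271.G3_792
import Crest.Agent.R271.Engine_51
import Crest.Agent.R269.Amp3_243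
import Crest.Agent.R269.Amp4_243
import Crest.Agent.R269.GeoT_328
import Crest.Agent.R269.PAsm3_976
import Crest.Agent.R269.PosC_632
import Crest.Agent.R269.DictG2_795
import Crest.Agent.R269.MAAsm_128
import Crest.Agent.R269.ResC_19
import Crest.Agent.R269.RegProof_390_Mg

-- ▼ part R269/VarEnd_740
section

/-!
# R269 (S0411), Line B: `VarStmt`, `WFStmt`, `TStmt`, `TDelStmt` (helper740)
-/

set_option autoImplicit false

open Crest.AlgGeometry.ProjEmb Crest.Agent.R269.Geo_328 Crest.Agent.R269.DefsS_731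
open Crest.Agent.R269.Hardy_142 Crest.Agent.R269.Bd_402 Crest.Agent.R269.Frame_402
open Crest.Agent.R269.Rep2_430 (frm frm_tan wE_frm)
open Metric

namespace Crest.Agent.R269.VarEnd_740

theorem varStmt : WFA_402.VarStmt := by
  intro N n I hI hX _ Pi a _ _ Y B H Hs v hH hN hBD hW
  obtain ⟨s, hs, hs1, hlim⟩ := WFvar_731.exists_seq hBD
  have hBH : SVar3_740.BH I H Hs s := ⟨hs, hs1, hlim, hBD.nsq_eq⟩
  refine WFvar_731.wf_var_BD hI hX hH hN hBD (Q := fun i => (v i : TT → Fib_402.FF N)) ?_ hW.rep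
  intro i c0 c1 u1 r1 κ t r cθ cω u T1 hu1 hr1 hκ _ hr hu hG hmx
  exact SVar3_740.var_MM hI hX Y hu1 ⟨hr1.1.le, hr1.2⟩ ⟨hr.1.le, hr.2⟩ hκ.le hu hG hmx hBH
    (fun c => Var3_60.hasVar hI hX Y c hH hN.le_one) (hW.mem i)
    (fun z hz => frm_tan hX hH hW.mem i hz) (fun z hz => wE_frm hX hH hW.mem i hz)

theorem wfStmt : WF_731.WFStmt :=
  WFA_402.wfStmt_of (fun _ _ _ hI hX => Var3_60.exists_Flds hI hX) varStmt

theorem tStmt : Defs_58.TStmt := Fin_731.tStmt_of wfStmt

theorem tDelStmt : Defs_58.TDelStmt := Fin_731.tDelStmt_of wfStmt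

end Crest.Agent.R269.VarEnd_740
end

-- ▼ part R269/Cnt9_197
section

/-!
Row 269, P10-COUNT, part 9: the counting theorem for helper795's `H0tw`.
-/

set_option autoImplicit false
set_option linter.unusedSectionVars false

open MvPolynomial Module Crest.AlgGeometry.ProjEmb
open Crest.Agent.R269.DictA_795 Crest.Agent.R269.DictB_795 Crest.Agent.R269.DictC_795
open Crest.Agent.R269.H0tw_795 Crest.Agent.R269.Cnt4_197 Crest.Agent.R269.Cnt8_197

noncomputable section

namespace Crest.Agent.R269.Cnt9_197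

variable {N n : ℕ} {I : Ideal (HomCoordRing N)} [I.IsPrime]

theorem TW_eq (l : Fin (N + 1)) (a : ℕ) (j : ℤ) : TW I n l a j = H0tw I n l a j := by
  ext s
  rw [mem_H0tw]
  rfl

/-- the local rings are integrally closed in the function field -/
def StalkClosed (I : Ideal (HomCoordRing N)) [I.IsPrime] : Prop :=
  ∀ p ∈ affineCone I, p ≠ 0 → ∀ g : FnField I, IsIntegral (stalk I p) g → g ∈ stalk I p

/-- the function field has transcendence degree at most `n` -/
def TrLe (I : Ideal (HomCoordRing N)) [I.IsPrime] (n : ℕ) : Prop :=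
  ∀ (r : ℕ) (y : Fin r → FnField I), AlgebraicIndependent ℂ y → r ≤ n


/-- finite dimensionality does not need the transcendence degree -/
theorem finite_H0tw (hX : IsSmoothProjective I n) {l : Fin (N + 1)}
    (hl : (X l : HomCoordRing N) ∉ I) {c : CD I n} {q : Fin (N + 1) → ℂ} (h : c.Dom q)
    (a j : ℕ) : Module.Finite ℂ (H0tw I n l a j) := by
  obtain ⟨r, y, C, hy, hC⟩ := crude_TW hX h hl
  rw [← TW_eq]
  exact (hC a j).1

/-- **BIG** for `H0tw`. -/
theorem big_H0tw (hX : IsSmoothProjective I n) (hn : 1 ≤ n) {l : Fin (N + 1)}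
    (hl : (X l : HomCoordRing N) ∉ I) {c : CD I n} {q : Fin (N + 1) → ℂ} (h : c.Dom q)
    (hcl : StalkClosed I) (htr : TrLe I n) (c2 : ℝ) (hc2 : 0 < c2) (j0 : ℕ) :
    ∃ q : ℕ, 1 ≤ q ∧ ∃ m0 : ℕ, ∀ m : ℕ, m0 ≤ m →
      c2 * (m : ℝ) ^ n ≤ finrank ℂ (H0tw I n l (m + 1) ((m / q + j0 : ℕ) : ℤ)) →
      ∃ s ∈ H0tw I n l (m + 1) (-1), s ≠ 0 := by
  obtain ⟨q, hq, m0, hm0⟩ := big hX hn hl h hcl htr c2 hc2 j0
  refine ⟨q, hq, m0, fun m hm hbig => ?_⟩
  have := hm0 m hm (by rw [TW_eq]; exact hbig)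
  rwa [TW_eq] at this

end Crest.Agent.R269.Cnt9_197
end
end

-- ▼ part R269/BigLin_85
section

/-!
# R269 (S0411), linear algebra of the BIG assembly (helper85)

* `finrank_map_comap` : for `f : B → W` injective, `g : B → U` linear and `H ≤ W` finite dimensional,
  `g (f⁻¹ H)` is finite dimensional of dimension `≤ dim H`;
* `ev_injective` : the elements of a reduced `ℂ`-algebra of finite type are separated by its points
  (used only through `exists_pt_ne`);
* `smul_form_injective` : `b ↦ φ b • w` is injective for `φ` injective and `w ≠ 0`.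
-/

set_option autoImplicit false

open Module

namespace Crest.Agent.R269.BigLin_85

section lin

variable {B W U : Type*} [AddCommGroup B] [Module ℂ B] [AddCommGroup W] [Module ℂ W]
  [AddCommGroup U] [Module ℂ U]

theorem finrank_comap {f : B →ₗ[ℂ] W} (hf : Function.Injective f) (H : Submodule ℂ W)
    [FiniteDimensional ℂ H] :
    FiniteDimensional ℂ (H.comap f) ∧ finrank ℂ (H.comap f) ≤ finrank ℂ H := by
  let r : (H.comap f) →ₗ[ℂ] H := f.restrict (p := H.comap f) (q := H) fun x hx => hx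
  have hr : Function.Injective r := by
    intro x y hxy
    apply Subtype.ext
    apply hf
    have := congrArg Subtype.val hxy
    exact this
  exact ⟨FiniteDimensional.of_injective r hr, LinearMap.finrank_le_finrank_of_injective hr⟩

theorem finrank_map_comap {f : B →ₗ[ℂ] W} (hf : Function.Injective f) (g : B →ₗ[ℂ] U)
    (H : Submodule ℂ W) [FiniteDimensional ℂ H] :
    FiniteDimensional ℂ ((H.comap f).map g) ∧ finrank ℂ ((H.comap f).map g) ≤ finrank ℂ H := by
  obtain ⟨h1, h2⟩ := finrank_comap hf H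
  refine ⟨inferInstance, ?_⟩
  exact (Submodule.finrank_map_le g (H.comap f)).trans h2

end lin

section ev

variable {B : Type*} [CommRing B] [Algebra ℂ B]

/-- evaluation at all points, as a linear map -/
def evL (B : Type*) [CommRing B] [Algebra ℂ B] : B →ₗ[ℂ] ((B →ₐ[ℂ] ℂ) → ℂ) where
  toFun b := fun y => y b
  map_add' := by intro a b; funext y; simp
  map_smul' := by intro c b; funext y; simp

@[simp] theorem evL_apply (b : B) (y : B →ₐ[ℂ] ℂ) : evL B b y = y b := rfl

end ev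

section form

open Crest.AlgGeometry.ProjEmb

variable {N : ℕ} {I : Ideal (HomCoordRing N)} [I.IsPrime] {n m : ℕ}

/-- `b ↦ φ b • w` as a `ℂ`-linear map into the rational pluricanonical forms -/
noncomputable def formL {B : Type*} [CommRing B] [Algebra ℂ B] (φ : B →ₐ[ℂ] FnField I)
    (w : PluriForms I n m) : B →ₗ[ℂ] PluriForms I n m where
  toFun b := φ b • w
  map_add' := by intro a b; rw [map_add, add_smul]
  map_smul' := by
    intro c b
    rw [map_smul, RingHom.id_apply, smul_assoc]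

@[simp] theorem formL_apply {B : Type*} [CommRing B] [Algebra ℂ B] (φ : B →ₐ[ℂ] FnField I)
    (w : PluriForms I n m) (b : B) : formL φ w b = φ b • w := rfl

theorem formL_injective {B : Type*} [CommRing B] [Algebra ℂ B] {φ : B →ₐ[ℂ] FnField I}
    (hφ : Function.Injective φ) {w : PluriForms I n m} (hw : w ≠ 0) :
    Function.Injective (formL φ w) := by
  rw [injective_iff_map_eq_zero]
  intro b hb
  rw [formL_apply] at hb
  rcases smul_eq_zero.1 hb with h | h
  · exact (injective_iff_map_eq_zero φ).1 hφ b h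
  · exact absurd h hw

/-- the space of functions on `Hom(B, ℂ)` attached to a space of forms -/
noncomputable def VV {B : Type*} [CommRing B] [Algebra ℂ B] (φ : B →ₐ[ℂ] FnField I)
    (w : PluriForms I n m) (H : Submodule ℂ (PluriForms I n m)) :
    Submodule ℂ ((B →ₐ[ℂ] ℂ) → ℂ) :=
  (H.comap (formL φ w)).map (evL B)

theorem mem_VV {B : Type*} [CommRing B] [Algebra ℂ B] {φ : B →ₐ[ℂ] FnField I}
    {w : PluriForms I n m} {H : Submodule ℂ (PluriForms I n m)} {F : (B →ₐ[ℂ] ℂ) → ℂ} :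
    F ∈ VV φ w H ↔ ∃ b : B, φ b • w ∈ H ∧ ∀ y, F y = y b := by
  constructor
  · rintro ⟨b, hb, rfl⟩
    exact ⟨b, hb, fun y => rfl⟩
  · rintro ⟨b, hb, h⟩
    exact ⟨b, hb, (funext h).symm⟩

theorem finrank_VV {B : Type*} [CommRing B] [Algebra ℂ B] {φ : B →ₐ[ℂ] FnField I}
    (hφ : Function.Injective φ) {w : PluriForms I n m} (hw : w ≠ 0)
    (H : Submodule ℂ (PluriForms I n m)) [FiniteDimensional ℂ H] :
    FiniteDimensional ℂ (VV φ w H) ∧ finrank ℂ (VV φ w H) ≤ finrank ℂ H :=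
  finrank_map_comap (formL_injective hφ hw) (evL B) H

end form

end Crest.Agent.R269.BigLin_85
end

-- ▼ part R269/Reg1_241
section

/-!
Row 269 (S0411), leaf D4/REG, part 1 (helper241): analytic divisibility along a smooth germ implies
algebraic divisibility in the local ring.

`S = ℂ[x_ι]`, `I` an ideal, `p` a point, `τ : ℂ^m → ℂ^ι` an analytic parametrisation of the zero set
of `I` near `p` by `m` of the coordinates, and the Jacobian condition at `p`.

* `mem_of_isBigO` : `f ∘ τ = O(|t - t₀|^k)` implies `f ∈ 𝔪^k + I`;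
* `div_of_analytic` : `G ∘ τ = φ · (H ∘ τ)` with `φ` analytic implies `H' G - G' H ∈ I` with
  `H'(p) ≠ 0`.
-/

set_option autoImplicit false
set_option linter.unusedSectionVars false
set_option linter.unusedSimpArgs false

open MvPolynomial Topology Filter Asymptotics

noncomputable section

namespace Crest.Agent.R269.Reg1_241

variable {ι : Type*} [Fintype ι] [DecidableEq ι]

/-- the maximal ideal of the point `p` -/
def mx (p : ι → ℂ) : Ideal (MvPolynomial ι ℂ) :=
  Ideal.span (Set.range fun j => (X j - C (p j) : MvPolynomial ι ℂ))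

lemma X_sub_mem (p : ι → ℂ) (j : ι) : (X j - C (p j) : MvPolynomial ι ℂ) ∈ mx p :=
  Ideal.subset_span ⟨j, rfl⟩

lemma eval_of_mem {p : ι → ℂ} {f : MvPolynomial ι ℂ} (h : f ∈ mx p) : eval p f = 0 := by
  have : mx p ≤ RingHom.ker (eval p) := by
    rw [mx, Ideal.span_le]
    rintro _ ⟨j, rfl⟩
    simp [RingHom.mem_ker]
  exact this h

lemma sub_eval_mem (p : ι → ℂ) (f : MvPolynomial ι ℂ) : f - C (eval p f) ∈ mx p := by
  induction f using MvPolynomial.induction_on with
  | C a => simp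
  | add f g hf hg =>
    have := (mx p).add_mem hf hg
    simp only [map_add]
    convert this using 1
    ring
  | mul_X f j hf =>
    have h1 := (mx p).mul_mem_right (X j) hf
    have h2 := (mx p).mul_mem_left (C (eval p f)) (X_sub_mem p j)
    have := (mx p).add_mem h1 h2
    convert this using 1
    simp only [map_mul, eval_X]
    ring


/-- first order Taylor expansion -/
lemma taylor1 (p : ι → ℂ) (F : MvPolynomial ι ℂ) :
    F - C (eval p F) - ∑ j, C (eval p (pderiv j F)) * (X j - C (p j)) ∈ mx p ^ 2 := by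
  induction F using MvPolynomial.induction_on with
  | C a => simp
  | add f g hf hg =>
    have := (mx p ^ 2).add_mem hf hg
    convert this using 1
    simp only [map_add, add_mul, Finset.sum_add_distrib]
    ring
  | mul_X f i hf =>
    have h1 := (mx p ^ 2).mul_mem_left (X i) hf
    have h2 : (X i - C (p i)) * (∑ j, C (eval p (pderiv j f)) * (X j - C (p j))) ∈ mx p ^ 2 := by
      rw [pow_two]
      refine Ideal.mul_mem_mul (X_sub_mem p i) (Ideal.sum_mem _ fun j _ => ?_)
      exact Ideal.mul_mem_left _ _ (X_sub_mem p j)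
    have := (mx p ^ 2).add_mem h1 h2
    convert this using 1
    have h3 : ∀ j, eval p (pderiv j (f * X i)) =
        eval p (pderiv j f) * p i + eval p f * (if j = i then 1 else 0) := by
      intro j
      rw [Derivation.leibniz]
      simp only [smul_eq_mul, map_add, map_mul, eval_X, pderiv_X, Pi.single_apply]
      split_ifs with h h' h'
      · simp; ring
      · exact absurd h.symm h'
      · exact absurd h'.symm h
      · simp; ring
    simp only [h3, map_add, map_mul, add_mul, Finset.sum_add_distrib, eval_X]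
    have h4 : ∑ j, C (eval p f) * C (if j = i then (1 : ℂ) else 0) * (X j - C (p j)) =
        (C (eval p f) * (X i - C (p i)) : MvPolynomial ι ℂ) := by
      rw [Finset.sum_eq_single i]
      · simp
      · intro b _ hb; simp [hb]
      · simp
    rw [h4]
    have h5 : ∑ j, C (eval p (pderiv j f)) * C (p i) * (X j - C (p j)) =
        (C (p i) * ∑ j, C (eval p (pderiv j f)) * (X j - C (p j)) : MvPolynomial ι ℂ) := by
      rw [Finset.mul_sum]
      refine Finset.sum_congr rfl fun j _ => by ring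
    rw [h5]
    ring

/-- the gradients of the members of `I` at `p` -/
def gradSub (I : Ideal (MvPolynomial ι ℂ)) (p : ι → ℂ) : Submodule ℂ (ι → ℂ) where
  carrier := {v | ∃ F ∈ I, v = fun j => eval p (pderiv j F)}
  zero_mem' := ⟨0, I.zero_mem, by ext j; simp⟩
  add_mem' := by
    rintro _ _ ⟨F, hF, rfl⟩ ⟨G, hG, rfl⟩
    exact ⟨F + G, I.add_mem hF hG, by ext j; simp⟩
  smul_mem' := by
    rintro c _ ⟨F, hF, rfl⟩
    exact ⟨C c * F, I.mul_mem_left _ hF, by ext j; simp [Derivation.leibniz]⟩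

variable {m : ℕ} (I : Ideal (MvPolynomial ι ℂ)) (p : ι → ℂ) (y : Fin m → ι)

/-- Jacobian condition: the coordinates `y` are coordinates on the tangent space. -/
def JacOK : Prop :=
  ∀ v : ι → ℂ, (∀ F ∈ I, ∑ j, v j * eval p (pderiv j F) = 0) → (∀ k, v (y k) = 0) → v = 0

/-- substitution `X_k ↦ x_{y k} - p_{y k}` -/
def psi : MvPolynomial (Fin m) ℂ →ₐ[ℂ] MvPolynomial ι ℂ :=
  aeval fun k => (X (y k) - C (p (y k)) : MvPolynomial ι ℂ)

/-- the ideal generated by the coordinates `y` -/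
def nn : Ideal (MvPolynomial ι ℂ) :=
  Ideal.span (Set.range fun k => (X (y k) - C (p (y k)) : MvPolynomial ι ℂ))

variable {I p y}

lemma nn_le : nn p y ≤ mx p := by
  rw [nn, Ideal.span_le]
  rintro _ ⟨k, rfl⟩
  exact X_sub_mem p (y k)

/-- linear algebra: every coordinate vector is a gradient plus a combination of the `e_{y k}` -/
lemma exists_grad (hJ : JacOK I p y) (j : ι) :
    ∃ F ∈ I, ∃ c : Fin m → ℂ, ∀ l, (Pi.single j (1 : ℂ) : ι → ℂ) l =
      eval p (pderiv l F) + ∑ k, c k * (Pi.single (y k) (1 : ℂ) : ι → ℂ) l := by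
  set U : Submodule ℂ (ι → ℂ) := gradSub I p ⊔ Submodule.span ℂ
    (Set.range fun k => (Pi.single (y k) (1 : ℂ) : ι → ℂ)) with hU
  have htop : U = ⊤ := by
    by_contra hne
    obtain ⟨f, hf, hfU⟩ := Submodule.exists_le_ker_of_lt_top U (lt_top_iff_ne_top.2 hne)
    apply hf
    have hrep : ∀ v : ι → ℂ, f v = ∑ l, f (Pi.single l 1) * v l := by
      intro v
      conv_lhs => rw [← Finset.univ_sum_single v]
      rw [map_sum]
      refine Finset.sum_congr rfl fun l _ => ?_
      have : (Pi.single l (v l) : ι → ℂ) = v l • (Pi.single l (1 : ℂ) : ι → ℂ) := by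
        rw [← Pi.single_smul]; simp
      rw [this, map_smul, smul_eq_mul, mul_comm]
    have hz := hJ (fun l => f (Pi.single l 1)) (by
      intro F hF
      have h1 : (fun j => eval p (pderiv j F)) ∈ U :=
        Submodule.mem_sup_left ⟨F, hF, rfl⟩
      have h2 := hfU h1
      rw [LinearMap.mem_ker, hrep] at h2
      exact h2) (by
      intro k
      have h1 : (Pi.single (y k) (1 : ℂ) : ι → ℂ) ∈ U :=
        Submodule.mem_sup_right (Submodule.subset_span ⟨k, rfl⟩)
      exact hfU h1)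
    ext l
    have := congrFun hz l
    simpa using this
  have hmem : (Pi.single j (1 : ℂ) : ι → ℂ) ∈ U := htop ▸ Submodule.mem_top
  obtain ⟨a, ⟨F, hF, rfl⟩, b, hb, hab⟩ := Submodule.mem_sup.1 hmem
  obtain ⟨c, rfl⟩ := (Submodule.mem_span_range_iff_exists_fun ℂ).1 hb
  refine ⟨F, hF, c, fun l => ?_⟩
  have := congrFun hab l
  simp only [Pi.add_apply, Finset.sum_apply, Pi.smul_apply, smul_eq_mul] at this
  exact this.symm

/-- the maximal ideal is generated by the coordinates `y` modulo `𝔪² + I` -/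
lemma mx_le (hI : ∀ F ∈ I, eval p F = 0) (hJ : JacOK I p y) : mx p ≤ nn p y ⊔ (mx p ^ 2 ⊔ I) := by
  rw [mx, Ideal.span_le]
  rintro _ ⟨j, rfl⟩
  obtain ⟨F, hF, c, hc⟩ := exists_grad hJ j
  have h1 := taylor1 p F
  rw [hI F hF] at h1
  have h2 : (∑ l, C (eval p (pderiv l F)) * (X l - C (p l)) : MvPolynomial ι ℂ) =
      (X j - C (p j)) - ∑ k, C (c k) * (X (y k) - C (p (y k))) := by
    have h3 : ∀ l, eval p (pderiv l F) = (Pi.single j (1 : ℂ) : ι → ℂ) l -
        ∑ k, c k * (Pi.single (y k) (1 : ℂ) : ι → ℂ) l := fun l => by rw [hc l]; ring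
    simp only [h3, map_sub, map_sum, sub_mul, Finset.sum_sub_distrib, Finset.sum_mul, map_mul]
    congr 1
    · rw [Finset.sum_eq_single j]
      · simp
      · intro b _ hb; simp [Pi.single_apply, hb]
      · simp
    · rw [Finset.sum_comm]
      refine Finset.sum_congr rfl fun k _ => ?_
      rw [Finset.sum_eq_single (y k)]
      · simp
      · intro b _ hb; simp [Pi.single_apply, hb]
      · simp
  rw [h2] at h1
  have h4 : (X j - C (p j) : MvPolynomial ι ℂ) =
      ∑ k, C (c k) * (X (y k) - C (p (y k))) +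
      (-(F - C 0 - ((X j - C (p j)) - ∑ k, C (c k) * (X (y k) - C (p (y k))))) + F) := by
    simp only [map_zero]; ring
  have h5 : (∑ k, C (c k) * (X (y k) - C (p (y k))) : MvPolynomial ι ℂ) ∈ nn p y :=
    Ideal.sum_mem _ fun k _ => Ideal.mul_mem_left _ _ (Ideal.subset_span ⟨k, rfl⟩)
  have h6 : (-(F - C 0 - ((X j - C (p j)) - ∑ k, C (c k) * (X (y k) - C (p (y k))))) + F)
      ∈ mx p ^ 2 ⊔ I :=
    Submodule.add_mem_sup ((mx p ^ 2).neg_mem h1) hF
  show (X j - C (p j) : MvPolynomial ι ℂ) ∈ nn p y ⊔ (mx p ^ 2 ⊔ I)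
  rw [h4]
  exact Submodule.add_mem_sup h5 h6

lemma mx_pow_le (hI : ∀ F ∈ I, eval p F = 0) (hJ : JacOK I p y) (k : ℕ) :
    mx p ^ k ≤ nn p y ^ k ⊔ (mx p ^ (k + 1) ⊔ I) := by
  induction k with
  | zero => simp
  | succ k ih =>
    have hn := nn_le (p := p) (y := y)
    calc mx p ^ (k + 1) = mx p ^ k * mx p := pow_succ _ _
      _ ≤ (nn p y ^ k ⊔ (mx p ^ (k + 1) ⊔ I)) * (nn p y ⊔ (mx p ^ 2 ⊔ I)) :=
        Ideal.mul_mono ih (mx_le hI hJ)
      _ ≤ nn p y ^ (k + 1) ⊔ (mx p ^ (k + 1 + 1) ⊔ I) := by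
        rw [Ideal.sup_mul, Ideal.sup_mul, Ideal.mul_sup, Ideal.mul_sup]
        have hnk : nn p y ^ k ≤ mx p ^ k := Ideal.pow_right_mono hn k
        refine sup_le (sup_le ?_ (sup_le ?_ ?_)) (sup_le (?_) ?_)
        · rw [← pow_succ]; exact le_sup_left
        · refine le_sup_of_le_right (le_sup_of_le_left ?_)
          calc nn p y ^ k * mx p ^ 2 ≤ mx p ^ k * mx p ^ 2 := Ideal.mul_mono_left hnk
            _ = mx p ^ (k + 1 + 1) := by rw [← pow_add]
        · exact le_sup_of_le_right (le_sup_of_le_right Ideal.mul_le_right)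
        · rw [Ideal.mul_sup, Ideal.mul_sup]
          refine sup_le ?_ (sup_le ?_ ?_)
          · refine le_sup_of_le_right (le_sup_of_le_left ?_)
            calc mx p ^ (k + 1) * nn p y ≤ mx p ^ (k + 1) * mx p := Ideal.mul_mono_right hn
              _ = mx p ^ (k + 1 + 1) := by rw [← pow_succ]
          · refine le_sup_of_le_right (le_sup_of_le_left ?_)
            calc mx p ^ (k + 1) * mx p ^ 2 = mx p ^ (k + 1 + 2) := by rw [← pow_add]
              _ ≤ mx p ^ (k + 1 + 1) := Ideal.pow_le_pow_right (by omega)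
          · exact le_sup_of_le_right (le_sup_of_le_right Ideal.mul_le_right)
        · exact le_sup_of_le_right (le_sup_of_le_right Ideal.mul_le_left)

/-- the irrelevant ideal of `ℂ[X_1..X_m]` -/
def mP (m : ℕ) : Ideal (MvPolynomial (Fin m) ℂ) := Ideal.span (Set.range X)

lemma nn_eq_map : nn p y = (mP m).map (psi p y) := by
  rw [mP, Ideal.map_span, nn]
  congr 1
  ext f
  simp [psi, Set.range_comp']

lemma psi_mem {k : ℕ} {Q : MvPolynomial (Fin m) ℂ} (hQ : Q ∈ mP m ^ k) :
    psi p y Q ∈ mx p ^ k := by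
  have h1 : psi p y Q ∈ (mP m ^ k).map (psi p y) := Ideal.mem_map_of_mem _ hQ
  rw [Ideal.map_pow, ← nn_eq_map] at h1
  exact Ideal.pow_right_mono nn_le k h1

lemma exists_psi_of_nn {k : ℕ} {g : MvPolynomial ι ℂ} (hg : g ∈ nn p y ^ k) :
    ∃ Q ∈ mP m ^ k, g - psi p y Q ∈ mx p ^ (k + 1) := by
  rw [nn_eq_map, ← Ideal.map_pow, Ideal.map] at hg
  refine Submodule.span_induction ?_ ?_ ?_ ?_ hg
  · rintro _ ⟨Q, hQ, rfl⟩
    exact ⟨Q, hQ, by simp⟩
  · exact ⟨0, Ideal.zero_mem _, by simp⟩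
  · rintro a b _ _ ⟨Q, hQ, h1⟩ ⟨Q', hQ', h2⟩
    refine ⟨Q + Q', Ideal.add_mem _ hQ hQ', ?_⟩
    have := Ideal.add_mem _ h1 h2
    convert this using 1
    rw [map_add]; ring
  · rintro s a _ ⟨Q, hQ, h1⟩
    refine ⟨C (eval p s) * Q, Ideal.mul_mem_left _ _ hQ, ?_⟩
    have h2 : (s - C (eval p s)) * psi p y Q ∈ mx p ^ (k + 1) := by
      rw [pow_succ, mul_comm (mx p ^ k)]
      exact Ideal.mul_mem_mul (sub_eval_mem p s) (psi_mem hQ)
    have h3 := Ideal.add_mem _ (Ideal.mul_mem_left _ s h1) h2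
    convert h3 using 1
    rw [map_mul, smul_eq_mul]
    have : psi p y (C (eval p s)) = C (eval p s) := by
      simp [psi]
    rw [this]; ring

/-- every polynomial is congruent to a polynomial in the coordinates `y` modulo `𝔪^k + I` -/
lemma exists_psi (hI : ∀ F ∈ I, eval p F = 0) (hJ : JacOK I p y) (k : ℕ)
    (f : MvPolynomial ι ℂ) : ∃ Q : MvPolynomial (Fin m) ℂ, f - psi p y Q ∈ mx p ^ k ⊔ I := by
  induction k with
  | zero => exact ⟨0, by simp⟩
  | succ k ih =>
    obtain ⟨Q, hQ⟩ := ih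
    obtain ⟨a, ha, b, hb, hab⟩ := Submodule.mem_sup.1 hQ
    obtain ⟨c, hc, d, hd, hcd⟩ := Submodule.mem_sup.1 (mx_pow_le hI hJ k ha)
    obtain ⟨Q', -, hQ'⟩ := exists_psi_of_nn hc
    refine ⟨Q + Q', ?_⟩
    have h1 : f - psi p y (Q + Q') = (c - psi p y Q') + d + b := by
      rw [map_add]
      linear_combination -hab - hcd
    rw [h1]
    refine Ideal.add_mem _ (Ideal.add_mem _ (Submodule.mem_sup_left hQ') hd)
      (Submodule.mem_sup_right hb)

end Crest.Agent.R269.Reg1_241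
end
end

-- ▼ part R269/Reg2_241
section

/-!
Row 269 (S0411), leaf D4/REG, part 2 (helper241): orders of vanishing along a germ, Taylor
polynomials, and the division theorem.
-/

set_option autoImplicit false
set_option linter.unusedSectionVars false
set_option linter.unusedSimpArgs false

open MvPolynomial Topology Filter Asymptotics

noncomputable section

namespace Crest.Agent.R269.Reg2_241

open Crest.Agent.R269.Reg1_241

/-! ### polynomials which are `O(‖s‖^k)` -/

/-- a one variable polynomial which is `O(|r|^k)` at `0` has no coefficients below `k` -/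
lemma coeff_eq_zero_of_isBigO {q : Polynomial ℂ} {k : ℕ}
    (h : (fun r : ℂ => q.eval r) =O[𝓝 0] fun r => ‖r‖ ^ k) {j : ℕ} (hj : j < k) :
    q.coeff j = 0 := by
  induction j using Nat.strong_induction_on with
  | _ j ih =>
    -- `q = X^j * q'`
    have hdvd : (Polynomial.X : Polynomial ℂ) ^ j ∣ q := by
      rw [Polynomial.X_pow_dvd_iff]
      intro d hd
      exact ih d hd (hd.trans hj)
    obtain ⟨q', rfl⟩ := hdvd
    have h0 : ((Polynomial.X : Polynomial ℂ) ^ j * q').coeff j = q'.eval 0 := by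
      have := Polynomial.coeff_X_pow_mul q' j 0
      simpa [Polynomial.coeff_zero_eq_eval_zero] using this
    rw [h0]
    have h1 : Tendsto (fun r : ℂ => q'.eval r) (𝓝[≠] 0) (𝓝 (q'.eval 0)) :=
      (q'.continuous.tendsto 0).mono_left nhdsWithin_le_nhds
    have h2 : Tendsto (fun r : ℂ => q'.eval r) (𝓝[≠] 0) (𝓝 0) := by
      obtain ⟨c, hc⟩ := (h.mono (nhdsWithin_le_nhds (s := {(0 : ℂ)}ᶜ))).bound
      have h3 : Tendsto (fun r : ℂ => c * ‖r‖ ^ (k - j)) (𝓝[≠] 0) (𝓝 0) := by
        have : Tendsto (fun r : ℂ => c * ‖r‖ ^ (k - j)) (𝓝 0) (𝓝 (c * ‖(0 : ℂ)‖ ^ (k - j))) :=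
          (Continuous.tendsto (by fun_prop) 0)
        rw [norm_zero, zero_pow (by omega), mul_zero] at this
        exact this.mono_left nhdsWithin_le_nhds
      refine squeeze_zero_norm' ?_ h3
      filter_upwards [hc, self_mem_nhdsWithin] with r hr hr0
      have hr0' : 0 < ‖r‖ := norm_pos_iff.2 hr0
      simp only [Polynomial.eval_mul, Polynomial.eval_pow, Polynomial.eval_X, norm_mul,
        norm_pow, norm_norm] at hr
      have h4 : ‖r‖ ^ k = ‖r‖ ^ j * ‖r‖ ^ (k - j) := by rw [← pow_add]; congr 1; omega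
      rw [h4] at hr
      have h5 : ‖r‖ ^ j * ‖q'.eval r‖ ≤ ‖r‖ ^ j * (c * ‖r‖ ^ (k - j)) := by
        calc _ ≤ _ := hr
          _ = _ := by ring
      exact le_of_mul_le_mul_left h5 (by positivity)
    exact tendsto_nhds_unique h1 h2

variable {m : ℕ}

/-- restriction of a polynomial to the line through `v` -/
def line (Q : MvPolynomial (Fin m) ℂ) (v : Fin m → ℂ) : Polynomial ℂ :=
  aeval (fun i => Polynomial.C (v i) * Polynomial.X) Q

lemma line_eval (Q : MvPolynomial (Fin m) ℂ) (v : Fin m → ℂ) (r : ℂ) :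
    (line Q v).eval r = eval (r • v) Q := by
  have : (Polynomial.evalRingHom r).comp
      ((aeval (fun i => Polynomial.C (v i) * Polynomial.X) :
        MvPolynomial (Fin m) ℂ →ₐ[ℂ] Polynomial ℂ) : MvPolynomial (Fin m) ℂ →+* Polynomial ℂ) =
      eval (r • v) := by
    apply MvPolynomial.ringHom_ext
    · intro a
      simp only [RingHom.comp_apply, RingHom.coe_coe, algHom_C, Polynomial.coe_evalRingHom,
        Polynomial.algebraMap_apply, Algebra.algebraMap_self, RingHom.id_apply,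
        Polynomial.eval_C, eval_C]
    · intro i
      simp only [RingHom.comp_apply, RingHom.coe_coe, aeval_X, eval_X,
        Polynomial.coe_evalRingHom, Polynomial.eval_mul, Polynomial.eval_C, Polynomial.eval_X,
        Pi.smul_apply, smul_eq_mul]
      ring
  exact DFunLike.congr_fun this Q

lemma line_coeff (Q : MvPolynomial (Fin m) ℂ) (v : Fin m → ℂ) (j : ℕ) :
    (line Q v).coeff j = eval v (homogeneousComponent j Q) := by
  induction Q using MvPolynomial.induction_on' with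
  | monomial s a =>
    have h1 : line (monomial s a) v = Polynomial.C (eval v (monomial s a)) *
        Polynomial.X ^ (Finsupp.degree s) := by
      rw [line, aeval_monomial]
      simp only [mul_pow, Finsupp.prod_mul, ← Polynomial.C_pow]
      rw [eval_monomial, map_mul, Finsupp.prod, Finsupp.prod, Finsupp.prod, map_prod,
        Finsupp.degree_apply, Finset.prod_pow_eq_pow_sum]
      simp only [Polynomial.algebraMap_apply, Algebra.algebraMap_self, RingHom.id_apply]
      ring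
    have h0 : homogeneousComponent j (monomial s a) =
        if j = Finsupp.degree s then monomial s a else 0 :=
      homogeneousComponent_of_mem (isHomogeneous_monomial a rfl)
    rw [h1, Polynomial.coeff_C_mul, Polynomial.coeff_X_pow, h0]
    split_ifs with h2
    · simp
    · simp
  | add P Q hP hQ =>
    simp only [line, map_add, Polynomial.coeff_add] at *
    rw [hP, hQ]

/-- a polynomial which is `O(‖s‖^k)` at the origin lies in the `k`-th power of the irrelevant
ideal -/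
theorem mem_mP_of_isBigO {Q : MvPolynomial (Fin m) ℂ} {k : ℕ}
    (h : (fun s : Fin m → ℂ => eval s Q) =O[𝓝 0] fun s => ‖s‖ ^ k) : Q ∈ mP m ^ k := by
  have hc : ∀ j < k, homogeneousComponent j Q = 0 := by
    intro j hj
    refine MvPolynomial.funext fun v => ?_
    rw [← line_coeff, map_zero]
    refine coeff_eq_zero_of_isBigO (k := k) ?_ hj
    have h1 : Tendsto (fun r : ℂ => r • v) (𝓝 0) (𝓝 0) := by
      have : Tendsto (fun r : ℂ => r • v) (𝓝 0) (𝓝 ((0 : ℂ) • v)) :=
        Continuous.tendsto (by fun_prop) 0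
      simpa using this
    have h2 := h.comp_tendsto h1
    refine (h2.congr_left fun r => (line_eval Q v r).symm).trans ?_
    refine IsBigO.of_bound (‖v‖ ^ k) (Eventually.of_forall fun r => ?_)
    simp only [Function.comp_apply, norm_smul, mul_pow, norm_mul, norm_pow, norm_norm]
    rw [mul_comm]
  have : mP m = idealOfVars (Fin m) ℂ := rfl
  rw [this, mem_pow_idealOfVars_iff']
  intro x hx
  have h2 := congrArg (coeff x) (hc _ hx)
  rw [coeff_homogeneousComponent] at h2
  simpa using h2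

/-! ### orders along a germ -/

variable {ι : Type*} [Fintype ι] [DecidableEq ι]

/-- elements of `𝔪_p^k` vanish to order `k` along every differentiable germ at `p` -/
lemma isBigO_of_mem {p : ι → ℂ} {τ : (Fin m → ℂ) → (ι → ℂ)} {t₀ : Fin m → ℂ}
    (hτ : (fun t => τ t - p) =O[𝓝 t₀] fun t => t - t₀) {k : ℕ} {f : MvPolynomial ι ℂ}
    (hf : f ∈ mx p ^ k) : (fun t => eval (τ t) f) =O[𝓝 t₀] fun t => ‖t - t₀‖ ^ k := by
  have hcont : ContinuousAt τ t₀ := by
    have h1 : Tendsto (fun t => τ t - p) (𝓝 t₀) (𝓝 0) :=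
      hτ.trans_tendsto (by
        have : Tendsto (fun t : Fin m → ℂ => t - t₀) (𝓝 t₀) (𝓝 (t₀ - t₀)) :=
          Continuous.tendsto (by fun_prop) t₀
        simpa using this)
    have h2 : Tendsto τ (𝓝 t₀) (𝓝 p) := by
      have := h1.add_const p
      simpa using this
    have h3 : τ t₀ = p := by
      obtain ⟨c, hc⟩ := hτ.bound
      have := hc.self_of_nhds
      simp only [sub_self, norm_zero, mul_zero] at this
      exact sub_eq_zero.1 (norm_le_zero_iff.1 this)
    rw [ContinuousAt, h3]; exact h2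
  have hbd : ∀ g : MvPolynomial ι ℂ, (fun t => eval (τ t) g) =O[𝓝 t₀] fun _ => (1 : ℝ) := by
    intro g
    have : ContinuousAt (fun t => eval (τ t) g) t₀ :=
      (MvPolynomial.continuous_eval g).continuousAt.comp hcont
    exact this.isBigO_one ℝ
  induction k generalizing f with
  | zero => simpa using hbd f
  | succ k ih =>
    rw [pow_succ] at hf
    refine Submodule.mul_induction_on hf ?_ ?_
    · intro a ha b hb
      have h1 := ih ha
      have h2 : (fun t => eval (τ t) b) =O[𝓝 t₀] fun t => ‖t - t₀‖ := by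
        rw [mx] at hb
        refine Submodule.span_induction ?_ ?_ ?_ ?_ hb
        · rintro _ ⟨j, rfl⟩
          simp only [map_sub, eval_X, eval_C]
          have h3 : (fun t => τ t j - p j) =O[𝓝 t₀] fun t => τ t - p := by
            refine IsBigO.of_bound 1 (Eventually.of_forall fun t => ?_)
            rw [one_mul]
            exact norm_le_pi_norm (τ t - p) j
          exact (h3.trans hτ).norm_right
        · simpa using isBigO_zero _ _
        · intro x y _ _ hx hy
          simpa using hx.add hy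
        · intro s x _ hx
          have := (hbd s).mul hx
          simpa using this
      have := h1.mul h2
      simpa [pow_succ] using this
    · intro x y hx hy
      simpa using hx.add hy

variable {I : Ideal (MvPolynomial ι ℂ)} {p : ι → ℂ} {y : Fin m → ι}
  {τ : (Fin m → ℂ) → (ι → ℂ)} {t₀ : Fin m → ℂ}

/-- the germ data: an analytic (here: Lipschitz at the point) germ in the zero set of `I`, in graph
coordinates, and the Jacobian condition -/
structure Germ (I : Ideal (MvPolynomial ι ℂ)) (p : ι → ℂ) (y : Fin m → ι)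
    (τ : (Fin m → ℂ) → (ι → ℂ)) (t₀ : Fin m → ℂ) : Prop where
  jac : JacOK I p y
  bigO : (fun t => τ t - p) =O[𝓝 t₀] fun t => t - t₀
  coord : ∀ᶠ t in 𝓝 t₀, ∀ k, τ t (y k) = t k
  zero : ∀ᶠ t in 𝓝 t₀, ∀ F ∈ I, eval (τ t) F = 0

namespace Germ

lemma eq_p (hG : Germ I p y τ t₀) : τ t₀ = p := by
  obtain ⟨c, hc⟩ := hG.bigO.bound
  have := hc.self_of_nhds
  simp only [sub_self, norm_zero, mul_zero] at this
  exact sub_eq_zero.1 (norm_le_zero_iff.1 this)

lemma zero_p (hG : Germ I p y τ t₀) : ∀ F ∈ I, eval p F = 0 := by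
  have := hG.zero.self_of_nhds
  rw [hG.eq_p] at this
  exact this

lemma p_coord (hG : Germ I p y τ t₀) (k : Fin m) : p (y k) = t₀ k := by
  have := hG.coord.self_of_nhds k
  rw [hG.eq_p] at this
  exact this

lemma psi_eval (hG : Germ I p y τ t₀) (Q : MvPolynomial (Fin m) ℂ) :
    ∀ᶠ t in 𝓝 t₀, eval (τ t) (psi p y Q) = eval (t - t₀) Q := by
  filter_upwards [hG.coord] with t ht
  have h1 : (eval (τ t)).comp (psi p y : MvPolynomial (Fin m) ℂ →+* MvPolynomial ι ℂ) =
      eval (t - t₀) := by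
    apply MvPolynomial.ringHom_ext
    · intro a; simp [psi]
    · intro k; simp [psi, ht k, hG.p_coord k]
  exact DFunLike.congr_fun h1 Q

/-- **vanishing order along the germ = order in the local ring** -/
theorem mem_of_isBigO (hG : Germ I p y τ t₀) {f : MvPolynomial ι ℂ} {k : ℕ}
    (hf : (fun t => eval (τ t) f) =O[𝓝 t₀] fun t => ‖t - t₀‖ ^ k) : f ∈ mx p ^ k ⊔ I := by
  obtain ⟨Q, hQ⟩ := exists_psi hG.zero_p hG.jac k f
  obtain ⟨a, ha, b, hb, hab⟩ := Submodule.mem_sup.1 hQ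
  have h1 := isBigO_of_mem hG.bigO ha
  have h2 : (fun t => eval (t - t₀) Q) =O[𝓝 t₀] fun t => ‖t - t₀‖ ^ k := by
    refine (hf.sub h1).congr' ?_ EventuallyEq.rfl
    filter_upwards [hG.psi_eval Q, hG.zero] with t ht hz
    have h3 := congrArg (eval (τ t)) hab
    simp only [map_add, map_sub, hz b hb, ht] at h3
    linear_combination -h3
  have h3 : (fun s : Fin m → ℂ => eval s Q) =O[𝓝 0] fun s => ‖s‖ ^ k := by
    have h4 : Tendsto (fun s : Fin m → ℂ => s + t₀) (𝓝 0) (𝓝 t₀) := by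
      have : Tendsto (fun s : Fin m → ℂ => s + t₀) (𝓝 0) (𝓝 (0 + t₀)) :=
        Continuous.tendsto (by fun_prop) 0
      simpa using this
    have := h2.comp_tendsto h4
    simpa [Function.comp_def] using this
  have h4 := psi_mem (p := p) (y := y) (mem_mP_of_isBigO h3)
  have h5 : f = (a + psi p y Q) + b := by linear_combination -hab
  rw [h5]
  exact Submodule.add_mem_sup (Ideal.add_mem _ ha h4) hb

end Germ

/-! ### Krull -/

/-- `G ∈ 𝔪^k + I + (H)` for all `k` gives divisibility in the local ring -/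
theorem krull {G H : MvPolynomial ι ℂ} (h : ∀ k, G ∈ mx p ^ k ⊔ I ⊔ Ideal.span {H}) :
    ∃ H' G' : MvPolynomial ι ℂ, eval p H' ≠ 0 ∧ H' * G - G' * H ∈ I := by
  set K : Ideal (MvPolynomial ι ℂ) := I ⊔ Ideal.span {H} with hK
  have h1 : Ideal.Quotient.mk K G ∈
      (⨅ i : ℕ, mx p ^ i • ⊤ : Submodule (MvPolynomial ι ℂ) (MvPolynomial ι ℂ ⧸ K)) := by
    rw [Submodule.mem_iInf]
    intro k
    have h2 := h k
    rw [sup_assoc] at h2
    obtain ⟨a, ha, b, hb, hab⟩ := Submodule.mem_sup.1 h2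
    have h3 : Ideal.Quotient.mk K G = a • (1 : MvPolynomial ι ℂ ⧸ K) := by
      rw [← hab, map_add, Ideal.Quotient.eq_zero_iff_mem.2 hb, add_zero]
      rw [Algebra.smul_def, mul_one]; rfl
    rw [h3]
    exact Submodule.smul_mem_smul ha Submodule.mem_top
  rw [Ideal.mem_iInf_smul_pow_eq_bot_iff] at h1
  obtain ⟨⟨r, hr⟩, h2⟩ := h1
  have h3 : r • Ideal.Quotient.mk K G = Ideal.Quotient.mk K (r * G) := by
    rw [Algebra.smul_def, map_mul]; rfl
  rw [h3, Ideal.Quotient.eq, hK] at h2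
  obtain ⟨a, ha, b, hb, hab⟩ := Submodule.mem_sup.1 h2
  obtain ⟨c, rfl⟩ := Ideal.mem_span_singleton'.1 hb
  refine ⟨1 - r, -c, ?_, ?_⟩
  · simp [eval_of_mem hr]
  · have : (1 - r) * G - -c * H = -a := by
      linear_combination hab
    rw [this]
    exact I.neg_mem ha

end Crest.Agent.R269.Reg2_241
end
end

-- ▼ part R269/Reg3_241
section

/-!
Row 269 (S0411), leaf D4/REG, part 3 (helper241): Taylor polynomials and the division theorem along
a germ.
-/

set_option autoImplicit false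
set_option linter.unusedSectionVars false
set_option linter.unusedSimpArgs false

open MvPolynomial Topology Filter Asymptotics

noncomputable section

namespace Crest.Agent.R269.Reg3_241

open Crest.Agent.R269.Reg1_241 Crest.Agent.R269.Reg2_241

variable {m : ℕ}

/-- the polynomial of a multilinear form on the diagonal -/
def diagPoly {j : ℕ} (g : (Fin j → (Fin m → ℂ)) → ℂ) : MvPolynomial (Fin m) ℂ :=
  ∑ r : Fin j → Fin m, C (g fun l => Pi.single (r l) 1) * ∏ l, X (r l)

lemma diagPoly_eval {j : ℕ} (g : MultilinearMap ℂ (fun _ : Fin j => (Fin m → ℂ)) ℂ)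
    (v : Fin m → ℂ) : eval v (diagPoly (m := m) g) = g fun _ => v := by
  have h1 : (g fun _ => v) = g fun _ => ∑ i : Fin m, v i • (Pi.single i (1 : ℂ) : Fin m → ℂ) := by
    congr 1
    ext l i
    simp [Finset.sum_apply, Pi.single_apply]
  rw [h1, MultilinearMap.map_sum]
  simp only [diagPoly, map_sum, map_mul, eval_C, map_prod, eval_X]
  refine Finset.sum_congr rfl fun r _ => ?_
  rw [MultilinearMap.map_smul_univ, smul_eq_mul, mul_comm]

/-- Taylor polynomials of analytic functions as elements of `MvPolynomial` -/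
theorem taylor_poly {φ : (Fin m → ℂ) → ℂ} {t₀ : Fin m → ℂ} (hφ : AnalyticAt ℂ φ t₀) (k : ℕ) :
    ∃ P : MvPolynomial (Fin m) ℂ,
      (fun t => φ t - eval (t - t₀) P) =O[𝓝 t₀] fun t => ‖t - t₀‖ ^ k := by
  obtain ⟨p, hp⟩ := hφ
  refine ⟨∑ j ∈ Finset.range k, diagPoly (m := m) (p j).toMultilinearMap, ?_⟩
  have h1 := hp.isBigO_sub_partialSum_pow k
  have h2 : Tendsto (fun t : Fin m → ℂ => t - t₀) (𝓝 t₀) (𝓝 0) := by
    have : Tendsto (fun t : Fin m → ℂ => t - t₀) (𝓝 t₀) (𝓝 (t₀ - t₀)) :=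
      Continuous.tendsto (by fun_prop) t₀
    simpa using this
  have h3 := h1.comp_tendsto h2
  refine h3.congr_left fun t => ?_
  simp only [Function.comp_apply, add_sub_cancel, FormalMultilinearSeries.partialSum, map_sum,
    diagPoly_eval]
  rfl

variable {ι : Type*} [Fintype ι] [DecidableEq ι]
variable {I : Ideal (MvPolynomial ι ℂ)} {p : ι → ℂ} {y : Fin m → ι}
  {τ : (Fin m → ℂ) → (ι → ℂ)} {t₀ : Fin m → ℂ}

lemma continuousAt_germ (hG : Germ I p y τ t₀) : ContinuousAt τ t₀ := by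
  have h1 : Tendsto (fun t => τ t - p) (𝓝 t₀) (𝓝 0) :=
    hG.bigO.trans_tendsto (by
      have : Tendsto (fun t : Fin m → ℂ => t - t₀) (𝓝 t₀) (𝓝 (t₀ - t₀)) :=
        Continuous.tendsto (by fun_prop) t₀
      simpa using this)
  have h2 : Tendsto τ (𝓝 t₀) (𝓝 p) := by
    have := h1.add_const p
    simpa using this
  rw [ContinuousAt, hG.eq_p]; exact h2

/-- **division theorem** -/
theorem div_of_analytic (hG : Germ I p y τ t₀) {G H : MvPolynomial ι ℂ} {φ : (Fin m → ℂ) → ℂ}
    (hφ : AnalyticAt ℂ φ t₀) (h : ∀ᶠ t in 𝓝 t₀, eval (τ t) G = φ t * eval (τ t) H) :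
    ∃ H' G' : MvPolynomial ι ℂ, eval p H' ≠ 0 ∧ H' * G - G' * H ∈ I := by
  refine krull fun k => ?_
  obtain ⟨P, hP⟩ := taylor_poly hφ k
  have h1 : G - H * psi p y P ∈ mx p ^ k ⊔ I := by
    refine hG.mem_of_isBigO ?_
    have h2 : (fun t => eval (τ t) H) =O[𝓝 t₀] fun _ => (1 : ℝ) := by
      have : ContinuousAt (fun t => eval (τ t) H) t₀ :=
        (MvPolynomial.continuous_eval H).continuousAt.comp (continuousAt_germ hG)
      exact this.isBigO_one ℝ
    have h3 := h2.mul hP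
    simp only [one_mul] at h3
    refine h3.congr' ?_ EventuallyEq.rfl
    filter_upwards [h, hG.psi_eval P] with t ht ht'
    simp only [map_sub, map_mul, ht, ht']
    ring
  have h4 : G = (G - H * psi p y P) + psi p y P * H := by ring
  rw [h4]
  refine Submodule.add_mem_sup h1 (Ideal.mul_mem_left _ _ (Ideal.mem_span_singleton_self H))

/-- a member of the coordinate ring which vanishes along the germ is zero -/
theorem mem_of_germ_zero [I.IsPrime] (hG : Germ I p y τ t₀) {f : MvPolynomial ι ℂ}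
    (h : ∀ᶠ t in 𝓝 t₀, eval (τ t) f = 0) : f ∈ I := by
  obtain ⟨H', G', h1, h2⟩ := div_of_analytic hG (G := f) (H := 0) (φ := fun _ => 0)
    analyticAt_const (by filter_upwards [h] with t ht; simp [ht])
  simp only [mul_zero, sub_zero] at h2
  rcases (inferInstance : I.IsPrime).mem_or_mem h2 with h3 | h3
  · exact absurd (hG.zero_p _ h3) h1
  · exact h3

/-! ### homogeneous version -/

/-- product with a homogeneous polynomial -/
lemma homogeneousComponent_mul_of_isHomogeneous {G : MvPolynomial ι ℂ} {k : ℕ}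
    (hG : G.IsHomogeneous k) (e : ℕ) (P : MvPolynomial ι ℂ) :
    homogeneousComponent (e + k) (P * G) = homogeneousComponent e P * G := by
  induction P using MvPolynomial.induction_on' with
  | monomial s a =>
    have h1 : (monomial s a * G).IsHomogeneous (s.degree + k) :=
      (isHomogeneous_monomial a rfl).mul hG
    rw [homogeneousComponent_of_mem h1, homogeneousComponent_of_mem (isHomogeneous_monomial a rfl)]
    split_ifs with h2 h3 h3
    · rfl
    · omega
    · omega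
    · simp
  | add P Q hP hQ => rw [add_mul, map_add, hP, hQ, map_add, add_mul]

/-- homogeneous form of the division theorem -/
theorem homog_div {G H : MvPolynomial ι ℂ} {k : ℕ} (hI : ∀ F ∈ I, ∀ d, homogeneousComponent d F ∈ I)
    (hGh : G.IsHomogeneous k) (hHh : H.IsHomogeneous k)
    (h : ∃ H' G' : MvPolynomial ι ℂ, eval p H' ≠ 0 ∧ H' * G - G' * H ∈ I) :
    ∃ (e : ℕ) (H' G' : MvPolynomial ι ℂ), H'.IsHomogeneous e ∧ G'.IsHomogeneous e ∧
      eval p H' ≠ 0 ∧ H' * G - G' * H ∈ I := by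
  obtain ⟨H', G', h1, h2⟩ := h
  have h3 : ∃ e, eval p (homogeneousComponent e H') ≠ 0 := by
    by_contra hcon
    push Not at hcon
    apply h1
    rw [← sum_homogeneousComponent H', map_sum]
    exact Finset.sum_eq_zero fun i _ => hcon i
  obtain ⟨e, he⟩ := h3
  refine ⟨e, _, homogeneousComponent e G', homogeneousComponent_isHomogeneous e H',
    homogeneousComponent_isHomogeneous e G', he, ?_⟩
  have h4 := hI _ h2 (e + k)
  rw [map_sub, homogeneousComponent_mul_of_isHomogeneous hGh,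
    homogeneousComponent_mul_of_isHomogeneous hHh] at h4
  exact h4

/-- homogeneous polynomials scale -/
lemma eval_smul_of_isHomogeneous {F : MvPolynomial ι ℂ} {d : ℕ} (hF : F.IsHomogeneous d)
    (c : ℂ) (q : ι → ℂ) : eval (c • q) F = c ^ d * eval q F := by
  rw [eval_eq', eval_eq', Finset.mul_sum]
  refine Finset.sum_congr rfl fun s hs => ?_
  have h1 : s.degree = d := by
    have h0 := hF (mem_support_iff.1 hs)
    rw [← h0, Finsupp.degree_eq_weight_one (R := ℕ)]
    rfl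
  simp only [Pi.smul_apply, smul_eq_mul, mul_pow, Finset.prod_mul_distrib,
    Finset.prod_pow_eq_pow_sum]
  have h2 : ∑ i, s i = d := by
    rw [← h1, Finsupp.degree_eq_sum]
  rw [h2]; ring

/-- the zero set of a homogeneous ideal is a cone -/
lemma eval_smul_zero {I : Ideal (MvPolynomial ι ℂ)}
    (hI : ∀ F ∈ I, ∀ d, homogeneousComponent d F ∈ I) {q : ι → ℂ}
    (hq : ∀ F ∈ I, eval q F = 0) (c : ℂ) : ∀ F ∈ I, eval (c • q) F = 0 := by
  intro F hF
  rw [← sum_homogeneousComponent F, map_sum]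
  refine Finset.sum_eq_zero fun d _ => ?_
  rw [eval_smul_of_isHomogeneous (homogeneousComponent_isHomogeneous d F), hq _ (hI F hF d),
    mul_zero]

/-! ### affine charts of a projective variety -/

variable {n : ℕ}

/-- An affine chart germ at the point `c • σ z₀` of the cone: `σ` has values in the cone,
`σ(z)_i = 1`, `σ(z)_{J k} = z_k`. -/
structure AffGerm (I : Ideal (MvPolynomial ι ℂ)) (i : ι) (J : Fin n → ι)
    (σ : (Fin n → ℂ) → (ι → ℂ)) (z₀ : Fin n → ℂ) : Prop where
  homog : ∀ F ∈ I, ∀ d, homogeneousComponent d F ∈ I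
  diff : DifferentiableAt ℂ σ z₀
  one : ∀ᶠ z in 𝓝 z₀, σ z i = 1
  coord : ∀ᶠ z in 𝓝 z₀, ∀ k, σ z (J k) = z k
  zero : ∀ᶠ z in 𝓝 z₀, ∀ F ∈ I, eval (σ z) F = 0
  jac : ∀ v : ι → ℂ, (∀ F ∈ I, ∑ j, v j * eval (σ z₀) (pderiv j F) = 0) → v i = 0 →
    (∀ k, v (J k) = 0) → v = 0

/-- the cone germ attached to an affine germ -/
def coneGerm (σ : (Fin n → ℂ) → (ι → ℂ)) (t : Fin (n + 1) → ℂ) : ι → ℂ :=
  t 0 • σ fun k => t k.succ / t 0

/-- the base point of the cone germ -/
def bp (z₀ : Fin n → ℂ) : Fin (n + 1) → ℂ := Fin.cons 1 z₀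

@[simp] lemma bp_zero (z₀ : Fin n → ℂ) : bp z₀ 0 = 1 := rfl
@[simp] lemma bp_succ (z₀ : Fin n → ℂ) (k : Fin n) : bp z₀ k.succ = z₀ k := rfl

/-- dehomogenisation -/
def dh (t : Fin (n + 1) → ℂ) (k : Fin n) : ℂ := t k.succ / t 0

lemma dh_bp (z₀ : Fin n → ℂ) : dh (bp z₀) = z₀ := by
  ext k; simp [dh]

lemma analyticAt_dh (z₀ : Fin n → ℂ) : AnalyticAt ℂ (dh (n := n)) (bp z₀) := by
  unfold dh
  rw [analyticAt_pi_iff]
  intro k
  refine AnalyticAt.div ?_ ?_ (by simp)
  · exact (ContinuousLinearMap.proj (R := ℂ) (φ := fun _ : Fin (n + 1) => ℂ) k.succ).analyticAt _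
  · exact (ContinuousLinearMap.proj (R := ℂ) (φ := fun _ : Fin (n + 1) => ℂ) 0).analyticAt _

lemma tendsto_dh (z₀ : Fin n → ℂ) : Tendsto (dh (n := n)) (𝓝 (bp z₀)) (𝓝 z₀) := by
  have := (analyticAt_dh z₀).continuousAt.tendsto
  rwa [dh_bp] at this

lemma ev_ne (z₀ : Fin n → ℂ) : ∀ᶠ t in 𝓝 (bp z₀), t 0 ≠ 0 := by
  have : ContinuousAt (fun t : Fin (n + 1) → ℂ => t 0) (bp z₀) := (continuous_apply 0).continuousAt
  exact this.eventually_ne (by simp)

variable {i : ι} {J : Fin n → ι} {σ : (Fin n → ℂ) → (ι → ℂ)} {z₀ : Fin n → ℂ}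

lemma AffGerm.germ (h : AffGerm I i J σ z₀) :
    Germ I (σ z₀) (Fin.cons i J : Fin (n + 1) → ι) (coneGerm σ) (bp z₀) := by
  refine ⟨?_, ?_, ?_, ?_⟩
  · intro v hv hy
    refine h.jac v hv (by simpa using hy 0) fun k => by simpa using hy k.succ
  · have h1 : DifferentiableAt ℂ (coneGerm σ) (bp z₀) := by
      refine DifferentiableAt.smul (c := fun t : Fin (n + 1) → ℂ => t 0)
        (f := fun t : Fin (n + 1) → ℂ => σ (dh t)) ?_ ?_
      · exact (ContinuousLinearMap.proj (R := ℂ)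
          (φ := fun _ : Fin (n + 1) => ℂ) 0).differentiableAt
      · have h2 : DifferentiableAt ℂ σ (dh (bp z₀)) := by
          rw [dh_bp]; exact h.diff
        exact h2.comp _ (analyticAt_dh z₀).differentiableAt
    have h3 := h1.isBigO_sub
    have h4 : coneGerm σ (bp z₀) = σ z₀ := by
      have : coneGerm σ (bp z₀) = bp z₀ 0 • σ (dh (bp z₀)) := rfl
      rw [this, dh_bp]; simp
    rwa [h4] at h3
  · filter_upwards [(tendsto_dh z₀).eventually h.one, (tendsto_dh z₀).eventually h.coord,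
      ev_ne z₀] with t h1 h2 h3
    intro k
    have h5 : coneGerm σ t = t 0 • σ (dh t) := rfl
    rw [h5]
    refine Fin.cases ?_ (fun k => ?_) k
    · simp [h1]
    · simp only [Fin.cons_succ, Pi.smul_apply, smul_eq_mul, h2 k, dh]
      field_simp
  · filter_upwards [(tendsto_dh z₀).eventually h.zero] with t ht
    exact eval_smul_zero h.homog ht _

/-- a polynomial homogeneous of degree `k` along the cone germ -/
lemma eval_coneGerm {G : MvPolynomial ι ℂ} {k : ℕ} (hG : G.IsHomogeneous k)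
    (t : Fin (n + 1) → ℂ) :
    eval (coneGerm σ t) G = t 0 ^ k * eval (σ (dh t)) G :=
  eval_smul_of_isHomogeneous hG _ _

/-- **homogeneous division theorem along an affine chart** -/
theorem AffGerm.div (h : AffGerm I i J σ z₀) {G H : MvPolynomial ι ℂ} {k : ℕ}
    (hG : G.IsHomogeneous k) (hH : H.IsHomogeneous k) {φ : (Fin n → ℂ) → ℂ}
    (hφ : AnalyticAt ℂ φ z₀) (he : ∀ᶠ z in 𝓝 z₀, eval (σ z) G = φ z * eval (σ z) H) :
    ∃ (e : ℕ) (H' G' : MvPolynomial ι ℂ), H'.IsHomogeneous e ∧ G'.IsHomogeneous e ∧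
      eval (σ z₀) H' ≠ 0 ∧ H' * G - G' * H ∈ I := by
  refine homog_div h.homog hG hH (div_of_analytic h.germ (φ := fun t => φ (dh t)) ?_ ?_)
  · have h1 : AnalyticAt ℂ φ (dh (bp z₀)) := by
      rw [dh_bp]; exact hφ
    exact h1.comp (analyticAt_dh z₀)
  · filter_upwards [(tendsto_dh z₀).eventually he] with t ht
    rw [eval_coneGerm hG, eval_coneGerm hH, ht]
    ring

/-- a homogeneous polynomial vanishing along the chart is in `I` -/
theorem AffGerm.mem_of_zero [I.IsPrime] (h : AffGerm I i J σ z₀) {G : MvPolynomial ι ℂ} {k : ℕ}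
    (hG : G.IsHomogeneous k) (he : ∀ᶠ z in 𝓝 z₀, eval (σ z) G = 0) : G ∈ I := by
  refine mem_of_germ_zero h.germ ?_
  filter_upwards [(tendsto_dh z₀).eventually he] with t ht
  rw [eval_coneGerm hG, ht, mul_zero]

end Crest.Agent.R269.Reg3_241
end
end

-- ▼ part R269/Dense_85
section

/-!
# R269 (S0411): a homogeneous polynomial outside `I` is nonzero on a dense subset of the cone (helper85)

Glue for `BigStmt`: the identity principle on `X` (I prime) through Krull's theorem (`Reg3_241`), at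
every cone point, without connectedness of `X`.
-/

set_option autoImplicit false

open MvPolynomial Crest.AlgGeometry.ProjEmb Crest.Agent.R269.Geo_328 Crest.Agent.R269.Reg3_241
open Filter Topology

namespace Crest.Agent.R269.Dense_85

noncomputable section

variable {N n : ℕ} {I : Ideal (HomCoordRing N)}

/-- the affine germ of a cone chart, at every point of the chart -/
theorem affGerm (hX : IsSmoothProjective I n) {p₀ : EE N} (C : ConeChart I n p₀)
    {z : CC n} (hz : z ∈ Metric.ball (0 : CC n) C.R) :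
    AffGerm I C.i C.J (fun y => C.σ (y - fun k => p₀ (C.J k) / p₀ C.i))
      (z + fun k => p₀ (C.J k) / p₀ C.i) := by
  set z₀ : CC n := fun k => p₀ (C.J k) / p₀ C.i with hz₀
  have hsub : z + z₀ - z₀ = z := add_sub_cancel_right z z₀
  have hcont : Tendsto (fun y : CC n => y - z₀) (𝓝 (z + z₀)) (𝓝 z) := by
    have : ContinuousAt (fun y : CC n => y - z₀) (z + z₀) := by fun_prop
    have h := this.tendsto
    rwa [hsub] at h
  have hev : ∀ᶠ y in 𝓝 (z + z₀), y - z₀ ∈ Metric.ball (0 : CC n) C.R :=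
    hcont.eventually (Metric.isOpen_ball.mem_nhds hz)
  have hσd : DifferentiableAt ℂ C.σ z := (C.an z hz).differentiableAt
  refine ⟨hX.homogeneous, ?_, ?_, ?_, ?_, ?_⟩
  · have h1 : DifferentiableAt ℂ C.σ (z + z₀ - z₀) := by rw [hsub]; exact hσd
    exact h1.comp (z + z₀) (differentiableAt_id.sub_const z₀)
  · filter_upwards [hev] with y hy using C.σ_i _ hy
  · filter_upwards [hev] with y hy k
    rw [C.σ_J _ hy k]
    simp [hz₀]
  · filter_upwards [hev] with y hy F hF
    exact (C.σ_cone _ hy).1 F hF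
  · intro v hv hvi hvJ
    have hv' : v ∈ Tan I (C.σ z) := by
      intro F hF
      have := hv F hF
      simp only [hsub] at this
      rw [dP]
      rw [← this]
      exact Finset.sum_congr rfl fun j _ => mul_comm _ _
    obtain ⟨c, x, hcx⟩ := (C.tan z hz v).1 hv'
    -- derivative of the coordinates of `σ`
    have hd : HasFDerivAt C.σ (fderiv ℂ C.σ z) z := hσd.hasFDerivAt
    have hdi : fderiv ℂ C.σ z x C.i = 0 := by
      have h1 : HasFDerivAt (fun y => C.σ y C.i)
          ((ContinuousLinearMap.proj C.i).comp (fderiv ℂ C.σ z)) z :=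
        (hasFDerivAt_pi'.1 hd C.i)
      have h2 : (fun y => C.σ y C.i) =ᶠ[𝓝 z] fun _ => (1 : ℂ) := by
        filter_upwards [Metric.isOpen_ball.mem_nhds hz] with y hy using C.σ_i y hy
      have h3 := h1.unique ((hasFDerivAt_const (1 : ℂ) z).congr_of_eventuallyEq h2)
      have := congrArg (fun L : CC n →L[ℂ] ℂ => L x) h3
      simpa using this
    have hdJ : ∀ k, fderiv ℂ C.σ z x (C.J k) = x k := by
      intro k
      have h1 : HasFDerivAt (fun y => C.σ y (C.J k))
          ((ContinuousLinearMap.proj (C.J k)).comp (fderiv ℂ C.σ z)) z :=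
        (hasFDerivAt_pi'.1 hd (C.J k))
      have h2 : (fun y => C.σ y (C.J k)) =ᶠ[𝓝 z] fun y => p₀ (C.J k) / p₀ C.i + y k := by
        filter_upwards [Metric.isOpen_ball.mem_nhds hz] with y hy using C.σ_J y hy k
      have h4 : HasFDerivAt (fun y : CC n => p₀ (C.J k) / p₀ C.i + y k)
          (ContinuousLinearMap.proj (R := ℂ) (φ := fun _ : Fin n => ℂ) k) z :=
        ((ContinuousLinearMap.proj (R := ℂ) (φ := fun _ : Fin n => ℂ) k).hasFDerivAt).const_add _
      have h3 := h1.unique (h4.congr_of_eventuallyEq h2)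
      have := congrArg (fun L : CC n →L[ℂ] ℂ => L x) h3
      simpa using this
    have hc : c = 0 := by
      have := congrFun hcx C.i
      rw [Pi.add_apply, Pi.smul_apply, smul_eq_mul, C.σ_i z hz, hdi, hvi] at this
      simpa using this.symm
    have hx : x = 0 := by
      funext k
      have := congrFun hcx (C.J k)
      rw [Pi.add_apply, Pi.smul_apply, hc, zero_smul, zero_add, hdJ, hvJ k] at this
      exact this.symm
    rw [hcx, hc, hx]
    simp

/-- **identity principle**: a homogeneous polynomial outside the prime `I` is nonzero at cone points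
arbitrarily near every cone point -/
theorem frequently_eval_ne [hI : I.IsPrime] (hX : IsSmoothProjective I n) {p : EE N}
    (hp : p ∈ Cone I) {G : HomCoordRing N} {k : ℕ} (hG : G.IsHomogeneous k) (hGI : G ∉ I) :
    ∃ᶠ q in 𝓝 p, q ∈ Cone I ∧ MvPolynomial.eval q G ≠ 0 := by
  intro hcon
  obtain ⟨C⟩ := Chart_632.coneChart hI hX hp
  set z₀ : CC n := fun k => p (C.J k) / p C.i with hz₀
  have h0 : (0 : CC n) ∈ Metric.ball (0 : CC n) C.R := Metric.mem_ball_self C.R_pos
  have hA := affGerm hX C h0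
  apply hGI
  refine hA.mem_of_zero hG ?_
  -- `q(y) = p_i • σ (y - z₀)` tends to `p`
  have hcont : Tendsto (fun y : CC n => p C.i • C.σ (y - z₀)) (𝓝 ((0 : CC n) + z₀)) (𝓝 p) := by
    have h1 : ContinuousAt C.σ ((0 : CC n) + z₀ - z₀) := by
      rw [add_sub_cancel_right]; exact (C.an 0 h0).continuousAt
    have h2 : ContinuousAt (fun y : CC n => C.σ (y - z₀)) ((0 : CC n) + z₀) :=
      ContinuousAt.comp (g := C.σ) (f := fun y : CC n => y - z₀) h1 (by fun_prop)
    have h3 : Tendsto (fun y : CC n => p C.i • C.σ (y - z₀)) (𝓝 ((0 : CC n) + z₀))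
        (𝓝 (p C.i • C.σ ((0 : CC n) + z₀ - z₀))) := (h2.const_smul (p C.i)).tendsto
    have h4 : p C.i • C.σ ((0 : CC n) + z₀ - z₀) = p := by
      rw [add_sub_cancel_right, C.σ_zero, smul_smul, mul_inv_cancel₀ C.p₀_ne, one_smul]
    rwa [h4] at h3
  have hev : ∀ᶠ y in 𝓝 ((0 : CC n) + z₀), y - z₀ ∈ Metric.ball (0 : CC n) C.R := by
    have h1 : ContinuousAt (fun y : CC n => y - z₀) ((0 : CC n) + z₀) := by fun_prop
    have h2 := h1.tendsto
    rw [add_sub_cancel_right] at h2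
    exact h2.eventually (Metric.isOpen_ball.mem_nhds h0)
  filter_upwards [hcont.eventually hcon, hev] with y hy hyb
  have hcone : p C.i • C.σ (y - z₀) ∈ Cone I := by
    refine ⟨fun F hF => ?_, smul_ne_zero C.p₀_ne (C.σ_cone _ hyb).2⟩
    exact eval_smul_zero hX.homogeneous (fun F hF => (C.σ_cone _ hyb).1 F hF) _ F hF
  by_contra hne
  apply hy
  refine ⟨hcone, ?_⟩
  rw [eval_smul_of_isHomogeneous hG]
  exact mul_ne_zero (pow_ne_zero _ C.p₀_ne) hne

end

end Crest.Agent.R269.Dense_85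
end

-- ▼ part R269/Big_85
section

/-!
# R269 (S0411), assembly of part 10 (helper85): `bigStmt : BigStmt`

(G1)+(G2) `PAsm5_976.g12` (helper976: peak sections, linear Monge-Ampère inequality), (G3)
`Reg10_241.reg_H0tw` (helper241: regularity), (G4) `Cnt9_197.big_H0tw` (helper197: counting),
`DictI_795` (local rings are UFD), (G5) `DictH_795.bigP_of_section` (helper795), density `Dense_85`.
-/

set_option autoImplicit false

open MvPolynomial Crest.AlgGeometry.ProjEmb Filter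
open Crest.Agent.R269.DictA_795 Crest.Agent.R269.DictB_795 Crest.Agent.R269.DictC_795
open Crest.Agent.R269.DictD_795 Crest.Agent.R269.DictE_795 Crest.Agent.R269.H0tw_795
open Crest.Agent.R269.Defs_58 Crest.Agent.R269.Amp3_243 Crest.Agent.R269.Amp1_243
open Crest.Agent.R269.BigLin_85
open Crest.Agent.R271
open scoped ENNReal

noncomputable section

namespace Crest.Agent.R269.Big_85

variable {N n : ℕ} {I : Ideal (HomCoordRing N)} [I.IsPrime]

/-- **(G1)+(G2)+(G3)**: `c₂ m^n ≤ dim H⁰((m+1) K + (m/q+1) A)` for large `m`, `c₂` independent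
of `q`. -/
theorem lower (hA : AlphaFamStmt) (hX : IsSmoothProjective I n) (hn : 1 ≤ n) (hMA : MAP I n)
    {c : CD I n} {q₀ : Fin (N + 1) → ℂ} (h : c.Dom q₀) :
    ∃ c₂ : ℝ, 0 < c₂ ∧ ∀ q : ℕ, 1 ≤ q → ∀ᶠ m : ℕ in atTop,
      c₂ * (m : ℝ) ^ n ≤ Module.finrank ℂ (H0tw I n c.i (m + 1) ((m / q + 1 : ℕ) : ℤ)) := by
  obtain ⟨c₂, hc₂, hlow⟩ := PAsm5_976.g12 hA inferInstance hX hn hMA (Reg9_241.xc c h hX)
  refine ⟨c₂, hc₂, fun q hq => ?_⟩
  let io : (Reg9_241.xc c h hX).B →ₐ[ℂ] FnField I := c.B.val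
  have hinj : Function.Injective io := Subtype.val_injective
  have hx : ∀ l, io ((Reg9_241.xc c h hX).x l) = fnRatio I (Reg9_241.xc c h hX).i l := fun l => rfl
  let V : ℕ → Submodule ℂ (((Reg9_241.xc c h hX).B →ₐ[ℂ] ℂ) → ℂ) := fun m =>
    VV io (c.wm (m + 1)) (H0tw I n c.i (m + 1) ((m / q + 1 : ℕ) : ℤ))
  have hV : ∀ m, FiniteDimensional ℂ (V m) ∧ Module.finrank ℂ (V m) ≤
      Module.finrank ℂ (H0tw I n c.i (m + 1) ((m / q + 1 : ℕ) : ℤ)) := by
    intro m
    have : FiniteDimensional ℂ (H0tw I n c.i (m + 1) ((m / q + 1 : ℕ) : ℤ)) :=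
      Cnt9_197.finite_H0tw hX h.not_mem_i h (m + 1) (m / q + 1)
    exact finrank_VV hinj (h.wm_ne_zero hX (m + 1)) _
  have h1 := hlow q hq V (fun m => (hV m).1) ?_
  · filter_upwards [h1] with m hm
    exact hm.trans (by exact_mod_cast (hV m).2)
  · intro m F hF hint
    have h2 : ∀ y : (Reg9_241.xc c h hX).B →ₐ[ℂ] ℂ,
        ‖F y‖ ^ 2 * PAsm5_976.wt (Reg9_241.xc c h hX) y ^ m /
            ns (Reg9_241.xc c h hX) y ^ (m / q + 1) =
          ‖F y‖ ^ 2 * (Reg7_241.wt (Reg9_241.xc c h hX) y ^ m *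
            ns (Reg9_241.xc c h hX) y ^ (-((m / q + 1 : ℕ) : ℤ))) := by
      intro y
      rw [zpow_neg, zpow_natCast, div_eq_mul_inv, mul_assoc]
      rfl
    simp only [h2] at hint
    obtain ⟨b, hb, hmem⟩ := Reg10_241.reg_H0tw hX (Reg9_241.xc c h hX) io hinj hx hF m _ hint
    exact mem_VV.2 ⟨b, hmem, hb⟩

/-- a nonzero section of `m K - A` -/
theorem exists_section (hA : AlphaFamStmt) (hX : IsSmoothProjective I n) (hn : 1 ≤ n)
    (hMA : MAP I n) {c : CD I n} {q₀ : Fin (N + 1) → ℂ} (h : c.Dom q₀) :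
    ∃ m : ℕ, 1 ≤ m ∧ ∃ s ∈ H0tw I n c.i m (-1), s ≠ 0 := by
  obtain ⟨c₂, hc₂, hlow⟩ := lower hA hX hn hMA h
  obtain ⟨q, hq, m0, hbig⟩ := Cnt9_197.big_H0tw hX hn h.not_mem_i h
    (CD.stalkClosed hX) (CD.trLe hX) c₂ hc₂ 1
  obtain ⟨m, hm, hm0⟩ := ((hlow q hq).and (eventually_ge_atTop m0)).exists
  exact ⟨m + 1, by omega, hbig m hm0 hm⟩

theorem exists_chart (hX : IsSmoothProjective I n) :
    ∃ (c : CD I n) (q : Fin (N + 1) → ℂ), c.Dom q := by
  obtain ⟨i, hXi⟩ := hX.exists_coord_not_mem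
  obtain ⟨p, hp, hpi⟩ : ∃ p ∈ affineCone I, p i ≠ 0 := by
    by_contra hne
    push Not at hne
    exact hXi (CD.mem_of_eval_zero fun p hp => by rw [eval_X]; exact hne p hp)
  have hp0 : p ≠ 0 := fun h0 => hpi (by rw [h0]; rfl)
  obtain ⟨c, h, -⟩ := exists_CD hX hp hp0 hpi
  exact ⟨c, p, h⟩

/-- **Part 10**: `K_X` is big, given the approximate Monge-Ampère inequality -/
theorem bigStmt : BigStmt := by
  intro N n I hI hX hn hMA
  obtain ⟨c, q₀, h⟩ := exists_chart hX
  obtain ⟨m, hm, s, hs, hs0⟩ := exists_section Alp_927.alphaFamStmt hX hn hMA h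
  exact DictH_795.bigP_of_section hX h.not_mem_i hm hs hs0
    fun G k hG hGI p hp => Dense_85.frequently_eval_ne hX hp hG hGI

end Crest.Agent.R269.Big_85
end
end

-- ▼ part R269/Amp2_243
section

/-!
# Row 269 (S0411), Part 13, step 2: `∂̄` with an arbitrary smooth strictly psh weight and poles (helper243)

On a Riemann domain `M` over `ℂⁿ` with a strictly psh exhaustion: for a smooth weight `Φ` with positive
definite Levi form, families `f i` of holomorphic functions, exponents `c i ≥ 0`, and a smooth `G`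
which is holomorphic off a compact set `Kc` disjoint from the common zeros of the families, there is a
holomorphic `F` with `∫ |F - G|² ∏ (∑ⱼ|f_ij|²)^{-c_i} e^{-Φ} < ∞`.
-/

set_option autoImplicit false
set_option linter.unusedSectionVars false

noncomputable section

open Set Filter Topology Complex MeasureTheory
open scoped ENNReal ComplexConjugate

namespace Crest.Agent.R269.Amp2_243

open Crest.Agent.R271 Crest.Agent.R271.Ho51 Crest.Agent.R271.W792 Crest.Agent.R271.G792

variable {n : ℕ} {M : Type} [TopologicalSpace M] [RDom n M]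

section weights

variable {ι : Type*} [Fintype ι] {κ : ι → Type*} [∀ i, Fintype (κ i)]
  (f : ∀ i, κ i → M → ℂ) (c : ι → ℝ) (Φ : M → ℝ)

/-- regularised weights -/
def phi (k : ℕ) (x : M) : ℝ := (∑ i, c i * lg (f i) (1 / ((k : ℝ) + 1)) x) + Φ x

variable {f c Φ}

lemma sm_phi (hf : ∀ i j, W792.Hol (f i j)) (hΦ : Sm Φ) (k : ℕ) : Sm (phi f c Φ k) := by
  unfold phi
  refine Sm.add (Sm.sum fun i _ => ?_) hΦ
  exact (Sm.const _).mulR (sm_lg (fun j => (hf i j).sm) fun x => hpos_del f i k x)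

lemma phi_anti (hc : ∀ i, 0 ≤ c i) (x : M) : Antitone fun k => phi f c Φ k x := by
  intro k l hkl
  unfold phi
  have : ∀ i, lg (f i) (1 / ((l : ℝ) + 1)) x ≤ lg (f i) (1 / ((k : ℝ) + 1)) x := by
    intro i
    apply lg_antitone _ _ x (hpos_del f i l x)
    apply one_div_le_one_div_of_le (by positivity)
    have : (k : ℝ) ≤ l := by exact_mod_cast hkl
    linarith
  have h2 := Finset.sum_le_sum fun i (_ : i ∈ Finset.univ) => mul_le_mul_of_nonneg_left (this i) (hc i)
  simp only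
  linarith

lemma Levi_phi (hf : ∀ i j, W792.Hol (f i j)) (hc : ∀ i, 0 ≤ c i) (hΦ : Sm Φ)
    (k : ℕ) (x : M) (w : Fin n → ℂ) : lev Φ x w ≤ Levi (phi f c Φ k) x w := by
  rw [Levi_eq_lev (sm_phi hf hΦ k)]
  unfold phi
  have hs1 : ∀ i ∈ Finset.univ, Sm (fun x => c i * lg (f i) (1 / ((k : ℝ) + 1)) x) := fun i _ =>
    (Sm.const _).mulR (sm_lg (fun j => (hf i j).sm) fun x => hpos_del f i k x)
  rw [lev_add (Sm.sum hs1) hΦ, lev_sum _ hs1]
  have h1 : 0 ≤ ∑ i, lev (fun x => c i * lg (f i) (1 / ((k : ℝ) + 1)) x) x w := by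
    refine Finset.sum_nonneg fun i _ => ?_
    rw [lev_const_mul (sm_lg (fun j => (hf i j).sm) fun x => hpos_del f i k x)]
    exact mul_nonneg (hc i)
      (lev_lg_nonneg (fun j => hf i j) (del_pos k).le (fun x => hpos_del f i k x) x w)
  linarith

lemma exp_phi (k : ℕ) (x : M) :
    ENNReal.ofReal (Real.exp (-phi f c Φ k x)) =
      (∏ i, (ENNReal.ofReal (nS (f i) x + 1 / ((k : ℝ) + 1))) ^ (-(c i))) *
        ENNReal.ofReal (Real.exp (-Φ x)) := by
  unfold phi
  rw [neg_add, Real.exp_add, ENNReal.ofReal_mul (Real.exp_pos _).le]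
  congr 1
  rw [← Finset.sum_neg_distrib, Real.exp_sum, ENNReal.ofReal_prod_of_nonneg]
  · exact Finset.prod_congr rfl fun i _ => exp_lg (f i) _ _ x (hpos_del f i k x)
  · intro i _; exact (Real.exp_pos _).le

lemma exp_phi_le (hc : ∀ i, 0 ≤ c i) (k : ℕ) (x : M) :
    ENNReal.ofReal (Real.exp (-phi f c Φ k x)) ≤ wF f c x * ENNReal.ofReal (Real.exp (-Φ x)) := by
  rw [exp_phi]
  gcongr
  unfold wF
  refine Finset.prod_le_prod' fun i _ => ?_
  rw [ENNReal.rpow_neg, ENNReal.rpow_neg]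
  gcongr
  · exact hc i
  · have := del_pos k; linarith

lemma le_iSup_exp (hc : ∀ i, 0 ≤ c i) (x : M) :
    wF f c x * ENNReal.ofReal (Real.exp (-Φ x)) ≤
      ⨆ k, ENNReal.ofReal (Real.exp (-phi f c Φ k x)) := by
  have h1 : Tendsto (fun k : ℕ => ∏ i, (ENNReal.ofReal (nS (f i) x + 1 / ((k : ℝ) + 1))) ^ (-(c i)))
      atTop (𝓝 (wF f c x)) := by
    refine tendsto_prod_ne_zero _ _ _ (fun i _ => ?_) (fun i _ => rpow_neg_ne_zero _ (hc i))
    have h2 : Tendsto (fun k : ℕ => nS (f i) x + 1 / ((k : ℝ) + 1)) atTop (𝓝 (nS (f i) x + 0)) :=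
      tendsto_const_nhds.add tendsto_one_div_add_atTop_nhds_zero_nat
    rw [add_zero] at h2
    exact ((ENNReal.continuous_rpow_const (y := -(c i))).tendsto _).comp
      ((ENNReal.continuous_ofReal.tendsto _).comp h2)
  have h3 : Tendsto (fun k : ℕ => ENNReal.ofReal (Real.exp (-phi f c Φ k x))) atTop
      (𝓝 (wF f c x * ENNReal.ofReal (Real.exp (-Φ x)))) := by
    simp only [exp_phi]
    exact ENNReal.Tendsto.mul_const h1 (Or.inr ENNReal.ofReal_ne_top)
  exact le_of_tendsto' h3 fun k => le_iSup (fun k => ENNReal.ofReal (Real.exp (-phi f c Φ k x))) k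

end weights

/-- the pole weight is bounded on compact sets without common zeros -/
lemma wF_bdd {ι : Type*} [Fintype ι] {κ : ι → Type*} [∀ i, Fintype (κ i)]
    (f : ∀ i, κ i → M → ℂ) (hf : ∀ i j, W792.Hol (f i j)) (c : ι → ℝ) (hc : ∀ i, 0 ≤ c i)
    {K : Set M} (hK : IsCompact K) (hpos : ∀ x ∈ K, ∀ i, nS (f i) x ≠ 0) :
    ∃ C : ℝ≥0∞, C ≠ ∞ ∧ ∀ x ∈ K, wF f c x ≤ C := by
  have h1 : ∀ i, ∃ δ : ℝ, 0 < δ ∧ ∀ x ∈ K, δ ≤ nS (f i) x := by
    intro i
    have hcont : Continuous (nS (f i)) := (sm_nS fun j => (hf i j).sm).continuous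
    rcases K.eq_empty_or_nonempty with h0 | h0
    · exact ⟨1, one_pos, fun x hx => by rw [h0] at hx; exact absurd hx (notMem_empty x)⟩
    · obtain ⟨x0, hx0, hmin⟩ := hK.exists_isMinOn h0 hcont.continuousOn
      refine ⟨nS (f i) x0, lt_of_le_of_ne (nS_nonneg _ _) (Ne.symm (hpos x0 hx0 i)), ?_⟩
      intro x hx
      exact hmin hx
  choose δ hδ hδK using h1
  refine ⟨∏ i, (ENNReal.ofReal (δ i)) ^ (-(c i)), ?_, ?_⟩
  · refine ENNReal.prod_ne_top fun i _ => ?_
    rw [ENNReal.ofReal_rpow_of_pos (hδ i)]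
    exact ENNReal.ofReal_ne_top
  · intro x hx
    unfold wF
    refine Finset.prod_le_prod' fun i _ => ?_
    rw [ENNReal.rpow_neg, ENNReal.rpow_neg]
    gcongr
    · exact hc i
    · exact hδK i x hx

/-- **SOLVER** on a Riemann domain, arbitrary smooth strictly psh weight and poles -/
theorem solver [T2Space M] [SecondCountableTopology M] [MeasurableSpace M] [BorelSpace M]
    (μ : Measure M) (hμ : IsLeb μ)
    (ρ : M → ℝ) (hρ : Sm ρ) (hρc : ∀ c : ℝ, IsCompact {x | ρ x ≤ c})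
    (hρL : ∀ x w, nsq w ≤ Levi ρ x w)
    (Φ : M → ℝ) (hΦ : Sm Φ) (q : M → ℝ) (hqc : Continuous q) (hq0 : ∀ x, 0 < q x)
    (hΦq : ∀ x w, q x * nsq w ≤ lev Φ x w)
    {ι : Type*} [Fintype ι] {κ : ι → Type*} [∀ i, Fintype (κ i)]
    (f : ∀ i, κ i → M → ℂ) (hf : ∀ i j, W792.Hol (f i j)) (c : ι → ℝ) (hc : ∀ i, 0 ≤ c i)
    (G : M → ℂ) (hGs : Sm G) (Kc : Set M) (hK : IsCompact Kc)
    (hD : ∀ x, x ∉ Kc → ∀ j, db j G x = 0)
    (hpos : ∀ x ∈ Kc, ∀ i, nS (f i) x ≠ 0) :
    ∃ F : M → ℂ, Ho51.Hol F ∧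
      ∫⁻ x, ENNReal.ofReal (‖F x - G x‖ ^ 2) *
        (wF f c x * ENNReal.ofReal (Real.exp (-Φ x))) ∂μ < ∞ := by
  have eng : EngineFor M μ := engineFor_of Ho51.engineP M μ hμ
  have hlf := hμ.locallyFinite
  obtain ⟨Cw, hCw, hCwK⟩ := wF_bdd f hf c hc hK hpos
  set kap : M → ℝ := fun x => (∑ j, ‖db j G x‖ ^ 2) * (q x)⁻¹ with hkap
  have hkap0 : ∀ x, 0 ≤ kap x := fun x => by
    have := hq0 x
    have : 0 ≤ ∑ j, ‖db j G x‖ ^ 2 := Finset.sum_nonneg fun _ _ => by positivity
    positivity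
  have hkapc : Continuous kap := by
    refine Continuous.mul ?_ ?_
    · exact continuous_finsetSum _ fun j _ => ((hGs.db j).continuous.norm.pow 2)
    · exact hqc.inv₀ fun x => (hq0 x).ne'
  have hec : Continuous fun x => Real.exp (-Φ x) := Real.continuous_exp.comp hΦ.continuous.neg
  obtain ⟨C0, hC0⟩ := hK.exists_bound_of_continuousOn (hkapc.mul hec).continuousOn
  have hcs : ∀ x (w : Fin n → ℂ), ‖∑ j, db j G x * conj (w j)‖ ^ 2 ≤
      (∑ j, ‖db j G x‖ ^ 2) * nsq w := by
    intro x w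
    have h1 : ‖∑ j, db j G x * conj (w j)‖ ≤ ∑ j, ‖db j G x‖ * ‖w j‖ := by
      refine (norm_sum_le _ _).trans (Finset.sum_le_sum fun j _ => ?_)
      rw [norm_mul, RCLike.norm_conj]
    calc ‖∑ j, db j G x * conj (w j)‖ ^ 2 ≤ (∑ j, ‖db j G x‖ * ‖w j‖) ^ 2 := by gcongr
      _ ≤ (∑ j, ‖db j G x‖ ^ 2) * ∑ j, ‖w j‖ ^ 2 := Finset.sum_mul_sq_le_sq_mul_sq _ _ _
  have hL : ∀ k x (w : Fin n → ℂ), q x * nsq w ≤ Levi (phi f c Φ k) x w := fun k x w =>
    (hΦq x w).trans (Levi_phi hf hc hΦ k x w)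
  obtain ⟨F, hF, hFi⟩ := eng ρ hρ hρc hρL (fun k => phi f c Φ k)
    (fun k => sm_phi hf hΦ k) (fun x => phi_anti hc x)
    (fun k x w => le_trans (by
      have := (hq0 x).le
      have := nsq_nonneg w
      positivity) (hL k x w))
    G hGs (fun _ => kap) (fun _ => hkap0) (fun _ => hkapc)
    (fun k x w => by
      refine (hcs x w).trans ?_
      have h1 := hL k x w
      have h2 := mul_le_mul_of_nonneg_left h1 (hkap0 x)
      refine le_trans (le_of_eq ?_) h2
      have hq := hq0 x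
      simp only [hkap]
      field_simp)
    (ENNReal.ofReal C0 * (Cw * μ Kc))
    (ENNReal.mul_ne_top ENNReal.ofReal_ne_top
      (ENNReal.mul_ne_top hCw hK.measure_lt_top.ne))
    (fun k => by
      calc ∫⁻ x, ENNReal.ofReal (kap x * Real.exp (-phi f c Φ k x)) ∂μ
          ≤ ∫⁻ x, Kc.indicator (fun _ => ENNReal.ofReal C0 * Cw) x ∂μ := by
            refine lintegral_mono fun x => ?_
            by_cases hx : x ∈ Kc
            · rw [Set.indicator_of_mem hx, ENNReal.ofReal_mul (hkap0 x)]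
              calc ENNReal.ofReal (kap x) * ENNReal.ofReal (Real.exp (-phi f c Φ k x))
                  ≤ ENNReal.ofReal (kap x) * (wF f c x * ENNReal.ofReal (Real.exp (-Φ x))) := by
                    gcongr; exact exp_phi_le hc k x
                _ = (ENNReal.ofReal (kap x) * ENNReal.ofReal (Real.exp (-Φ x))) * wF f c x := by
                    ring
                _ ≤ ENNReal.ofReal C0 * Cw := by
                    gcongr
                    · rw [← ENNReal.ofReal_mul (hkap0 x)]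
                      apply ENNReal.ofReal_le_ofReal
                      exact (le_abs_self _).trans (hC0 x hx)
                    · exact hCwK x hx
            · have h1 : kap x = 0 := by
                simp only [hkap]
                have : ∀ j, db j G x = 0 := hD x hx
                simp [this]
              simp [h1]
        _ = ENNReal.ofReal C0 * (Cw * μ Kc) := by
            rw [lintegral_indicator_const hK.measurableSet, mul_assoc])
  refine ⟨F, hF, lt_of_le_of_lt ?_ (lt_of_le_of_lt hFi ?_)⟩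
  · refine lintegral_mono fun x => ?_
    gcongr
    exact le_iSup_exp hc x
  · exact ENNReal.mul_lt_top (by simp) (ENNReal.mul_lt_top ENNReal.ofReal_lt_top
      (ENNReal.mul_lt_top hCw.lt_top hK.measure_lt_top))

end Crest.Agent.R269.Amp2_243
end
end

-- ▼ part R269/Amp5_243
section

/-!
# Row 269 (S0411), Part 13, step 5: holomorphic functions on `M` with a prescribed 1-jet and pole weights
(helper243)
-/

set_option autoImplicit false
set_option linter.unusedSectionVars false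

noncomputable section

open Set Filter Topology Complex MeasureTheory Metric
open scoped ENNReal ComplexConjugate ContDiff

namespace Crest.Agent.R269.Amp5_243

open Crest.AlgGeometry.ProjEmb
open Crest.Agent.R271 Crest.Agent.R271.Defs710 Crest.Agent.R271.Rd692
open Crest.Agent.R271.Ho51 hiding EE
open Crest.Agent.R269.Amp1_243 Crest.Agent.R269.Geo_328 Crest.Agent.R269.Amp3_243

/-! ### general lemmas on a Riemann domain -/

section gen

variable {n : ℕ} {M : Type*} [TopologicalSpace M] [RDom n M]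

/-- `∂̄ f = 0` for holomorphic `f` -/
lemma db_hol {f : M → ℂ} (hf : W792.Hol f) (j : Fin n) (x : M) : db j f x = 0 := by
  rw [db_eq]
  have h : (Pi.single j Complex.I : Fin n → ℂ) = Complex.I • Pi.single j (1 : ℂ) := by
    funext k
    by_cases hk : k = j
    · subst hk; simp
    · simp [Pi.single_eq_of_ne hk]
  rw [h, hf.cl x]
  have h2 := Complex.I_mul_I
  linear_combination (1 / 2 : ℂ) * D f x (Pi.single j 1) * h2

lemma Hol.const (c : ℂ) : W792.Hol (fun _ : M => c) where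
  sm := Sm.const c
  cl := by intro x w; rw [D_const]; simp

lemma Hol.add {f g : M → ℂ} (hf : W792.Hol f) (hg : W792.Hol g) :
    W792.Hol (fun x => f x + g x) where
  sm := hf.sm.add hg.sm
  cl := by
    intro x w
    rw [D_add hf.sm hg.sm, _root_.add_apply, _root_.add_apply, hf.cl, hg.cl]; ring

lemma Hol.sub {f g : M → ℂ} (hf : W792.Hol f) (hg : W792.Hol g) :
    W792.Hol (fun x => f x - g x) where
  sm := hf.sm.sub hg.sm
  cl := by
    intro x w
    rw [D_sub hf.sm hg.sm, _root_.sub_apply, _root_.sub_apply, hf.cl, hg.cl]; ring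

lemma Hol.mul {f g : M → ℂ} (hf : W792.Hol f) (hg : W792.Hol g) :
    W792.Hol (fun x => f x * g x) where
  sm := hf.sm.mul hg.sm
  cl := by
    intro x w
    rw [D_mul hf.sm hg.sm, D_mul hf.sm hg.sm, hf.cl, hg.cl]; ring

lemma Hol.sum {ι : Type*} (s : Finset ι) {f : ι → M → ℂ} (hf : ∀ i ∈ s, W792.Hol (f i)) :
    W792.Hol (fun x => ∑ i ∈ s, f i x) := by
  classical
  induction s using Finset.induction_on with
  | empty => simpa using Hol.const (n := n) (M := M) 0
  | insert a s ha ih =>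
    simp only [Finset.sum_insert ha]
    exact Hol.add (hf a (Finset.mem_insert_self a s)) (ih fun i hi => hf i (Finset.mem_insert_of_mem hi))

end gen

section ec

variable {n : ℕ} {X : EC n}

/-- integral over a ball of a chart -/
theorem lint_sheet_le {μ : Measure (X.B →ₐ[ℂ] ℂ)} (hμ : IsLeb μ) {y : X.B →ₐ[ℂ] ℂ}
    (C : Chart X.z y) {g : (X.B →ₐ[ℂ] ℂ) → ℝ≥0∞} (hg : Measurable g) {r : ℝ} (hr : r ≤ C.r) :
    ∫⁻ ζ in ball (0 : Cn n) r, g (C.s ζ) ≤ ∫⁻ y', g y' ∂μ := by
  have h2 : ∫⁻ ζ in ball (0 : Cn n) r, g (C.s ζ) =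
      ∫⁻ w, (ball (0 : Cn n) r).indicator (fun ζ => g (C.s ζ)) (w - pr X.z y) := by
    rw [lintegral_sub_right_eq_self
      (fun w => (Metric.ball (0 : Cn n) r).indicator (fun ζ => g (C.s ζ)) w) (pr X.z y),
      lintegral_indicator measurableSet_ball]
  rw [h2]
  calc ∫⁻ w, (ball (0 : Cn n) r).indicator (fun ζ => g (C.s ζ)) (w - pr X.z y)
      ≤ ∫⁻ z, (eC C).target.indicator (fun z => g ((eC C).symm z)) z := by
        refine lintegral_mono fun z => ?_
        by_cases hz : z - pr X.z y ∈ ball (0 : Cn n) r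
        · have hz' : z ∈ (eC C).target := by
            have := ball_subset_ball hr hz
            rw [mem_ball_zero_iff] at this
            change z ∈ ball _ _
            rwa [mem_ball, dist_eq_norm]
          rw [indicator_of_mem hz, indicator_of_mem hz']
          rfl
        · rw [indicator_of_notMem hz]; exact zero_le
    _ = ∫⁻ z in (eC C).target, g ((eC C).symm z) :=
        lintegral_indicator (eC C).open_target.measurableSet _
    _ = ∫⁻ x in (eC C).source, g x ∂μ :=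
        (lintegral_chart hμ (eC_isCh C) hg.aemeasurable).symm
    _ ≤ ∫⁻ x, g x ∂μ := setLIntegral_le_lintegral _ _

lemma tendsto_s {y : X.B →ₐ[ℂ] ℂ} (C : Chart X.z y) : Tendsto (C.s : Cn n → Pt X.B) (𝓝 0) (𝓝 y) := by
  have := (chart_continuousAt C (mem_ball_self C.r_pos)).tendsto
  rwa [C.s_zero] at this

end ec

/-! ### the pole functions -/

variable {N n : ℕ} {I : Ideal (HomCoordRing N)} {X : XC I n}

/-- the elements `p_a x_b - p_b x_a` -/
def elt (X : XC I n) (p : EE N) (ab : Fin (N + 1) × Fin (N + 1)) : X.B :=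
  p ab.1 • X.x ab.2 - p ab.2 • X.x ab.1

/-- the functions `p_a x_b - p_b x_a` -/
def ell (X : XC I n) (p : EE N) (ab : Fin (N + 1) × Fin (N + 1)) (y : X.B →ₐ[ℂ] ℂ) : ℂ :=
  y (elt X p ab)

lemma ell_eq (p : EE N) (ab : Fin (N + 1) × Fin (N + 1)) (y : X.B →ₐ[ℂ] ℂ) :
    ell X p ab y = p ab.1 * y (X.x ab.2) - p ab.2 * y (X.x ab.1) := by
  unfold ell elt
  rw [map_sub, map_smul, map_smul, smul_eq_mul, smul_eq_mul]

/-- `∑_{a,b} |p_a x_b - p_b x_a|²` -/
def Lp (X : XC I n) (p : EE N) (y : X.B →ₐ[ℂ] ℂ) : ℝ := W792.nS (ell X p) y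

lemma Lp_nonneg (p : EE N) (y : X.B →ₐ[ℂ] ℂ) : 0 ≤ Lp X p y := W792.nS_nonneg _ _

lemma hol_ell (p : EE N) (ab : Fin (N + 1) × Fin (N + 1)) : W792.Hol (ell X p ab) := hol_ev _

lemma sm_Lp (p : EE N) : Sm (Lp X p) := W792.sm_nS fun ab => (hol_ell p ab).sm

lemma Lp_le (p : EE N) (y : X.B →ₐ[ℂ] ℂ) : Lp X p y ≤ 4 * Geo_328.nsq p * ns X y := by
  have h1 : ∀ ab : Fin (N + 1) × Fin (N + 1), ‖ell X p ab y‖ ^ 2 ≤
      2 * (‖p ab.1‖ ^ 2 * ‖y (X.x ab.2)‖ ^ 2) + 2 * (‖p ab.2‖ ^ 2 * ‖y (X.x ab.1)‖ ^ 2) := by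
    intro ab
    rw [ell_eq]
    have h2 := norm_sub_le (p ab.1 * y (X.x ab.2)) (p ab.2 * y (X.x ab.1))
    rw [norm_mul, norm_mul] at h2
    have h3 := norm_nonneg (p ab.1 * y (X.x ab.2) - p ab.2 * y (X.x ab.1))
    nlinarith [sq_nonneg (‖p ab.1‖ * ‖y (X.x ab.2)‖ - ‖p ab.2‖ * ‖y (X.x ab.1)‖)]
  have h2 : Lp X p y ≤ ∑ ab : Fin (N + 1) × Fin (N + 1),
      (2 * (‖p ab.1‖ ^ 2 * ‖y (X.x ab.2)‖ ^ 2) + 2 * (‖p ab.2‖ ^ 2 * ‖y (X.x ab.1)‖ ^ 2)) :=
    Finset.sum_le_sum fun ab _ => h1 ab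
  refine h2.trans (le_of_eq ?_)
  rw [Finset.sum_add_distrib, ← Finset.mul_sum, ← Finset.mul_sum]
  have h3 : ∑ ab : Fin (N + 1) × Fin (N + 1), ‖p ab.1‖ ^ 2 * ‖y (X.x ab.2)‖ ^ 2 =
      Geo_328.nsq p * ns X y := by
    rw [Fintype.sum_prod_type]
    have h5 : ns X y = ∑ l, ‖y (X.x l)‖ ^ 2 := rfl
    rw [h5, Geo_328.nsq, Finset.sum_mul_sum]
  have h4 : ∑ ab : Fin (N + 1) × Fin (N + 1), ‖p ab.2‖ ^ 2 * ‖y (X.x ab.1)‖ ^ 2 =
      Geo_328.nsq p * ns X y := by
    rw [Fintype.sum_prod_type, Finset.sum_comm]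
    have h5 : ns X y = ∑ l, ‖y (X.x l)‖ ^ 2 := rfl
    rw [h5, Geo_328.nsq, Finset.sum_mul_sum]
  rw [h3, h4]; ring

/-- boundedness of `u` on the cone -/
theorem u_bdd (hX : IsSmoothProjective I n) {u : EE N → ℝ} {c : ℝ} (h : PosMet I n u c) :
    ∃ K : ℝ, ∀ p ∈ Cone I, |u p| ≤ K := by
  have hcl : IsClosed (affineCone I) := by
    have : affineCone I = ⋂ F ∈ I, {p | MvPolynomial.eval p F = 0} := by
      ext p; simp [affineCone]
    rw [this]
    exact isClosed_biInter fun F _ =>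
      isClosed_eq (MvPolynomial.continuous_eval F) continuous_const
  have hK : IsCompact (affineCone I ∩ sphere (0 : EE N) 1) :=
    (isCompact_sphere (0 : EE N) 1).inter_left hcl
  have hcont : ContinuousOn u (affineCone I ∩ sphere (0 : EE N) 1) := by
    intro p hp
    have hp0 : p ≠ 0 := by
      rintro rfl
      have := hp.2
      simp at this
    exact (h.sm p ⟨hp.1, hp0⟩).continuousAt.continuousWithinAt
  obtain ⟨K, hKb⟩ := hK.exists_bound_of_continuousOn hcont
  refine ⟨K, fun p hp => ?_⟩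
  have hpn : 0 < ‖p‖ := norm_pos_iff.mpr hp.2
  have ha : ((‖p‖ : ℂ)⁻¹) ≠ 0 := inv_ne_zero (by exact_mod_cast hpn.ne')
  rw [← h.hom p hp _ ha]
  apply hKb
  constructor
  · exact Geo_328.smul_mem_affineCone hX hp.1 _
  · rw [mem_sphere_zero_iff_norm, norm_smul, norm_inv, Complex.norm_real, norm_norm,
      inv_mul_cancel₀ hpn.ne']

/-- the weight `|dz|_g²` of the Fubini-Study metric on `K_X` -/
def wt (X : XC I n) (y : X.B →ₐ[ℂ] ℂ) : ℝ := ns X y ^ (n + 1) / gr X y

lemma wt_pos (y : X.B →ₐ[ℂ] ℂ) : 0 < wt X y := by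
  have := ns_pos (X := X) y
  have := gr_pos (X := X) y
  unfold wt; positivity

lemma continuous_ns : Continuous (ns X) := sm_ns.continuous

lemma continuous_gr : Continuous (gr X) := sm_gr.continuous

lemma continuous_wt : Continuous (wt X) :=
  (continuous_ns.pow _).div continuous_gr fun y => (gr_pos y).ne'

lemma wt_eq_exp (y : X.B →ₐ[ℂ] ℂ) : wt X y = Real.exp ((n + 1) * lns X y - Real.log (gr X y)) := by
  rw [Real.exp_sub, Real.exp_log (gr_pos y)]
  unfold wt lns
  congr 1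
  have h1 : ((n : ℝ) + 1) * Real.log (ns X y) = ((n + 1 : ℕ) : ℝ) * Real.log (ns X y) := by
    push_cast; ring
  rw [h1, Real.exp_nat_mul, Real.exp_log (ns_pos y)]

/-- the total smooth weight -/
def Phi (X : XC I n) (u : EE N → ℝ) (m : ℕ) (y : X.B →ₐ[ℂ] ℂ) : ℝ :=
  ((m : ℝ) - 1) * Psi X u y + (-(2 * ((n : ℝ) + 1))) * lns X y

lemma sm_Phi {u : EE N → ℝ} (hu : ∀ p ∈ Cone I, ContDiffAt ℝ ∞ u p) (m : ℕ) : Sm (Phi X u m) :=
  ((Sm.const _).mulR (sm_Psi hu)).add ((Sm.const _).mulR sm_lns)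

lemma exp_Phi {u : EE N → ℝ} {m : ℕ} (hm : 1 ≤ m) (y : X.B →ₐ[ℂ] ℂ) :
    Real.exp (-Phi X u m y) =
      wt X y ^ (m - 1) * ns X y ^ (2 * (n + 1)) * Real.exp (-(((m : ℝ) - 1) * u (pt X y))) := by
  rw [wt_eq_exp, ← Real.exp_nat_mul]
  have h1 : ns X y ^ (2 * (n + 1)) = Real.exp ((2 * ((n : ℝ) + 1)) * lns X y) := by
    have h2 : (2 * ((n : ℝ) + 1)) * lns X y = ((2 * (n + 1) : ℕ) : ℝ) * Real.log (ns X y) := by
      unfold lns; push_cast; ring
    rw [h2, Real.exp_nat_mul, Real.exp_log (ns_pos y)]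
  rw [h1, ← Real.exp_add, ← Real.exp_add]
  congr 1
  have h3 : ((m - 1 : ℕ) : ℝ) = (m : ℝ) - 1 := by
    rw [Nat.cast_sub hm, Nat.cast_one]
  rw [h3]
  unfold Phi Psi
  ring

lemma lev_Phi_ge {u : EE N → ℝ} {c : ℝ} (h : PosMet I n u c) {m : ℕ}
    (hm : 2 * ((n : ℝ) + 1) < ((m : ℝ) - 1) * c) (y : X.B →ₐ[ℂ] ℂ) (w : CC n) :
    ((((m : ℝ) - 1) * c - 2 * ((n : ℝ) + 1)) * (ns X y)⁻¹ ^ 2) * Ho51.nsq w ≤
      W792.lev (Phi X u m) y w := by
  unfold Phi
  rw [W792.lev_add ((Sm.const _).mulR (sm_Psi h.sm)) ((Sm.const _).mulR sm_lns),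
    W792.lev_const_mul (sm_Psi h.sm), W792.lev_const_mul sm_lns]
  have h1 := lev_Psi_ge h y w
  have h2 := lev_lns_ge y w
  have hm1 : 0 < (m : ℝ) - 1 := by
    by_contra hcon
    push Not at hcon
    have h3 : ((m : ℝ) - 1) * c ≤ 0 := mul_nonpos_of_nonpos_of_nonneg hcon h.c_pos.le
    have : (0 : ℝ) ≤ n := Nat.cast_nonneg n
    linarith
  have h4 := mul_le_mul_of_nonneg_left h1 hm1.le
  have h5 : 0 < ((m : ℝ) - 1) * c - 2 * ((n : ℝ) + 1) := by linarith
  have h6 := mul_le_mul_of_nonneg_left h2 h5.le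
  nlinarith

lemma ofReal_rpow_anti {s t b : ℝ} (hst : s ≤ t) (hb : 0 ≤ b) :
    (ENNReal.ofReal t) ^ (-b) ≤ (ENNReal.ofReal s) ^ (-b) := by
  rw [ENNReal.rpow_neg, ENNReal.rpow_neg]
  gcongr

lemma alg1 {A B s w e : ℝ} (k : ℕ) (hA : 0 < A) (hB : 0 < B) (hs : 0 < s) (he : 0 < e) :
    w = A ^ k * B ^ k * e⁻¹ * (((A * s) ^ k)⁻¹ * ((B * s) ^ k)⁻¹ * (w * s ^ (2 * k) * e)) := by
  have h1 : s ^ (2 * k) = s ^ k * s ^ k := by rw [two_mul, pow_add]
  rw [h1, mul_pow, mul_pow]
  have ha : 0 < A ^ k := by positivity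
  have hb : 0 < B ^ k := by positivity
  have ht : 0 < s ^ k := by positivity
  generalize A ^ k = a at *
  generalize B ^ k = b at *
  generalize s ^ k = t at *
  field_simp

lemma alg2 {l B s w e : ℝ} (k : ℕ) (hl : 0 < l) (hB : 0 < B) (hs : 0 < s) (he : 0 < e) :
    w * (s / l) ^ k = B ^ k * e⁻¹ * ((l ^ k)⁻¹ * ((B * s) ^ k)⁻¹ * (w * s ^ (2 * k) * e)) := by
  have h1 : s ^ (2 * k) = s ^ k * s ^ k := by rw [two_mul, pow_add]
  rw [h1, mul_pow, div_pow]
  have ha : 0 < l ^ k := by positivity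
  have hb : 0 < B ^ k := by positivity
  have ht : 0 < s ^ k := by positivity
  generalize l ^ k = a at *
  generalize B ^ k = b at *
  generalize s ^ k = t at *
  field_simp

/-- **(J)** holomorphic functions on `M` with a prescribed 1-jet at `y₀` and poles in the weight at `p` -/
theorem jets (hX : IsSmoothProjective I n) (hn : 1 ≤ n) {u : EE N → ℝ} {c : ℝ}
    (h : PosMet I n u c) {m : ℕ} (hm : 2 * ((n : ℝ) + 1) < ((m : ℝ) - 1) * c)
    (y0 : X.B →ₐ[ℂ] ℂ) (p : EE N) (hp : Lp X p y0 ≠ 0) (a0 : ℂ) (a : Fin n → ℂ) :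
    ∃ F : (X.B →ₐ[ℂ] ℂ) → ℂ, Ho51.Hol F ∧ F y0 = a0 ∧
      (∃ C : Chart X.z y0, ∀ w : CC n, fderiv ℂ (fun ζ => F (C.s ζ)) 0 w = ∑ k, a k * w k) ∧
      lintM X.z (fun y => ENNReal.ofReal (‖F y‖ ^ 2 * wt X y ^ (m - 1))) < ⊤ ∧
      lintM X.z (fun y => ENNReal.ofReal (‖F y‖ ^ 2 * wt X y ^ (m - 1) *
        (ns X y / Lp X p y) ^ (n + 1))) < ⊤ := by
  classical
  obtain ⟨μ, hμ⟩ := Ho51.exists_leb (M := X.B →ₐ[ℂ] ℂ)
  have hlf := hμ.locallyFinite
  obtain ⟨ρ, hρs, hρc, hρL⟩ := exists_rho X.toEC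
  obtain ⟨Mu, hMu⟩ := u_bdd hX h
  have hn0 : (0 : ℝ) ≤ n := Nat.cast_nonneg n
  have hm1 : 0 < (m : ℝ) - 1 := by
    by_contra hcon
    push Not at hcon
    have h3 : ((m : ℝ) - 1) * c ≤ 0 := mul_nonpos_of_nonpos_of_nonneg hcon h.c_pos.le
    linarith
  have hm1' : 1 ≤ m := by
    by_contra hcon
    have : m = 0 := by omega
    subst this
    norm_num at hm1
  set q0 : EE N := pt X y0 with hq0
  obtain ⟨C⟩ := X.hch y0
  set z0 : CC n := pr X.z y0 with hz0
  -- the radius
  have hev : ∀ᶠ ζ in 𝓝 (0 : CC n), Lp X p (C.s ζ) ≠ 0 := by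
    have h1 : ∀ᶠ y in 𝓝 y0, Lp X p y ≠ 0 := (sm_Lp p).continuous.continuousAt.eventually_ne hp
    exact (tendsto_s C).eventually h1
  obtain ⟨r0, hr0, hr0b⟩ := Metric.eventually_nhds_iff_ball.mp hev
  set r₂ : ℝ := min r0 C.r / 2 with hr₂
  have hr₂p : 0 < r₂ := by
    have := C.r_pos
    rw [hr₂]; positivity
  have hr₂0 : r₂ < r0 := by
    have := min_le_left r0 C.r
    rw [hr₂]; rw [hr₂] at hr₂p; linarith
  have hr₂C : r₂ < C.r := by
    have := min_le_right r0 C.r
    rw [hr₂]; rw [hr₂] at hr₂p; linarith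
  have h12 : r₂ / 2 < r₂ := by linarith
  have hB : closedBall z0 r₂ ⊆ (eC C).target := closedBall_subset_ball hr₂C
  obtain ⟨χ, hχs, hχ01, hχ1, hχsupp, hχD⟩ :=
    G792.exists_cutoff (eC_isCh C) z0 (half_pos hr₂p) h12 hB
  -- the polynomial
  set P : (X.B →ₐ[ℂ] ℂ) → ℂ := fun y => a0 + ∑ k, a k * (cp y k - z0 k) with hP
  have hPh : W792.Hol P := by
    refine Hol.add (Hol.const _) (Hol.sum _ fun k _ => ?_)
    exact Hol.mul (Hol.const _) (Hol.sub (G792.hol_coord k) (Hol.const _))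
  set G : (X.B →ₐ[ℂ] ℂ) → ℂ := fun y => (χ y : ℂ) * P y with hG
  have hGs : Sm G := hχs.ofReal.mul hPh.sm
  set K' : Set (CC n) := {z | r₂ / 2 ≤ ‖z - z0‖ ∧ ‖z - z0‖ ≤ r₂} with hK'
  have hK'c : IsCompact K' := by
    refine (isCompact_closedBall z0 r₂).of_isClosed_subset ?_ fun z hz => by
      rw [mem_closedBall, dist_eq_norm]; exact hz.2
    have hcont : Continuous fun z : CC n => ‖z - z0‖ := by fun_prop
    exact (isClosed_le continuous_const hcont).inter (isClosed_le hcont continuous_const)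
  have hK't : K' ⊆ (eC C).target := fun z hz => hB (by rw [mem_closedBall, dist_eq_norm]; exact hz.2)
  set Kc := (eC C).symm '' K' with hKc
  have hKcc : IsCompact Kc := isCompact_symm_image hK'c hK't
  have hD : ∀ x, x ∉ Kc → ∀ j, db j G x = 0 := by
    intro x hx j
    have h1 := db_mul hχs.ofReal hPh.sm j x
    have h2 : db j G x = db j (fun y => (χ y : ℂ)) x * P x + (χ x : ℂ) * db j P x := h1
    rw [h2, hχD x hx j, db_hol hPh]; ring
  -- the families
  set f : Bool → (Fin (N + 1) × Fin (N + 1)) → (X.B →ₐ[ℂ] ℂ) → ℂ :=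
    fun b => if b then ell X p else ell X q0 with hf
  have hfh : ∀ b ab, W792.Hol (f b ab) := by
    intro b ab
    cases b
    · exact hol_ell q0 ab
    · exact hol_ell p ab
  have hpos : ∀ x ∈ Kc, ∀ b, W792.nS (f b) x ≠ 0 := by
    rintro _ ⟨z, hz, rfl⟩ b
    have hzt := hK't hz
    cases b
    · -- the point `q0`
      intro h0
      have h1 : ∀ ab, ell X q0 ab ((eC C).symm z) = 0 := by
        intro ab
        have h2 : W792.nS (ell X q0) ((eC C).symm z) = 0 := h0
        have h3 : ‖ell X q0 ab ((eC C).symm z)‖ ^ 2 ≤ 0 := by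
          rw [← h2]
          exact Finset.single_le_sum (f := fun ab => ‖ell X q0 ab ((eC C).symm z)‖ ^ 2)
            (fun _ _ => by positivity) (Finset.mem_univ ab)
        have h4 : ‖ell X q0 ab ((eC C).symm z)‖ = 0 := by
          have := norm_nonneg (ell X q0 ab ((eC C).symm z))
          nlinarith
        exact norm_eq_zero.mp h4
      have h5 : z = z0 := by
        funext k
        have h6 := h1 (X.i, X.j k)
        rw [ell_eq] at h6
        have h7 : q0 X.i = 1 := pt_i y0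
        have h8 : ((eC C).symm z) (X.x X.i) = 1 := by rw [X.x_i, map_one]
        have h9 : ((eC C).symm z) (X.x (X.j k)) = z k := by
          have := congrFun ((eC_isCh C).cp_symm hzt) k
          rw [cp_apply, X.z_eq] at this
          exact this
        have h10 : q0 (X.j k) = z0 k := by
          change y0 (X.x (X.j k)) = y0 (X.z k)
          rw [X.z_eq]
        simp only at h6
        rw [h7, h8, h9, h10] at h6
        linear_combination h6
      have h6 := hz.1
      rw [h5, sub_self, norm_zero] at h6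
      linarith
    · -- the point `p`
      have h1 : z - z0 ∈ ball (0 : CC n) r0 := by
        rw [mem_ball_zero_iff]; exact lt_of_le_of_lt hz.2 hr₂0
      exact hr0b _ h1
  obtain ⟨F, hF, hFi⟩ := Amp2_243.solver μ hμ ρ hρs hρc hρL (Phi X u m) (sm_Phi h.sm m)
    (fun y => (((m : ℝ) - 1) * c - 2 * ((n : ℝ) + 1)) * (ns X y)⁻¹ ^ 2)
    (continuous_const.mul ((continuous_ns.inv₀ fun y => (ns_pos y).ne').pow 2))
    (fun y => by
      have := ns_pos (X := X) y
      have : 0 < ((m : ℝ) - 1) * c - 2 * ((n : ℝ) + 1) := by linarith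
      positivity)
    (fun y w => lev_Phi_ge h hm y w)
    f hfh (fun _ => (n : ℝ) + 1) (fun _ => by positivity) G hGs Kc hKcc hD hpos
  have hFc : Continuous F := cont_of_diff hF
  have hPc : Continuous P := hPh.sm.continuous
  have hGc : Continuous G := hGs.continuous
  set bb : ℝ := (n : ℝ) + 1 with hbb
  have hbb0 : 0 ≤ bb := by positivity
  set W : (X.B →ₐ[ℂ] ℂ) → ℝ≥0∞ := fun y => (ENNReal.ofReal (Lp X p y)) ^ (-bb) *
    (ENNReal.ofReal (Lp X q0 y)) ^ (-bb) * ENNReal.ofReal (Real.exp (-Phi X u m y)) with hW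
  have hWeq : ∀ y, G792.wF f (fun _ => bb) y * ENNReal.ofReal (Real.exp (-Phi X u m y)) = W y := by
    intro y
    simp only [hW, G792.wF, Fintype.prod_bool]
    rfl
  have hLc : ∀ q, Continuous (Lp X q) := fun q => (sm_Lp q).continuous
  have hWm : Measurable W := by
    refine Measurable.mul (Measurable.mul ?_ ?_) ?_
    · exact (ENNReal.measurable_ofReal.comp (hLc p).measurable).pow_const _
    · exact (ENNReal.measurable_ofReal.comp (hLc q0).measurable).pow_const _
    · exact ENNReal.measurable_ofReal.comp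
        (Real.continuous_exp.comp (sm_Phi h.sm m).continuous.neg).measurable
  set E : (X.B →ₐ[ℂ] ℂ) → ℝ≥0∞ := fun y => ENNReal.ofReal (‖F y - G y‖ ^ 2) * W y with hE
  have hEm : Measurable E :=
    (ENNReal.measurable_ofReal.comp ((hFc.sub hGc).norm.pow 2).measurable).mul hWm
  have hEi : ∫⁻ y, E y ∂μ < ⊤ := by
    have : (fun y => ENNReal.ofReal (‖F y - G y‖ ^ 2) * (G792.wF f (fun _ => bb) y *
        ENNReal.ofReal (Real.exp (-Phi X u m y)))) = E := by
      funext y; rw [hWeq]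
    rw [← this]
    exact hFi
  -- constants
  have hp0 : 0 < Geo_328.nsq p := by
    by_contra hcon
    push Not at hcon
    have h1 := Lp_le (X := X) p y0
    have h2 := Lp_nonneg (X := X) p y0
    have h3 := ns_pos (X := X) y0
    have h4 : 0 < Lp X p y0 := lt_of_le_of_ne h2 (Ne.symm hp)
    nlinarith
  have hq00 : 0 < Geo_328.nsq q0 := ns_pos (X := X) y0
  set cp' : ℝ := 4 * Geo_328.nsq p with hcp'
  set cq' : ℝ := 4 * Geo_328.nsq q0 with hcq'
  have hcp0 : 0 < cp' := by positivity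
  have hcq0 : 0 < cq' := by positivity
  have heL : ∀ y, wt X y ^ (m - 1) * ns X y ^ (2 * (n + 1)) * Real.exp (-(((m : ℝ) - 1) * Mu)) ≤
      Real.exp (-Phi X u m y) := by
    intro y
    rw [exp_Phi hm1']
    have h1 := hMu _ (pt_mem (X := X) y)
    have h2 := le_abs_self (u (pt X y))
    have := wt_pos (X := X) y
    have := ns_pos (X := X) y
    gcongr
    linarith
  refine ⟨F, hF, ?_⟩
  -- jets
  have hjet : (fun ζ : CC n => F (C.s ζ) - (a0 + ∑ k, a k * ζ k)) 0 = 0 ∧
      fderiv ℂ (fun ζ : CC n => F (C.s ζ) - (a0 + ∑ k, a k * ζ k)) 0 = 0 := by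
    have hFd : DifferentiableAt ℂ (fun ζ => F (C.s ζ)) 0 :=
      (anal_of_diff hF y0 C 0 (mem_ball_self C.r_pos)).differentiableAt
    have hHd : DifferentiableAt ℂ (fun ζ : CC n => F (C.s ζ) - (a0 + ∑ k, a k * ζ k)) 0 := by
      apply hFd.sub
      fun_prop
    -- bound of `Lp q0`
    have hO : ∃ C1 : ℝ, 0 < C1 ∧ ∀ᶠ ζ in 𝓝 (0 : CC n), Lp X q0 (C.s ζ) ≤ C1 * ‖ζ‖ ^ 2 := by
      have h1 : ∀ ab, ∃ c1 : ℝ, 0 ≤ c1 ∧ ∀ᶠ ζ in 𝓝 (0 : CC n),
          ‖ell X q0 ab (C.s ζ)‖ ≤ c1 * ‖ζ‖ := by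
        intro ab
        have h2 : DifferentiableAt ℂ (fun ζ => ell X q0 ab (C.s ζ)) 0 :=
          (C.anal (elt X q0 ab) 0 (mem_ball_self C.r_pos)).differentiableAt
        have h3 := h2.isBigO_sub
        have h4 : ell X q0 ab (C.s 0) = 0 := by
          rw [C.s_zero, ell_eq]
          change y0 (X.x ab.1) * y0 (X.x ab.2) - y0 (X.x ab.2) * y0 (X.x ab.1) = 0
          ring
        rw [h4] at h3
        simp only [sub_zero] at h3
        obtain ⟨c1, hc1, hc1'⟩ := h3.exists_nonneg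
        exact ⟨c1, hc1, hc1'.bound⟩
      choose c1 hc1 hc1' using h1
      refine ⟨(∑ ab, c1 ab ^ 2) + 1, by positivity, ?_⟩
      filter_upwards [Filter.eventually_all.mpr hc1'] with ζ hζ
      calc Lp X q0 (C.s ζ) = ∑ ab, ‖ell X q0 ab (C.s ζ)‖ ^ 2 := rfl
        _ ≤ ∑ ab, c1 ab ^ 2 * ‖ζ‖ ^ 2 := by
            refine Finset.sum_le_sum fun ab _ => ?_
            rw [← mul_pow]
            exact pow_le_pow_left₀ (norm_nonneg _) (hζ ab) 2
        _ = (∑ ab, c1 ab ^ 2) * ‖ζ‖ ^ 2 := by rw [Finset.sum_mul]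
        _ ≤ _ := by nlinarith [sq_nonneg ‖ζ‖]
    obtain ⟨C1, hC1, hC1'⟩ := hO
    have hO2 : ∀ᶠ ζ in 𝓝 (0 : CC n), Lp X p (C.s ζ) < Lp X p y0 + 1 :=
      (tendsto_s C).eventually ((hLc p).continuousAt.eventually (gt_mem_nhds (by linarith)))
    have hexpc : Continuous fun y : X.B →ₐ[ℂ] ℂ => Real.exp (-Phi X u m y) :=
      Real.continuous_exp.comp (sm_Phi h.sm m).continuous.neg
    have hO3 : ∀ᶠ ζ in 𝓝 (0 : CC n), Real.exp (-Phi X u m y0) / 2 < Real.exp (-Phi X u m (C.s ζ)) :=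
      (tendsto_s C).eventually (hexpc.continuousAt.eventually
        (lt_mem_nhds (by have := Real.exp_pos (-Phi X u m y0); linarith)))
    obtain ⟨r3, hr3, hr3b⟩ := Metric.eventually_nhds_iff_ball.mp (hC1'.and (hO2.and hO3))
    set r : ℝ := min r3 (r₂ / 2) with hr
    have hrp : 0 < r := by rw [hr]; positivity
    set C2 : ℝ := Lp X p y0 + 1 with hC2
    have hC2p : 0 < C2 := by
      have := Lp_nonneg (X := X) p y0
      linarith
    set C3 : ℝ := Real.exp (-Phi X u m y0) / 2 with hC3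
    have hC3p : 0 < C3 := by positivity
    set κ : ℝ≥0∞ := (ENNReal.ofReal C2) ^ (-bb) * (ENNReal.ofReal C1) ^ (-bb) *
      ENNReal.ofReal C3 with hκ
    have hκ0 : κ ≠ 0 := by
      rw [hκ]
      refine mul_ne_zero (mul_ne_zero (G792.rpow_neg_ne_zero _ hbb0)
        (G792.rpow_neg_ne_zero _ hbb0)) ?_
      rw [Ne, ENNReal.ofReal_eq_zero, not_le]; exact hC3p
    refine Amp4_243.jet_of_lint hn hHd bb le_rfl (ball_mem_nhds (0 : CC n) hrp) ?_
    intro htop
    have h1 : κ * ∫⁻ ζ in ball (0 : CC n) r, ENNReal.ofReal (‖F (C.s ζ) - (a0 + ∑ k, a k * ζ k)‖ ^ 2) *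
        (ENNReal.ofReal (‖ζ‖ ^ 2)) ^ (-bb) ≤ ∫⁻ y, E y ∂μ := by
      refine le_trans ?_ (lint_sheet_le hμ C hEm (r := r)
        ((min_le_right _ _).trans (by linarith)))
      refine le_trans (lintegral_const_mul_le _ _) ?_
      refine setLIntegral_mono' measurableSet_ball fun ζ hζ => ?_
      have hζ3 : ζ ∈ ball (0 : CC n) r3 := ball_subset_ball (min_le_left _ _) hζ
      have hζ2 : ζ ∈ ball (0 : CC n) (r₂ / 2) := ball_subset_ball (min_le_right _ _) hζ
      have hζC : ζ ∈ ball (0 : CC n) C.r := ball_subset_ball (by linarith) hζ2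
      obtain ⟨e1, e2, e3⟩ := hr3b ζ hζ3
      have hGζ : G (C.s ζ) = a0 + ∑ k, a k * ζ k := by
        have h2 : χ (C.s ζ) = 1 := by
          have := hχ1 (ζ + z0) (by rw [mem_ball, dist_eq_norm]; simpa using hζ2)
          change χ (C.s (ζ + z0 - z0)) = 1 at this
          rwa [add_sub_cancel_right] at this
        have h3 : ∀ k, cp (C.s ζ) k - z0 k = ζ k := by
          intro k
          have := congrFun (chart_pr C hζC) k
          rw [Amp1_243.cp_eq, this, Pi.add_apply, ← hz0]; ring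
        simp only [hG, hP, h2, h3, Complex.ofReal_one, one_mul]
      have hWζ : κ * (ENNReal.ofReal (‖ζ‖ ^ 2)) ^ (-bb) ≤ W (C.s ζ) := by
        have h4 : (ENNReal.ofReal (C1 * ‖ζ‖ ^ 2)) ^ (-bb) =
            (ENNReal.ofReal C1) ^ (-bb) * (ENNReal.ofReal (‖ζ‖ ^ 2)) ^ (-bb) := by
          rw [ENNReal.ofReal_mul hC1.le,
            ENNReal.mul_rpow_of_ne_top ENNReal.ofReal_ne_top ENNReal.ofReal_ne_top]
        calc κ * (ENNReal.ofReal (‖ζ‖ ^ 2)) ^ (-bb)
            = (ENNReal.ofReal C2) ^ (-bb) * (ENNReal.ofReal (C1 * ‖ζ‖ ^ 2)) ^ (-bb) *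
              ENNReal.ofReal C3 := by rw [h4, hκ]; ring
          _ ≤ _ := by
            simp only [hW]
            exact mul_le_mul' (mul_le_mul' (ofReal_rpow_anti e2.le hbb0)
              (ofReal_rpow_anti e1 hbb0)) (ENNReal.ofReal_le_ofReal e3.le)
      calc κ * (ENNReal.ofReal (‖F (C.s ζ) - (a0 + ∑ k, a k * ζ k)‖ ^ 2) *
            (ENNReal.ofReal (‖ζ‖ ^ 2)) ^ (-bb))
          = ENNReal.ofReal (‖F (C.s ζ) - G (C.s ζ)‖ ^ 2) *
            (κ * (ENNReal.ofReal (‖ζ‖ ^ 2)) ^ (-bb)) := by rw [hGζ]; ring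
        _ ≤ E (C.s ζ) := by simp only [hE]; gcongr
    rw [htop, ENNReal.mul_top hκ0, top_le_iff] at h1
    exact hEi.ne h1
  -- integrals
  have key : ∀ (T : (X.B →ₐ[ℂ] ℂ) → ℝ) (K : ℝ≥0∞), Measurable T → (∀ y, 0 ≤ T y) → K ≠ ⊤ →
      (∀ y, ENNReal.ofReal (T y) ≤ K * W y) →
      ContinuousOn T ((eC C).symm '' closedBall z0 r₂) →
      lintM X.z (fun y => ENNReal.ofReal (‖F y‖ ^ 2 * T y)) < ⊤ := by
    intro T K hTm hT0 hK hTW hTc
    have hS : IsCompact ((eC C).symm '' closedBall z0 r₂) :=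
      isCompact_symm_image (isCompact_closedBall z0 r₂) hB
    set S := (eC C).symm '' closedBall z0 r₂ with hSdef
    have hGS : ∀ y, y ∉ S → G y = 0 := by
      intro y hy
      have : χ y = 0 := by
        by_contra hne
        obtain ⟨h1, h2⟩ := hχsupp y hne
        exact hy ⟨cp y, ball_subset_closedBall h2, (eC_isCh C).symm_cp h1⟩
      simp only [hG, this, Complex.ofReal_zero, zero_mul]
    obtain ⟨K3, hK3⟩ := hS.exists_bound_of_continuousOn
      (f := fun y => ‖G y‖ ^ 2 * T y) ((hGc.norm.pow 2).continuousOn.mul hTc)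
    have hmeasT : Measurable fun y => ENNReal.ofReal (‖F y‖ ^ 2 * T y) :=
      ENNReal.measurable_ofReal.comp ((hFc.norm.pow 2).measurable.mul hTm)
    rw [Amp1_243.lintM_eq hμ hmeasT]
    have hpt : ∀ y, ENNReal.ofReal (‖F y‖ ^ 2 * T y) ≤
        2 * K * E y + 2 * S.indicator (fun _ => ENNReal.ofReal K3) y := by
      intro y
      have h3 : ‖F y‖ ^ 2 ≤ 2 * ‖F y - G y‖ ^ 2 + 2 * ‖G y‖ ^ 2 := by
        have h4 : ‖F y‖ ≤ ‖F y - G y‖ + ‖G y‖ := by
          have := norm_add_le (F y - G y) (G y)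
          rwa [sub_add_cancel] at this
        nlinarith [sq_nonneg (‖F y - G y‖ - ‖G y‖), norm_nonneg (F y), norm_nonneg (F y - G y),
          norm_nonneg (G y)]
      calc ENNReal.ofReal (‖F y‖ ^ 2 * T y)
          ≤ ENNReal.ofReal (2 * ‖F y - G y‖ ^ 2 * T y + 2 * (‖G y‖ ^ 2 * T y)) := by
            apply ENNReal.ofReal_le_ofReal
            have := hT0 y
            nlinarith
        _ = 2 * (ENNReal.ofReal (‖F y - G y‖ ^ 2) * ENNReal.ofReal (T y)) +
            2 * ENNReal.ofReal (‖G y‖ ^ 2 * T y) := by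
            have := hT0 y
            rw [ENNReal.ofReal_add (by positivity) (by positivity), mul_assoc,
              ENNReal.ofReal_mul (by norm_num), ENNReal.ofReal_mul (by positivity),
              ENNReal.ofReal_mul (p := 2) (by norm_num)]
            simp only [ENNReal.ofReal_ofNat]
        _ ≤ 2 * (ENNReal.ofReal (‖F y - G y‖ ^ 2) * (K * W y)) +
            2 * S.indicator (fun _ => ENNReal.ofReal K3) y := by
            gcongr
            · exact hTW y
            · by_cases hy : y ∈ S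
              · rw [indicator_of_mem hy]
                apply ENNReal.ofReal_le_ofReal
                exact (le_abs_self _).trans (hK3 y hy)
              · rw [indicator_of_notMem hy, hGS y hy]
                simp
        _ = _ := by simp only [hE]; ring
    calc ∫⁻ y, ENNReal.ofReal (‖F y‖ ^ 2 * T y) ∂μ
        ≤ ∫⁻ y, (2 * K * E y + 2 * S.indicator (fun _ => ENNReal.ofReal K3) y) ∂μ :=
          lintegral_mono hpt
      _ = 2 * K * ∫⁻ y, E y ∂μ + 2 * (ENNReal.ofReal K3 * μ S) := by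
          rw [lintegral_add_left (hEm.const_mul _), lintegral_const_mul _ hEm,
            lintegral_const_mul' _ _ (by norm_num),
            lintegral_indicator_const hS.measurableSet]
      _ < ⊤ := by
          refine ENNReal.add_lt_top.mpr ⟨?_, ?_⟩
          · exact ENNReal.mul_lt_top (ENNReal.mul_lt_top (by norm_num) hK.lt_top) hEi
          · exact ENNReal.mul_lt_top (by norm_num)
              (ENNReal.mul_lt_top ENNReal.ofReal_lt_top hS.measure_lt_top)
  have hnat : ∀ s : ℝ, 0 < s → (ENNReal.ofReal s) ^ (-bb) = ENNReal.ofReal ((s ^ (n + 1))⁻¹) := by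
    intro s hs
    rw [ENNReal.ofReal_rpow_of_pos hs, Real.rpow_neg hs.le]
    congr 2
    have : bb = ((n + 1 : ℕ) : ℝ) := by rw [hbb]; push_cast; ring
    rw [this, Real.rpow_natCast]
  set e0 : ℝ := Real.exp (-(((m : ℝ) - 1) * Mu)) with he0
  have he0p : 0 < e0 := Real.exp_pos _
  refine ⟨?_, ⟨C, ?_⟩, ?_, ?_⟩
  · have := hjet.1
    simp only [C.s_zero] at this
    simpa [sub_eq_zero] using this
  · intro w
    have hFd : DifferentiableAt ℂ (fun ζ => F (C.s ζ)) 0 :=
      (anal_of_diff hF y0 C 0 (mem_ball_self C.r_pos)).differentiableAt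
    have hLd : HasFDerivAt (fun ζ : CC n => a0 + ∑ k, a k * ζ k)
        (∑ k, a k • (ContinuousLinearMap.proj (R := ℂ) (φ := fun _ : Fin n => ℂ) k)) 0 := by
      have h1 : ∀ k ∈ Finset.univ, HasFDerivAt (fun ζ : CC n => a k * ζ k)
          (a k • (ContinuousLinearMap.proj (R := ℂ) (φ := fun _ : Fin n => ℂ) k)) 0 := by
        intro k _
        exact ((ContinuousLinearMap.proj (R := ℂ) (φ := fun _ : Fin n => ℂ) k).hasFDerivAt).const_mul
          (a k)
      exact (HasFDerivAt.fun_sum h1).const_add a0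
    have h2 := hjet.2
    rw [fderiv_fun_sub hFd hLd.differentiableAt, hLd.fderiv, sub_eq_zero] at h2
    rw [h2]
    simp
  · have := key (fun y => wt X y ^ (m - 1))
      (ENNReal.ofReal (cp' ^ (n + 1) * cq' ^ (n + 1) * e0⁻¹)) (continuous_wt.pow _).measurable
      (fun y => by have := wt_pos (X := X) y; positivity) ENNReal.ofReal_ne_top ?_
      (continuous_wt.pow _).continuousOn
    · exact this
    intro y
    have hns := ns_pos (X := X) y
    have hwt := wt_pos (X := X) y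
    calc ENNReal.ofReal (wt X y ^ (m - 1))
        = ENNReal.ofReal (cp' ^ (n + 1) * cq' ^ (n + 1) * e0⁻¹) *
          (ENNReal.ofReal (((cp' * ns X y) ^ (n + 1))⁻¹) *
            ENNReal.ofReal (((cq' * ns X y) ^ (n + 1))⁻¹) *
            ENNReal.ofReal (wt X y ^ (m - 1) * ns X y ^ (2 * (n + 1)) * e0)) := by
          rw [← ENNReal.ofReal_mul (by positivity), ← ENNReal.ofReal_mul (by positivity),
            ← ENNReal.ofReal_mul (by positivity)]
          rw [← alg1 (n + 1) hcp0 hcq0 hns he0p]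
      _ ≤ _ := by
          rw [← hnat _ (by positivity), ← hnat _ (by positivity)]
          simp only [hW]
          exact mul_le_mul' le_rfl (mul_le_mul' (mul_le_mul'
            (ofReal_rpow_anti (Lp_le p y) hbb0) (ofReal_rpow_anti (Lp_le q0 y) hbb0))
            (ENNReal.ofReal_le_ofReal (heL y)))
  · have := key (fun y => wt X y ^ (m - 1) * (ns X y / Lp X p y) ^ (n + 1))
      (ENNReal.ofReal (cq' ^ (n + 1) * e0⁻¹))
      ((continuous_wt.pow _).measurable.mul
        ((continuous_ns.measurable.div (hLc p).measurable).pow_const _))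
      (fun y => by
        have := wt_pos (X := X) y
        have := ns_pos (X := X) y
        have := Lp_nonneg (X := X) p y
        positivity) ENNReal.ofReal_ne_top ?_ ?_
    · simpa only [mul_assoc] using this
    · intro y
      have hns := ns_pos (X := X) y
      have hwt := wt_pos (X := X) y
      rcases (Lp_nonneg (X := X) p y).eq_or_lt with h0 | h0
      · rw [← h0, div_zero, zero_pow (by omega), mul_zero, ENNReal.ofReal_zero]
        exact zero_le
      calc ENNReal.ofReal (wt X y ^ (m - 1) * (ns X y / Lp X p y) ^ (n + 1))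
          = ENNReal.ofReal (cq' ^ (n + 1) * e0⁻¹) *
            (ENNReal.ofReal (((Lp X p y) ^ (n + 1))⁻¹) *
              ENNReal.ofReal (((cq' * ns X y) ^ (n + 1))⁻¹) *
              ENNReal.ofReal (wt X y ^ (m - 1) * ns X y ^ (2 * (n + 1)) * e0)) := by
            rw [← ENNReal.ofReal_mul (by positivity), ← ENNReal.ofReal_mul (by positivity),
              ← ENNReal.ofReal_mul (by positivity)]
            rw [← alg2 (n + 1) h0 hcq0 hns he0p]
        _ ≤ _ := by
            rw [← hnat _ h0, ← hnat _ (by positivity)]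
            simp only [hW]
            exact mul_le_mul' le_rfl (mul_le_mul' (mul_le_mul' le_rfl
              (ofReal_rpow_anti (Lp_le q0 y) hbb0)) (ENNReal.ofReal_le_ofReal (heL y)))
    · refine (continuous_wt.pow _).continuousOn.mul ((continuous_ns.continuousOn.div
        (hLc p).continuousOn ?_).pow _)
      rintro _ ⟨z, hz, rfl⟩
      apply hr0b
      rw [mem_ball_zero_iff]
      rw [mem_closedBall, dist_eq_norm] at hz
      exact lt_of_le_of_lt hz hr₂0

end Crest.Agent.R269.Amp5_243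
end
end

-- ▼ part R269/Reg11_241
section

/-!
Row 269 (S0411), leaf D4/REG, part 11 (helper241): sections with the pole weight at `p` vanish at `p`;
the statements `Reg0`, `RegV0` of Amp8_243.
-/

set_option autoImplicit false
set_option linter.unusedSectionVars false
set_option linter.style.haveILetI false

open scoped ENNReal NNReal Topology BigOperators
open MeasureTheory Set Metric Filter Asymptotics

noncomputable section

namespace Crest.Agent.R269.Reg11_241

open Crest.AlgGeometry.ProjEmb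
open Crest.Agent.R271.Defs710 hiding wt
open Crest.Agent.R271.Bd741 Crest.Agent.R269.Reg4_241
open Crest.Agent.R269.Amp1_243 Crest.Agent.R269.Amp3_243 Crest.Agent.R269.Geo_328
open Crest.Agent.R269.Reg5_241 Crest.Agent.R269.Reg6_241 Crest.Agent.R269.Reg7_241
open Crest.Agent.R269.Reg8_241 Crest.Agent.R269.Reg9_241 Crest.Agent.R269.Reg10_241
open Crest.Agent.R269.DictA_795 Crest.Agent.R269.DictB_795 Crest.Agent.R269.DictC_795
open Crest.Agent.R269.DictE_795 Crest.Agent.R269.DictF_795 Crest.Agent.R269.H0tw_795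

variable {N n : ℕ}

/-- `∑_{a,b} |p_a q_b - p_b q_a|²` -/
def wdg (p q : EE N) : ℝ :=
  ∑ ab : Fin (N + 1) × Fin (N + 1), ‖p ab.1 * q ab.2 - p ab.2 * q ab.1‖ ^ 2

lemma wdg_nonneg (p q : EE N) : 0 ≤ wdg p q := Finset.sum_nonneg fun _ _ => by positivity

lemma wdg_smul (p q : EE N) (a : ℂ) : wdg p (a • q) = ‖a‖ ^ 2 * wdg p q := by
  unfold wdg
  rw [Finset.mul_sum]
  refine Finset.sum_congr rfl fun ab _ => ?_
  simp only [Pi.smul_apply, smul_eq_mul]
  rw [← mul_pow, ← norm_mul]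
  congr 2
  ring

lemma nsq_smul' (q : EE N) (a : ℂ) : Geo_328.nsq (a • q) = ‖a‖ ^ 2 * Geo_328.nsq q := by
  unfold Geo_328.nsq
  rw [Finset.mul_sum]
  refine Finset.sum_congr rfl fun l _ => ?_
  rw [Pi.smul_apply, smul_eq_mul, norm_mul, mul_pow]

lemma le_wdg (p q : EE N) (a b : Fin (N + 1)) : ‖p a * q b - p b * q a‖ ^ 2 ≤ wdg p q :=
  Finset.single_le_sum (f := fun ab : Fin (N + 1) × Fin (N + 1) =>
    ‖p ab.1 * q ab.2 - p ab.2 * q ab.1‖ ^ 2) (fun _ _ => by positivity) (Finset.mem_univ (a, b))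

variable {I : Ideal (HomCoordRing N)}

lemma Lp_eq (X : XC I n) (p : EE N) (y : X.B →ₐ[ℂ] ℂ) :
    Amp5_243.Lp X p y = wdg p (pt X y) := by
  unfold Amp5_243.Lp wdg Crest.Agent.R271.W792.nS
  refine Finset.sum_congr rfl fun ab _ => ?_
  rw [Amp5_243.ell_eq]
  rfl

/-- the pole function is `O(|ζ|²)` -/
lemma wdg_chart (Y : XC I n) {y : Y.B →ₐ[ℂ] ℂ} (C : Chart Y.z y) {p : EE N} {κ : ℂ}
    (hp : pt Y y = κ • p) :
    ∃ K : ℝ, 0 < K ∧ ∃ δ : ℝ, 0 < δ ∧ ∀ ζ ∈ ball (0 : Cn n) δ,
      wdg p (pt Y (C.s ζ)) ≤ K * ‖ζ‖ ^ 2 := by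
  have h1 : ∀ l, (fun ζ => C.s ζ (Y.x l) - C.s 0 (Y.x l)) =O[𝓝 0] fun ζ : Cn n => ζ := by
    intro l
    have h2 := (C.anal (Y.x l) 0 (mem_ball_self C.r_pos)).differentiableAt.isBigO_sub
    simpa using h2
  have h2 : ∀ ab : Fin (N + 1) × Fin (N + 1),
      (fun ζ => p ab.1 * C.s ζ (Y.x ab.2) - p ab.2 * C.s ζ (Y.x ab.1)) =O[𝓝 0]
        fun ζ : Cn n => ζ := by
    intro ab
    have h3 := ((h1 ab.2).const_mul_left (p ab.1)).sub ((h1 ab.1).const_mul_left (p ab.2))
    refine h3.congr_left fun ζ => ?_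
    have h4 : ∀ l, C.s 0 (Y.x l) = κ * p l := by
      intro l
      rw [C.s_zero]
      exact congrFun hp l
    rw [h4, h4]; ring
  have h3 : (fun ζ => wdg p (pt Y (C.s ζ))) =O[𝓝 0] fun ζ : Cn n => ‖ζ‖ ^ 2 := by
    have h3ab : ∀ ab : Fin (N + 1) × Fin (N + 1),
        (fun ζ : Cn n => ‖p ab.1 * C.s ζ (Y.x ab.2) - p ab.2 * C.s ζ (Y.x ab.1)‖ ^ 2) =O[𝓝 0]
          fun ζ : Cn n => ‖ζ‖ ^ 2 := fun ab => (h2 ab).norm_norm.pow 2
    have h3s : (fun ζ : Cn n => ∑ ab : Fin (N + 1) × Fin (N + 1),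
        ‖p ab.1 * C.s ζ (Y.x ab.2) - p ab.2 * C.s ζ (Y.x ab.1)‖ ^ 2) =O[𝓝 0]
          fun ζ : Cn n => ‖ζ‖ ^ 2 := IsBigO.fun_sum fun ab _ => h3ab ab
    exact h3s
  obtain ⟨K, hK, h4⟩ := h3.exists_pos
  obtain ⟨δ, hδ, h5⟩ := Metric.eventually_nhds_iff_ball.1 h4.bound
  refine ⟨K, hK, δ, hδ, fun ζ hζ => ?_⟩
  have h6 := h5 ζ hζ
  rw [Real.norm_of_nonneg (wdg_nonneg _ _), Real.norm_of_nonneg (by positivity)] at h6
  exact h6

variable [I.IsPrime]

/-- **VANISHING** -/
theorem reg_vanish (hX : IsSmoothProjective I n) (hn : 1 ≤ n) (X : XC I n)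
    (io : X.B →ₐ[ℂ] FnField I) (hinj : Function.Injective io)
    (hx : ∀ l, io (X.x l) = fnRatio I X.i l) (m : ℕ) (j : ℤ) (F : X.B)
    {p : Fin (N + 1) → ℂ} (hp : p ∈ affineCone I) {i0 : Fin (N + 1)} (hpi : p i0 ≠ 0)
    (hfin : lintM X.z (fun y => ENNReal.ofReal (‖y F‖ ^ 2 * (wt X y ^ m * ns X y ^ (-j) *
      (ns X y / wdg p (pt X y)) ^ (n + 1)))) < ∞) :
    (fnRatio I i0 X.i) ^ j • sec X io (m + 1) F ∈ vanishingSections I n (m + 1) p := by
  have hp0 : p ≠ 0 := fun h0 => hpi (by rw [h0]; rfl)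
  obtain ⟨c, hc, rfl⟩ := exists_CD hX hp hp0 hpi
  obtain ⟨C⟩ := (xc c hc hX).hch (yp c hc hX)
  have hpt : pt (xc c hc hX) (yp c hc hX) = (p c.i)⁻¹ • p := by
    funext l
    rw [pt_yp, Pi.smul_apply, smul_eq_mul, div_eq_mul_inv, mul_comm]
  obtain ⟨K, hK, δ, hδ, hwd⟩ := wdg_chart (xc c hc hX) C hpt
  set k0 : Fin n := ⟨0, hn⟩ with hk0
  set q0 : (xc c hc hX).B := (xc c hc hX).z k0 -
    algebraMap ℂ _ (yp c hc hX ((xc c hc hX).z k0)) with hq0
  have hq0s : ∀ ζ ∈ ball (0 : Cn n) C.r, C.s ζ q0 = ζ k0 := by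
    intro ζ hζ
    rw [hq0, map_sub, AlgHom.commutes, C.s_z ζ hζ]
    simp
  have hq0ne : q0 ≠ 0 := by
    intro h0
    have h1 := hq0s (Pi.single k0 ((C.r / 2 : ℝ) : ℂ)) (by
      rw [mem_ball_zero_iff, Pi.norm_single]
      have := C.r_pos
      rw [Complex.norm_real, Real.norm_of_nonneg (by linarith)]
      linarith)
    rw [h0, map_zero, Pi.single_eq_same] at h1
    have h2 : (C.r / 2 : ℝ) = 0 := by exact_mod_cast h1.symm
    have := C.r_pos
    linarith
  set E : (X.B →ₐ[ℂ] ℂ) → ℝ := fun y => (ns X y / wdg p (pt X y)) ^ (n + 1) with hE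
  set E' : ((xc c hc hX).B →ₐ[ℂ] ℂ) → ℝ := fun s =>
    (ns (xc c hc hX) s / wdg p (pt (xc c hc hX) s)) ^ (n + 1) with hE'
  set δ1 : ℝ := min (min δ C.r) 1 with hδ1
  have hδ10 : 0 < δ1 := lt_min (lt_min hδ C.r_pos) one_pos
  -- lower bound near `p`
  have hlow : ∀ ζ ∈ ball (0 : Cn n) δ1, C.s ζ q0 ≠ 0 → 0 < ‖ζ‖ ∧
      (K⁻¹) ^ (n + 1) * ((‖ζ‖ ^ 2) ^ (n + 1))⁻¹ ≤ E' (C.s ζ) := by
    intro ζ hζ hne
    have hζr : ζ ∈ ball (0 : Cn n) C.r :=
      ball_subset_ball ((min_le_left _ _).trans (min_le_right _ _)) hζ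
    have hζδ : ζ ∈ ball (0 : Cn n) δ :=
      ball_subset_ball ((min_le_left _ _).trans (min_le_left _ _)) hζ
    rw [hq0s ζ hζr] at hne
    have hζ0 : 0 < ‖ζ‖ := (norm_pos_iff.2 hne).trans_le (norm_le_pi_norm ζ k0)
    refine ⟨hζ0, ?_⟩
    have h1 := hwd ζ hζδ
    have h2 : 0 < wdg p (pt (xc c hc hX) (C.s ζ)) := by
      refine lt_of_lt_of_le ?_ (le_wdg p _ c.i (c.S k0))
      have h3 : pt (xc c hc hX) (C.s ζ) c.i = 1 := pt_i (X := xc c hc hX) (C.s ζ)
      have h4 : pt (xc c hc hX) (C.s ζ) (c.S k0) = p (c.S k0) / p c.i + ζ k0 := by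
        have h5 := C.s_z ζ hζr k0
        have h6 := pt_yp c hc hX (c.S k0)
        have h7 : pt (xc c hc hX) (C.s ζ) (c.S k0) = C.s ζ ((xc c hc hX).z k0) := rfl
        have h8 : pt (xc c hc hX) (yp c hc hX) (c.S k0) = yp c hc hX ((xc c hc hX).z k0) := rfl
        rw [h7, h5, ← h8, h6]
      rw [h3, h4]
      have h9 : p c.i * (p (c.S k0) / p c.i + ζ k0) - p (c.S k0) * 1 = p c.i * ζ k0 := by
        field_simp
        ring
      rw [h9]
      exact pow_pos (norm_pos_iff.2 (mul_ne_zero hpi hne)) 2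
    have h10 : K⁻¹ * (‖ζ‖ ^ 2)⁻¹ ≤ ns (xc c hc hX) (C.s ζ) / wdg p (pt (xc c hc hX) (C.s ζ)) := by
      rw [← mul_inv, inv_eq_one_div]
      exact div_le_div₀ (ns_pos _).le (one_le_ns _) h2 h1
    calc (K⁻¹) ^ (n + 1) * ((‖ζ‖ ^ 2) ^ (n + 1))⁻¹ = (K⁻¹ * (‖ζ‖ ^ 2)⁻¹) ^ (n + 1) := by
          rw [mul_pow, inv_pow (‖ζ‖ ^ 2)]
      _ ≤ E' (C.s ζ) := by
          simp only [hE']
          gcongr
  obtain ⟨f, hf, g, ε, c2, d, e1, e2, e3, e4, e5, e6, e7, e8, e9⟩ :=
    local_coeff hX X io hinj hx hc m j F E E' q0 hq0ne C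
      (by
        intro y s hs ⟨a, ha, hys⟩
        have ha' : ‖a‖ ^ 2 ≠ 0 := pow_ne_zero 2 (norm_ne_zero_iff.2 ha)
        simp only [hE, hE']
        have h1 : ns X y = ‖a‖ ^ 2 * ns (xc c hc hX) s := by
          unfold ns
          rw [hys, nsq_smul']
        rw [h1, hys, wdg_smul, mul_div_mul_left _ _ ha'])
      (fun s => pow_nonneg (div_nonneg (ns_pos _).le (wdg_nonneg _ _)) _)
      (c1 := (K⁻¹) ^ (n + 1)) (δ1 := δ1) (by positivity) hδ10
      (by
        intro ζ hζ hne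
        obtain ⟨h0, h1⟩ := hlow ζ hζ hne
        refine le_trans ?_ h1
        have h2 : ‖ζ‖ ≤ 1 := by
          rw [mem_ball_zero_iff] at hζ
          exact hζ.le.trans (min_le_right _ _)
        have h3 : 1 ≤ ((‖ζ‖ ^ 2) ^ (n + 1))⁻¹ := by
          rw [one_le_inv₀ (by positivity)]
          exact pow_le_one₀ (by positivity) (pow_le_one₀ (norm_nonneg _) h2)
        calc (K⁻¹) ^ (n + 1) = (K⁻¹) ^ (n + 1) * 1 := (mul_one _).symm
          _ ≤ _ := by gcongr)
      hfin
  have hg0 : g 0 = 0 := by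
    refine zero_of_lint (A := (xc c hc hX).B) hn (xc c hc hX).ft (xc c hc hX).etale C e1 e2
      e5.continuousOn e6 (ω := fun ζ => ENNReal.ofReal (c2 * E' (C.s ζ)))
      (c := ENNReal.ofReal (c2 * (K⁻¹) ^ (n + 1)))
      (by rw [Ne, ENNReal.ofReal_eq_zero, not_le]; positivity)
      (a := 2 * ((n : ℝ) + 1)) (by linarith) ?_ e9
    intro ζ hζ hne
    obtain ⟨h0, h1⟩ := hlow ζ (ball_subset_ball e3 hζ) (e7 ζ hne)
    have h2 : (ENNReal.ofReal ‖ζ‖) ^ (-(2 * ((n : ℝ) + 1))) =
        ENNReal.ofReal (((‖ζ‖ ^ 2) ^ (n + 1))⁻¹) := by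
      rw [ENNReal.ofReal_rpow_of_pos h0]
      congr 1
      rw [Real.rpow_neg (norm_nonneg _)]
      congr 1
      have h3 : (2 * ((n : ℝ) + 1)) = ((2 * (n + 1) : ℕ) : ℝ) := by push_cast; ring
      rw [h3, Real.rpow_natCast, pow_mul]
    rw [h2, ← ENNReal.ofReal_mul (by positivity)]
    apply ENNReal.ofReal_le_ofReal
    rw [mul_assoc]
    gcongr
  rw [hf, mem_vanishingSections_iff hX hc]
  exact ⟨f, by rw [← e8, hg0], rfl⟩

end Crest.Agent.R269.Reg11_241
end
end

-- ▼ part R269/Amp6_243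
section

/-!
# Row 269 (S0411), Part 13, step 6: `PosP` gives a positively curved metric in the form `PosMet` (helper243)
-/

set_option autoImplicit false

noncomputable section

open Set Filter Topology Complex MeasureTheory Metric
open scoped ENNReal ComplexConjugate ContDiff

namespace Crest.Agent.R269.Amp6_243

open Crest.AlgGeometry.ProjEmb
open Crest.Agent.R271 Crest.Agent.R271.Defs710 Crest.Agent.R271.Rd692
open Crest.Agent.R271.Ho51 hiding EE nsq
open Crest.Agent.R269.Amp1_243 Crest.Agent.R269.Geo_328 Crest.Agent.R269.Amp3_243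
open Crest.Agent.R269.Defs_58

variable {N n : ℕ} {I : Ideal (HomCoordRing N)}

lemma nsq_pos' {p : EE N} (hp : p ≠ 0) : 0 < Geo_328.nsq p := Alp_927.nsq_pos hp

/-- the Gram determinant of the rows `σ, ∂σ` is smooth where `σ` is analytic -/
lemma contDiffAt_gdet_frs {σ : CC n → EE N} {z0 : CC n} (hσ : AnalyticAt ℂ σ z0) :
    ContDiffAt ℝ 2 (fun z => gdet (frs σ z)) z0 := by
  have hrow : ∀ (a : Fin (n + 1)) (l : Fin (N + 1)), ContDiffAt ℝ 2 (fun z => frs σ z a l) z0 := by
    intro a l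
    refine Fin.cases ?_ (fun k => ?_) a
    · change ContDiffAt ℝ 2 (fun z => σ z l) z0
      exact (contDiffAt_pi.mp ((hσ.contDiffAt (n := 2)).restrict_scalars ℝ)) l
    · change ContDiffAt ℝ 2 (fun z => fderiv ℂ σ z (Pi.single k 1) l) z0
      have h1 : AnalyticAt ℂ (fun ζ => fderiv ℂ σ ζ (Pi.single k 1)) z0 :=
        ((ContinuousLinearMap.apply ℂ (EE N) (Pi.single k (1 : ℂ) : CC n)).analyticAt _).comp
          hσ.fderiv
      exact (contDiffAt_pi.mp ((h1.contDiffAt (n := 2)).restrict_scalars ℝ)) l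
  have hconj : ∀ {g : CC n → ℂ}, ContDiffAt ℝ 2 g z0 →
      ContDiffAt ℝ 2 (fun z => star (g z)) z0 := by
    intro g hg
    exact (Complex.conjCLE.toContinuousLinearMap.contDiff.contDiffAt).comp z0 hg
  have h1 : ContDiffAt ℝ 2 (fun z => (frs σ z * (frs σ z).conjTranspose).det) z0 := by
    simp only [Matrix.det_apply']
    refine ContDiffAt.sum fun π _ => ?_
    refine contDiffAt_const.mul (contDiffAt_prod fun a _ => ?_)
    simp only [Matrix.mul_apply, Matrix.conjTranspose_apply]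
    exact ContDiffAt.sum fun l _ => (hrow _ l).mul (hconj (hrow _ l))
  exact (Complex.reCLM.contDiff.contDiffAt).comp z0 h1

/-- **`PosMet` from the pointwise inequality on the cone** -/
theorem posMet_of_cone (hI : I.IsPrime) (hX : IsSmoothProjective I n) {φ : EE N → ℝ}
    (hφ : SmX I φ) {c : ℝ} (hc : 0 < c)
    (h : ∀ p ∈ Cone I, ∀ v ∈ Tan I p,
      c * omg p v ≤ alpha I n p v + Defs_58.lev φ p v) : PosMet I n φ c where
  sm := hφ.1
  hom p hp a ha := hφ.2 p hp a ha
  c_pos := hc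
  pos := by
    intro z0 σ hσ hcone hind w
    have hp0 : σ z0 ∈ Cone I := hcone.self_of_nhds
    have hdiff : ∀ᶠ ζ in 𝓝 z0, DifferentiableAt ℂ σ ζ :=
      hσ.eventually_analyticAt.mono fun ζ hζ => hζ.differentiableAt
    have hcone2 : ∀ᶠ ζ in 𝓝 z0, ∀ᶠ ζ' in 𝓝 ζ, σ ζ' ∈ Cone I := hcone.eventually_nhds
    have hbA : ∀ k : Fin n, AnalyticAt ℂ (fun ζ => fderiv ℂ σ ζ (Pi.single k 1)) z0 := by
      intro k
      exact ((ContinuousLinearMap.apply ℂ (EE N) (Pi.single k (1 : ℂ) : CC n)).analyticAt _).comp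
        hσ.fderiv
    have htan : ∀ᶠ ζ in 𝓝 z0, TanFam I (σ ζ) (fun k => fderiv ℂ σ ζ (Pi.single k 1)) := by
      filter_upwards [hdiff, hcone2] with ζ h1 h2 k
      exact PAsm3_976.tan_of_curve h1 h2 _
    have hDDe : ∀ ζ, DD (σ ζ) (fun k => fderiv ℂ σ ζ (Pi.single k 1)) =
        gdet (frs σ ζ) / Geo_328.nsq (σ ζ) ^ (n + 1) := by
      intro ζ
      unfold DD
      rw [PAsm3_976.wedgeSq_eq]
      rfl
    have hg0 : 0 < gdet (frs σ z0) := gdet_pos hind
    have hpos : 0 < DD (σ z0) (fun k => fderiv ℂ σ z0 (Pi.single k 1)) := by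
      rw [hDDe]
      exact div_pos hg0 (pow_pos (nsq_pos' hp0.2) _)
    have hAl := Alp_927.alphaFamStmt N n I hI hX n σ (fun k ζ => fderiv ℂ σ ζ (Pi.single k 1)) z0 w
      ⟨hσ, hcone⟩ hbA htan hpos
    rw [PAsm3_976.lev58_eq] at hAl
    -- smoothness
    have hpσ : ContDiffAt ℝ 2 σ z0 := (hσ.contDiffAt (n := 2)).restrict_scalars ℝ
    have hφ2 : ContDiffAt ℝ 2 φ (σ z0) := (hφ.1 _ hp0).of_le (by norm_cast)
    have hl2 : ContDiffAt ℝ 2 (fun p : EE N => Real.log (∑ i, ‖p i‖ ^ 2)) (σ z0) :=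
      PAsm3_976.contDiffAt_lognsq hp0.2
    have hc1 : ContDiffAt ℝ 2 (fun ζ => φ (σ ζ)) z0 := hφ2.comp _ hpσ
    have hc2 : ContDiffAt ℝ 2 (fun ζ => Real.log (∑ i, ‖σ ζ i‖ ^ 2)) z0 :=
      ContDiffAt.comp (g := fun p : EE N => Real.log (∑ i, ‖p i‖ ^ 2)) z0 hl2 hpσ
    have hG := contDiffAt_gdet_frs hσ
    have hlG : ContDiffAt ℝ 2 (fun z => Real.log (gdet (frs σ z))) z0 := hG.log hg0.ne'
    have hall : ContDiffAt ℝ 2 (fun z => Real.log (gdet (frs σ z)) -
        (n + 1) * Real.log (Geo_328.nsq (σ z)) + φ (σ z)) z0 :=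
      (hlG.sub (contDiffAt_const.mul hc2)).add hc1
    have hev : (fun z => Real.log (gdet (frs σ z)) -
        (n + 1) * Real.log (Geo_328.nsq (σ z)) + φ (σ z)) =ᶠ[𝓝 z0] fun ζ =>
        Real.log (DD (σ ζ) (fun k => fderiv ℂ σ ζ (Pi.single k 1))) + φ (σ ζ) := by
      filter_upwards [hcone, hG.continuousAt.eventually_ne hg0.ne'] with ζ h1 h2
      rw [hDDe, Real.log_div h2 (pow_pos (nsq_pos' h1.2) _).ne', Real.log_pow]
      push_cast
      ring
    have hDD : ContDiffAt ℝ 2 (fun ζ =>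
        Real.log (DD (σ ζ) (fun k => fderiv ℂ σ ζ (Pi.single k 1)))) z0 := by
      refine (hall.sub hc1).congr_of_eventuallyEq ?_
      filter_upwards [hev] with ζ hζ
      rw [hζ]
      ring
    have hR : levE (fun z => Real.log (gdet (frs σ z)) -
        (n + 1) * Real.log (Geo_328.nsq (σ z)) + φ (σ z)) z0 w =
        alpha I n (σ z0) (fderiv ℂ σ z0 w) + Defs_58.lev φ (σ z0) (fderiv ℂ σ z0 w) := by
      rw [PAsm3_976.levE_eq hall, LevC_653.lev_congr hev, LevC_653.lev_add hDD hc1, hAl,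
        Lev_901.lev_comp_hol hφ2 hσ, PAsm3_976.lev58_eq]
    have hL : levE (fun z => Real.log (Geo_328.nsq (σ z))) z0 w =
        omg (σ z0) (fderiv ℂ σ z0 w) := by
      have h1 : levE (fun z => Real.log (Geo_328.nsq (σ z))) z0 w =
          levE (fun ζ => Real.log (∑ i, ‖σ ζ i‖ ^ 2)) z0 w := rfl
      rw [h1, PAsm3_976.levE_eq hc2,
        Lev_901.lev_comp_hol (u := fun p : EE N => Real.log (∑ i, ‖p i‖ ^ 2)) hl2 hσ,
        Lev_901.lev_log_sum_nsq hp0.2]
      rfl
    rw [hR, hL]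
    exact h _ hp0 _ (PAsm3_976.tan_of_curve hdiff.self_of_nhds hcone w)

/-- **`PosP` gives `PosMet`** -/
theorem posMet_of (hI : I.IsPrime) (hX : IsSmoothProjective I n) (hP : PosP I n) :
    ∃ (u : EE N → ℝ) (c : ℝ), PosMet I n u c := by
  obtain ⟨φ, hφ, c, hc, h⟩ := PosC_632.posC hI hX hP
  exact ⟨φ, c, posMet_of_cone hI hX hφ hc h⟩

end Crest.Agent.R269.Amp6_243
end
end

-- ▼ part R269/Amp7_243
section

/-!
# Row 269 (S0411), Part 13, step 7: the étale chart `xc` of a coordinate datum; 1-jets of functions on the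
chart in the language of the local rings (helper243)
-/

set_option autoImplicit false
set_option linter.unusedSectionVars false

noncomputable section

open Set Filter Topology Complex MeasureTheory Metric
open scoped ENNReal ComplexConjugate ContDiff

namespace Crest.Agent.R269.Amp7_243

open Crest.AlgGeometry.ProjEmb
open Crest.Agent.R271 Crest.Agent.R271.Defs710 Crest.Agent.R271.Rd692
open Crest.Agent.R271.Ho51 hiding EE nsq
open Crest.Agent.R269.Amp1_243 Crest.Agent.R269.Geo_328 Crest.Agent.R269.Amp3_243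
open Crest.Agent.R269.Amp5_243
open Crest.Agent.R269.DictA_795 Crest.Agent.R269.DictB_795 Crest.Agent.R269.DictC_795
open Crest.Agent.R269.DictD_795 Crest.Agent.R269.DictE_795 Crest.Agent.R269.DictF_795

variable {N n : ℕ} {I : Ideal (HomCoordRing N)} [I.IsPrime]

lemma aeval_yB (c : CD I n) (F : HomCoordRing N) :
    (MvPolynomial.aeval c.yB F : c.B) = ⟨dh I c.i F, c.dh_mem_B F⟩ := by
  apply Subtype.ext
  have h3 : (c.B.val).comp (MvPolynomial.aeval c.yB) = dh I c.i := by
    apply MvPolynomial.algHom_ext; intro j; simp [dh, CD.yB]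
  exact congrArg (fun f => f F) h3

/-- the étale chart of a coordinate datum -/
def xc {c : CD I n} {q : Fin (N + 1) → ℂ} (h : c.Dom q) (hX : IsSmoothProjective I n) : XC I n where
  B := c.B
  ft := c.B_finiteType
  z := c.zB
  etale := h.etale hX
  i := c.i
  x := c.yB
  x_i := Subtype.ext (fnRatio_self h.not_mem_i)
  j := c.S
  z_eq _ := rfl
  rel F hF := by
    rw [aeval_yB]
    exact Subtype.ext (dh_eq_zero_of_mem hX.homogeneous h.not_mem_i hF)

variable {c : CD I n} {q : Fin (N + 1) → ℂ}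

/-- inclusion of the chart algebra in the function field -/
def io (h : c.Dom q) (hX : IsSmoothProjective I n) : (xc h hX).B →ₐ[ℂ] FnField I := c.B.val

lemma io_inj (h : c.Dom q) (hX : IsSmoothProjective I n) : Function.Injective (io h hX) :=
  Subtype.val_injective

lemma io_x (h : c.Dom q) (hX : IsSmoothProjective I n) (l : Fin (N + 1)) :
    io h hX ((xc h hX).x l) = fnRatio I (xc h hX).i l := rfl



/-- the point `q` of the chart -/
def y0 (h : c.Dom q) (hX : IsSmoothProjective I n) : (xc h hX).B →ₐ[ℂ] ℂ := h.pt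


lemma pt_y0 (h : c.Dom q) (hX : IsSmoothProjective I n) :
    pt (xc h hX) (y0 h hX) = (q c.i)⁻¹ • q := by
  funext j
  change h.pt (c.yB j) = _
  rw [h.pt_yB, Pi.smul_apply, smul_eq_mul, div_eq_mul_inv, mul_comm]

/-- `Lp` vanishes only at proportional points -/
lemma Lp_ne {X : XC I n} {p : EE N} (y : X.B →ₐ[ℂ] ℂ) (hp : p ≠ 0)
    (h : ∀ a : ℂ, pt X y ≠ a • p) : Amp5_243.Lp X p y ≠ 0 := by
  intro h0
  obtain ⟨k, hk⟩ := Function.ne_iff.1 hp
  have hk' : p k ≠ 0 := hk
  have h1 : ∀ a b : Fin (N + 1), p a * y (X.x b) - p b * y (X.x a) = 0 := by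
    intro a b
    have h2 : Amp5_243.Lp X p y = ∑ ab : Fin (N + 1) × Fin (N + 1),
        ‖p ab.1 * y (X.x ab.2) - p ab.2 * y (X.x ab.1)‖ ^ 2 := by
      unfold Amp5_243.Lp
      unfold W792.nS
      exact Finset.sum_congr rfl fun ab _ => by first | rfl | simp [ell, elt]
    rw [h2] at h0
    have h3 := (Finset.sum_eq_zero_iff_of_nonneg (fun ab _ => by positivity)).1 h0 (a, b)
      (Finset.mem_univ _)
    have h4 : ‖p a * y (X.x b) - p b * y (X.x a)‖ = 0 := by
      have := pow_eq_zero_iff (two_ne_zero) |>.1 h3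
      exact this
    exact norm_eq_zero.1 h4
  apply h (y (X.x k) / p k)
  funext b
  have h5 := h1 k b
  rw [pt_apply, Pi.smul_apply, smul_eq_mul]
  field_simp
  linear_combination h5

lemma ev_der_mul {X : XC I n} (y : X.B →ₐ[ℂ] ℂ) (k : Fin n) (u v : X.B) :
    y (X.der k (u * v)) = y u * y (X.der k v) + y v * y (X.der k u) := by
  rw [← map_mul, ← map_mul, ← map_add]
  exact congrArg _ ((X.der k).leibniz u v)

/-- the derivative of a function on the chart in a tangent direction is computed by its derivatives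
with respect to the étale coordinates -/
lemma dv_toStalk (h : c.Dom q) (hX : IsSmoothProjective I n) {v : Fin (N + 1) → ℂ}
    (hv : IsTan I q v) (b : (xc h hX).B) :
    dv h.cone hv (h.toStalk b) =
      ∑ k, y0 h hX ((xc h hX).der k b) * dv h.cone hv (CD.w h k) := by
  have hd := isDerAlong_dv h.cone hv
  refine DictG1_795.der_eq (k := ℂ) (A := c.B) (S := ℂ) (MvPolynomial.aeval c.zB) (h.etale hX)
    (h.pt : c.B →+* ℂ) (fun b => dv h.cone hv (h.toStalk b))
    (fun b => ∑ k, y0 h hX ((xc h hX).der k b) * dv h.cone hv (CD.w h k))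
    (fun u v => by simp only [map_add]; exact hd.add _ _)
    (fun u v => by simp only [map_mul]; exact hd.mul _ _)
    (fun a => by
      have h1 : h.toStalk (algebraMap ℂ c.B a) = algebraMap ℂ _ a := h.toStalk.commutes a
      rw [h1]; exact hd.alg a)
    (fun u v => by
      rw [← Finset.sum_add_distrib]
      refine Finset.sum_congr rfl fun k _ => ?_
      have h1 : (xc h hX).der k (u + v) = (xc h hX).der k u + (xc h hX).der k v :=
        map_add ((xc h hX).der k) u v
      rw [h1, map_add, add_mul])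
    (fun u v => by
      rw [Finset.mul_sum, Finset.mul_sum, ← Finset.sum_add_distrib]
      refine Finset.sum_congr rfl fun k _ => ?_
      have h2 : y0 h hX ((xc h hX).der k (u * v)) =
          y0 h hX u * y0 h hX ((xc h hX).der k v) + y0 h hX v * y0 h hX ((xc h hX).der k u) :=
        ev_der_mul (y0 h hX) k u v
      rw [h2]
      change _ = y0 h hX u * _ + y0 h hX v * _
      ring)
    (fun a => by
      refine Finset.sum_eq_zero fun k _ => ?_
      have h1 : (xc h hX).der k (algebraMap ℂ c.B a) = 0 := ((xc h hX).der k).map_algebraMap a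
      rw [h1, map_zero, zero_mul])
    (fun s => ?_) b
  rw [MvPolynomial.aeval_X, Finset.sum_eq_single s]
  · have h1 : (xc h hX).der s (c.zB s) = 1 := (xc h hX).toEC.der_z_same s
    rw [h1, map_one, one_mul]
    rfl
  · intro k _ hk
    have h1 : (xc h hX).der k (c.zB s) = if s = k then 1 else 0 := (xc h hX).toEC.der_z s k
    rw [h1, if_neg (Ne.symm hk), map_zero, zero_mul]
  · intro h'; exact absurd (Finset.mem_univ s) h'

end Crest.Agent.R269.Amp7_243
end
end

-- ▼ part R269/Amp8_243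
section

/-!
# Row 269 (S0411), Part 13, step 8: assembly of `AmpStmt` from the regularity statements (helper243)

`Reg0 I n` : a holomorphic function on the chart with finite `L²`-norm (weight of `(m+1) K_X`) is algebraic
and gives a global section of `(m+1) K_X`;
`RegV0 I n` : with the additional pole weight at `p` the section vanishes at `p`.
-/

set_option autoImplicit false
set_option linter.unusedSectionVars false

noncomputable section

open Set Filter Topology Complex MeasureTheory Metric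
open scoped ENNReal ComplexConjugate ContDiff

namespace Crest.Agent.R269.Amp8_243

open Crest.AlgGeometry.ProjEmb
open Crest.Agent.R271 Crest.Agent.R271.Defs710 Crest.Agent.R271.Rd692
open Crest.Agent.R271.Ho51 hiding EE nsq
open Crest.Agent.R269.Amp1_243 Crest.Agent.R269.Geo_328 Crest.Agent.R269.Amp3_243
open Crest.Agent.R269.Amp5_243 Crest.Agent.R269.Amp7_243
open Crest.Agent.R269.DictA_795 Crest.Agent.R269.DictB_795 Crest.Agent.R269.DictC_795
open Crest.Agent.R269.DictD_795 Crest.Agent.R269.DictE_795 Crest.Agent.R269.DictF_795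

variable {N n : ℕ}

/-- regularity: `L²` holomorphic functions are global sections -/
def Reg0 (I : Ideal (HomCoordRing N)) [I.IsPrime] (n : ℕ) : Prop :=
  ∀ (X : XC I n) (io : X.B →ₐ[ℂ] FnField I), Function.Injective io →
    (∀ l, io (X.x l) = fnRatio I X.i l) → ∀ F : (X.B →ₐ[ℂ] ℂ) → ℂ, Ho51.Hol F → ∀ m : ℕ,
    lintM X.z (fun y => ENNReal.ofReal (‖F y‖ ^ 2 * wt X y ^ m)) < ⊤ →
    ∃ b : X.B, (∀ y, F y = y b) ∧
      io b • PiTensorProduct.tprod (FnField I)
        (fun _ : Fin (m + 1) => wedgeD I n (io ∘ X.z)) ∈ pluricanonicalSections I n (m + 1)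

/-- regularity with a pole weight: the section vanishes -/
def RegV0 (I : Ideal (HomCoordRing N)) [I.IsPrime] (n : ℕ) : Prop :=
  ∀ (X : XC I n) (io : X.B →ₐ[ℂ] FnField I), Function.Injective io →
    (∀ l, io (X.x l) = fnRatio I X.i l) → ∀ F : (X.B →ₐ[ℂ] ℂ) → ℂ, Ho51.Hol F → ∀ m : ℕ,
    lintM X.z (fun y => ENNReal.ofReal (‖F y‖ ^ 2 * wt X y ^ m)) < ⊤ →
    ∀ p ∈ affineCone I, p ≠ 0 →
    lintM X.z (fun y => ENNReal.ofReal (‖F y‖ ^ 2 * wt X y ^ m *
      (ns X y / Amp5_243.Lp X p y) ^ (n + 1))) < ⊤ →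
    ∀ b : X.B, (∀ y, F y = y b) →
      io b • PiTensorProduct.tprod (FnField I)
        (fun _ : Fin (m + 1) => wedgeD I n (io ∘ X.z)) ∈ vanishingSections I n (m + 1) p

variable {I : Ideal (HomCoordRing N)} [I.IsPrime] {c : CD I n} {q : Fin (N + 1) → ℂ}

/-- **sections with prescribed 1-jet at `q` and vanishing at `p`** -/
theorem exists_section (hX : IsSmoothProjective I n) (hn : 1 ≤ n) {u : EE N → ℝ} {κ : ℝ}
    (hu : PosMet I n u κ) {m : ℕ} (hm : 2 * ((n : ℝ) + 1) < (((m + 1 : ℕ) : ℝ) - 1) * κ)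
    (hR : Reg0 I n) (h : c.Dom q) {p : EE N} (hp : Amp5_243.Lp (xc h hX) p (y0 h hX) ≠ 0)
    (a0 : ℂ) (a : Fin n → ℂ) :
    ∃ F : c.B, (F : FnField I) • c.wm (m + 1) ∈ pluricanonicalSections I n (m + 1) ∧
      ev h.cone (h.toStalk F) = a0 ∧
      (∀ (v : Fin (N + 1) → ℂ) (hv : IsTan I q v),
        dv h.cone hv (h.toStalk F) = ∑ k, a k * dv h.cone hv (CD.w h k)) ∧
      (RegV0 I n → p ∈ affineCone I → p ≠ 0 →
        (F : FnField I) • c.wm (m + 1) ∈ vanishingSections I n (m + 1) p) := by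
  obtain ⟨F, hF, hF0, ⟨C, hC⟩, h1, h2⟩ := jets (X := xc h hX) hX hn hu hm (y0 h hX) p hp a0 a
  have hm1 : m + 1 - 1 = m := by omega
  rw [hm1] at h1 h2
  obtain ⟨b, hb, hbs⟩ := hR (xc h hX) (io h hX) (io_inj h hX) (io_x h hX) F hF m h1
  refine ⟨b, hbs, ?_, ?_, ?_⟩
  · rw [← hF0, hb]
    rfl
  · intro v hv
    rw [dv_toStalk h hX hv b]
    refine Finset.sum_congr rfl fun k _ => ?_
    have h3 : (fun ζ => F (C.s ζ)) = fun ζ => C.s ζ b := by
      funext ζ; rw [hb]
    have h4 := hC (Pi.single k 1)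
    rw [h3, fderiv_chart C (mem_ball_self C.r_pos), C.s_zero] at h4
    simp only [Pi.single_apply, ite_mul, one_mul, zero_mul, Finset.sum_ite_eq', Finset.mem_univ,
      if_true, mul_ite, mul_one, mul_zero] at h4
    rw [h4]
  · intro hV hp1 hp2
    exact hV (xc h hX) (io h hX) (io_inj h hX) (io_x h hX) F hF m h1 p hp1 hp2 h2 b hb

/-- a point not proportional to `y` -/
lemma exists_Lp_ne (hn : 1 ≤ n) {X : XC I n} (y : X.B →ₐ[ℂ] ℂ) :
    ∃ p : EE N, Amp5_243.Lp X p y ≠ 0 := by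
  have hji : X.j ⟨0, hn⟩ ≠ X.i := by
    intro hk
    have h3 := X.der_z_same ⟨0, hn⟩
    rw [X.z_eq, hk, X.x_i, Derivation.map_one_eq_zero] at h3
    exact zero_ne_one h3
  refine ⟨Pi.single (X.j ⟨0, hn⟩) 1, Lp_ne y ?_ fun a ha => ?_⟩
  · intro h0
    have := congrFun h0 (X.j ⟨0, hn⟩)
    simp at this
  · have h1 := congrFun ha X.i
    rw [pt_i, Pi.smul_apply, Pi.single_eq_of_ne hji.symm, smul_zero] at h1
    exact one_ne_zero h1

theorem ample_of (hX : IsSmoothProjective I n) (hn : 1 ≤ n) {u : EE N → ℝ} {κ : ℝ}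
    (hu : PosMet I n u κ) (hR : Reg0 I n) (hV : RegV0 I n) : IsCanonicallyAmple I n := by
  obtain ⟨m, hm⟩ := exists_nat_gt (2 * ((n : ℝ) + 1) / κ)
  have hm' : 2 * ((n : ℝ) + 1) < (((m + 1 : ℕ) : ℝ) - 1) * κ := by
    rw [div_lt_iff₀ hu.c_pos] at hm
    push_cast
    simpa using hm
  refine isCanonicallyAmple_of_jets (m := m + 1) hX (by omega) ?_ ?_ ?_
  · intro p c h
    obtain ⟨p', hp'⟩ := exists_Lp_ne hn (y0 h hX)
    obtain ⟨F, h1, h2, -, -⟩ := exists_section hX hn hu hm' hR h hp' 1 0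
    exact ⟨_, h1, h.toStalk F, rfl, by rw [h2]; exact one_ne_zero⟩
  · intro p q c c' h h' hpq
    have hLp : Amp5_243.Lp (xc h' hX) p (y0 h' hX) ≠ 0 := by
      refine Lp_ne _ h.ne_zero fun a ha => ?_
      rw [pt_y0] at ha
      apply hpq (q c'.i * a)
      rw [mul_smul, ← ha, smul_smul, mul_inv_cancel₀ h'.i, one_smul]
    obtain ⟨F, h1, h2, -, h4⟩ := exists_section hX hn hu hm' hR h' hLp 1 0
    obtain ⟨G, hG0, hG⟩ := (mem_vanishingSections_iff hX h).1 (h4 hV h.cone h.ne_zero)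
    exact ⟨_, h1, G, h'.toStalk F, hG, rfl, hG0, by rw [h2]; exact one_ne_zero⟩
  · intro p c h t
    obtain ⟨p', hp'⟩ := exists_Lp_ne hn (y0 h hX)
    obtain ⟨F, h1, h2, h3, -⟩ := exists_section hX hn hu hm' hR h hp' 0 t
    exact ⟨_, h1, h.toStalk F, rfl, h2, h3⟩

/-- **`AmpStmt` from the two regularity statements** -/
theorem ampStmt_of
    (hR : ∀ (N n : ℕ) (I : Ideal (HomCoordRing N)) [I.IsPrime], IsSmoothProjective I n → 1 ≤ n →
      Reg0 I n ∧ RegV0 I n) : Defs_58.AmpStmt := by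
  intro N n I hI hX hn hP
  obtain ⟨u, κ, hu⟩ := Amp6_243.posMet_of hI hX hP
  exact ample_of hX hn hu (hR N n I hX hn).1 (hR N n I hX hn).2

end Crest.Agent.R269.Amp8_243
end
end

-- ▼ part R269/Reg12_241
section

/-!
Row 269 (S0411), leaf D4/REG, part 12 (helper241): the statements `Reg0`, `RegV0` of Amp8_243 and `AmpStmt`.
-/

set_option autoImplicit false
set_option linter.unusedSectionVars false
set_option linter.style.haveILetI false

open scoped ENNReal NNReal Topology BigOperators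
open MeasureTheory Set Metric Filter

noncomputable section

namespace Crest.Agent.R269.Reg12_241

open Crest.AlgGeometry.ProjEmb
open Crest.Agent.R271.Defs710 hiding wt
open Crest.Agent.R269.Amp1_243 Crest.Agent.R269.Amp3_243
open Crest.Agent.R269.Reg7_241 Crest.Agent.R269.Reg10_241 Crest.Agent.R269.Reg11_241

variable {N n : ℕ} {I : Ideal (HomCoordRing N)} [I.IsPrime]

/-- `Reg0` -/
theorem reg0 (hX : IsSmoothProjective I n) (hn : 1 ≤ n) : Amp8_243.Reg0 I n := by
  intro X io hinj hx F hF m hfin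
  exact reg_pluri hX X io hinj hx hF m hfin

/-- `RegV0` -/
theorem regV0 (hX : IsSmoothProjective I n) (hn : 1 ≤ n) : Amp8_243.RegV0 I n := by
  intro X io hinj hx F hF m _ p hp hp0 hfin b hb
  obtain ⟨i0, hi0⟩ : ∃ i0, p i0 ≠ 0 := by
    by_contra h
    push_neg at h
    exact hp0 (funext h)
  have h1 := reg_vanish hX hn X io hinj hx m 0 b (p := p) hp hi0 (by
    refine lt_of_eq_of_lt ?_ hfin
    congr 1
    funext y
    rw [hb y, Lp_eq]
    congr 1
    rw [neg_zero, zpow_zero, mul_one, ← mul_assoc]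
    rfl)
  rw [zpow_zero, one_smul] at h1
  exact h1

/-- **`AmpStmt`** -/
theorem ampStmt : Defs_58.AmpStmt :=
  Amp8_243.ampStmt_of fun _ _ _ _ hX hn => ⟨reg0 hX hn, regV0 hX hn⟩

end Crest.Agent.R269.Reg12_241
end
end

-- ▼ part R269/ResT_731

/-!
# R269 (S0411): the resolvent statement `ResStmt`, Parts 7-9 and 12, and the conclusion (helper731)
-/

set_option autoImplicit false

open Crest.Agent.R273.Kah_333 Crest.Agent.R275.Geo
open Crest.Agent.R269.MAAsm_128 Crest.Agent.R269.Res_19 Crest.Agent.R269.Inst_851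
open Crest.Agent.R269.Fld_851 Crest.Agent.R269.Adj_851 Crest.Agent.R269.AdjLoc_851
open Crest.Agent.R202.Ell Crest.Agent.R269.GEll_19 Crest.Agent.R275 Crest.Agent.R275.Core144
open Crest.Agent.R275.EDR890 Crest.Agent.R275.Pai323 Crest.Agent.R275.C1d194
open Crest.Agent.R273.SchE_152 Crest.Agent.R273.SchB_152 Crest.Agent.R273.Defs_333
open Crest.Agent.R273.Vm_333 Crest.Agent.R273.Hess_333 Crest.Agent.R273.HessB_333
open Crest.Agent.R273.HM_333 Crest.Agent.R273.Vol_333 Crest.Agent.R273.Green_5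
open Crest.Agent.R273.GreenM_5

namespace Crest.Agent.R269.ResT_731

/-- the resolvent on compact Kaehler manifolds -/
theorem resStmt : MAAsm_128.ResStmt := by
  intro n _ M _ _ _ _ _ A _ hP K
  obtain ⟨P⟩ := hP
  constructor
  · intro s hs lam hlam h hh δ hδ
    have hq0 : ∀ x, 0 < lam * rtF K s.1 x := fun x =>
      mul_pos hlam (Inst_851.rtF_pos K s.2.tc (mem_ci x) (hs _ x (mem_ci x)))
    exact Res_19.resolvent K P s.2 hs (sm_mulR (sm_constR lam) (Inst_851.sm_rtF K hs)) hq0 hh hδ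
  · intro s hs m hm h hh δ hδ
    exact Res_19.resolvent K P s.2 hs (sm_constR m) (fun _ => hm) hh hδ

theorem maStmt2 : Red2_58.MAStmt2 := MAAsm_128.maStmt2 RegProof_390.regStmt resStmt

theorem posStmt2 : Red2_58.PosStmt2 := MAAsm_128.posStmt2 RegProof_390.regStmt resStmt

end Crest.Agent.R269.ResT_731
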