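import Mathlib

/-!
# R269 (S0411), leaf L2, second half (helper79): pointwise `∂∂̄`, maximum principle, sub-mean property

Everything is phrased with the four point mean
`m4 u z w = (u (z+w) + u (z+iw) + u (z-w) + u (z-iw)) / 4`:

* `HasL u z c`  : `m4 u z w - u z = c |w|² + o(|w|²)`  (`c = ∂∂̄ u (z)` for `u` of class `C²`);
* `LGe u z c`   : `liminf (m4 u z w - u z)/|w|² ≥ c`;   `LLe u z c` : `limsup ... ≤ c`.
-/

set_option autoImplicit false

open Set Filter Topology Metric Complex Asymptotics Real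

noncomputable section

namespace Crest.Agent.R269.SubM_79

/-- four point mean of `u` around `z` in the direction `w` -/
def m4 (u : ℂ → ℝ) (z w : ℂ) : ℝ :=
  (u (z + w) + u (z + I * w) + u (z - w) + u (z - I * w)) / 4

/-- `liminf (m4 u z w - u z)/|w|² ≥ c` -/
def LGe (u : ℂ → ℝ) (z : ℂ) (c : ℝ) : Prop :=
  ∀ ε > 0, ∀ᶠ w in 𝓝 (0 : ℂ), (c - ε) * ‖w‖ ^ 2 ≤ m4 u z w - u z

/-- `limsup (m4 u z w - u z)/|w|² ≤ c` -/
def LLe (u : ℂ → ℝ) (z : ℂ) (c : ℝ) : Prop :=
  ∀ ε > 0, ∀ᶠ w in 𝓝 (0 : ℂ), m4 u z w - u z ≤ (c + ε) * ‖w‖ ^ 2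

/-- `m4 u z w - u z = c |w|² + o(|w|²)` -/
def HasL (u : ℂ → ℝ) (z : ℂ) (c : ℝ) : Prop :=
  (fun w : ℂ => m4 u z w - u z - c * ‖w‖ ^ 2) =o[𝓝 0] fun w : ℂ => ‖w‖ ^ 2

/-! ### formal rules -/

theorem m4_add (u v : ℂ → ℝ) (z w : ℂ) :
    m4 (fun x => u x + v x) z w = m4 u z w + m4 v z w := by
  simp only [m4]; ring

theorem m4_neg (u : ℂ → ℝ) (z w : ℂ) : m4 (fun x => -u x) z w = -m4 u z w := by
  simp only [m4]; ring

theorem m4_mul (a : ℝ) (u : ℂ → ℝ) (z w : ℂ) : m4 (fun x => a * u x) z w = a * m4 u z w := by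
  simp only [m4]; ring


theorem tendsto4 (z : ℂ) :
    Tendsto (fun w : ℂ => z + w) (𝓝 0) (𝓝 z) ∧ Tendsto (fun w : ℂ => z + I * w) (𝓝 0) (𝓝 z) ∧
      Tendsto (fun w : ℂ => z - w) (𝓝 0) (𝓝 z) ∧ Tendsto (fun w : ℂ => z - I * w) (𝓝 0) (𝓝 z) := by
  refine ⟨?_, ?_, ?_, ?_⟩
  · have : Continuous fun w : ℂ => z + w := by fun_prop
    simpa using this.tendsto 0
  · have : Continuous fun w : ℂ => z + I * w := by fun_prop
    simpa using this.tendsto 0
  · have : Continuous fun w : ℂ => z - w := by fun_prop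
    simpa using this.tendsto 0
  · have : Continuous fun w : ℂ => z - I * w := by fun_prop
    simpa using this.tendsto 0

theorem ev4 {z : ℂ} {p : ℂ → Prop} (h : ∀ᶠ x in 𝓝 z, p x) :
    ∀ᶠ w in 𝓝 (0 : ℂ), p (z + w) ∧ p (z + I * w) ∧ p (z - w) ∧ p (z - I * w) := by
  obtain ⟨h1, h2, h3, h4⟩ := tendsto4 z
  exact (h1.eventually h).and ((h2.eventually h).and ((h3.eventually h).and (h4.eventually h)))

theorem LGe.mono {u : ℂ → ℝ} {z : ℂ} {c c' : ℝ} (h : LGe u z c) (hc : c' ≤ c) : LGe u z c' := by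
  intro ε hε
  filter_upwards [h ε hε] with w hw
  exact (mul_le_mul_of_nonneg_right (by linarith) (sq_nonneg _)).trans hw

theorem LLe.mono {u : ℂ → ℝ} {z : ℂ} {c c' : ℝ} (h : LLe u z c) (hc : c ≤ c') : LLe u z c' := by
  intro ε hε
  filter_upwards [h ε hε] with w hw
  exact hw.trans (mul_le_mul_of_nonneg_right (by linarith) (sq_nonneg _))

theorem lge_neg_iff {u : ℂ → ℝ} {z : ℂ} {c : ℝ} : LGe (fun x => -u x) z (-c) ↔ LLe u z c := by
  constructor
  · intro h ε hε
    filter_upwards [h ε hε] with w hw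
    rw [m4_neg] at hw
    nlinarith
  · intro h ε hε
    filter_upwards [h ε hε] with w hw
    rw [m4_neg]
    nlinarith

theorem LLe.neg {u : ℂ → ℝ} {z : ℂ} {c : ℝ} (h : LLe u z c) : LGe (fun x => -u x) z (-c) :=
  lge_neg_iff.2 h

theorem LGe.neg {u : ℂ → ℝ} {z : ℂ} {c : ℝ} (h : LGe u z c) : LLe (fun x => -u x) z (-c) := by
  rw [← lge_neg_iff]
  simpa using h

theorem LGe.add {u v : ℂ → ℝ} {z : ℂ} {c d : ℝ} (h : LGe u z c) (h' : LGe v z d) :
    LGe (fun x => u x + v x) z (c + d) := by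
  intro ε hε
  filter_upwards [h (ε / 2) (half_pos hε), h' (ε / 2) (half_pos hε)] with w h1 h2
  rw [m4_add]
  nlinarith

theorem LLe.add {u v : ℂ → ℝ} {z : ℂ} {c d : ℝ} (h : LLe u z c) (h' : LLe v z d) :
    LLe (fun x => u x + v x) z (c + d) := by
  intro ε hε
  filter_upwards [h (ε / 2) (half_pos hε), h' (ε / 2) (half_pos hε)] with w h1 h2
  rw [m4_add]
  nlinarith

theorem LGe.const_mul {u : ℂ → ℝ} {z : ℂ} {c a : ℝ} (ha : 0 ≤ a) (h : LGe u z c) :
    LGe (fun x => a * u x) z (a * c) := by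
  intro ε hε
  rcases ha.eq_or_lt with rfl | ha'
  · filter_upwards with w
    simp only [m4]
    nlinarith [sq_nonneg ‖w‖]
  · filter_upwards [h (ε / a) (div_pos hε ha')] with w hw
    rw [m4_mul]
    have := mul_le_mul_of_nonneg_left hw ha
    have e : a * ((c - ε / a) * ‖w‖ ^ 2) = (a * c - ε) * ‖w‖ ^ 2 := by
      field_simp
    linarith

theorem LGe.congr {u v : ℂ → ℝ} {z : ℂ} {c : ℝ} (h : LGe u z c) (he : u =ᶠ[𝓝 z] v) :
    LGe v z c := by
  intro ε hε
  filter_upwards [h ε hε, ev4 he] with w hw ⟨h1, h2, h3, h4⟩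
  simp only [m4] at hw ⊢
  rw [← h1, ← h2, ← h3, ← h4, ← he.self_of_nhds]
  exact hw

theorem LLe.congr {u v : ℂ → ℝ} {z : ℂ} {c : ℝ} (h : LLe u z c) (he : u =ᶠ[𝓝 z] v) :
    LLe v z c := by
  intro ε hε
  filter_upwards [h ε hε, ev4 he] with w hw ⟨h1, h2, h3, h4⟩
  simp only [m4] at hw ⊢
  rw [← h1, ← h2, ← h3, ← h4, ← he.self_of_nhds]
  exact hw

theorem HasL.congr {u v : ℂ → ℝ} {z : ℂ} {c : ℝ} (h : HasL u z c) (he : u =ᶠ[𝓝 z] v) :
    HasL v z c := by
  refine h.congr' ?_ EventuallyEq.rfl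
  filter_upwards [ev4 he] with w ⟨h1, h2, h3, h4⟩
  simp only [m4]
  rw [← h1, ← h2, ← h3, ← h4, ← he.self_of_nhds]

/-- minorant touching at `z` -/
theorem LGe.of_le {u v : ℂ → ℝ} {z : ℂ} {c : ℝ} (h : LGe u z c) (hle : ∀ᶠ x in 𝓝 z, u x ≤ v x)
    (he : u z = v z) : LGe v z c := by
  intro ε hε
  filter_upwards [h ε hε, ev4 hle] with w hw ⟨h1, h2, h3, h4⟩
  simp only [m4] at hw ⊢
  rw [← he]
  linarith

/-- majorant touching at `z` -/
theorem LLe.of_ge {u v : ℂ → ℝ} {z : ℂ} {c : ℝ} (h : LLe u z c) (hle : ∀ᶠ x in 𝓝 z, v x ≤ u x)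
    (he : u z = v z) : LLe v z c := by
  intro ε hε
  filter_upwards [h ε hε, ev4 hle] with w hw ⟨h1, h2, h3, h4⟩
  simp only [m4] at hw ⊢
  rw [← he]
  linarith

theorem HasL.lge {u : ℂ → ℝ} {z : ℂ} {c : ℝ} (h : HasL u z c) : LGe u z c := by
  intro ε hε
  filter_upwards [h.def hε] with w hw
  have h2 := neg_abs_le (m4 u z w - u z - c * ‖w‖ ^ 2)
  rw [Real.norm_eq_abs, Real.norm_eq_abs, abs_of_nonneg (sq_nonneg ‖w‖)] at hw
  nlinarith

theorem HasL.lle {u : ℂ → ℝ} {z : ℂ} {c : ℝ} (h : HasL u z c) : LLe u z c := by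
  intro ε hε
  filter_upwards [h.def hε] with w hw
  have h2 := le_abs_self (m4 u z w - u z - c * ‖w‖ ^ 2)
  rw [Real.norm_eq_abs, Real.norm_eq_abs, abs_of_nonneg (sq_nonneg ‖w‖)] at hw
  nlinarith

theorem hasL_iff {u : ℂ → ℝ} {z : ℂ} {c : ℝ} : HasL u z c ↔ LGe u z c ∧ LLe u z c := by
  refine ⟨fun h => ⟨h.lge, h.lle⟩, fun ⟨h1, h2⟩ => ?_⟩
  refine IsLittleO.of_bound fun ε hε => ?_
  filter_upwards [h1 ε hε, h2 ε hε] with w h1 h2
  rw [Real.norm_eq_abs, Real.norm_eq_abs, abs_of_nonneg (sq_nonneg ‖w‖), abs_le]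
  constructor <;> nlinarith

theorem HasL.add {u v : ℂ → ℝ} {z : ℂ} {c d : ℝ} (h : HasL u z c) (h' : HasL v z d) :
    HasL (fun x => u x + v x) z (c + d) := by
  refine (IsLittleO.add h h').congr_left fun w => ?_
  rw [m4_add]; ring

theorem HasL.const_mul {u : ℂ → ℝ} {z : ℂ} {c : ℝ} (a : ℝ) (h : HasL u z c) :
    HasL (fun x => a * u x) z (a * c) := by
  refine (IsLittleO.const_mul_left h a).congr_left fun w => ?_
  rw [m4_mul]; ring

theorem HasL.neg {u : ℂ → ℝ} {z : ℂ} {c : ℝ} (h : HasL u z c) :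
    HasL (fun x => -u x) z (-c) := by
  have := h.const_mul (-1)
  simpa using this

theorem hasL_const (a : ℝ) (z : ℂ) : HasL (fun _ => a) z 0 := by
  refine (isLittleO_zero (fun w : ℂ => ‖w‖ ^ 2) (𝓝 0)).congr_left fun w => ?_
  simp only [m4]; ring


theorem lge_sum {ι : Type*} (s : Finset ι) {u : ι → ℂ → ℝ} {z : ℂ} {c : ι → ℝ}
    (h : ∀ i ∈ s, LGe (u i) z (c i)) : LGe (fun x => ∑ i ∈ s, u i x) z (∑ i ∈ s, c i) := by
  classical
  induction s using Finset.induction_on with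
  | empty => simpa using (hasL_const 0 z).lge
  | insert a s ha ih =>
    simp only [Finset.sum_insert ha]
    exact (h a (Finset.mem_insert_self a s)).add
      (ih fun i hi => h i (Finset.mem_insert_of_mem hi))

/-- rotation invariance -/
theorem LGe.rot {u : ℂ → ℝ} {a ζ z : ℂ} {c : ℝ} (hζ : ‖ζ‖ = 1) (h : LGe u (a + (z - a) * ζ) c) :
    LGe (fun x => u (a + (x - a) * ζ)) z c := by
  intro ε hε
  have ht : Tendsto (fun w : ℂ => ζ * w) (𝓝 0) (𝓝 0) := by
    have : Continuous fun w : ℂ => ζ * w := by fun_prop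
    simpa using this.tendsto 0
  filter_upwards [ht.eventually (h ε hε)] with w hw
  have e : ‖ζ * w‖ = ‖w‖ := by rw [norm_mul, hζ, one_mul]
  rw [e] at hw
  refine hw.trans (le_of_eq ?_)
  simp only [m4]
  congr 3
  · congr 1
    · congr 1
      · congr 1; ring
      · congr 1; ring
    · congr 1; ring
  · congr 1; ring

/-! ### maximum principle -/

theorem hasL_normSq (z : ℂ) : HasL (fun x => ‖x‖ ^ 2) z 1 := by
  refine (isLittleO_zero (fun w : ℂ => ‖w‖ ^ 2) (𝓝 0)).congr_left fun w => ?_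
  simp only [m4, ← Complex.normSq_eq_norm_sq, Complex.normSq_apply]
  simp only [add_re, add_im, sub_re, sub_im, mul_re, mul_im, I_re, I_im]
  ring

theorem LGe.exp {g : ℂ → ℝ} {z : ℂ} {c : ℝ} (h : LGe g z c) :
    LGe (fun x => Real.exp (g x)) z (Real.exp (g z) * c) := by
  have h1 : LGe (fun x => Real.exp (g z) + Real.exp (g z) * (g x + -g z)) z
      (0 + Real.exp (g z) * (c + 0)) :=
    (hasL_const _ _).lge.add ((h.add (hasL_const _ _).lge).const_mul (Real.exp_pos _).le)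
  rw [add_zero, zero_add] at h1
  refine h1.of_le (Eventually.of_forall fun x => ?_) (by simp)
  have h2 := Real.add_one_le_exp (g x - g z)
  have h3 : Real.exp (g x) = Real.exp (g z) * Real.exp (g x - g z) := by
    rw [← Real.exp_add]; congr 1; ring
  show Real.exp (g z) + Real.exp (g z) * (g x + -g z) ≤ Real.exp (g x)
  rw [h3]
  nlinarith [Real.exp_pos (g z)]

/-- maximum principle: `u ≤ M` on the frontier, `∂∂̄ u ≥ 0` where `u > M` -/
theorem max_principle {Ω : Set ℂ} (hΩ : IsOpen Ω) (hb : Bornology.IsBounded Ω) {u : ℂ → ℝ}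
    {M : ℝ} (hu : ContinuousOn u (closure Ω)) (hL : ∀ z ∈ Ω, M < u z → LGe u z 0)
    (hM : ∀ z ∈ frontier Ω, u z ≤ M) : ∀ z ∈ closure Ω, u z ≤ M := by
  intro z₀ hz₀
  by_contra hcon
  push Not at hcon
  obtain ⟨R, hR⟩ := (hb.closure).exists_norm_le
  have hR0 : 0 ≤ R := (norm_nonneg _).trans (hR z₀ hz₀)
  set δ := (u z₀ - M) / (2 * (R ^ 2 + 1)) with hδ
  have hδ0 : 0 < δ := by
    have : 0 < u z₀ - M := by linarith
    positivity
  have hδ1 : δ * R ^ 2 < u z₀ - M := by
    have h0 : 0 < u z₀ - M := by linarith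
    have h1 : δ * (2 * (R ^ 2 + 1)) = u z₀ - M := by rw [hδ]; field_simp
    nlinarith
  have hcomp : IsCompact (closure Ω) := hb.isCompact_closure
  have hv : ContinuousOn (fun z => u z + δ * ‖z‖ ^ 2) (closure Ω) :=
    hu.add (by fun_prop)
  obtain ⟨z₁, hz₁, hmax⟩ := hcomp.exists_isMaxOn ⟨z₀, hz₀⟩ hv
  have hge : u z₀ + δ * ‖z₀‖ ^ 2 ≤ u z₁ + δ * ‖z₁‖ ^ 2 := hmax hz₀
  have hn1 : ‖z₁‖ ^ 2 ≤ R ^ 2 := pow_le_pow_left₀ (norm_nonneg _) (hR z₁ hz₁) 2
  have hM1 : M < u z₁ := by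
    nlinarith [mul_nonneg hδ0.le (sq_nonneg ‖z₀‖), mul_le_mul_of_nonneg_left hn1 hδ0.le]
  have hz1 : z₁ ∈ Ω := by
    by_contra hnot
    have : z₁ ∈ frontier Ω := by
      rw [frontier, hΩ.interior_eq]
      exact ⟨hz₁, hnot⟩
    exact absurd (hM z₁ this) (not_le.2 hM1)
  have hLv : LGe (fun z => u z + δ * ‖z‖ ^ 2) z₁ (0 + δ * 1) :=
    (hL z₁ hz1 hM1).add ((hasL_normSq z₁).const_mul δ).lge
  rw [zero_add, mul_one] at hLv
  have hmem : ∀ᶠ x in 𝓝 z₁, u x + δ * ‖x‖ ^ 2 ≤ u z₁ + δ * ‖z₁‖ ^ 2 := by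
    filter_upwards [hΩ.mem_nhds hz1] with x hx
    exact hmax (subset_closure hx)
  have hev := (hLv (δ / 2) (half_pos hδ0)).and (ev4 hmem)
  obtain ⟨r, hr, hball⟩ := Metric.eventually_nhds_iff_ball.1 hev
  obtain ⟨h1, h2, h3, h4, h5⟩ := hball ((r / 2 : ℝ) : ℂ) (by
    rw [mem_ball_zero_iff, Complex.norm_real, Real.norm_eq_abs, abs_of_pos (half_pos hr)]
    linarith)
  rw [Complex.norm_real, Real.norm_eq_abs, abs_of_pos (half_pos hr)] at h1
  simp only [m4] at h1
  have : 0 < (δ - δ / 2) * (r / 2) ^ 2 := by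
    have : 0 < r / 2 := half_pos hr
    have : δ - δ / 2 = δ / 2 := by ring
    rw [this]; positivity
  linarith



/-! ### sub-mean property -/

/-- mean over the `N`-th roots of unity -/
def mN (N : ℕ) (u : ℂ → ℝ) (c z : ℂ) : ℝ :=
  (∑ k ∈ Finset.range N, u (c + (z - c) * Complex.exp ((2 * π * (k / N : ℝ) : ℝ) * I))) / N

theorem exp_norm (t : ℝ) : ‖Complex.exp (t * I)‖ = 1 := Complex.norm_exp_ofReal_mul_I t

theorem mN_self (N : ℕ) (hN : N ≠ 0) (u : ℂ → ℝ) (c : ℂ) : mN N u c c = u c := by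
  have : (N : ℝ) ≠ 0 := by exact_mod_cast hN
  simp only [mN, sub_self, zero_mul, add_zero, Finset.sum_const, Finset.card_range, nsmul_eq_mul]
  field_simp

theorem mN_lge {N : ℕ} {u : ℂ → ℝ} {c : ℂ} {R : ℝ}
    (hL : ∀ z ∈ ball c R, LGe u z 0) : ∀ z ∈ ball c R, LGe (mN N u c) z 0 := by
  intro z hz
  have h1 : LGe (fun z => ∑ k ∈ Finset.range N,
      u (c + (z - c) * Complex.exp ((2 * π * (k / N : ℝ) : ℝ) * I))) z
      (∑ k ∈ Finset.range N, 0) := by
    refine lge_sum _ fun k _ => ?_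
    refine LGe.rot (exp_norm _) (hL _ ?_)
    rw [mem_ball, dist_eq_norm] at hz ⊢
    rwa [add_sub_cancel_left, norm_mul, exp_norm, mul_one]
  rw [Finset.sum_const_zero] at h1
  have h2 := h1.const_mul (a := (1 / N : ℝ)) (by positivity)
  rw [mul_zero] at h2
  refine h2.congr (Eventually.of_forall fun x => ?_)
  simp only [mN]
  ring

theorem mN_cont {N : ℕ} {u : ℂ → ℝ} {c : ℂ} {R : ℝ} (hu : ContinuousOn u (closedBall c R)) :
    ContinuousOn (mN N u c) (closedBall c R) := by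
  refine ContinuousOn.div_const (continuousOn_finsetSum _ fun k _ => ?_) _
  refine hu.comp (by fun_prop) fun z hz => ?_
  rw [mem_closedBall, dist_eq_norm] at hz ⊢
  rwa [add_sub_cancel_left, norm_mul, exp_norm, mul_one]

/-- Riemann sums of a continuous function on a circle, uniformly in the starting point -/
theorem riemann {u : ℂ → ℝ} {c : ℂ} {R : ℝ} (hR : 0 ≤ R) (hu : ContinuousOn u (sphere c R))
    {ε : ℝ} (hε : 0 < ε) : ∀ᶠ N : ℕ in atTop, ∀ z ∈ sphere c R,
      |mN N u c z - circleAverage u c R| ≤ ε := by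
  -- uniform continuity of `g θ = u (circleMap c R θ)`
  have hmaps : ∀ θ : ℝ, circleMap c R θ ∈ sphere c R := fun θ => circleMap_mem_sphere c hR θ
  have huc : UniformContinuousOn u (sphere c R) :=
    (isCompact_sphere c R).uniformContinuousOn_of_continuous hu
  obtain ⟨δ, hδ, hδu⟩ := Metric.uniformContinuousOn_iff.1 huc ε hε
  obtain ⟨N₀, hN₀⟩ := exists_nat_gt (2 * π * (R + 1) / δ)
  filter_upwards [eventually_ge_atTop (N₀ + 1)] with N hN z hz
  have hNpos : (0 : ℝ) < N := by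
    have : 0 < N := by omega
    exact_mod_cast this
  have hNbig : 2 * π * (R + 1) / δ < N := by
    refine hN₀.trans_le ?_
    exact_mod_cast (by omega : N₀ ≤ N)
  obtain ⟨φ, rfl⟩ : ∃ φ : ℝ, circleMap c R φ = z := by
    have := hz
    rw [← abs_of_nonneg hR, ← range_circleMap] at this
    exact this
  set g : ℝ → ℝ := fun θ => u (circleMap c R (θ + φ)) with hg
  have hgc : Continuous g := by
    refine hu.comp_continuous (by fun_prop) fun θ => hmaps _
  set a : ℕ → ℝ := fun k => 2 * π * (k / N : ℝ) with ha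
  have ha1 : ∀ k, a (k + 1) = a k + 2 * π / N := by
    intro k; simp only [ha]; push_cast; field_simp
  have hstep : 0 < 2 * π / N := by positivity
  have hmN : mN N u c (circleMap c R φ) = (∑ k ∈ Finset.range N, g (a k)) / N := by
    simp only [mN, hg]
    congr 1
    refine Finset.sum_congr rfl fun k _ => ?_
    congr 1
    simp only [circleMap, add_sub_cancel_left, ha]
    rw [mul_assoc, ← Complex.exp_add]
    congr 3
    push_cast
    ring
  have havg : circleAverage u c R = (2 * π)⁻¹ * ∫ θ in (0 : ℝ)..2 * π, g θ := by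
    rw [circleAverage_eq_integral_add φ, smul_eq_mul]
  have hsum : ∑ k ∈ Finset.range N, ∫ θ in (a k)..(a (k + 1)), g θ
      = ∫ θ in (0 : ℝ)..2 * π, g θ := by
    rw [intervalIntegral.sum_integral_adjacent_intervals fun k _ => hgc.intervalIntegrable _ _]
    congr 1
    · simp [ha]
    · simp only [ha]; field_simp
  have hpiece : ∀ k, |(∫ θ in (a k)..(a (k + 1)), g θ) - g (a k) * (2 * π / N)|
      ≤ ε * (2 * π / N) := by
    intro k
    have e1 : (∫ θ in (a k)..(a (k + 1)), g θ) - g (a k) * (2 * π / N)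
        = ∫ θ in (a k)..(a (k + 1)), (g θ - g (a k)) := by
      rw [intervalIntegral.integral_sub (hgc.intervalIntegrable _ _)
        (continuous_const.intervalIntegrable _ _), intervalIntegral.integral_const, ha1]
      rw [smul_eq_mul]
      ring
    rw [e1, ← Real.norm_eq_abs]
    refine (intervalIntegral.norm_integral_le_of_norm_le_const (C := ε) fun θ hθ => ?_).trans ?_
    · rw [uIoc_of_le (by rw [ha1]; linarith), ha1] at hθ
      have h1 : dist (circleMap c R (θ + φ)) (circleMap c R (a k + φ)) < δ := by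
        have h2 : dist (circleMap c R (θ + φ)) (circleMap c R (a k + φ))
            ≤ |R| * dist (θ + φ) (a k + φ) := by
          have := (lipschitzWith_circleMap c R).dist_le_mul (θ + φ) (a k + φ)
          simpa using this
        refine h2.trans_lt ?_
        rw [abs_of_nonneg hR, Real.dist_eq]
        have h3 : |θ + φ - (a k + φ)| ≤ 2 * π / N := by
          rw [abs_le]; constructor <;> linarith [hθ.1, hθ.2]
        have h4 : R * |θ + φ - (a k + φ)| ≤ R * (2 * π / N) := mul_le_mul_of_nonneg_left h3 hR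
        have h5 : 2 * π * (R + 1) < N * δ := by rwa [div_lt_iff₀ hδ] at hNbig
        have h6 : R * (2 * π / N) < δ := by
          rw [mul_div_assoc', div_lt_iff₀ hNpos]
          nlinarith [Real.pi_pos]
        linarith
      have := hδu _ (hmaps _) _ (hmaps _) h1
      rw [Real.dist_eq] at this
      exact this.le
    · rw [ha1]
      have : a k + 2 * π / N - a k = 2 * π / N := by ring
      rw [this, abs_of_pos hstep]
  have htot : |(∫ θ in (0 : ℝ)..2 * π, g θ) - (∑ k ∈ Finset.range N, g (a k)) * (2 * π / N)|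
      ≤ N * (ε * (2 * π / N)) := by
    rw [← hsum, Finset.sum_mul, ← Finset.sum_sub_distrib]
    refine (Finset.abs_sum_le_sum_abs _ _).trans ?_
    refine (Finset.sum_le_sum fun k _ => hpiece k).trans ?_
    simp
  rw [hmN, havg]
  have e2 : (∑ k ∈ Finset.range N, g (a k)) / N - (2 * π)⁻¹ * ∫ θ in (0 : ℝ)..2 * π, g θ
      = -((2 * π)⁻¹ * ((∫ θ in (0 : ℝ)..2 * π, g θ)
        - (∑ k ∈ Finset.range N, g (a k)) * (2 * π / N))) := by
    have := Real.pi_pos.ne'
    field_simp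
    ring
  rw [e2, abs_neg, abs_mul, abs_of_pos (by positivity)]
  calc (2 * π)⁻¹ * _ ≤ (2 * π)⁻¹ * (N * (ε * (2 * π / N))) :=
        mul_le_mul_of_nonneg_left htot (by positivity)
    _ = ε := by
        have := Real.pi_pos.ne'
        field_simp

/-- sub-mean property -/
theorem le_circleAverage {u : ℂ → ℝ} {c : ℂ} {R : ℝ} (hR : 0 < R)
    (hu : ContinuousOn u (closedBall c R)) (hL : ∀ z ∈ ball c R, LGe u z 0) :
    u c ≤ circleAverage u c R := by
  refine le_of_forall_pos_le_add fun ε hε => ?_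
  have hs : ContinuousOn u (sphere c R) := hu.mono sphere_subset_closedBall
  obtain ⟨N, h1, h2⟩ := ((riemann hR.le hs hε).and (eventually_ge_atTop 1)).exists
  have hcl : closure (ball c R) = closedBall c R := closure_ball c hR.ne'
  have hfr : frontier (ball c R) = sphere c R := frontier_ball c hR.ne'
  have := max_principle (isOpen_ball (x := c) (ε := R)) isBounded_ball
    (u := mN N u c) (M := circleAverage u c R + ε) (by rw [hcl]; exact mN_cont hu)
    (fun z hz _ => mN_lge hL z hz) (fun z hz => by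
      rw [hfr] at hz
      have := (abs_le.1 (h1 z hz)).2
      linarith) c (by rw [hcl]; exact mem_closedBall_self hR.le)
  rwa [mN_self N (by omega)] at this


/-- circle averages increase with the radius -/
theorem circleAverage_mono_radius {u : ℂ → ℝ} {c : ℂ} {r R : ℝ} (hr : 0 ≤ r) (hrR : r ≤ R)
    (hu : ContinuousOn u (closedBall c R)) (hL : ∀ z ∈ ball c R, LGe u z 0) :
    circleAverage u c r ≤ circleAverage u c R := by
  rcases hrR.eq_or_lt with rfl | hlt
  · exact le_rfl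
  have hR : 0 < R := hr.trans_lt hlt
  refine le_of_forall_pos_le_add fun ε hε => ?_
  have hs : ContinuousOn u (sphere c R) := hu.mono sphere_subset_closedBall
  have hs' : ContinuousOn u (sphere c r) :=
    hu.mono (sphere_subset_closedBall.trans (closedBall_subset_closedBall hrR))
  obtain ⟨N, h1, h2⟩ := ((riemann hR.le hs (half_pos hε)).and
    (riemann hr hs' (half_pos hε))).exists
  have hcl : closure (ball c R) = closedBall c R := closure_ball c hR.ne'
  have hfr : frontier (ball c R) = sphere c R := frontier_ball c hR.ne'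
  have hz : c + (r : ℂ) ∈ sphere c r := by
    rw [mem_sphere, dist_eq_norm, add_sub_cancel_left, Complex.norm_real, Real.norm_eq_abs,
      abs_of_nonneg hr]
  have := max_principle (isOpen_ball (x := c) (ε := R)) isBounded_ball
    (u := mN N u c) (M := circleAverage u c R + ε / 2) (by rw [hcl]; exact mN_cont hu)
    (fun z hz _ => mN_lge hL z hz) (fun z hz => by
      rw [hfr] at hz
      have := (abs_le.1 (h1 z hz)).2
      linarith) (c + (r : ℂ)) (by
        rw [hcl]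
        exact closedBall_subset_closedBall hrR (sphere_subset_closedBall hz))
  have h3 := (abs_le.1 (h2 _ hz)).1
  linarith

end Crest.Agent.R269.SubM_79
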