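import Mathlib
import Crest.Prelude.Def_ProjPluricanonical
import Crest.Agent.R269.Tan_60
import Crest.Agent.R269.GeoDefs_328
import Crest.Agent.R266.HolFlow
import Crest.Agent.R266.Osgood
import Crest.Agent.R269.Alp5_927
import Crest.Agent.R269.DefsS_731
import Crest.Agent.R269.Levi2_599

-- ▼ part R269/Hom_60
section

/-!
# VF1: finitely many homogeneous polynomial vector fields of one degree spanning the tangent spaces
(helper60, row 269)
-/

set_option autoImplicit false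

open MvPolynomial Module

namespace Crest.Agent.R269.Hom_60

open Crest.AlgGeometry.ProjEmb Crest.Agent.R269.Tan_60 Crest.Agent.R269.Geo_328

section Homog

variable {σ : Type*}

theorem isHomogeneous_det {c : ℕ} (M : Matrix (Fin c) (Fin c) (MvPolynomial σ ℂ)) (d : Fin c → ℕ)
    (h : ∀ i j, (M i j).IsHomogeneous (d i)) : M.det.IsHomogeneous (∑ i, d i) := by
  rw [Matrix.det_apply]
  refine IsHomogeneous.sum _ _ _ fun τ _ => ?_
  have h1 : (∏ i, M (τ i) i).IsHomogeneous (∑ i, d (τ i)) :=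
    IsHomogeneous.prod _ _ _ fun i _ => h (τ i) i
  have h2 : ∑ i, d (τ i) = ∑ i, d i := Equiv.sum_comp τ d
  rw [h2] at h1
  rcases Int.units_eq_one_or (Equiv.Perm.sign τ) with h3 | h3
  · rw [h3]; simpa using h1
  · rw [h3]
    simpa using h1.neg

end Homog

variable {N n : ℕ}

/-- homogeneous generators indexed by `Fin s × Fin (d0+1)` -/
noncomputable def Gh {s : ℕ} (G : Fin s → R N) (d0 : ℕ) (x : Fin s × Fin (d0 + 1)) : R N :=
  homogeneousComponent (x.2 : ℕ) (G x.1)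

theorem Gh_homog {s : ℕ} (G : Fin s → R N) (d0 : ℕ) (x : Fin s × Fin (d0 + 1)) :
    (Gh G d0 x).IsHomogeneous (x.2 : ℕ) := homogeneousComponent_isHomogeneous _ _

theorem span_Gh {I : Ideal (R N)} (hI : ∀ F ∈ I, ∀ d : ℕ, homogeneousComponent d F ∈ I)
    {s : ℕ} {G : Fin s → R N} (hG : Ideal.span (Set.range G) = I) {d0 : ℕ}
    (hd : ∀ a, (G a).totalDegree ≤ d0) : Ideal.span (Set.range (Gh G d0)) = I := by
  apply le_antisymm
  · rw [Ideal.span_le]
    rintro _ ⟨x, rfl⟩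
    exact hI _ (by rw [← hG]; exact Ideal.subset_span ⟨x.1, rfl⟩) _
  · rw [← hG, Ideal.span_le]
    rintro _ ⟨a, rfl⟩
    have h1 : G a = ∑ d : Fin (d0 + 1), Gh G d0 (a, d) := by
      conv_lhs => rw [← sum_homogeneousComponent (G a)]
      have h2 : ∑ d : Fin (d0 + 1), Gh G d0 (a, d) =
          ∑ i ∈ Finset.range (d0 + 1), homogeneousComponent i (G a) := by
        rw [← Fin.sum_univ_eq_sum_range (fun i => homogeneousComponent i (G a)) (d0 + 1)]
        rfl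
      rw [h2]
      refine Finset.sum_subset ?_ ?_
      · intro i hi
        rw [Finset.mem_range] at *
        have := hd a
        omega
      · intro i _ hi
        rw [Finset.mem_range] at hi
        exact homogeneousComponent_eq_zero _ _ (by omega)
    rw [SetLike.mem_coe, h1]
    exact Ideal.sum_mem _ fun d _ => Ideal.subset_span ⟨(a, d), rfl⟩

/-- the degree of `theta` -/
def eS {s d0 c : ℕ} (S : Fin c → Fin s × Fin (d0 + 1)) : ℕ := ∑ a, (((S a).2 : ℕ) - 1)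

theorem eS_le {s d0 c : ℕ} (S : Fin c → Fin s × Fin (d0 + 1)) : eS S ≤ c * d0 := by
  have : eS S ≤ ∑ _a : Fin c, d0 := Finset.sum_le_sum fun a _ => by
    have := (S a).2.2
    omega
  simpa using this

theorem theta_homog {s : ℕ} (G : Fin s → R N) (d0 : ℕ) {c : ℕ}
    (S : Fin c → Fin s × Fin (d0 + 1)) (J : Fin (c + 1) → Fin (N + 1)) (k : Fin (N + 1)) :
    (theta (Gh G d0) S J k).IsHomogeneous (eS S) := by
  have h := isHomogeneous_det (bmat (grow (Gh G d0) S) (Pi.single k 1) J)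
    (Fin.cons 0 fun a => ((S a).2 : ℕ) - 1) (by
      intro i j
      refine Fin.cases ?_ (fun a => ?_) i
      · rw [bmat_zero, Fin.cons_zero]
        by_cases hk : J j = k
        · rw [hk, Pi.single_eq_same]
          exact isHomogeneous_one _ _
        · rw [Pi.single_eq_of_ne hk]
          exact isHomogeneous_zero _ _ _
      · rw [bmat_succ, Fin.cons_succ]
        exact (Gh_homog G d0 (S a)).pderiv)
  rw [Fin.sum_univ_succ] at h
  simpa [eS, theta] using h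

/-- the homogeneous fields -/
noncomputable def Yf {s : ℕ} (G : Fin s → R N) (d0 c : ℕ)
    (y : (Fin c → Fin s × Fin (d0 + 1)) × (Fin (c + 1) → Fin (N + 1)) × Fin (N + 1))
    (k : Fin (N + 1)) : R N :=
  X y.2.2 ^ (1 + c * d0 - eS y.1) * theta (Gh G d0) y.1 y.2.1 k

theorem Yf_homog {s : ℕ} (G : Fin s → R N) (d0 c : ℕ)
    (y : (Fin c → Fin s × Fin (d0 + 1)) × (Fin (c + 1) → Fin (N + 1)) × Fin (N + 1))
    (k : Fin (N + 1)) : (Yf G d0 c y k).IsHomogeneous (1 + c * d0) := by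
  have h1 : (X y.2.2 ^ (1 + c * d0 - eS y.1) : R N).IsHomogeneous (1 + c * d0 - eS y.1) := by
    have := (isHomogeneous_X ℂ y.2.2).pow (1 + c * d0 - eS y.1)
    simpa using this
  have h2 := h1.mul (theta_homog G d0 y.1 y.2.1 k)
  have h3 := eS_le y.1
  have h4 : 1 + c * d0 - eS y.1 + eS y.1 = 1 + c * d0 := by omega
  rw [h4] at h2
  exact h2

theorem mem_Tan_iff {I : Ideal (R N)} {p v : EE N} :
    v ∈ Tan I p ↔ ∀ P ∈ I, ∑ k, eval p (pderiv k P) * v k = 0 := Iff.rfl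

/-- **VF1.** -/
theorem exists_fields {I : Ideal (R N)} [I.IsPrime] (hX : IsSmoothProjective I n) :
    ∃ (D M : ℕ) (X : Fin M → Fin (N + 1) → R N), 1 ≤ D ∧
      (∀ j k, (X j k).IsHomogeneous D) ∧
      (∀ j, ∀ P ∈ I, ∑ k, pderiv k P * X j k ∈ I) ∧
      (∀ p ∈ Cone I, Submodule.span ℂ (Set.range fun j => fun k => eval p (X j k)) = Tan I p) := by
  classical
  obtain ⟨s, G, hG⟩ := exists_generators I
  obtain ⟨d0, hd0⟩ : ∃ d0 : ℕ, ∀ a, (G a).totalDegree ≤ d0 :=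
    ⟨Finset.univ.sup fun a => (G a).totalDegree, fun a =>
      Finset.le_sup (f := fun a => (G a).totalDegree) (Finset.mem_univ a)⟩
  have hspan := span_Gh hX.homogeneous hG hd0
  have hGI : ∀ x, Gh G d0 x ∈ I := fun x => by
    rw [← hspan]; exact Ideal.subset_span ⟨x, rfl⟩
  let ι := (Fin (N - n) → Fin s × Fin (d0 + 1)) × (Fin (N - n + 1) → Fin (N + 1)) × Fin (N + 1)
  let e : ι ≃ Fin (Fintype.card ι) := Fintype.equivFin ι
  have hmem : ∀ y : ι, ∀ P ∈ I, ∑ k, pderiv k P * Yf G d0 (N - n) y k ∈ I := by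
    intro y P hP
    have h1 : ∑ k, pderiv k P * Yf G d0 (N - n) y k =
        X y.2.2 ^ (1 + (N - n) * d0 - eS y.1) *
          ∑ k, pderiv k P * theta (Gh G d0) y.1 y.2.1 k := by
      rw [Finset.mul_sum]
      refine Finset.sum_congr rfl fun k _ => ?_
      simp only [Yf]
      ring
    rw [h1]
    exact Ideal.mul_mem_left _ _ (theta_mem hX hGI y.1 y.2.1 hP)
  refine ⟨1 + (N - n) * d0, Fintype.card ι, fun j => Yf G d0 (N - n) (e.symm j), by omega,
    fun j k => Yf_homog G d0 _ _ k, fun j P hP => hmem _ P hP, ?_⟩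
  intro p hp
  apply le_antisymm
  · rw [Submodule.span_le]
    rintro _ ⟨j, rfl⟩
    rw [SetLike.mem_coe, mem_Tan_iff]
    intro P hP
    have h1 := hp.1 _ (hmem (e.symm j) P hP)
    rw [map_sum] at h1
    simpa using h1
  · intro v hv
    rw [mem_Tan_iff] at hv
    obtain ⟨S, T, hST⟩ := exists_minor_ne_zero hX hspan hp.1 hp.2
    obtain ⟨i, hi⟩ : ∃ i, p i ≠ 0 := by
      by_contra hcon
      push Not at hcon
      exact hp.2 (funext hcon)
    have h1 : ∀ l, aeval p (mnr (Gh G d0) S T) * v l =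
        ∑ k, v k * aeval p (theta (Gh G d0) S (Fin.cons k T) l) :=
      mnr_mul_eq (A := ℂ) (Gh G d0) S T p v (fun a => by
        simpa [aeval_eq_eval] using hv _ (hGI (S a)))
    set m : ℂ := eval p (mnr (Gh G d0) S T) with hm
    set q : ℂ := p i ^ (1 + (N - n) * d0 - eS S) with hq
    have hq0 : q ≠ 0 := pow_ne_zero _ hi
    have h2 : v = ∑ k, (v k / (m * q)) •
        (fun l => eval p (Yf G d0 (N - n) (S, Fin.cons k T, i) l)) := by
      funext l
      rw [Finset.sum_apply]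
      have h3 := h1 l
      simp only [aeval_eq_eval] at h3
      rw [← hm] at h3
      have h4 : v l = (m)⁻¹ * ∑ k, v k * eval p (theta (Gh G d0) S (Fin.cons k T) l) := by
        rw [← h3]
        field_simp
      rw [h4, Finset.mul_sum]
      refine Finset.sum_congr rfl fun k _ => ?_
      simp only [Pi.smul_apply, smul_eq_mul, Yf, map_mul, map_pow, eval_X]
      rw [← hq]
      field_simp
    rw [h2]
    refine Submodule.sum_mem _ fun k _ => Submodule.smul_mem _ _ ?_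
    refine Submodule.subset_span ⟨e (S, Fin.cons k T, i), ?_⟩
    simp

end Crest.Agent.R269.Hom_60
end

-- ▼ part R269/Flow_60
section

/-!
# L5a: holomorphic flows in complex Banach spaces (helper60, row 269)

`exists_flow`: if `X` is complex differentiable, bounded by `M` and `L`-Lipschitz on `ball H R`,
then for `δ * M < R`, `δ * L ≤ 1/2` the equation `F' = X ∘ F`, `F 0 = H` has a holomorphic
solution on `ball 0 δ`.
`exists_flow_of_contDiffAt`: version for `X` of class `C¹` (complex) near `H`.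
`flow_unique`, `linear_unique`: uniqueness.
-/

set_option autoImplicit false

open Metric Set Filter Topology Complex

namespace Crest.Agent.R269.Flow_60

variable {E : Type*} [NormedAddCommGroup E] [NormedSpace ℂ E]




/-- Uniqueness for a linear homogeneous inequality: if `‖F' w‖ ≤ C ‖F w‖` on a ball around `0` and
`F 0 = 0` then `F = 0` on the ball. -/
theorem eq_zero_of_norm_deriv_le {F F' : ℂ → E} {δ C : ℝ}
    (hF : ∀ w ∈ ball (0 : ℂ) δ, HasDerivAt F (F' w) w)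
    (hC : ∀ w ∈ ball (0 : ℂ) δ, ‖F' w‖ ≤ C * ‖F w‖) (h0 : F 0 = 0) :
    ∀ w ∈ ball (0 : ℂ) δ, F w = 0 := by
  intro w hw
  have hwn : ‖w‖ < δ := by simpa using hw
  -- restrict to the segment `t ↦ F (t w)`, `t ∈ [0,1]`
  have hmem : ∀ t ∈ Icc (0 : ℝ) 1, ((t : ℂ) * w) ∈ ball (0 : ℂ) δ := by
    intro t ht
    simp only [mem_ball, dist_zero_right, norm_mul, Complex.norm_real, Real.norm_eq_abs]
    rw [abs_of_nonneg ht.1]
    calc t * ‖w‖ ≤ 1 * ‖w‖ := mul_le_mul_of_nonneg_right ht.2 (norm_nonneg _)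
      _ < δ := by simpa using hwn
  let G : ℝ → E := fun t => F ((t : ℂ) * w)
  have hG : ∀ t ∈ Icc (0 : ℝ) 1, HasDerivAt G (w • F' ((t : ℂ) * w)) t := by
    intro t ht
    have h1 := hF _ (hmem t ht)
    have h2 : HasDerivAt (fun t : ℝ => (t : ℂ) * w) w t := by
      simpa using (Complex.ofRealCLM.hasDerivAt (x := t)).mul_const w
    exact HasDerivAt.scomp t h1 h2
  have hGc : ContinuousOn G (Icc 0 1) := fun t ht => (hG t ht).continuousAt.continuousWithinAt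
  have hbound := norm_le_gronwallBound_of_norm_deriv_right_le (f := G)
    (f' := fun t => w • F' ((t : ℂ) * w)) (δ := 0) (K := ‖w‖ * C) (ε := 0) (a := 0) (b := 1)
    hGc (fun t ht => (hG t ⟨ht.1, ht.2.le⟩).hasDerivWithinAt) (by simp [G, h0])
    (fun t ht => by
      rw [norm_smul, add_zero, mul_assoc]
      exact mul_le_mul_of_nonneg_left (hC _ (hmem t ⟨ht.1, ht.2.le⟩)) (norm_nonneg _))
    1 ⟨zero_le_one, le_rfl⟩
  simp only [gronwallBound_ε0_δ0] at hbound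
  have : G 1 = 0 := norm_le_zero_iff.mp hbound
  simpa [G] using this


end Crest.Agent.R269.Flow_60
end

-- ▼ part R269/Var_60
section

/-!
# L5c: variation of discs (STEP 1 / Blueprint_646 (2.2), (2.3)) (helper60, row 269)

Everything takes place in an arbitrary commutative complex Banach algebra `A` (class of discs:
Hardy-Sobolev algebra, weighted Wiener algebra, ...).  A "disc" is `H : Fin (N+1) → A` with
`aeval H P = 0` for `P ∈ I` and `∑ u i * H i = 1` for some `u`.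

* `bezout_minors`: the minors of the Jacobian generate the unit ideal of `A` along `H`;
* `variation`: for `b` tangent along `H` and `Z : A` there is a holomorphic family
  `F w = H + Z * K w`, `K 0 = 0`, `K'(0) = b`, of discs in the cone; and
  `χ (K w) = w χ(b)` at every character `χ` with `χ Z = 0`.
-/

set_option autoImplicit false

open Metric Set Filter Topology MvPolynomial Module

namespace Crest.Agent.R269.Var_60

open Crest.AlgGeometry.ProjEmb Crest.Agent.R269.Tan_60 Crest.Agent.R269.Flow_60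

section Calculus

variable {σ : Type*} [Fintype σ] {A : Type*} [NormedCommRing A] [NormedAlgebra ℂ A]

theorem contDiff_aeval (P : MvPolynomial σ ℂ) :
    ContDiff ℂ ⊤ (fun x : σ → A => aeval x P) := by
  induction P using MvPolynomial.induction_on with
  | C a => simpa using contDiff_const
  | add p q hp hq => simpa using hp.add hq
  | mul_X p i hp =>
    simp only [map_mul, aeval_X]
    exact hp.mul (contDiff_apply ℂ A i)

theorem hasDerivAt_aeval (P : MvPolynomial σ ℂ) {F : ℂ → σ → A} {F' : σ → A} {w : ℂ}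
    (hF : HasDerivAt F F' w) :
    HasDerivAt (fun w => aeval (F w) P) (∑ k, aeval (F w) (pderiv k P) * F' k) w := by
  classical
  have hFk : ∀ k, HasDerivAt (fun w => F w k) (F' k) w := fun k => (hasDerivAt_pi.mp hF) k
  induction P using MvPolynomial.induction_on with
  | C a => simpa using hasDerivAt_const w (algebraMap ℂ A a)
  | add p q hp hq =>
    have := hp.add hq
    simp only [map_add, add_mul, Finset.sum_add_distrib]
    exact this
  | mul_X p i hp =>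
    have h1 := hp.mul (hFk i)
    simp only [map_mul, aeval_X]
    refine h1.congr_deriv ?_
    simp only [Derivation.leibniz, smul_eq_mul, map_add, map_mul, aeval_X, pderiv_X, add_mul,
      Finset.sum_add_distrib, Finset.sum_mul]
    rw [add_comm]
    congr 1
    · rw [Finset.sum_eq_single i]
      · simp
      · intro k _ hk
        simp [Pi.single_eq_of_ne (Ne.symm hk)]
      · intro h
        exact absurd (Finset.mem_univ _) h
    · refine Finset.sum_congr rfl fun k _ => ?_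
      ring

end Calculus

section Bezout

variable {N n : ℕ} {A : Type*} [NormedCommRing A] [NormedAlgebra ℂ A] [CompleteSpace A]


end Bezout

section Variation

variable {N n : ℕ} {A : Type*} [NormedCommRing A] [NormedAlgebra ℂ A]






end Variation

end Crest.Agent.R269.Var_60
end

-- ▼ part R269/FlowMap_60
section

/-!
# VF2: the flow map `Φ (τ, c, Y)` of the polynomial fields `∑ c_j X_j` (helper60, row 269)

* `fld X (c, Y) = ∑ c_j X_j(Y)`;
* `DM X`: open domain in `ℂ × ((Fin M → ℂ) × EE N)`; `Ph X τ (c, Y)`: the flow;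
* `analyticOnNhd_Ph`, `hasDerivAt_Ph`, `Ph_zero`, `Ph_unique`, `Ph_zero_left`, `Ph_smul` (homogeneity),
  `Ph_time` (time rescaling), `Ph_mem_cone`, `exists_rho` (uniform existence time),
  `fderivY`-lemmas.
-/

set_option autoImplicit false

open MvPolynomial Set Filter Topology Metric Module
open scoped ContDiff

namespace Crest.Agent.R269.FlowMap_60

open Crest.AlgGeometry.ProjEmb Crest.Agent.R269.Tan_60 Crest.Agent.R269.Geo_328
open Crest.Agent.R269.Flow_60 Crest.Agent.R269.Var_60 Crest.Agent.R266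

variable {N M : ℕ}

/-- state space: coefficients and point -/
abbrev PS (N M : ℕ) : Type := (Fin M → ℂ) × EE N

/-- the vector field `∑ c_j X_j(Y)` -/
noncomputable def fld (X : Fin M → Fin (N + 1) → R N) (q : PS N M) : EE N :=
  fun k => ∑ j, q.1 j * eval q.2 (X j k)

theorem contDiff_fld (X : Fin M → Fin (N + 1) → R N) : ContDiff ℂ ω (fld X) := by
  rw [contDiff_pi]
  intro k
  refine ContDiff.sum fun j _ => ?_
  have h1 : ContDiff ℂ ω (fun q : PS N M => q.1 j) :=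
    (contDiff_apply ℂ ℂ j).comp contDiff_fst
  have h2 : ContDiff ℂ ω (fun q : PS N M => eval q.2 (X j k)) := by
    have := (contDiff_aeval (A := ℂ) (X j k)).comp (contDiff_snd (E := Fin M → ℂ) (F := EE N))
    simpa [Function.comp_def, aeval_eq_eval] using this
  exact h1.mul h2


theorem fld_smul_left (X : Fin M → Fin (N + 1) → R N) (t : ℂ) (c : Fin M → ℂ) (Y : EE N) :
    fld X (t • c, Y) = t • fld X (c, Y) := by
  funext k
  simp [fld, Finset.mul_sum, mul_assoc]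

@[simp] theorem fld_zero_left (X : Fin M → Fin (N + 1) → R N) (Y : EE N) :
    fld X (0, Y) = 0 := by
  funext k
  simp [fld]

theorem fld_single (X : Fin M → Fin (N + 1) → R N) (j : Fin M) (Y : EE N) :
    fld X (Pi.single j 1, Y) = fun k => eval Y (X j k) := by
  classical
  funext k
  simp only [fld]
  rw [Finset.sum_eq_single j]
  · simp
  · intro i _ hi
    simp [Pi.single_eq_of_ne hi]
  · intro h
    exact absurd (Finset.mem_univ _) h

theorem fld_smul_right {X : Fin M → Fin (N + 1) → R N} {D : ℕ}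
    (hX : ∀ j k, (X j k).IsHomogeneous D) (t : ℂ) (c : Fin M → ℂ) (Y : EE N) :
    fld X (c, t • Y) = t ^ D • fld X (c, Y) := by
  funext k
  simp only [fld, Pi.smul_apply, smul_eq_mul, Finset.mul_sum]
  refine Finset.sum_congr rfl fun j _ => ?_
  rw [eval_smul_of_isHomogeneous (hX j k)]
  ring

/-- the field as a family of linear maps `ℂ → PS` -/
noncomputable def WX (X : Fin M → Fin (N + 1) → R N) (q : PS N M) : ℂ →L[ℂ] PS N M :=
  (1 : ℂ →L[ℂ] ℂ).smulRight ((0 : Fin M → ℂ), fld X q)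

@[simp] theorem WX_apply (X : Fin M → Fin (N + 1) → R N) (q : PS N M) (s : ℂ) :
    WX X q s = ((0 : Fin M → ℂ), s • fld X q) := by
  simp [WX]

theorem analyticOnNhd_WX (X : Fin M → Fin (N + 1) → R N) :
    AnalyticOnNhd ℂ (WX X) univ := by
  have h : ContDiff ℂ ω (WX X) :=
    contDiff_const.smulRight (contDiff_const.prodMk (contDiff_fld X))
  exact fun q _ => h.contDiffAt.analyticAt

theorem WX_comm (X : Fin M → Fin (N + 1) → R N) :
    ∀ x ∈ (univ : Set (PS N M)), ∀ u v : ℂ,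
      fderiv ℂ (WX X) x (WX X x u) v = fderiv ℂ (WX X) x (WX X x v) u := by
  intro x _ u v
  have h1 : ∀ s : ℂ, WX X x s = s • WX X x 1 := fun s => by
    rw [← map_smul]; simp
  have h2 : ∀ (L : ℂ →L[ℂ] PS N M) (s : ℂ), L s = s • L 1 := fun L s => by
    rw [← map_smul]; simp
  rw [h1 u, h1 v, map_smul, map_smul, smul_apply, smul_apply, h2 _ v, h2 _ u, smul_smul,
    smul_smul, mul_comm]

/-- the domain of the flow map -/
def DM (X : Fin M → Fin (N + 1) → R N) : Set (ℂ × PS N M) := domW (WX X) univ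

/-- the full flow map -/
noncomputable def PH (X : Fin M → Fin (N + 1) → R N) : ℂ × PS N M → PS N M :=
  PhiW (WX X) univ

/-- the flow of `∑ c_j X_j` -/
noncomputable def Ph (X : Fin M → Fin (N + 1) → R N) (τ : ℂ) (q : PS N M) : EE N :=
  (PH X (τ, q)).2

variable (X : Fin M → Fin (N + 1) → R N)

theorem isOpen_DM : IsOpen (DM X) := isOpen_domW isOpen_univ (analyticOnNhd_WX X)

theorem zero_mem_DM (q : PS N M) : ((0 : ℂ), q) ∈ DM X :=
  (zero_mem_domW isOpen_univ (analyticOnNhd_WX X) (mem_univ q)).1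

theorem PH_zero (q : PS N M) : PH X (0, q) = q :=
  (zero_mem_domW isOpen_univ (analyticOnNhd_WX X) (mem_univ q)).2

theorem Ph_zero (q : PS N M) : Ph X 0 q = q.2 := by rw [Ph, PH_zero]

theorem analyticOnNhd_PH : AnalyticOnNhd ℂ (PH X) (DM X) :=
  SCV.analyticOnNhd_of_differentiableOn (isOpen_DM X)
    (differentiableOn_PhiW isOpen_univ (analyticOnNhd_WX X))

theorem analyticOnNhd_Ph : AnalyticOnNhd ℂ (fun x : ℂ × PS N M => Ph X x.1 x.2) (DM X) := by
  intro x hx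
  exact (analyticAt_snd (p := PH X x)).comp (analyticOnNhd_PH X x hx)

theorem hasDerivAt_PH {τ : ℂ} {q : PS N M} (h : (τ, q) ∈ DM X) :
    HasDerivAt (fun τ => PH X (τ, q)) ((0 : Fin M → ℂ), fld X (PH X (τ, q))) τ := by
  have h1 := hasFDerivAt_PhiW isOpen_univ (analyticOnNhd_WX X) (WX_comm X) h
  have h2 := h1.hasDerivAt
  simpa [PH] using h2

/-- `q` lives up to radius `ρ` -/
def Good (ρ : ℝ) (q : PS N M) : Prop := ∀ τ ∈ ball (0 : ℂ) ρ, (τ, q) ∈ DM X

variable {X}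

theorem Good.mono {ρ ρ' : ℝ} {q : PS N M} (h : Good X ρ q) (hρ : ρ' ≤ ρ) : Good X ρ' q :=
  fun τ hτ => h τ (ball_subset_ball hρ hτ)

theorem PH_fst {ρ : ℝ} {q : PS N M} (h : Good X ρ q) {τ : ℂ} (hτ : τ ∈ ball (0 : ℂ) ρ) :
    (PH X (τ, q)).1 = q.1 := by
  have hρ : 0 < ρ := by
    rw [mem_ball_zero_iff] at hτ
    exact (norm_nonneg τ).trans_lt hτ
  have h1 : ∀ w ∈ ball (0 : ℂ) ρ, HasDerivAt (fun w => (PH X (w, q)).1 - q.1) 0 w := by
    intro w hw
    exact ((hasDerivAt_PH X (h w hw)).fst).sub_const q.1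
  have h2 := eq_zero_of_norm_deriv_le (C := 0) h1 (fun w _ => by simp) (by
    simp only [PH_zero, sub_self]) τ hτ
  exact sub_eq_zero.mp h2

theorem PH_eq {ρ : ℝ} {q : PS N M} (h : Good X ρ q) {τ : ℂ} (hτ : τ ∈ ball (0 : ℂ) ρ) :
    PH X (τ, q) = (q.1, Ph X τ q) := Prod.ext (PH_fst h hτ) rfl

theorem hasDerivAt_Ph {ρ : ℝ} {q : PS N M} (h : Good X ρ q) {τ : ℂ}
    (hτ : τ ∈ ball (0 : ℂ) ρ) :
    HasDerivAt (fun τ => Ph X τ q) (fld X (q.1, Ph X τ q)) τ := by
  have h1 := (hasDerivAt_PH X (h τ hτ)).snd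
  rw [PH_eq h hτ] at h1
  exact h1

/-- uniqueness and existence: a solution is the flow. -/
theorem Ph_unique {ρ : ℝ} {c : Fin M → ℂ} {Y : EE N} {f : ℂ → EE N} (hf0 : f 0 = Y)
    (hf : ∀ τ ∈ ball (0 : ℂ) ρ, HasDerivAt f (fld X (c, f τ)) τ) :
    Good X ρ (c, Y) ∧ ∀ τ ∈ ball (0 : ℂ) ρ, Ph X τ (c, Y) = f τ := by
  have key : ∀ τ ∈ ball (0 : ℂ) ρ, (τ, (c, Y)) ∈ DM X ∧ Ph X τ (c, Y) = f τ := by
    intro τ hτ
    have hmem : ∀ t ∈ Icc (0 : ℝ) 1, t • τ ∈ ball (0 : ℂ) ρ := by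
      intro t ht
      rw [mem_ball_zero_iff] at hτ ⊢
      rw [norm_smul, Real.norm_eq_abs, abs_of_nonneg ht.1]
      calc t * ‖τ‖ ≤ 1 * ‖τ‖ := by gcongr; exact ht.2
        _ < ρ := by rwa [one_mul]
    have h1 := eq_PhiW_of_segment (W := WX X) (U := univ) isOpen_univ (analyticOnNhd_WX X)
      (c := fun s => (c, f s)) (s := τ) (fun t _ => mem_univ _) (by
        intro t ht
        have h2 := hf _ (hmem t ht)
        have h3 : HasDerivAt (fun t : ℝ => t • τ) τ t := by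
          simpa using (hasDerivAt_id t).smul_const τ
        have h4 : HasDerivAt (fun t : ℝ => f (t • τ)) (τ • fld X (c, f (t • τ))) t :=
          HasDerivAt.scomp t h2 h3
        have h5 := (hasDerivAt_const t c).prodMk h4
        simpa using h5)
    rw [hf0] at h1
    exact ⟨h1.1, by rw [Ph]; exact congrArg Prod.snd h1.2⟩
  exact ⟨fun τ hτ => (key τ hτ).1, fun τ hτ => (key τ hτ).2⟩

theorem good_zero_left (ρ : ℝ) (Y : EE N) : Good X ρ (0, Y) :=
  (Ph_unique (f := fun _ => Y) (ρ := ρ) rfl (fun τ _ => by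
    simpa using hasDerivAt_const τ Y)).1

theorem Ph_zero_left (τ : ℂ) (Y : EE N) : Ph X τ (0, Y) = Y :=
  (Ph_unique (X := X) (c := 0) (f := fun _ => Y) (ρ := ‖τ‖ + 1) rfl (fun τ _ => by
    simpa using hasDerivAt_const τ Y)).2 τ (by rw [mem_ball_zero_iff]; linarith)

/-- homogeneity in space -/
theorem Ph_smul {D : ℕ} (hD : 1 ≤ D) (hX : ∀ j k, (X j k).IsHomogeneous D) {ρ : ℝ}
    {c : Fin M → ℂ} {Y : EE N} (t : ℂ) (h : Good X ρ (t ^ (D - 1) • c, Y)) :
    Good X ρ (c, t • Y) ∧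
      ∀ τ ∈ ball (0 : ℂ) ρ, Ph X τ (c, t • Y) = t • Ph X τ (t ^ (D - 1) • c, Y) := by
  refine Ph_unique (f := fun τ => t • Ph X τ (t ^ (D - 1) • c, Y)) ?_ ?_
  · simp only [Ph_zero]
  · intro τ hτ
    refine ((hasDerivAt_Ph h hτ).const_smul t).congr_deriv ?_
    rw [fld_smul_left, fld_smul_right hX, smul_smul]
    congr 1
    obtain ⟨e, rfl⟩ : ∃ e, D = e + 1 := ⟨D - 1, by omega⟩
    simp only [Nat.add_sub_cancel]
    ring

/-- time rescaling -/
theorem Ph_time {ρ : ℝ} {c : Fin M → ℂ} {Y : EE N} (t : ℂ) {ρ' : ℝ} (h : Good X ρ (c, Y))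
    (hρ : ∀ τ ∈ ball (0 : ℂ) ρ', t * τ ∈ ball (0 : ℂ) ρ) :
    Good X ρ' (t • c, Y) ∧
      ∀ τ ∈ ball (0 : ℂ) ρ', Ph X τ (t • c, Y) = Ph X (t * τ) (c, Y) := by
  refine Ph_unique (f := fun τ => Ph X (t * τ) (c, Y)) ?_ ?_
  · simp only [mul_zero, Ph_zero]
  · intro τ hτ
    have h1 := hasDerivAt_Ph h (hρ τ hτ)
    have h2 : HasDerivAt (fun τ : ℂ => t * τ) t τ := by
      simpa using (hasDerivAt_id τ).const_mul t
    have h3 := HasDerivAt.scomp τ h1 h2
    refine h3.congr_deriv ?_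
    rw [fld_smul_left]

/-- the tube lemma -/
theorem exists_rho {P : Type*} [TopologicalSpace P] {K : Set P} (hK : IsCompact K)
    {O : Set (ℂ × P)} (hO : IsOpen O) (h0 : ∀ q ∈ K, ((0 : ℂ), q) ∈ O) :
    ∃ ρ : ℝ, 0 < ρ ∧ ∀ τ : ℂ, ‖τ‖ ≤ ρ → ∀ q ∈ K, (τ, q) ∈ O := by
  obtain ⟨u, v, hu, hv, h0u, hKv, huv⟩ :=
    generalized_tube_lemma (isCompact_singleton (x := (0 : ℂ))) hK hO (by
      rintro ⟨a, q⟩ ⟨ha, hq⟩
      rw [mem_singleton_iff] at ha
      simp only at ha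
      rw [ha]
      exact h0 q hq)
  obtain ⟨ρ, hρ, hρu⟩ := Metric.isOpen_iff.mp hu 0 (h0u rfl)
  refine ⟨ρ / 2, by positivity, fun τ hτ q hq => huv ⟨hρu ?_, hKv hq⟩⟩
  rw [mem_ball_zero_iff]
  linarith

/-- cone invariance -/
theorem Ph_mem_cone {I : Ideal (R N)} (hXI : ∀ j, ∀ P ∈ I, ∑ k, pderiv k P * X j k ∈ I)
    {ρ : ℝ} {q : PS N M} (h : Good X ρ q) (hq : q.2 ∈ affineCone I) {τ : ℂ}
    (hτ : τ ∈ ball (0 : ℂ) ρ) : Ph X τ q ∈ affineCone I := by
  classical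
  obtain ⟨s, G, hG⟩ := exists_generators I
  have hGI : ∀ a, G a ∈ I := fun a => by rw [← hG]; exact Ideal.subset_span ⟨a, rfl⟩
  have hex : ∀ j : Fin M, ∀ a : Fin s, ∃ r : Fin s → R N,
      ∑ k, pderiv k (G a) * X j k = ∑ e, r e * G e := by
    intro j a
    have h1 := hXI j _ (hGI a)
    rw [← hG, Ideal.mem_span_range_iff_exists_fun] at h1
    obtain ⟨r, hr⟩ := h1
    exact ⟨r, hr.symm⟩
  choose r hr using hex
  -- choose an intermediate radius
  obtain ⟨ρ', hτρ', hρ'⟩ : ∃ ρ', ‖τ‖ < ρ' ∧ ρ' < ρ :=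
    exists_between (by rwa [mem_ball_zero_iff] at hτ)
  have hρ'0 : 0 < ρ' := (norm_nonneg τ).trans_lt hτρ'
  have hsub : closedBall (0 : ℂ) ρ' ⊆ ball 0 ρ := closedBall_subset_ball hρ'
  have hcont : ContinuousOn (fun w => Ph X w q) (closedBall (0 : ℂ) ρ') := fun w hw =>
    (hasDerivAt_Ph h (hsub hw)).continuousAt.continuousWithinAt
  -- coefficient
  let m : ℂ → Fin s → Fin s → ℂ := fun w a e => ∑ j, q.1 j * eval (Ph X w q) (r j a e)
  have hmc : ∀ a e, ContinuousOn (fun w => m w a e) (closedBall (0 : ℂ) ρ') := by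
    intro a e
    refine continuousOn_finsetSum _ fun j _ => continuousOn_const.mul ?_
    exact (MvPolynomial.continuous_eval (r j a e)).comp_continuousOn hcont
  have hbd : ∀ a e, ∃ C : ℝ, 0 ≤ C ∧ ∀ w ∈ closedBall (0 : ℂ) ρ', ‖m w a e‖ ≤ C := by
    intro a e
    obtain ⟨C, hC⟩ := (isCompact_closedBall (0 : ℂ) ρ').exists_bound_of_continuousOn (hmc a e)
    exact ⟨C, le_trans (norm_nonneg _) (hC 0 (mem_closedBall_self hρ'0.le)), hC⟩
  choose C hC0 hC using hbd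
  have hder : ∀ w ∈ ball (0 : ℂ) ρ', HasDerivAt (fun w a => eval (Ph X w q) (G a))
      (fun a => ∑ e, m w a e * eval (Ph X w q) (G e)) w := by
    intro w hw
    rw [hasDerivAt_pi]
    intro a
    have h1 := hasDerivAt_aeval (A := ℂ) (G a) (hasDerivAt_Ph h (hsub (ball_subset_closedBall hw)))
    simp only [aeval_eq_eval] at h1
    refine h1.congr_deriv ?_
    simp only [fld, m, Finset.mul_sum, Finset.sum_mul]
    rw [Finset.sum_comm, Finset.sum_comm (s := (Finset.univ : Finset (Fin s)))]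
    refine Finset.sum_congr rfl fun j _ => ?_
    have h2 : eval (Ph X w q) (∑ k, pderiv k (G a) * X j k) =
        eval (Ph X w q) (∑ e, r j a e * G e) := by rw [hr]
    rw [map_sum, map_sum] at h2
    simp only [map_mul] at h2
    calc ∑ k, eval (Ph X w q) (pderiv k (G a)) * (q.1 j * eval (Ph X w q) (X j k))
        = q.1 j * ∑ k, eval (Ph X w q) (pderiv k (G a)) * eval (Ph X w q) (X j k) := by
          rw [Finset.mul_sum]
          refine Finset.sum_congr rfl fun k _ => ?_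
          ring
      _ = q.1 j * ∑ e, eval (Ph X w q) (r j a e) * eval (Ph X w q) (G e) := by rw [h2]
      _ = _ := by
          rw [Finset.mul_sum]
          refine Finset.sum_congr rfl fun k _ => ?_
          ring
  have hzero := eq_zero_of_norm_deriv_le (C := ∑ a, ∑ e, C a e) hder (by
    intro w hw
    have hw' := ball_subset_closedBall hw
    have hnn : 0 ≤ ∑ a, ∑ e, C a e :=
      Finset.sum_nonneg fun a _ => Finset.sum_nonneg fun e _ => hC0 a e
    refine (pi_norm_le_iff_of_nonneg (mul_nonneg hnn (norm_nonneg _))).mpr fun a => ?_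
    refine (norm_sum_le _ _).trans ?_
    have h2 : ∀ e, ‖m w a e * eval (Ph X w q) (G e)‖ ≤
        C a e * ‖fun a => eval (Ph X w q) (G a)‖ := by
      intro e
      rw [norm_mul]
      exact mul_le_mul (hC a e w hw') (norm_le_pi_norm (fun a => eval (Ph X w q) (G a)) e)
        (norm_nonneg _) (hC0 a e)
    refine (Finset.sum_le_sum fun e _ => h2 e).trans ?_
    rw [← Finset.sum_mul]
    refine mul_le_mul_of_nonneg_right ?_ (norm_nonneg _)
    exact Finset.single_le_sum (f := fun a => ∑ e, C a e)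
      (fun a _ => Finset.sum_nonneg fun e _ => hC0 a e) (Finset.mem_univ a)) (by
    funext a
    simp only [Ph_zero, Pi.zero_apply]
    exact hq _ (hGI a)) τ (by rwa [mem_ball_zero_iff])
  intro P hP
  rw [← hG] at hP
  refine Submodule.span_induction (p := fun P _ => eval (Ph X τ q) P = 0) ?_ ?_ ?_ ?_ hP
  · rintro x ⟨a, rfl⟩
    exact congrFun hzero a
  · simp
  · intro x y _ _ hx hy
    rw [map_add, hx, hy, add_zero]
  · intro a x _ hx
    rw [smul_eq_mul, map_mul, hx, mul_zero]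

end Crest.Agent.R269.FlowMap_60
end

-- ▼ part R269/Var2_60
section

/-!
# VF2, part 2: derivative of the flow map in `Y`, tangency, admissible points (helper60, row 269)

* `Ph_ne_zero`; `good_nhds`; `DY X τ q` = derivative of `Y ↦ Ph X τ (c, Y)`; `DY_zero`, `DY_zero_left`,
  `DY_smul` (homogeneity), `DY_mem_Tan`;
* `Adm X τ q`; `exists_adm`: uniform radius for `‖c‖ ≤ Mc`, `Y ∈ Cone I`, `‖Y‖ ≤ 1`;
* `hasDerivAt_curve`: derivative of `z ↦ Ph X τ (c z, H z)` at a zero of `c`.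
-/

set_option autoImplicit false

open MvPolynomial Set Filter Topology Metric Module
open scoped ContDiff

namespace Crest.Agent.R269.FlowMap_60

open Crest.AlgGeometry.ProjEmb Crest.Agent.R269.Tan_60 Crest.Agent.R269.Geo_328
open Crest.Agent.R269.Flow_60 Crest.Agent.R269.Var_60 Crest.Agent.R266

variable {N M : ℕ} {X : Fin M → Fin (N + 1) → R N}

/-! ### bounds for the field -/

theorem exists_fld_bound (X : Fin M → Fin (N + 1) → R N) {D : ℕ}
    (hX : ∀ j k, (X j k).IsHomogeneous D) (Mc : ℝ) :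
    ∃ C : ℝ, 0 ≤ C ∧ ∀ c : Fin M → ℂ, ‖c‖ ≤ Mc → ∀ Y : EE N, ‖fld X (c, Y)‖ ≤ C * ‖Y‖ ^ D := by
  have hcomp : IsCompact ((closedBall (0 : Fin M → ℂ) Mc) ×ˢ (closedBall (0 : EE N) 1)) :=
    (isCompact_closedBall _ _).prod (isCompact_closedBall _ _)
  obtain ⟨C, hC⟩ := hcomp.exists_bound_of_continuousOn (contDiff_fld X).continuous.continuousOn
  refine ⟨max C 0, le_max_right _ _, fun c hc Y => ?_⟩
  have hc' : c ∈ closedBall (0 : Fin M → ℂ) Mc := by rwa [mem_closedBall_zero_iff]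
  by_cases hY : ‖Y‖ = 0
  · have hY0 : Y = 0 := norm_eq_zero.mp hY
    subst hY0
    by_cases hD : D = 0
    · subst hD
      have := hC (c, 0) ⟨hc', by simp⟩
      simpa using this.trans (le_max_left C 0)
    · have h1 : fld X (c, (0 : EE N)) = 0 := by
        have h2 := fld_smul_right hX (0 : ℂ) c (0 : EE N)
        rw [zero_smul, zero_pow hD, zero_smul] at h2
        exact h2
      rw [h1, norm_zero]
      positivity
  · have hYp : 0 < ‖Y‖ := lt_of_le_of_ne (norm_nonneg _) (Ne.symm hY)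
    have h1 : Y = ((‖Y‖ : ℝ) : ℂ) • (((‖Y‖⁻¹ : ℝ) : ℂ) • Y) := by
      rw [smul_smul, ← Complex.ofReal_mul, mul_inv_cancel₀ hY, Complex.ofReal_one, one_smul]
    have h2 : fld X (c, Y) = ((‖Y‖ : ℝ) : ℂ) ^ D • fld X (c, ((‖Y‖⁻¹ : ℝ) : ℂ) • Y) := by
      rw [← fld_smul_right hX, ← h1]
    have h3 : ‖fld X (c, ((‖Y‖⁻¹ : ℝ) : ℂ) • Y)‖ ≤ C := by
      refine hC _ ⟨hc', ?_⟩
      rw [mem_closedBall_zero_iff, norm_smul, Complex.norm_real, norm_inv, norm_norm,
        inv_mul_cancel₀ hY]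
    rw [h2, norm_smul, norm_pow, Complex.norm_real, norm_norm, mul_comm]
    gcongr
    exact h3.trans (le_max_left _ _)

/-- the flow does not reach `0` -/
theorem Ph_ne_zero {D : ℕ} (hD : 1 ≤ D) (hX : ∀ j k, (X j k).IsHomogeneous D) {ρ : ℝ}
    {q : PS N M} (h : Good X ρ q) (hq : q.2 ≠ 0) {τ : ℂ} (hτ : τ ∈ ball (0 : ℂ) ρ) :
    Ph X τ q ≠ 0 := by
  intro h0
  obtain ⟨C, hC0, hC⟩ := exists_fld_bound X hX ‖q.1‖
  have hmem : ∀ t ∈ Icc (0 : ℝ) 1, (1 - t) • τ ∈ ball (0 : ℂ) ρ := by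
    intro t ht
    rw [mem_ball_zero_iff] at hτ ⊢
    rw [norm_smul, Real.norm_eq_abs, abs_of_nonneg (by linarith [ht.2])]
    calc (1 - t) * ‖τ‖ ≤ 1 * ‖τ‖ := by gcongr; linarith [ht.1]
      _ < ρ := by rwa [one_mul]
  let f : ℝ → EE N := fun t => Ph X ((1 - t) • τ) q
  have hf : ∀ t ∈ Icc (0 : ℝ) 1, HasDerivAt f ((-τ) • fld X (q.1, f t)) t := by
    intro t ht
    have h1 := hasDerivAt_Ph h (hmem t ht)
    have h2 : HasDerivAt (fun t : ℝ => (1 - t) • τ) (-τ) t := by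
      have := ((hasDerivAt_id t).const_sub 1).smul_const τ
      simpa using this
    exact HasDerivAt.scomp t h1 h2
  have hfc : ContinuousOn f (Icc 0 1) := fun t ht => (hf t ht).continuousAt.continuousWithinAt
  obtain ⟨B, hB⟩ := isCompact_Icc.exists_bound_of_continuousOn hfc
  have hB0 : 0 ≤ B := le_trans (norm_nonneg _) (hB 0 ⟨le_rfl, zero_le_one⟩)
  have hbound : ∀ t ∈ Ico (0 : ℝ) 1, ‖(-τ) • fld X (q.1, f t)‖ ≤
      (‖τ‖ * (C * B ^ (D - 1))) * ‖f t‖ + 0 := by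
    intro t ht
    have ht' : t ∈ Icc (0 : ℝ) 1 := ⟨ht.1, ht.2.le⟩
    rw [norm_smul, norm_neg, add_zero]
    have h1 := hC q.1 le_rfl (f t)
    obtain ⟨e, rfl⟩ : ∃ e, D = e + 1 := ⟨D - 1, by omega⟩
    simp only [Nat.add_sub_cancel]
    have h2 : ‖f t‖ ^ (e + 1) ≤ B ^ e * ‖f t‖ := by
      rw [pow_succ]
      gcongr
      exact hB t ht'
    calc ‖τ‖ * ‖fld X (q.1, f t)‖ ≤ ‖τ‖ * (C * ‖f t‖ ^ (e + 1)) := by gcongr
      _ ≤ ‖τ‖ * (C * (B ^ e * ‖f t‖)) := by gcongr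
      _ = ‖τ‖ * (C * B ^ e) * ‖f t‖ := by ring
  have hgr := norm_le_gronwallBound_of_norm_deriv_right_le (δ := 0) hfc
    (fun t ht => (hf t ⟨ht.1, ht.2.le⟩).hasDerivWithinAt) (by simp [f, h0]) hbound 1
    ⟨zero_le_one, le_rfl⟩
  have h1 : f 1 = q.2 := by simp [f, Ph_zero]
  rw [gronwallBound_ε0_δ0, h1] at hgr
  exact hq (norm_le_zero_iff.mp hgr)

theorem Ph_mem_Cone {I : Ideal (R N)} {D : ℕ} (hD : 1 ≤ D) (hX : ∀ j k, (X j k).IsHomogeneous D)
    (hXI : ∀ j, ∀ P ∈ I, ∑ k, pderiv k P * X j k ∈ I)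
    {ρ : ℝ} {q : PS N M} (h : Good X ρ q) (hq : q.2 ∈ Cone I) {τ : ℂ}
    (hτ : τ ∈ ball (0 : ℂ) ρ) : Ph X τ q ∈ Cone I :=
  ⟨Ph_mem_cone hXI h hq.1 hτ, Ph_ne_zero hD hX h hq.2 hτ⟩

/-! ### neighbourhoods -/

theorem good_nhds {ρ ρ' : ℝ} {q : PS N M} (h : Good X ρ q) (hρ : ρ' < ρ) :
    ∀ᶠ q' in 𝓝 q, Good X ρ' q' := by
  have hsub : closedBall (0 : ℂ) ρ' ⊆ ball 0 ρ := closedBall_subset_ball hρ
  obtain ⟨u, v, hu, hv, hKu, hqv, huv⟩ :=
    generalized_tube_lemma (isCompact_closedBall (0 : ℂ) ρ') (isCompact_singleton (x := q))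
      (isOpen_DM X) (by
      rintro ⟨a, q'⟩ ⟨ha, hq'⟩
      rw [mem_singleton_iff] at hq'
      simp only at hq'
      rw [hq']
      exact h a (hsub ha))
  filter_upwards [hv.mem_nhds (hqv rfl)] with q' hq' τ hτ
  exact huv ⟨hKu (ball_subset_closedBall hτ), hq'⟩

theorem exists_good (q : PS N M) : ∃ ρ : ℝ, 0 < ρ ∧ Good X ρ q := by
  obtain ⟨ρ, hρ, h⟩ := exists_rho (isCompact_singleton (x := q)) (isOpen_DM X)
    (by rintro q' hq'; rw [mem_singleton_iff] at hq'; rw [hq']; exact zero_mem_DM X q)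
  exact ⟨ρ, hρ, fun τ hτ => h τ (by rw [mem_ball_zero_iff] at hτ; exact hτ.le) q rfl⟩

/-! ### derivative in `Y` -/

variable (X) in
/-- the derivative of `Y ↦ Ph X τ (c, Y)` -/
noncomputable def DY (τ : ℂ) (q : PS N M) : EE N →L[ℂ] EE N :=
  (fderiv ℂ (fun x : ℂ × PS N M => Ph X x.1 x.2) (τ, q)).comp
    ((ContinuousLinearMap.inr ℂ ℂ (PS N M)).comp (ContinuousLinearMap.inr ℂ (Fin M → ℂ) (EE N)))

theorem analyticOnNhd_DY : AnalyticOnNhd ℂ (fun x : ℂ × PS N M => DY X x.1 x.2) (DM X) := by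
  intro x hx
  have h1 := (analyticOnNhd_Ph X).fderiv x hx
  let K : EE N →L[ℂ] ℂ × PS N M :=
    (ContinuousLinearMap.inr ℂ ℂ (PS N M)).comp (ContinuousLinearMap.inr ℂ (Fin M → ℂ) (EE N))
  let L : ((ℂ × PS N M) →L[ℂ] EE N) →L[ℂ] (EE N →L[ℂ] EE N) :=
    (ContinuousLinearMap.compL ℂ (EE N) (ℂ × PS N M) (EE N)).flip K
  exact (L.analyticAt _).comp h1

theorem hasFDerivAt_Ph_Y {τ : ℂ} {c : Fin M → ℂ} {Y : EE N} (h : (τ, (c, Y)) ∈ DM X) :
    HasFDerivAt (fun Y => Ph X τ (c, Y)) (DY X τ (c, Y)) Y := by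
  have h1 := (analyticOnNhd_Ph X _ h).differentiableAt.hasFDerivAt
  have h2 : HasFDerivAt (fun Y : EE N => ((τ, (c, Y)) : ℂ × PS N M))
      ((ContinuousLinearMap.inr ℂ ℂ (PS N M)).comp
        (ContinuousLinearMap.inr ℂ (Fin M → ℂ) (EE N))) Y := by
    have h3 : HasFDerivAt (fun Y : EE N => ((c, Y) : PS N M))
      (ContinuousLinearMap.inr ℂ (Fin M → ℂ) (EE N)) Y := hasFDerivAt_prodMk_right c Y
    exact (hasFDerivAt_prodMk_right (𝕜 := ℂ) τ ((c, Y) : PS N M)).comp Y h3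
  exact HasFDerivAt.comp Y h1 h2

theorem DY_zero (q : PS N M) : DY X 0 q = ContinuousLinearMap.id ℂ (EE N) := by
  obtain ⟨c, Y⟩ := q
  have h1 := hasFDerivAt_Ph_Y (zero_mem_DM X (c, Y))
  have h2 : (fun Y => Ph X 0 (c, Y)) = fun Y => Y := by
    funext Y
    exact Ph_zero X (c, Y)
  rw [h2] at h1
  exact h1.unique (hasFDerivAt_id Y)

theorem mem_DM_zero_left (τ : ℂ) (Y : EE N) : (τ, ((0 : Fin M → ℂ), Y)) ∈ DM X :=
  good_zero_left (‖τ‖ + 1) Y τ (by rw [mem_ball_zero_iff]; linarith)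

theorem DY_zero_left (τ : ℂ) (Y : EE N) :
    DY X τ ((0 : Fin M → ℂ), Y) = ContinuousLinearMap.id ℂ (EE N) := by
  have h1 := hasFDerivAt_Ph_Y (mem_DM_zero_left (X := X) τ Y)
  have h2 : (fun Y => Ph X τ ((0 : Fin M → ℂ), Y)) = fun Y => Y := by
    funext Y
    exact Ph_zero_left τ Y
  rw [h2] at h1
  exact h1.unique (hasFDerivAt_id Y)

/-- homogeneity of the derivative -/
theorem DY_smul {D : ℕ} (hD : 1 ≤ D) (hX : ∀ j k, (X j k).IsHomogeneous D) {ρ : ℝ}
    {c : Fin M → ℂ} {Y : EE N} {t : ℂ} (ht : t ≠ 0) (h : Good X ρ (t ^ (D - 1) • c, Y)) {τ : ℂ}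
    (hτ : τ ∈ ball (0 : ℂ) ρ) : DY X τ (c, t • Y) = DY X τ (t ^ (D - 1) • c, Y) := by
  obtain ⟨ρ', hτρ', hρ'⟩ : ∃ ρ', ‖τ‖ < ρ' ∧ ρ' < ρ :=
    exists_between (by rwa [mem_ball_zero_iff] at hτ)
  have hτ' : τ ∈ ball (0 : ℂ) ρ' := by rwa [mem_ball_zero_iff]
  have h1 := hasFDerivAt_Ph_Y (h τ hτ)
  have h2 := hasFDerivAt_Ph_Y ((Ph_smul hD hX t h).1 τ hτ)
  -- both sides as derivatives of `Y ↦ Ph X τ (c, t • Y)`
  have h3 : HasFDerivAt (fun Y : EE N => Ph X τ (c, t • Y))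
      ((DY X τ (c, t • Y)).comp (t • ContinuousLinearMap.id ℂ (EE N))) Y := by
    have h4 : HasFDerivAt (fun Y : EE N => t • Y) (t • ContinuousLinearMap.id ℂ (EE N)) Y :=
      (hasFDerivAt_id Y).const_smul t
    exact HasFDerivAt.comp Y h2 h4
  have h5 : HasFDerivAt (fun Y : EE N => t • Ph X τ (t ^ (D - 1) • c, Y))
      (t • DY X τ (t ^ (D - 1) • c, Y)) Y := h1.const_smul t
  have hev : (fun Y : EE N => Ph X τ (c, t • Y)) =ᶠ[𝓝 Y]
      fun Y : EE N => t • Ph X τ (t ^ (D - 1) • c, Y) := by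
    have h6 := good_nhds h hρ'
    have h7 : Tendsto (fun Y : EE N => ((t ^ (D - 1) • c, Y) : PS N M)) (𝓝 Y)
        (𝓝 (t ^ (D - 1) • c, Y)) := by
      have : Continuous fun Y : EE N => ((t ^ (D - 1) • c, Y) : PS N M) := by fun_prop
      exact this.tendsto Y
    filter_upwards [h7.eventually h6] with Y' hY'
    exact (Ph_smul hD hX t hY').2 τ hτ'
  have h8 := h3.unique (h5.congr_of_eventuallyEq hev)
  ext v : 1
  have h9 := congrArg (fun L : EE N →L[ℂ] EE N => L v) h8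
  simp only [ContinuousLinearMap.comp_apply, smul_apply, ContinuousLinearMap.id_apply,
    map_smul] at h9
  exact smul_right_injective _ ht h9

/-- the derivative maps tangent vectors to tangent vectors -/
theorem DY_mem_Tan {I : Ideal (R N)} (hXI : ∀ j, ∀ P ∈ I, ∑ k, pderiv k P * X j k ∈ I)
    {ρ : ℝ} {c : Fin M → ℂ} {Y : EE N} (h : Good X ρ (c, Y)) (hY : Y ∈ affineCone I)
    (hsp : Tan I Y ≤ Submodule.span ℂ (Set.range fun j => fun k => eval Y (X j k)))
    {τ : ℂ} (hτ : τ ∈ ball (0 : ℂ) ρ) {v : EE N} (hv : v ∈ Tan I Y) :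
    DY X τ (c, Y) v ∈ Tan I (Ph X τ (c, Y)) := by
  classical
  obtain ⟨ρ', hτρ', hρ'⟩ : ∃ ρ', ‖τ‖ < ρ' ∧ ρ' < ρ :=
    exists_between (by rwa [mem_ball_zero_iff] at hτ)
  have hτ' : τ ∈ ball (0 : ℂ) ρ' := by rwa [mem_ball_zero_iff]
  have key : ∀ j : Fin M, DY X τ (c, Y) (fun k => eval Y (X j k)) ∈ Tan I (Ph X τ (c, Y)) := by
    intro j
    obtain ⟨ρ1, hρ1, hg1⟩ := exists_good (X := X) ((Pi.single j 1 : Fin M → ℂ), Y)
    have hγ : HasDerivAt (fun s => Ph X s ((Pi.single j 1 : Fin M → ℂ), Y))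
        (fun k => eval Y (X j k)) 0 := by
      have := hasDerivAt_Ph hg1 (mem_ball_self hρ1)
      rw [Ph_zero, fld_single] at this
      exact this
    have h0 : Ph X 0 ((Pi.single j 1 : Fin M → ℂ), Y) = Y := Ph_zero X _
    have hcomp : HasDerivAt (fun s => Ph X τ (c, Ph X s ((Pi.single j 1 : Fin M → ℂ), Y)))
        (DY X τ (c, Y) (fun k => eval Y (X j k))) 0 := by
      have h1 := hasFDerivAt_Ph_Y (h τ hτ)
      rw [← h0] at h1
      have h2 := h1.comp_hasDerivAt (0 : ℂ) hγ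
      rw [h0] at h2
      exact h2
    have hev : ∀ᶠ s in 𝓝 (0 : ℂ),
        Ph X τ (c, Ph X s ((Pi.single j 1 : Fin M → ℂ), Y)) ∈ affineCone I := by
      have h6 := good_nhds h hρ'
      have h7 : Tendsto (fun s => ((c, Ph X s ((Pi.single j 1 : Fin M → ℂ), Y)) : PS N M)) (𝓝 0)
          (𝓝 (c, Y)) := by
        have h8 := hγ.continuousAt.tendsto
        rw [h0] at h8
        exact tendsto_const_nhds.prodMk_nhds h8
      filter_upwards [h7.eventually h6, ball_mem_nhds (0 : ℂ) hρ1] with s hs hs1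
      exact Ph_mem_cone hXI hs (Ph_mem_cone hXI hg1 hY hs1) hτ'
    intro P hP
    have h3 := hasDerivAt_aeval (A := ℂ) P hcomp
    simp only [aeval_eq_eval, h0] at h3
    have h4 : (fun s => eval (Ph X τ (c, Ph X s ((Pi.single j 1 : Fin M → ℂ), Y))) P)
        =ᶠ[𝓝 0] fun _ => (0 : ℂ) := by
      filter_upwards [hev] with s hs
      exact hs P hP
    have h5 := h3.unique ((hasDerivAt_const (0 : ℂ) (0 : ℂ)).congr_of_eventuallyEq h4)
    exact h5
  have hv' := hsp hv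
  refine Submodule.span_induction (p := fun v _ => DY X τ (c, Y) v ∈ Tan I (Ph X τ (c, Y)))
    ?_ ?_ ?_ ?_ hv'
  · rintro _ ⟨j, rfl⟩
    exact key j
  · rw [map_zero]
    exact Submodule.zero_mem _
  · intro x y _ _ hx hy
    rw [map_add]
    exact Submodule.add_mem _ hx hy
  · intro a x _ hx
    rw [map_smul]
    exact Submodule.smul_mem _ _ hx

/-! ### admissible points -/

variable (X) in
/-- admissible pairs `(τ, q)` -/
structure Adm (τ : ℂ) (q : PS N M) : Prop where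
  good : ∃ ρ, Good X ρ q ∧ τ ∈ ball (0 : ℂ) ρ
  inj : Function.Injective (DY X τ q)

theorem adm_zero (q : PS N M) : Adm X 0 q := by
  obtain ⟨ρ, hρ, h⟩ := exists_good (X := X) q
  refine ⟨⟨ρ, h, mem_ball_self hρ⟩, ?_⟩
  rw [DY_zero]
  exact fun a b h => h

/-- injectivity near the identity -/
theorem injective_of_norm_sub_lt {V : Type*} [NormedAddCommGroup V] [NormedSpace ℂ V]
    {L : V →L[ℂ] V} (h : ‖L - ContinuousLinearMap.id ℂ V‖ < 1) : Function.Injective L := by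
  rw [injective_iff_map_eq_zero]
  intro v hv
  by_contra hne
  have hpos : 0 < ‖v‖ := norm_pos_iff.mpr hne
  have h1 : ‖v‖ ≤ ‖L - ContinuousLinearMap.id ℂ V‖ * ‖v‖ := by
    have h2 := (L - ContinuousLinearMap.id ℂ V).le_opNorm v
    have h3 : (L - ContinuousLinearMap.id ℂ V) v = -v := by simp [hv]
    rw [h3, norm_neg] at h2
    exact h2
  nlinarith

/-- **uniform radius** -/
theorem exists_adm (X : Fin M → Fin (N + 1) → R N) (Mc : ℝ) :
    ∃ ρ : ℝ, 0 < ρ ∧ ∀ c : Fin M → ℂ, ‖c‖ ≤ Mc → ∀ Y : EE N, ‖Y‖ ≤ 1 →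
      Good X (2 * ρ) (c, Y) ∧ ∀ τ : ℂ, ‖τ‖ ≤ ρ → Adm X τ (c, Y) := by
  let K : Set (PS N M) := (closedBall (0 : Fin M → ℂ) Mc) ×ˢ (closedBall (0 : EE N) 1)
  have hK : IsCompact K := (isCompact_closedBall _ _).prod (isCompact_closedBall _ _)
  let O : Set (ℂ × PS N M) := DM X ∩
    (fun x : ℂ × PS N M => ‖DY X x.1 x.2 - ContinuousLinearMap.id ℂ (EE N)‖) ⁻¹' (Iio 1)
  have hO : IsOpen O := by
    refine ContinuousOn.isOpen_inter_preimage ?_ (isOpen_DM X) isOpen_Iio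
    exact ((analyticOnNhd_DY (X := X)).continuousOn.sub continuousOn_const).norm
  have h0 : ∀ q ∈ K, ((0 : ℂ), q) ∈ O := by
    intro q _
    refine ⟨zero_mem_DM X q, ?_⟩
    simp [DY_zero]
  obtain ⟨ρ, hρ, h⟩ := exists_rho hK hO h0
  refine ⟨ρ / 2, by positivity, fun c hc Y hY => ?_⟩
  have hq : ((c, Y) : PS N M) ∈ K :=
    ⟨by rwa [mem_closedBall_zero_iff], by rwa [mem_closedBall_zero_iff]⟩
  have hgood : Good X (2 * (ρ / 2)) (c, Y) := by
    intro τ hτ
    rw [mem_ball_zero_iff] at hτ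
    exact (h τ (by linarith) _ hq).1
  refine ⟨hgood, fun τ hτ => ⟨⟨2 * (ρ / 2), hgood, ?_⟩, ?_⟩⟩
  · rw [mem_ball_zero_iff]
    linarith
  · exact injective_of_norm_sub_lt (h τ (by linarith) _ hq).2

/-! ### curves -/

theorem hasFDerivAt_Ph {τ : ℂ} {q : PS N M} (h : (τ, q) ∈ DM X) :
    HasFDerivAt (fun q => Ph X τ q)
      ((fderiv ℂ (fun x : ℂ × PS N M => Ph X x.1 x.2) (τ, q)).comp
        (ContinuousLinearMap.inr ℂ ℂ (PS N M))) q := by
  have h1 := (analyticOnNhd_Ph X _ h).differentiableAt.hasFDerivAt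
  exact HasFDerivAt.comp q h1 (hasFDerivAt_prodMk_right τ q)


theorem hasDerivAt_coeff (τ : ℂ) (c' : Fin M → ℂ) (Y : EE N) :
    HasDerivAt (fun s : ℂ => Ph X τ (s • c', Y)) (τ • fld X (c', Y)) 0 := by
  obtain ⟨ρ, hρ, hg⟩ := exists_good (X := X) (c', Y)
  have h1 := hasDerivAt_Ph hg (mem_ball_self hρ)
  rw [Ph_zero] at h1
  have h2 : HasDerivAt (fun s : ℂ => s * τ) τ 0 := by
    simpa using (hasDerivAt_id (0 : ℂ)).mul_const τ
  have h3 : HasDerivAt (fun s : ℂ => Ph X (s * τ) (c', Y)) (τ • fld X (c', Y)) 0 := by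
    have h1' : HasDerivAt (fun τ => Ph X τ (c', Y)) (fld X (c', Y)) ((0 : ℂ) * τ) := by
      rw [zero_mul]; exact h1
    exact HasDerivAt.scomp (0 : ℂ) h1' h2
  refine h3.congr_of_eventuallyEq ?_
  have hpos : 0 < ρ / (‖τ‖ + 1) := by positivity
  filter_upwards [ball_mem_nhds (0 : ℂ) hpos] with s hs
  rw [mem_ball_zero_iff, lt_div_iff₀ (by positivity)] at hs
  have h4 := Ph_time (X := X) s (ρ' := ‖τ‖ + 1) hg (by
    intro τ' hτ'
    rw [mem_ball_zero_iff] at hτ' ⊢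
    rw [norm_mul]
    refine lt_of_le_of_lt ?_ hs
    gcongr)
  exact h4.2 τ (by rw [mem_ball_zero_iff]; linarith)

/-- derivative of `z ↦ Φ_τ(c z, H z)` at a zero of `c` -/
theorem hasDerivAt_curve (τ : ℂ) {H : ℂ → EE N} {c : ℂ → Fin M → ℂ} {z₀ : ℂ} {H' : EE N}
    {c' : Fin M → ℂ} (hH : HasDerivAt H H' z₀) (hc : HasDerivAt c c' z₀) (h0 : c z₀ = 0) :
    HasDerivAt (fun z => Ph X τ (c z, H z)) (H' + τ • fld X (c', H z₀)) z₀ := by
  have hmem : (τ, ((c z₀, H z₀) : PS N M)) ∈ DM X := by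
    rw [h0]; exact mem_DM_zero_left τ _
  have h1 := (hasFDerivAt_Ph hmem).comp_hasDerivAt z₀ (hc.prodMk hH)
  refine h1.congr_deriv ?_
  set L := (fderiv ℂ (fun x : ℂ × PS N M => Ph X x.1 x.2) (τ, ((c z₀, H z₀) : PS N M))).comp
    (ContinuousLinearMap.inr ℂ ℂ (PS N M)) with hL
  have hsplit : ((c', H') : PS N M) = (0, H') + (c', 0) := by simp
  rw [hsplit, map_add]
  congr 1
  · have h2 : L (0, H') = DY X τ (c z₀, H z₀) H' := rfl
    rw [h2, h0, DY_zero_left]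
    rfl
  · have h3 : HasDerivAt (fun s : ℂ => Ph X τ (s • c', H z₀)) (L (c', 0)) 0 := by
      have h4 : HasDerivAt (fun s : ℂ => ((s • c', H z₀) : PS N M)) (c', 0) 0 := by
        have h5 : HasDerivAt (fun s : ℂ => s • c') c' 0 := by
          simpa using (hasDerivAt_id (0 : ℂ)).smul_const c'
        exact h5.prodMk (hasDerivAt_const _ _)
      have h6 := hasFDerivAt_Ph hmem
      have h7 : ((0 : ℂ) • c', H z₀) = ((c z₀, H z₀) : PS N M) := by rw [h0, zero_smul]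
      rw [← hL, ← h7] at h6
      exact HasFDerivAt.comp_hasDerivAt (l := fun q => Ph X τ q)
        (f := fun s : ℂ => ((s • c', H z₀) : PS N M)) (0 : ℂ) h6 h4
    exact h3.unique (hasDerivAt_coeff τ c' (H z₀))

end Crest.Agent.R269.FlowMap_60
end

-- ▼ part R269/VarPot_60
section

/-!
# VF4: potentials of the densities `omg`, `lev u`, `alpha` for the flow map (helper60, row 269)

`FlowPot Y E F` : `F τ (c, p)` is the difference of the potentials of the density `E` at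
`Φ_τ(c, p)` and at `p`.  Instances: `flowPot_lev`, `flowPot_omg`, `flowPot_alpha`; linear combinations
`FlowPot.add`, `FlowPot.const_mul`.
`FlowPot.unif` : uniform Lipschitz bound and uniform 4-point mean value expansion on
`‖c‖ ≤ Mc`, `p ∈ Cone I`, `‖p‖ ≤ 1`.
-/

set_option autoImplicit false

open MvPolynomial Set Filter Topology Metric Module
open scoped ContDiff ComplexConjugate

noncomputable section

namespace Crest.Agent.R269.VarPot_60

open Crest.AlgGeometry.ProjEmb Crest.Agent.R269.Tan_60 Crest.Agent.R269.Geo_328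
open Crest.Agent.R269.FlowMap_60 Crest.Agent.R269.DefsS_731 Crest.Agent.R269.Defs_58
open Crest.Agent.R269.Alp_927 Crest.Agent.R269.Levi2_599

variable {N n : ℕ} {I : Ideal (HomCoordRing N)}

abbrev L (u : ℂ → ℝ) (z v : ℂ) : ℝ := LevC_653.lev u z v

/-- the difference of potentials of the density `E` along the flow of the fields `Y` -/
structure FlowPot (Y : Flds I) (E : EE N → EE N → ℝ) (F : ℂ → PS N Y.M → ℝ) : Prop where
  zero : ∀ c, ∀ p ∈ Cone I, F 0 (c, p) = 0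
  fix : ∀ τ, ∀ p ∈ Cone I, F τ (0, p) = 0
  hom : ∀ τ c p, p ∈ Cone I → ∀ t : ℝ, 0 < t → Adm Y.X τ ((t : ℂ) ^ (Y.D - 1) • c, p) →
    F τ (c, (t : ℂ) • p) = F τ ((t : ℂ) ^ (Y.D - 1) • c, p)
  smooth : ∀ τ c p, p ∈ Cone I → Adm Y.X τ (c, p) →
    ContDiffAt ℝ 2 (fun x : ℂ × PS N Y.M => F x.1 x.2) (τ, (c, p))
  levT : ∀ c p, p ∈ Cone I → L (fun τ => F τ (c, p)) 0 1 = E p (fld Y.X (c, p))
  levZ : ∀ (τ : ℂ) (c : ℂ → Fin Y.M → ℂ) (H : ℂ → EE N) (z : ℂ), AnalyticAt ℂ c z →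
    AnalyticAt ℂ H z → (∀ᶠ w in 𝓝 z, H w ∈ Cone I) → Adm Y.X τ (c z, H z) →
    L (fun w => F τ (c w, H w)) z 1 =
      E (Ph Y.X τ (c z, H z)) (deriv (fun w => Ph Y.X τ (c w, H w)) z) - E (H z) (deriv H z)

variable {Y : Flds I} {E E' : EE N → EE N → ℝ} {F F' : ℂ → PS N Y.M → ℝ}

theorem FlowPot.smoothT (h : FlowPot Y E F) {c : Fin Y.M → ℂ} {p : EE N} (hp : p ∈ Cone I) :
    ContDiffAt ℝ 2 (fun τ => F τ (c, p)) 0 := by
  have h1 := h.smooth 0 c p hp (adm_zero _)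
  have h2 : ContDiffAt ℝ 2 (fun τ : ℂ => ((τ, (c, p)) : ℂ × PS N Y.M)) 0 :=
    contDiffAt_id.prodMk contDiffAt_const
  exact ContDiffAt.comp (0 : ℂ) h1 h2

theorem FlowPot.smoothZ (h : FlowPot Y E F) {τ : ℂ} {c : ℂ → Fin Y.M → ℂ} {H : ℂ → EE N} {z : ℂ}
    (hc : AnalyticAt ℂ c z) (hH : AnalyticAt ℂ H z) (hI : H z ∈ Cone I)
    (ha : Adm Y.X τ (c z, H z)) : ContDiffAt ℝ 2 (fun w => F τ (c w, H w)) z := by
  have h1 := h.smooth τ (c z) (H z) hI ha
  have h2 : ContDiffAt ℝ 2 (fun w : ℂ => ((τ, (c w, H w)) : ℂ × PS N Y.M)) z := by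
    refine contDiffAt_const.prodMk (ContDiffAt.prodMk ?_ ?_)
    · exact hc.contDiffAt.restrict_scalars ℝ
    · exact hH.contDiffAt.restrict_scalars ℝ
  exact ContDiffAt.comp (g := fun x : ℂ × PS N Y.M => F x.1 x.2)
    (f := fun w : ℂ => ((τ, (c w, H w)) : ℂ × PS N Y.M)) z h1 h2

theorem FlowPot.congr (h : FlowPot Y E F) (hE : ∀ p ∈ Cone I, ∀ v, E p v = E' p v)
    (hcone : ∀ τ c, ∀ p ∈ Cone I, Adm Y.X τ (c, p) → Ph Y.X τ (c, p) ∈ Cone I) :
    FlowPot Y E' F where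
  zero := h.zero
  fix := h.fix
  hom := h.hom
  smooth := h.smooth
  levT := fun c p hp => by rw [h.levT c p hp, hE p hp]
  levZ := fun τ c H z hc hH hI ha => by
    rw [h.levZ τ c H z hc hH hI ha, hE _ (hcone τ _ _ hI.self_of_nhds ha), hE _ hI.self_of_nhds]

theorem FlowPot.add (h : FlowPot Y E F) (h' : FlowPot Y E' F') :
    FlowPot Y (fun p v => E p v + E' p v) (fun τ q => F τ q + F' τ q) where
  zero := fun c p hp => by rw [h.zero c p hp, h'.zero c p hp, add_zero]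
  fix := fun τ p hp => by rw [h.fix τ p hp, h'.fix τ p hp, add_zero]
  hom := fun τ c p hp t ht ha => by rw [h.hom τ c p hp t ht ha, h'.hom τ c p hp t ht ha]
  smooth := fun τ c p hp ha => (h.smooth τ c p hp ha).add (h'.smooth τ c p hp ha)
  levT := fun c p hp => by
    have := LevC_653.lev_add (h.smoothT (c := c) hp) (h'.smoothT (c := c) hp) (1 : ℂ)
    simp only [L] at this ⊢
    rw [this]
    exact congrArg₂ (· + ·) (h.levT c p hp) (h'.levT c p hp)
  levZ := fun τ c H z hc hH hI ha => by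
    have := LevC_653.lev_add (h.smoothZ hc hH hI.self_of_nhds ha)
      (h'.smoothZ hc hH hI.self_of_nhds ha) (1 : ℂ)
    simp only [L] at this ⊢
    rw [this]
    have h1 := h.levZ τ c H z hc hH hI ha
    have h2 := h'.levZ τ c H z hc hH hI ha
    simp only [L] at h1 h2
    rw [h1, h2]
    ring


/-! ### geometry of the flow for a `Flds` -/

theorem Adm.mem_Cone {τ : ℂ} {q : PS N Y.M} (ha : Adm Y.X τ q) (hq : q.2 ∈ Cone I) :
    Ph Y.X τ q ∈ Cone I := by
  obtain ⟨ρ, hg, hτ⟩ := ha.good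
  exact Ph_mem_Cone Y.one_le Y.homog Y.tang hg hq hτ

theorem Adm.mem_DM {τ : ℂ} {q : PS N Y.M} (ha : Adm Y.X τ q) : (τ, q) ∈ DM Y.X := by
  obtain ⟨ρ, hg, hτ⟩ := ha.good
  exact hg τ hτ

theorem analyticAt_Ph_comp {τ : ℂ} {c : ℂ → Fin Y.M → ℂ} {H : ℂ → EE N} {z : ℂ}
    (hc : AnalyticAt ℂ c z) (hH : AnalyticAt ℂ H z) (ha : (τ, ((c z, H z) : PS N Y.M)) ∈ DM Y.X) :
    AnalyticAt ℂ (fun w => Ph Y.X τ (c w, H w)) z := by
  have h1 := analyticOnNhd_Ph Y.X _ ha
  have h2 : AnalyticAt ℂ (fun w : ℂ => ((τ, (c w, H w)) : ℂ × PS N Y.M)) z :=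
    analyticAt_const.prod (hc.prod hH)
  exact AnalyticAt.comp (g := fun x : ℂ × PS N Y.M => Ph Y.X x.1 x.2)
    (f := fun w : ℂ => ((τ, (c w, H w)) : ℂ × PS N Y.M)) h1 h2

theorem contDiffAt_Ph {τ : ℂ} {q : PS N Y.M} {k : WithTop ℕ∞} (h : (τ, q) ∈ DM Y.X) :
    ContDiffAt ℝ k (fun x : ℂ × PS N Y.M => Ph Y.X x.1 x.2) (τ, q) :=
  (analyticOnNhd_Ph Y.X _ h).contDiffAt.restrict_scalars ℝ

theorem eventually_mem_Cone {τ : ℂ} {c : ℂ → Fin Y.M → ℂ} {H : ℂ → EE N} {z : ℂ}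
    (hc : ContinuousAt c z) (hH : ContinuousAt H z) (hI : ∀ᶠ w in 𝓝 z, H w ∈ Cone I)
    (ha : Adm Y.X τ (c z, H z)) :
    ∀ᶠ w in 𝓝 z, Ph Y.X τ (c w, H w) ∈ Cone I ∧
      ∀ v ∈ Tan I (H w), DY Y.X τ (c w, H w) v ∈ Tan I (Ph Y.X τ (c w, H w)) := by
  obtain ⟨ρ, hg, hτ⟩ := ha.good
  obtain ⟨ρ', hτρ', hρ'⟩ : ∃ ρ', ‖τ‖ < ρ' ∧ ρ' < ρ :=
    exists_between (by rwa [mem_ball_zero_iff] at hτ)
  have hτ' : τ ∈ ball (0 : ℂ) ρ' := by rwa [mem_ball_zero_iff]
  have h1 := good_nhds hg hρ'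
  have h2 : Tendsto (fun w => ((c w, H w) : PS N Y.M)) (𝓝 z) (𝓝 (c z, H z)) :=
    hc.tendsto.prodMk_nhds hH.tendsto
  filter_upwards [h2.eventually h1, hI] with w hw hwI
  refine ⟨Ph_mem_Cone Y.one_le Y.homog Y.tang hw hwI hτ', fun v hv => ?_⟩
  exact DY_mem_Tan Y.tang hw hwI.1 (Y.span _ hwI).ge hτ' hv

/-! ### smooth functions -/

/-- potentials given by functions on the cone, additive under real scaling -/
theorem flowPot_of_smooth {u : EE N → ℝ} (hu : ∀ p ∈ Cone I, ContDiffAt ℝ 2 u p) (κ : ℝ)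
    (hinv : ∀ p ∈ Cone I, ∀ t : ℝ, 0 < t → u ((t : ℂ) • p) = u p + κ * Real.log t)
    (hE : ∀ p ∈ Cone I, ∀ v, E p v = LevC_653.lev u p v) :
    FlowPot Y E (fun τ q => u (Ph Y.X τ q) - u q.2) where
  zero := fun c p _ => by rw [Ph_zero, sub_self]
  fix := fun τ p _ => by rw [Ph_zero_left, sub_self]
  hom := fun τ c p hp t ht ha => by
    obtain ⟨ρ, hg, hτ⟩ := ha.good
    have h1 := (Ph_smul Y.one_le Y.homog (t : ℂ) hg).2 τ hτ
    rw [h1, hinv _ (Adm.mem_Cone ha hp) t ht, hinv p hp t ht]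
    ring
  smooth := fun τ c p hp ha => by
    have h1 : ContDiffAt ℝ 2 (fun x : ℂ × PS N Y.M => u (Ph Y.X x.1 x.2)) (τ, (c, p)) :=
      ContDiffAt.comp (τ, (c, p)) (g := u) (f := fun x : ℂ × PS N Y.M => Ph Y.X x.1 x.2)
        (hu _ (Adm.mem_Cone ha hp)) (contDiffAt_Ph (Adm.mem_DM ha))
    have h2 : ContDiffAt ℝ 2 (fun x : ℂ × PS N Y.M => u x.2.2) (τ, (c, p)) :=
      ContDiffAt.comp (τ, (c, p)) (g := u) (f := fun x : ℂ × PS N Y.M => x.2.2) (hu p hp)
        (contDiffAt_snd.snd)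
    exact h1.sub h2
  levT := fun c p hp => by
    obtain ⟨ρ, hρ, hg⟩ := exists_good (X := Y.X) (c, p)
    have h0 : Ph Y.X 0 (c, p) = p := Ph_zero Y.X (c, p)
    have hA : AnalyticAt ℂ (fun τ => Ph Y.X τ (c, p)) 0 := by
      have h1 := analyticOnNhd_Ph Y.X _ (zero_mem_DM Y.X (c, p))
      have h2 : AnalyticAt ℂ (fun w : ℂ => ((w, (c, p)) : ℂ × PS N Y.M)) 0 :=
        analyticAt_id.prod analyticAt_const
      exact AnalyticAt.comp (g := fun x : ℂ × PS N Y.M => Ph Y.X x.1 x.2)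
        (f := fun w : ℂ => ((w, (c, p)) : ℂ × PS N Y.M)) h1 h2
    have hu' : ContDiffAt ℝ 2 u (Ph Y.X 0 (c, p)) := by rw [h0]; exact hu p hp
    have h3 := Lev_901.lev_comp_curve (u := u) hu' hA 1
    have h4 : deriv (fun τ => Ph Y.X τ (c, p)) 0 = fld Y.X (c, p) := by
      rw [(hasDerivAt_Ph hg (mem_ball_self hρ)).deriv, h0]
    rw [h4, h0, one_smul] at h3
    have h5 : L (fun τ => u (Ph Y.X τ (c, p)) - u p) 0 1 =
        LevC_653.lev (fun τ => u (Ph Y.X τ (c, p))) 0 1 := by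
      have h6 : ContDiffAt ℝ 2 (fun τ => u (Ph Y.X τ (c, p))) 0 :=
        ContDiffAt.comp (0 : ℂ) hu' (hA.contDiffAt.restrict_scalars ℝ)
      have := Lev_901.lev_sub h6 (contDiffAt_const (c := u p)) (1 : ℂ)
      simp only [L]
      rw [this]
      simp [LevC_653.lev]
    rw [hE p hp, ← h3]
    exact h5
  levZ := fun τ c H z hc hH hI ha => by
    have hz := hI.self_of_nhds
    have hA := analyticAt_Ph_comp hc hH (Adm.mem_DM ha)
    have hu1 : ContDiffAt ℝ 2 u (Ph Y.X τ (c z, H z)) := hu _ (Adm.mem_Cone ha hz)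
    have h3 := Lev_901.lev_comp_curve (u := u) (γ := fun w => Ph Y.X τ (c w, H w)) hu1 hA 1
    have h4 := Lev_901.lev_comp_curve (u := u) (γ := H) (hu _ hz) hH 1
    have h5 : ContDiffAt ℝ 2 (fun w => u (Ph Y.X τ (c w, H w))) z :=
      ContDiffAt.comp z hu1 (hA.contDiffAt.restrict_scalars ℝ)
    have h6 : ContDiffAt ℝ 2 (fun w => u (H w)) z :=
      ContDiffAt.comp z (hu _ hz) (hH.contDiffAt.restrict_scalars ℝ)
    have h7 := Lev_901.lev_sub h5 h6 (1 : ℂ)
    simp only [L]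
    rw [h7, h3, h4, one_smul, one_smul, hE _ (Adm.mem_Cone ha hz), hE _ hz]

theorem flowPot_lev (Y : Flds I) {u : EE N → ℝ} (hu : SmX I u) :
    FlowPot Y (fun p v => Defs_58.lev u p v) (fun τ q => u (Ph Y.X τ q) - u q.2) :=
  flowPot_of_smooth (κ := 0) (fun p hp => (hu.1 p hp).of_le (by norm_cast))
    (fun p hp t ht => by
      rw [hu.2 p hp _ (by exact_mod_cast ht.ne'), zero_mul, add_zero])
    (fun p _ v => lev_eq u p v)

theorem flowPot_omg (Y : Flds I) :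
    FlowPot Y (fun p v => omg p v)
      (fun τ q => Real.log (nsq (Ph Y.X τ q)) - Real.log (nsq q.2)) :=
  flowPot_of_smooth (u := fun p => Real.log (nsq p)) (κ := 2)
    (fun p hp => (contDiffAt_nsq p).log (nsq_pos hp.2).ne')
    (fun p hp t ht => by
      rw [nsq_smul, Real.log_mul _ (nsq_pos hp.2).ne', Complex.normSq_ofReal,
        Real.log_mul ht.ne' ht.ne']
      · ring
      · rw [Complex.normSq_ofReal]
        positivity)
    (fun p hp v => omg_eq_lev hp.2 v)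

end Crest.Agent.R269.VarPot_60
end
end

-- ▼ part R269/VarUnif_60
section

/-!
# VF4: uniform expansions and the disc-level statements (helper60, row 269)

* `FlowPot.unif`: uniform Lipschitz bound and 4-point mean value expansion;
* `Hfl Y c H τ z = Φ_τ(c(z), H(z))` and `FlowPot.disc`: everything needed for (VAR) at a disc.
-/

set_option autoImplicit false

open MvPolynomial Set Filter Topology Metric Module
open scoped ContDiff ComplexConjugate

noncomputable section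

namespace Crest.Agent.R269.VarPot_60

open Crest.AlgGeometry.ProjEmb Crest.Agent.R269.Tan_60 Crest.Agent.R269.Geo_328
open Crest.Agent.R269.FlowMap_60 Crest.Agent.R269.DefsS_731 Crest.Agent.R269.Defs_58
open Crest.Agent.R269.Alp_927 Crest.Agent.R269.Levi2_599

variable {N n : ℕ} {I : Ideal (HomCoordRing N)}
variable {Y : Flds I} {E E' : EE N → EE N → ℝ} {F F' : ℂ → PS N Y.M → ℝ}

theorem isClosed_affineCone (I : Ideal (HomCoordRing N)) :
    IsClosed {p : EE N | p ∈ affineCone I} := by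
  have : {p : EE N | p ∈ affineCone I} = ⋂ P ∈ I, {p : EE N | eval p P = 0} := by
    ext p
    simp only [mem_ofPred_eq, mem_iInter]
    exact Iff.rfl
  rw [this]
  exact isClosed_biInter fun P _ => isClosed_eq (MvPolynomial.continuous_eval P) continuous_const

/-- the compact set of unit cone points with bounded coefficients -/
def KK (I : Ideal (HomCoordRing N)) (M : ℕ) (Mc : ℝ) : Set (PS N M) :=
  {q | ‖q.1‖ ≤ Mc ∧ q.2 ∈ affineCone I ∧ ‖q.2‖ = 1}

theorem isCompact_KK (I : Ideal (HomCoordRing N)) (M : ℕ) (Mc : ℝ) : IsCompact (KK I M Mc) := by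
  have h1 : IsCompact ((closedBall (0 : Fin M → ℂ) Mc) ×ˢ (closedBall (0 : EE N) 1)) :=
    (isCompact_closedBall _ _).prod (isCompact_closedBall _ _)
  refine h1.of_isClosed_subset ?_ ?_
  · have h2 : IsClosed {q : PS N M | ‖q.1‖ ≤ Mc} := isClosed_le (by fun_prop) continuous_const
    have h3 : IsClosed {q : PS N M | q.2 ∈ affineCone I} :=
      (isClosed_affineCone I).preimage continuous_snd
    have h4 : IsClosed {q : PS N M | ‖q.2‖ = 1} := isClosed_eq (by fun_prop) continuous_const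
    exact h2.inter (h3.inter h4)
  · rintro q ⟨h2, -, h3⟩
    exact ⟨by rwa [mem_closedBall_zero_iff], by rw [mem_closedBall_zero_iff, h3]⟩

theorem levi_eq_lev {V : Type*} [NormedAddCommGroup V] [NormedSpace ℂ V] (u : V → ℝ) (p v : V) :
    Levi1_599.levi u p v = LevC_653.lev u p v := by
  simp only [Levi1_599.levi, Levi1_599.D2, LevC_653.lev, smul_eq_mul]
  ring

/-- scaling to the unit sphere -/
theorem exists_unit (hI : ∀ P ∈ I, ∀ d : ℕ, homogeneousComponent d P ∈ I) {M : ℕ} {Mc : ℝ}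
    {D : ℕ} {c : Fin M → ℂ} (hc : ‖c‖ ≤ Mc) {p : EE N} (hp : p ∈ Cone I) (hp1 : ‖p‖ ≤ 1) :
    ∃ (t : ℝ) (p₁ : EE N), 0 < t ∧ p = (t : ℂ) • p₁ ∧ p₁ ∈ Cone I ∧
      (((t : ℂ) ^ (D - 1) • c, p₁) : PS N M) ∈ KK I M Mc := by
  have hpos : 0 < ‖p‖ := norm_pos_iff.mpr hp.2
  refine ⟨‖p‖, ((‖p‖⁻¹ : ℝ) : ℂ) • p, hpos, ?_, ⟨?_, ?_⟩, ?_, ?_, ?_⟩
  · rw [smul_smul, ← Complex.ofReal_mul, mul_inv_cancel₀ hpos.ne', Complex.ofReal_one, one_smul]
  · exact Tan_60.smul_mem_affineCone hI hp.1 _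
  · exact smul_ne_zero (by exact_mod_cast (inv_pos.mpr hpos).ne') hp.2
  · simp only
    rw [norm_smul, norm_pow, Complex.norm_real, norm_norm]
    calc ‖p‖ ^ (D - 1) * ‖c‖ ≤ 1 * ‖c‖ := by
          gcongr
          exact pow_le_one₀ (norm_nonneg _) hp1
      _ ≤ Mc := by rwa [one_mul]
  · exact Tan_60.smul_mem_affineCone hI hp.1 _
  · simp only
    rw [norm_smul, Complex.norm_real, norm_inv, norm_norm, inv_mul_cancel₀ hpos.ne']

/-- **uniform expansion**, with a radius `ρ₀` not depending on the density -/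
theorem FlowPot.unif' (h : FlowPot Y E F)
    (hI : ∀ P ∈ I, ∀ d : ℕ, homogeneousComponent d P ∈ I)
    {Mc ρ₀ : ℝ} (hρ₀p : 0 < ρ₀) (hadm : ∀ c : Fin Y.M → ℂ, ‖c‖ ≤ Mc → ∀ p : EE N, ‖p‖ ≤ 1 →
      ∀ τ : ℂ, ‖τ‖ ≤ ρ₀ → Adm Y.X τ (c, p)) : ∃ C : ℝ, 0 ≤ C ∧
      (∀ τ : ℂ, ‖τ‖ ≤ ρ₀ → ∀ c : Fin Y.M → ℂ, ‖c‖ ≤ Mc → ∀ p ∈ Cone I, ‖p‖ ≤ 1 →
        |F τ (c, p)| ≤ C * ‖τ‖) ∧
      ∀ ε : ℝ, 0 < ε → ∃ δ : ℝ, 0 < δ ∧ ∀ ρ : ℝ, 0 < ρ → ρ < δ →
        ∀ c : Fin Y.M → ℂ, ‖c‖ ≤ Mc → ∀ p ∈ Cone I, ‖p‖ ≤ 1 →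
          |mean4 (fun τ => F τ (c, p)) ρ - ρ ^ 2 * E p (fld Y.X (c, p))| ≤ ε * ρ ^ 2 := by
  classical
  set g : ℂ × PS N Y.M → ℝ := fun x => F x.1 x.2 with hg
  set K := KK I Y.M Mc with hK
  have hKc : IsCompact K := isCompact_KK I Y.M Mc
  have hKI : ∀ q ∈ K, q.2 ∈ Cone I := by
    rintro q ⟨-, h2, h3⟩
    refine ⟨h2, fun h0 => ?_⟩
    rw [h0, norm_zero] at h3
    exact zero_ne_one h3
  let O : Set (ℂ × PS N Y.M) := {x | ContDiffAt ℝ 2 g x}
  have hO : IsOpen O := by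
    rw [isOpen_iff_mem_nhds]
    intro x hx
    exact ContDiffAt.eventually hx (by decide)
  have hgO : ContDiffOn ℝ 2 g O := fun x hx => ContDiffAt.contDiffWithinAt hx
  have hρO : ∀ τ : ℂ, ‖τ‖ ≤ ρ₀ → ∀ q ∈ K, (τ, q) ∈ O := fun τ hτ q hq =>
    h.smooth τ q.1 q.2 (hKI q hq) (hadm q.1 hq.1 q.2 hq.2.2.le τ hτ)
  have h0 : ∀ q ∈ K, ((0 : ℂ), q) ∈ O := fun q hq => h.smooth 0 q.1 q.2 (hKI q hq) (adm_zero _)
  -- Lipschitz bound on `K`
  have hK' : IsCompact (closedBall (0 : ℂ) ρ₀ ×ˢ K) := (isCompact_closedBall _ _).prod hKc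
  have hsub : closedBall (0 : ℂ) ρ₀ ×ˢ K ⊆ O := by
    rintro ⟨τ, q⟩ ⟨h1, h2⟩
    rw [mem_closedBall_zero_iff] at h1
    exact hρO τ h1 q h2
  obtain ⟨B, hB0, hB⟩ := unif_bound hO hgO hK' hsub
  have hLip : ∀ τ : ℂ, ‖τ‖ ≤ ρ₀ → ∀ q ∈ K, |F τ q| ≤ B * ‖τ‖ := by
    intro τ hτ q hq
    have h1 : ∀ w ∈ closedBall (0 : ℂ) ρ₀, HasFDerivAt (fun w => F w q)
        ((fderiv ℝ g (w, q)).comp (ContinuousLinearMap.inl ℝ ℂ (PS N Y.M))) w := by
      intro w hw
      have h2 : ContDiffAt ℝ 2 g (w, q) := hsub ⟨hw, hq⟩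
      have h3 := (h2.differentiableAt (by norm_num)).hasFDerivAt
      exact HasFDerivAt.comp w (g := g) (f := fun w : ℂ => ((w, q) : ℂ × PS N Y.M)) h3
        (hasFDerivAt_prodMk_left w q)
    have h4 := (convex_closedBall (0 : ℂ) ρ₀).norm_image_sub_le_of_norm_hasFDerivWithin_le
      (f := fun w => F w q) (C := B) (fun w hw => (h1 w hw).hasFDerivWithinAt) (fun w hw => by
        refine (ContinuousLinearMap.opNorm_comp_le _ _).trans ?_
        have h5 : ‖ContinuousLinearMap.inl ℝ ℂ (PS N Y.M)‖ ≤ 1 := by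
          refine ContinuousLinearMap.opNorm_le_bound _ zero_le_one fun x => ?_
          simp [Prod.norm_def]
        calc _ ≤ B * 1 := by
              gcongr
              exact (hB _ ⟨hw, hq⟩).1
          _ = B := mul_one B) (mem_closedBall_self hρ₀p.le)
      (by rwa [mem_closedBall_zero_iff] : τ ∈ closedBall (0 : ℂ) ρ₀)
    have h6 : F 0 q = 0 := h.zero q.1 q.2 (hKI q hq)
    rw [h6, sub_zero, sub_zero, Real.norm_eq_abs] at h4
    exact h4
  -- expansion on `K`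
  have hmean : ∀ ε : ℝ, 0 < ε → ∃ δ : ℝ, 0 < δ ∧ ∀ ρ : ℝ, 0 < ρ → ρ < δ → ∀ q ∈ K,
      |mean4 (fun τ => F τ q) ρ - ρ ^ 2 * L (fun τ => F τ q) 0 1| ≤ ε * ρ ^ 2 := by
    intro ε hε
    have hS : IsCompact (({0} : Set ℂ) ×ˢ K) := isCompact_singleton.prod hKc
    have hSU : ({0} : Set ℂ) ×ˢ K ⊆ O := by
      rintro ⟨τ, q⟩ ⟨h1, h2⟩
      rw [mem_singleton_iff] at h1
      simp only at h1
      rw [h1]
      exact h0 q h2
    obtain ⟨δ, hδ, hd⟩ := mean4_expand (K := K) hO hgO hS hSU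
      (F := fun w z => (w, (z : PS N Y.M))) (H := fun z => (0, (z : PS N Y.M)))
      (V := fun _ => (1, 0)) (R := fun _ => 0) (C := 1) (r := 1) zero_le_one one_pos
      (fun z => ⟨rfl, z.2⟩) (fun z => by simp [Prod.norm_def]) (fun z => by simp)
      (fun w _ z => by simp) hε
    refine ⟨δ, hδ, fun ρ hρ hρδ q hq => ?_⟩
    have h1 := hd ρ hρ hρδ ⟨q, hq⟩
    have h2 : F 0 q = 0 := h.zero q.1 q.2 (hKI q hq)
    have h3 : Levi1_599.levi g (0, q) (1, 0) = L (fun τ => F τ q) 0 1 := by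
      have h4 : ContDiffAt ℂ 2 (fun w : ℂ => ((w, q) : ℂ × PS N Y.M)) 0 :=
        contDiffAt_id.prodMk contDiffAt_const
      have h5 := Levi1_599.levi_comp_holo (φ := g) (G := fun w : ℂ => ((w, q) : ℂ × PS N Y.M))
        (q := 0) (h0 q hq) h4 1
      have h6 : fderiv ℂ (fun w : ℂ => ((w, q) : ℂ × PS N Y.M)) 0 1 = (1, 0) := by
        have := (hasFDerivAt_prodMk_left (𝕜 := ℂ) (0 : ℂ) q).fderiv
        rw [this]
        simp
      rw [h6] at h5
      rw [← h5, levi_eq_lev]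
    simp only [hg, h2, sub_zero] at h1
    rw [smul_eq_mul, Real.norm_eq_abs] at h1
    rw [← h3]
    exact h1
  refine ⟨B, hB0, ?_, ?_⟩
  · intro τ hτ c hc p hp hp1
    obtain ⟨t, p₁, ht, hpt, hp₁, hq⟩ := exists_unit (D := Y.D) hI hc hp hp1
    have ha : Adm Y.X τ ((t : ℂ) ^ (Y.D - 1) • c, p₁) := hadm _ hq.1 p₁ hq.2.2.le τ hτ
    rw [hpt, h.hom τ c p₁ hp₁ t ht ha]
    exact hLip τ hτ _ hq
  · intro ε hε
    obtain ⟨δ, hδ, hd⟩ := hmean ε hε
    refine ⟨min δ ρ₀, lt_min hδ hρ₀p, fun ρ hρ hρδ c hc p hp hp1 => ?_⟩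
    obtain ⟨t, p₁, ht, hpt, hp₁, hq⟩ := exists_unit (D := Y.D) hI hc hp hp1
    have ha : ∀ τ : ℂ, ‖τ‖ ≤ ρ₀ → Adm Y.X τ ((t : ℂ) ^ (Y.D - 1) • c, p₁) := fun τ hτ =>
      hadm _ hq.1 p₁ hq.2.2.le τ hτ
    have hF : ∀ τ : ℂ, ‖τ‖ ≤ ρ₀ → F τ (c, p) = F τ ((t : ℂ) ^ (Y.D - 1) • c, p₁) := by
      intro τ hτ
      rw [hpt, h.hom τ c p₁ hp₁ t ht (ha τ hτ)]
    have hρ0 : ρ ≤ ρ₀ := hρδ.le.trans (min_le_right _ _)
    have h1 : mean4 (fun τ => F τ (c, p)) ρ =
        mean4 (fun τ => F τ ((t : ℂ) ^ (Y.D - 1) • c, p₁)) ρ := by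
      have h2 : ‖(ρ : ℂ)‖ ≤ ρ₀ := by rw [Complex.norm_real, Real.norm_eq_abs, abs_of_pos hρ]; exact hρ0
      have h3 : ‖Complex.I * (ρ : ℂ)‖ ≤ ρ₀ := by rw [norm_mul, Complex.norm_I, one_mul]; exact h2
      simp only [mean4]
      rw [hF _ h2, hF _ h3, hF _ (by rw [norm_neg]; exact h2), hF _ (by rw [norm_neg]; exact h3)]
    have h4 : E p (fld Y.X (c, p)) = L (fun τ => F τ ((t : ℂ) ^ (Y.D - 1) • c, p₁)) 0 1 := by
      rw [← h.levT c p hp]
      refine LevC_653.lev_congr ?_ _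
      filter_upwards [closedBall_mem_nhds (0 : ℂ) hρ₀p] with τ hτ
      exact hF τ (by rwa [mem_closedBall_zero_iff] at hτ)
    rw [h1, h4]
    exact hd ρ hρ (hρδ.trans_le (min_le_left _ _)) _ hq


/-! ### discs -/

variable (Y) in
/-- the coefficients at `z` -/
def cz (c : Fin Y.M → Polynomial ℂ) (z : ℂ) : Fin Y.M → ℂ := fun j => (c j).eval z

variable (Y) in
/-- the varied disc -/
def Hfl (c : Fin Y.M → Polynomial ℂ) (H : ℂ → EE N) (τ z : ℂ) : EE N := Ph Y.X τ (cz Y c z, H z)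

theorem fld_eq_var (c : Fin Y.M → Polynomial ℂ) (z : ℂ) (p : EE N) :
    fld Y.X (cz Y c z, p) = Y.var c z p := by
  funext k
  simp [fld, cz, Flds.var, Flds.at]

theorem analyticAt_cz (c : Fin Y.M → Polynomial ℂ) (z : ℂ) : AnalyticAt ℂ (cz Y c) z := by
  have h : Differentiable ℂ (cz Y c) := by
    rw [differentiable_pi]
    intro j
    exact (c j).differentiable
  exact h.analyticAt z

theorem hasDerivAt_cz (c : Fin Y.M → Polynomial ℂ) (z : ℂ) :
    HasDerivAt (cz Y c) (fun j => (c j).derivative.eval z) z := by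
  rw [hasDerivAt_pi]
  intro j
  exact (c j).hasDerivAt z

theorem exists_cz_bound (c : Fin Y.M → Polynomial ℂ) :
    ∃ Mc : ℝ, ∀ z ∈ closedBall (0 : ℂ) 1, ‖cz Y c z‖ ≤ Mc := by
  have h : Continuous (cz Y c) := continuous_pi fun j => (c j).continuous
  exact (isCompact_closedBall (0 : ℂ) 1).exists_bound_of_continuousOn h.continuousOn

theorem norm_le_one_of_nsq {p : EE N} (h : nsq p ≤ 1) : ‖p‖ ≤ 1 := by
  refine (pi_norm_le_iff_of_nonneg zero_le_one).mpr fun i => ?_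
  have h1 : ‖p i‖ ^ 2 ≤ nsq p := Finset.single_le_sum (f := fun i => ‖p i‖ ^ 2)
    (fun j _ => by positivity) (Finset.mem_univ i)
  nlinarith [norm_nonneg (p i)]

/-- **everything about the variation of a disc**; `ρ₀` does not depend on the density. -/
theorem FlowPot.disc' (h : FlowPot Y E F)
    (hI : ∀ P ∈ I, ∀ d : ℕ, homogeneousComponent d P ∈ I) (c : Fin Y.M → Polynomial ℂ)
    {Mc ρ₀ : ℝ} (hMc : ∀ z ∈ closedBall (0 : ℂ) 1, ‖cz Y c z‖ ≤ Mc) (hρ₀ : 0 < ρ₀)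
    (hadm : ∀ c : Fin Y.M → ℂ, ‖c‖ ≤ Mc → ∀ p : EE N, ‖p‖ ≤ 1 →
      ∀ τ : ℂ, ‖τ‖ ≤ ρ₀ → Adm Y.X τ (c, p)) :
    ∃ C : ℝ, 0 ≤ C ∧
      (∀ H : ℂ → EE N, IsDisc I H → (∀ z ∈ ball (0 : ℂ) 1, ‖H z‖ ≤ 1) → ∀ τ : ℂ, ‖τ‖ ≤ ρ₀ →
        IsDisc I (Hfl Y c H τ) ∧
        ContDiffOn ℝ 2 (fun z => F τ (cz Y c z, H z)) (ball 0 1) ∧
        (∀ z ∈ ball (0 : ℂ) 1, |F τ (cz Y c z, H z)| ≤ C * ‖τ‖) ∧
        (∀ z ∈ ball (0 : ℂ) 1, LevC_653.lev (fun w => F τ (cz Y c w, H w)) z 1 =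
          E (Hfl Y c H τ z) (deriv (Hfl Y c H τ) z) - E (H z) (deriv H z))) ∧
      ∀ ε : ℝ, 0 < ε → ∃ δ : ℝ, 0 < δ ∧ ∀ ρ : ℝ, 0 < ρ → ρ < δ →
        ∀ H : ℂ → EE N, IsDisc I H → (∀ z ∈ ball (0 : ℂ) 1, ‖H z‖ ≤ 1) →
          ∀ z ∈ ball (0 : ℂ) 1,
            |mean4 (fun τ => F τ (cz Y c z, H z)) ρ - ρ ^ 2 * E (H z) (Y.var c z (H z))| ≤
              ε * ρ ^ 2 := by
  obtain ⟨C, hC, h1, h2⟩ := h.unif' hI hρ₀ hadm
  refine ⟨C, hC, ?_, ?_⟩
  · intro H hH hH1 τ hτ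
    have hA : ∀ z ∈ ball (0 : ℂ) 1, Adm Y.X τ (cz Y c z, H z) := fun z hz =>
      hadm _ (hMc z (ball_subset_closedBall hz)) _ (hH1 z hz) τ hτ
    have hHa : ∀ z ∈ ball (0 : ℂ) 1, AnalyticAt ℂ H z := fun z hz =>
      hH.hol.analyticAt (isOpen_ball.mem_nhds hz)
    have hHe : ∀ z ∈ ball (0 : ℂ) 1, ∀ᶠ w in 𝓝 z, H w ∈ Cone I := fun z hz =>
      Filter.mem_of_superset (isOpen_ball.mem_nhds hz) fun w hw => hH.cone w hw
    refine ⟨⟨fun z hz => ?_, fun z hz => ?_⟩, fun z hz => ?_, fun z hz => ?_, fun z hz => ?_⟩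
    · exact (analyticAt_Ph_comp (analyticAt_cz c z) (hHa z hz)
        (Adm.mem_DM (hA z hz))).differentiableAt.differentiableWithinAt
    · exact Adm.mem_Cone (hA z hz) (hH.cone z hz)
    · exact (h.smoothZ (analyticAt_cz c z) (hHa z hz) (hH.cone z hz) (hA z hz)).contDiffWithinAt
    · exact h1 τ hτ _ (hMc z (ball_subset_closedBall hz)) _ (hH.cone z hz) (hH1 z hz)
    · exact h.levZ τ (cz Y c) H z (analyticAt_cz c z) (hHa z hz) (hHe z hz) (hA z hz)
  · intro ε hε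
    obtain ⟨δ, hδ, hd⟩ := h2 ε hε
    refine ⟨δ, hδ, fun ρ hρ hρδ H hH hH1 z hz => ?_⟩
    have := hd ρ hρ hρδ _ (hMc z (ball_subset_closedBall hz)) _ (hH.cone z hz) (hH1 z hz)
    rwa [fld_eq_var] at this


theorem Hfl_zero (c : Fin Y.M → Polynomial ℂ) (H : ℂ → EE N) (τ : ℂ)
    (hc : ∀ j, (c j).eval 0 = 0) : Hfl Y c H τ 0 = H 0 := by
  have h1 : cz Y c 0 = 0 := funext hc
  rw [Hfl, h1, Ph_zero_left]

theorem hasDerivAt_Hfl (c : Fin Y.M → Polynomial ℂ) {H : ℂ → EE N} (τ : ℂ)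
    (hc : ∀ j, (c j).eval 0 = 0) (hH : DifferentiableAt ℂ H 0) :
    HasDerivAt (Hfl Y c H τ) (deriv H 0 + τ • Y.var (fun j => (c j).derivative) 0 (H 0)) 0 := by
  have h1 : cz Y c 0 = 0 := funext hc
  have h2 := hasDerivAt_curve (X := Y.X) τ hH.hasDerivAt (hasDerivAt_cz c 0) h1
  have h3 : fld Y.X (fun j => (c j).derivative.eval 0, H 0) =
      Y.var (fun j => (c j).derivative) 0 (H 0) := fld_eq_var (fun j => (c j).derivative) 0 (H 0)
  rw [h3] at h2
  exact h2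

theorem FlowPot.disc_zero (h : FlowPot Y E F) (c : Fin Y.M → Polynomial ℂ) {H : ℂ → EE N} (τ : ℂ)
    (hc : ∀ j, (c j).eval 0 = 0) (hH : H 0 ∈ Cone I) : F τ (cz Y c 0, H 0) = 0 := by
  have h1 : cz Y c 0 = 0 := funext hc
  rw [h1]
  exact h.fix τ _ hH

/-- derivative of the vector field `V(z) = ∑ c_j(z) X_j(H z)` at `0` -/
theorem hasDerivAt_var (c : Fin Y.M → Polynomial ℂ) {H : ℂ → EE N}
    (hc : ∀ j, (c j).eval 0 = 0) (hH : DifferentiableAt ℂ H 0) :
    HasDerivAt (fun z => Y.var c z (H z)) (Y.var (fun j => (c j).derivative) 0 (H 0)) 0 := by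
  have h1 : ∀ j, HasDerivAt (fun z => (c j).eval z • Y.at j (H z))
      ((c j).derivative.eval 0 • Y.at j (H 0)) 0 := by
    intro j
    have h2 : DifferentiableAt ℂ (fun z => Y.at j (H z)) 0 := by
      rw [differentiableAt_pi]
      intro k
      have h3 : DifferentiableAt ℂ (fun p : EE N => eval p (Y.X j k)) (H 0) := by
        have := (Var_60.contDiff_aeval (A := ℂ) (Y.X j k)).differentiable (by simp)
        simpa [aeval_eq_eval] using this (H 0)
      exact h3.comp (0 : ℂ) hH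
    have h4 := ((c j).hasDerivAt 0).smul h2.hasDerivAt
    rw [hc j, zero_smul, zero_add] at h4
    exact h4
  have h5 := HasDerivAt.fun_sum (u := Finset.univ) fun j _ => h1 j
  exact h5

end Crest.Agent.R269.VarPot_60
end
end

-- ▼ part R269/VarAlp_60

/-!
# VF4: the potential of `alpha` for the flow map (helper60, row 269)

* `alpha_frame` : Levi form of `log |e_0 ∧ … ∧ e_n|² - (n+1) log |F|²` for full holomorphic frames;
* `kap` : `log |Λ D_YΦ|² - (n+1)(log |Φ|² - log |p|²)` through the global formula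
  `log ∑_J |D_YΦ X_J|² - log ∑_J |X_J|²`; `kap_eq` : value through any frame;
* `flowPot_alpha`.
-/

set_option autoImplicit false

open MvPolynomial Set Filter Topology Metric Module
open scoped ContDiff ComplexConjugate Matrix

noncomputable section

namespace Crest.Agent.R269.VarPot_60

open Crest.AlgGeometry.ProjEmb Crest.Agent.R269.Tan_60 Crest.Agent.R269.Geo_328
open Crest.Agent.R269.FlowMap_60 Crest.Agent.R269.DefsS_731 Crest.Agent.R269.Defs_58
open Crest.Agent.R269.Alp_927 Crest.Agent.R269.Levi2_599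

variable {N n : ℕ} {I : Ideal (HomCoordRing N)}

/-- matrix with rows `e k` -/
abbrev MM {m : ℕ} (e : Fin m → EE N) : Matrix (Fin m) (Fin (N + 1)) ℂ := Matrix.of e


theorem frame_mul_gM {m : ℕ} {p : EE N} {e : Fin m → EE N} {G : Fin (N - n) → HomCoordRing N}
    (he : ∀ k, e k ∈ Tan I p) (hG : ∀ k, G k ∈ I) : MM e * (gM G p)ᵀ = 0 := by
  ext i k
  rw [Matrix.mul_apply, Matrix.zero_apply]
  have := he i (G k) (hG k)
  rw [dP] at this
  rw [← this]
  exact Finset.sum_congr rfl fun j _ => mul_comm _ _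

theorem analyticAt_entry {V : Type*} [NormedAddCommGroup V] [NormedSpace ℂ V] {m : ℕ}
    {e : Fin m → V → EE N} {z : V} (he : ∀ k, AnalyticAt ℂ (e k) z) (i : Fin m)
    (j : Fin (N + 1)) : AnalyticAt ℂ (fun w => MM (fun k => e k w) i j) z :=
  (ContinuousLinearMap.proj (R := ℂ) (φ := fun _ : Fin (N + 1) => ℂ) j).analyticAt _ |>.comp (he i)

/-- **`α` through full holomorphic frames** -/
theorem alpha_frame (hX : IsSmoothProjective I n) {V : Type*} [NormedAddCommGroup V]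
    [NormedSpace ℂ V] {F : V → EE N} {e : Fin (n + 1) → V → EE N} {z : V}
    (hF : AnalyticAt ℂ F z) (he : ∀ k, AnalyticAt ℂ (e k) z)
    (hc : ∀ᶠ w in 𝓝 z, F w ∈ Cone I ∧ ∀ k, e k w ∈ Tan I (F w))
    (h0 : WS (MM fun k => e k z) ≠ 0) (x : V) :
    LevC_653.lev (fun w => Real.log (WS (MM fun k => e k w)) - (n + 1) * Real.log (nsq (F w))) z x
      = alpha I n (F z) (fderiv ℂ F z x) := by
  have hp := hc.self_of_nhds.1
  have hn := nsq_pos hp.2
  obtain ⟨G, hG, hα⟩ := alpha_choose hX hp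
  have cW : ContDiffAt ℝ 2 (fun w => Real.log (WS (MM fun k => e k w))) z :=
    (contDiffAt_WS (fun i j => (analyticAt_entry he i j).contDiffAt.restrict_scalars ℝ)).log h0
  have cn : ContDiffAt ℝ 2 (fun w => Real.log (nsq (F w))) z :=
    (ContDiffAt.comp z (contDiffAt_nsq (F z)) (hF.contDiffAt.restrict_scalars ℝ)).log hn.ne'
  rw [Lev_901.lev_sub cW (contDiffAt_const.mul cn), LevC_653.lev_const_mul _ cn,
    lev_log_WS_eq (eqv hX) (analyticAt_entry he) (analyticAt_gM_comp G hF) ?_ h0 hG.pos.ne' x,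
    hα, omg_eq_lev hp.2]
  · have h1 := Lev_901.lev_comp_hol (F := F) (u := lG G) (contDiffAt_lG hG.pos.ne') hF x
    have h2 := Lev_901.lev_comp_hol (F := F) (u := fun q : EE N => Real.log (nsq q))
      ((contDiffAt_nsq (F z)).log hn.ne') hF x
    rw [h2]
    have h3 : LevC_653.lev (fun w => Real.log (WS (gM G (F w)))) z x =
      LevC_653.lev (lG G) (F z) (fderiv ℂ F z x) := h1
    rw [h3]
  · filter_upwards [hc] with w hw
    exact frame_mul_gM hw.2 hG.mem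


/-! ### the potential -/

variable (Y : Flds I)

/-- the frame `(X_{J i}(p))` -/
def fr {m : ℕ} (J : Fin m → Fin Y.M) (p : EE N) : Fin m → EE N := fun i => Y.at (J i) p

/-- `∑_J |A X_J(p)|²` -/
def SJ (m : ℕ) (A : EE N →L[ℂ] EE N) (p : EE N) : ℝ :=
  ∑ J : Fin m → Fin Y.M, WS (MM fun i => A (fr Y J p i))

/-- the potential difference for `alpha` -/
def kap (n : ℕ) (τ : ℂ) (q : PS N Y.M) : ℝ :=
  Real.log (SJ Y (n + 1) (DY Y.X τ q) q.2) -
    Real.log (SJ Y (n + 1) (ContinuousLinearMap.id ℂ (EE N)) q.2) -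
    (n + 1) * (Real.log (nsq (Ph Y.X τ q)) - Real.log (nsq q.2))

variable {Y}

theorem fr_mem {m : ℕ} (J : Fin m → Fin Y.M) {p : EE N} (hp : p ∈ Cone I) (i : Fin m) :
    fr Y J p i ∈ Tan I p := by
  rw [← Y.span p hp]
  exact Submodule.subset_span ⟨J i, rfl⟩

theorem exists_frame (hX : IsSmoothProjective I n) {p : EE N} (hp : p ∈ Cone I) :
    ∃ J : Fin (n + 1) → Fin Y.M, LinearIndependent ℂ (fr Y J p) := by
  have h1 : finrank ℂ (Submodule.span ℂ (Set.range fun j => Y.at j p)) = n + 1 := by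
    have := finrank_Tan hX hp
    rw [← Y.span p hp] at this
    exact this
  obtain ⟨J, hJ⟩ := exists_linearIndependent_of_finrank _ h1
  exact ⟨J, hJ⟩

/-- vectors of `Tan I p` in terms of a frame -/
theorem exists_coeffs (hX : IsSmoothProjective I n) {p : EE N} (hp : p ∈ Cone I)
    {e : Fin (n + 1) → EE N} (he : ∀ k, e k ∈ Tan I p) (hli : LinearIndependent ℂ e)
    {v : EE N} (hv : v ∈ Tan I p) : ∃ a : Fin (n + 1) → ℂ, v = ∑ k, a k • e k := by
  have h1 : Submodule.span ℂ (Set.range e) = Tan I p := by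
    apply Submodule.eq_of_le_of_finrank_eq
    · rw [Submodule.span_le]
      rintro _ ⟨k, rfl⟩
      exact he k
    · rw [finrank_span_eq_card hli, Fintype.card_fin, finrank_Tan hX hp]
  rw [← h1, Submodule.mem_span_range_iff_exists_fun] at hv
  obtain ⟨a, ha⟩ := hv
  exact ⟨a, ha.symm⟩

/-- `∑_J |A X_J|² = S |A e|²` with `S > 0` independent of `A` -/
theorem exists_SJ (hX : IsSmoothProjective I n) {p : EE N} (hp : p ∈ Cone I)
    {e : Fin (n + 1) → EE N} (he : ∀ k, e k ∈ Tan I p) (hli : LinearIndependent ℂ e) :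
    ∃ S : ℝ, 0 < S ∧ ∀ A : EE N →L[ℂ] EE N, SJ Y (n + 1) A p = S * WS (MM fun i => A (e i)) := by
  choose a ha using fun j : Fin Y.M => exists_coeffs hX hp he hli
    (v := Y.at j p) (by rw [← Y.span p hp]; exact Submodule.subset_span ⟨j, rfl⟩)
  have hmul : ∀ (J : Fin (n + 1) → Fin Y.M) (A : EE N →L[ℂ] EE N),
      (MM fun i => A (fr Y J p i)) = (Matrix.of fun i k => a (J i) k) * (MM fun i => A (e i)) := by
    intro J A
    ext i l
    rw [Matrix.mul_apply]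
    simp only [Matrix.of_apply, fr]
    rw [ha (J i), map_sum, Finset.sum_apply]
    refine Finset.sum_congr rfl fun k _ => ?_
    rw [map_smul]
    rfl
  have hWS : ∀ (J : Fin (n + 1) → Fin Y.M) (A : EE N →L[ℂ] EE N),
      WS (MM fun i => A (fr Y J p i)) =
        Complex.normSq (Matrix.of fun i k => a (J i) k).det * WS (MM fun i => A (e i)) := by
    intro J A
    rw [hmul, WS_mul_left]
  refine ⟨∑ J : Fin (n + 1) → Fin Y.M, Complex.normSq (Matrix.of fun i k => a (J i) k).det,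
    ?_, fun A => ?_⟩
  · obtain ⟨J, hJ⟩ := exists_frame (Y := Y) hX hp
    have h1 : 0 < WS (MM fun i => (ContinuousLinearMap.id ℂ (EE N)) (fr Y J p i)) :=
      WS_pos_of_linearIndependent hJ
    rw [hWS] at h1
    have h2 : 0 < Complex.normSq (Matrix.of fun i k => a (J i) k).det := by
      rcases (Complex.normSq_nonneg (Matrix.of fun i k => a (J i) k).det).lt_or_eq with h3 | h3
      · exact h3
      · rw [← h3, zero_mul] at h1
        exact absurd h1 (lt_irrefl _)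
    exact lt_of_lt_of_le h2 (Finset.single_le_sum
      (f := fun J : Fin (n + 1) → Fin Y.M => Complex.normSq (Matrix.of fun i k => a (J i) k).det)
      (fun J _ => Complex.normSq_nonneg _) (Finset.mem_univ J))
  · rw [SJ, Finset.sum_mul]
    exact Finset.sum_congr rfl fun J _ => hWS J A

/-- the value of `kap` through any frame -/
theorem kap_eq (hX : IsSmoothProjective I n) {τ : ℂ} {c : Fin Y.M → ℂ} {p : EE N}
    (hp : p ∈ Cone I) {e : Fin (n + 1) → EE N} (he : ∀ k, e k ∈ Tan I p)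
    (hli : LinearIndependent ℂ e) (hne : WS (MM fun i => DY Y.X τ (c, p) (e i)) ≠ 0) :
    kap Y n τ (c, p) = (Real.log (WS (MM fun i => DY Y.X τ (c, p) (e i))) -
      (n + 1) * Real.log (nsq (Ph Y.X τ (c, p)))) -
      (Real.log (WS (MM e)) - (n + 1) * Real.log (nsq p)) := by
  obtain ⟨S, hS, h⟩ := exists_SJ (Y := Y) hX hp he hli
  have h1 : WS (MM e) ≠ 0 := (WS_pos_of_linearIndependent hli).ne'
  have h2 : SJ Y (n + 1) (ContinuousLinearMap.id ℂ (EE N)) p = S * WS (MM e) := h _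
  simp only [kap]
  rw [h, h2, Real.log_mul hS.ne' hne, Real.log_mul hS.ne' h1]
  ring

theorem WS_DY_ne {τ : ℂ} {q : PS N Y.M} (ha : Adm Y.X τ q) {m : ℕ} {e : Fin m → EE N}
    (hli : LinearIndependent ℂ e) : WS (MM fun i => DY Y.X τ q (e i)) ≠ 0 := by
  refine (WS_pos_of_linearIndependent ?_).ne'
  exact hli.map' (DY Y.X τ q : EE N →ₗ[ℂ] EE N) (LinearMap.ker_eq_bot.mpr ha.inj)

theorem contDiff_at (j : Fin Y.M) : ContDiff ℂ ω (fun p : EE N => Y.at j p) := by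
  refine contDiff_pi.2 fun k => ?_
  have h1 := Var_60.contDiff_aeval (A := ℂ) (Y.X j k)
  have h2 : ContDiff ℂ ω (fun p : EE N => eval p (Y.X j k)) := by
    simpa [aeval_eq_eval] using h1
  exact h2

theorem analyticAt_DY_at {τ : ℂ} {q : PS N Y.M} (h : (τ, q) ∈ DM Y.X) (j : Fin Y.M) :
    AnalyticAt ℂ (fun x : ℂ × PS N Y.M => DY Y.X x.1 x.2 (Y.at j x.2.2)) (τ, q) := by
  have h1 := analyticOnNhd_DY (X := Y.X) _ h
  have h2 : AnalyticAt ℂ (fun x : ℂ × PS N Y.M => Y.at j x.2.2) (τ, q) := by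
    have h3 : ContDiff ℂ ω (fun p : EE N => Y.at j p) := contDiff_at j
    have h4 : ContDiff ℂ ω (fun x : ℂ × PS N Y.M => Y.at j x.2.2) :=
      h3.comp contDiff_snd.snd
    exact h4.contDiffAt.analyticAt
  have h5 : ContDiffAt ℂ ω (fun x : ℂ × PS N Y.M => DY Y.X x.1 x.2 (Y.at j x.2.2)) (τ, q) :=
    h1.contDiffAt.clm_apply h2.contDiffAt
  exact h5.analyticAt

theorem analyticAt_at (j : Fin Y.M) (p : EE N) : AnalyticAt ℂ (fun p : EE N => Y.at j p) p := by
  exact (contDiff_at j).contDiffAt.analyticAt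

theorem flowPot_alpha (Y : Flds I) (hX : IsSmoothProjective I n) :
    FlowPot Y (fun p v => alpha I n p v) (kap Y n) where
  zero := fun c p _ => by
    simp only [kap, DY_zero, Ph_zero, sub_self, mul_zero]
  fix := fun τ p _ => by
    simp only [kap, DY_zero_left, Ph_zero_left, sub_self, mul_zero]
  hom := fun τ c p hp t ht ha => by
    obtain ⟨ρ, hg, hτ⟩ := ha.good
    have htc : (t : ℂ) ≠ 0 := by exact_mod_cast ht.ne'
    have h1 := (Ph_smul Y.one_le Y.homog (t : ℂ) hg).2 τ hτ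
    have h2 := DY_smul Y.one_le Y.homog htc hg hτ
    have hat : ∀ j, Y.at j ((t : ℂ) • p) = (t : ℂ) ^ Y.D • Y.at j p := by
      intro j
      funext k
      simp only [Flds.at, Pi.smul_apply, smul_eq_mul]
      exact Tan_60.eval_smul_of_isHomogeneous (Y.homog j k) p t
    have hSJ : ∀ A : EE N →L[ℂ] EE N, SJ Y (n + 1) A ((t : ℂ) • p) =
        (t ^ Y.D) ^ (2 * (n + 1)) * SJ Y (n + 1) A p := by
      intro A
      rw [SJ, SJ, Finset.mul_sum]
      refine Finset.sum_congr rfl fun J _ => ?_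
      have h3 : (MM fun i => A (fr Y J ((t : ℂ) • p) i)) =
          (Matrix.scalar (Fin (n + 1)) ((t : ℂ) ^ Y.D)) * (MM fun i => A (fr Y J p i)) := by
        ext i l
        rw [Matrix.scalar_apply, Matrix.diagonal_mul]
        simp only [fr, hat, map_smul, Matrix.of_apply, Pi.smul_apply, smul_eq_mul]
      rw [h3, WS_mul_left]
      congr 1
      rw [Matrix.scalar_apply, Matrix.det_diagonal, Finset.prod_const, Finset.card_univ,
        Fintype.card_fin, map_pow, map_pow, Complex.normSq_ofReal]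
      ring
    obtain ⟨J, hJ⟩ := exists_frame (Y := Y) hX hp
    have hpos : ∀ A : EE N →L[ℂ] EE N, Function.Injective A → 0 < SJ Y (n + 1) A p := by
      intro A hA
      have h4 : 0 < WS (MM fun i => A (fr Y J p i)) :=
        WS_pos_of_linearIndependent
          (hJ.map' (A : EE N →ₗ[ℂ] EE N) (LinearMap.ker_eq_bot.mpr hA))
      exact lt_of_lt_of_le h4 (Finset.single_le_sum
        (f := fun J : Fin (n + 1) → Fin Y.M => WS (MM fun i => A (fr Y J p i)))
        (fun J _ => WS_nonneg _) (Finset.mem_univ J))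
    have htp : (0 : ℝ) < (t ^ Y.D) ^ (2 * (n + 1)) := by positivity
    have hn1 := nsq_pos (Adm.mem_Cone ha hp).2
    have hn2 := nsq_pos hp.2
    have hts : Complex.normSq (t : ℂ) ≠ 0 := by
      rw [Complex.normSq_ofReal]; positivity
    have e1 : Real.log (SJ Y (n + 1) (DY Y.X τ (c, (t : ℂ) • p)) ((t : ℂ) • p)) =
        Real.log ((t ^ Y.D) ^ (2 * (n + 1))) +
          Real.log (SJ Y (n + 1) (DY Y.X τ ((t : ℂ) ^ (Y.D - 1) • c, p)) p) := by
      rw [h2, hSJ, Real.log_mul htp.ne' (hpos _ ha.inj).ne']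
    have e2 : Real.log (SJ Y (n + 1) (ContinuousLinearMap.id ℂ (EE N)) ((t : ℂ) • p)) =
        Real.log ((t ^ Y.D) ^ (2 * (n + 1))) +
          Real.log (SJ Y (n + 1) (ContinuousLinearMap.id ℂ (EE N)) p) := by
      rw [hSJ, Real.log_mul htp.ne' (hpos _ (fun a b h => h)).ne']
    have e3 : Real.log (nsq (Ph Y.X τ (c, (t : ℂ) • p))) = Real.log (Complex.normSq (t : ℂ)) +
        Real.log (nsq (Ph Y.X τ ((t : ℂ) ^ (Y.D - 1) • c, p))) := by
      rw [h1, nsq_smul, Real.log_mul hts hn1.ne']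
    have e4 : Real.log (nsq ((t : ℂ) • p)) = Real.log (Complex.normSq (t : ℂ)) +
        Real.log (nsq p) := by
      rw [nsq_smul, Real.log_mul hts hn2.ne']
    simp only [kap]
    rw [e1, e2, e3, e4]
    ring
  smooth := fun τ c p hp ha => by
    obtain ⟨J, hJ⟩ := exists_frame (Y := Y) hX hp
    have hpos : ∀ A : EE N →L[ℂ] EE N, Function.Injective A → 0 < SJ Y (n + 1) A p := by
      intro A hA
      have h4 : 0 < WS (MM fun i => A (fr Y J p i)) :=
        WS_pos_of_linearIndependent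
          (hJ.map' (A : EE N →ₗ[ℂ] EE N) (LinearMap.ker_eq_bot.mpr hA))
      exact lt_of_lt_of_le h4 (Finset.single_le_sum
        (f := fun J : Fin (n + 1) → Fin Y.M => WS (MM fun i => A (fr Y J p i)))
        (fun J _ => WS_nonneg _) (Finset.mem_univ J))
    have c1 : ContDiffAt ℝ 2 (fun x : ℂ × PS N Y.M => SJ Y (n + 1) (DY Y.X x.1 x.2) x.2.2)
        (τ, (c, p)) := by
      refine ContDiffAt.sum fun J _ => contDiffAt_WS fun i j => ?_
      exact (analyticAt_entry (e := fun i (x : ℂ × PS N Y.M) =>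
        DY Y.X x.1 x.2 (Y.at (J i) x.2.2))
        (fun k => analyticAt_DY_at (Adm.mem_DM ha) (J k)) i j).contDiffAt.restrict_scalars ℝ
    have c2 : ContDiffAt ℝ 2 (fun x : ℂ × PS N Y.M =>
        SJ Y (n + 1) (ContinuousLinearMap.id ℂ (EE N)) x.2.2) (τ, (c, p)) := by
      refine ContDiffAt.sum fun J _ => contDiffAt_WS fun i j => ?_
      refine (analyticAt_entry (e := fun i (x : ℂ × PS N Y.M) => Y.at (J i) x.2.2)
        (fun k => ?_) i j).contDiffAt.restrict_scalars ℝ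
      exact AnalyticAt.comp (g := fun p : EE N => Y.at (J k) p)
        (f := fun x : ℂ × PS N Y.M => x.2.2) (analyticAt_at (J k) p)
        ((contDiff_snd.snd (𝕜 := ℂ) (n := ω)).contDiffAt.analyticAt)
    have c3 : ContDiffAt ℝ 2 (fun x : ℂ × PS N Y.M => nsq (Ph Y.X x.1 x.2)) (τ, (c, p)) :=
      ContDiffAt.comp (τ, (c, p)) (g := fun p : EE N => nsq p)
        (f := fun x : ℂ × PS N Y.M => Ph Y.X x.1 x.2) (contDiffAt_nsq _)
        (contDiffAt_Ph (Adm.mem_DM ha))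
    have c4 : ContDiffAt ℝ 2 (fun x : ℂ × PS N Y.M => nsq x.2.2) (τ, (c, p)) :=
      ContDiffAt.comp (τ, (c, p)) (g := fun p : EE N => nsq p)
        (f := fun x : ℂ × PS N Y.M => x.2.2) (contDiffAt_nsq _) contDiffAt_snd.snd
    have n3 : nsq (Ph Y.X τ (c, p)) ≠ 0 := (nsq_pos (Adm.mem_Cone ha hp).2).ne'
    have n4 : nsq p ≠ 0 := (nsq_pos hp.2).ne'
    exact ((c1.log (hpos _ ha.inj).ne').sub (c2.log (hpos _ (fun a b h => h)).ne')).sub
      (contDiffAt_const.mul ((c3.log n3).sub (c4.log n4)))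
  levT := fun c p hp => by
    obtain ⟨J, hJ⟩ := exists_frame (Y := Y) hX hp
    obtain ⟨ρ, hρ, hg⟩ := exists_good (X := Y.X) (c, p)
    have hbase : AnalyticAt ℂ (fun w : ℂ => ((w, (c, p)) : ℂ × PS N Y.M)) 0 :=
      analyticAt_id.prod analyticAt_const
    have hA : AnalyticAt ℂ (fun τ => Ph Y.X τ (c, p)) 0 :=
      AnalyticAt.comp (g := fun x : ℂ × PS N Y.M => Ph Y.X x.1 x.2)
        (f := fun w : ℂ => ((w, (c, p)) : ℂ × PS N Y.M))
        (analyticOnNhd_Ph Y.X _ (zero_mem_DM Y.X (c, p))) hbase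
    have hD : ∀ k, AnalyticAt ℂ (fun τ => DY Y.X τ (c, p) (fr Y J p k)) 0 := by
      intro k
      have h1 : AnalyticAt ℂ (fun τ => DY Y.X τ (c, p)) 0 :=
        AnalyticAt.comp (g := fun x : ℂ × PS N Y.M => DY Y.X x.1 x.2)
          (f := fun w : ℂ => ((w, (c, p)) : ℂ × PS N Y.M))
          (analyticOnNhd_DY (X := Y.X) _ (zero_mem_DM Y.X (c, p))) hbase
      have h2 : ContDiffAt ℂ ω (fun τ => DY Y.X τ (c, p) (fr Y J p k)) 0 :=
        h1.contDiffAt.clm_apply contDiffAt_const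
      exact h2.analyticAt
    have hne0 : WS (MM fun k => DY Y.X 0 (c, p) (fr Y J p k)) ≠ 0 := WS_DY_ne (adm_zero _) hJ
    have hcone : ∀ᶠ w in 𝓝 (0 : ℂ), Ph Y.X w (c, p) ∈ Cone I ∧
        ∀ k, DY Y.X w (c, p) (fr Y J p k) ∈ Tan I (Ph Y.X w (c, p)) := by
      filter_upwards [ball_mem_nhds (0 : ℂ) hρ] with w hw
      exact ⟨Ph_mem_Cone Y.one_le Y.homog Y.tang hg hp hw,
        fun k => DY_mem_Tan Y.tang hg hp.1 (Y.span _ hp).ge hw (fr_mem J hp k)⟩
    have h1 := alpha_frame hX hA hD hcone hne0 (1 : ℂ)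
    have h4 : fderiv ℂ (fun τ => Ph Y.X τ (c, p)) 0 1 = fld Y.X (c, p) := by
      have := (hasDerivAt_Ph hg (mem_ball_self hρ)).deriv
      rw [Ph_zero] at this
      rw [← this]
      exact fderiv_apply_one_eq_deriv
    rw [h4, Ph_zero] at h1
    rw [← h1]
    have hWe : ∀ᶠ w in 𝓝 (0 : ℂ), WS (MM fun k => DY Y.X w (c, p) (fr Y J p k)) ≠ 0 :=
      (continuousAt_WS (fun i j => (analyticAt_entry hD i j).continuousAt)).eventually_ne hne0
    have hev : (fun τ => kap Y n τ (c, p)) =ᶠ[𝓝 0] fun w =>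
        (Real.log (WS (MM fun k => DY Y.X w (c, p) (fr Y J p k))) -
          (n + 1) * Real.log (nsq (Ph Y.X w (c, p)))) -
        (Real.log (WS (MM (fr Y J p))) - (n + 1) * Real.log (nsq p)) := by
      filter_upwards [hWe] with w hw
      exact kap_eq hX hp (fr_mem J hp) hJ hw
    simp only [L]
    rw [LevC_653.lev_congr hev]
    have cW : ContDiffAt ℝ 2 (fun w => Real.log (WS (MM fun k =>
        DY Y.X w (c, p) (fr Y J p k))) - (n + 1) * Real.log (nsq (Ph Y.X w (c, p)))) 0 := by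
      refine ((contDiffAt_WS (fun i j =>
        (analyticAt_entry hD i j).contDiffAt.restrict_scalars ℝ)).log hne0).sub
        (contDiffAt_const.mul ?_)
      refine (ContDiffAt.comp (0 : ℂ) (contDiffAt_nsq _)
        (hA.contDiffAt.restrict_scalars ℝ)).log ?_
      show nsq (Ph Y.X 0 (c, p)) ≠ 0
      rw [Ph_zero]
      exact (nsq_pos hp.2).ne'
    rw [Lev_901.lev_sub cW contDiffAt_const]
    simp [LevC_653.lev]
  levZ := fun τ c H z hc hH hI ha => by
    have hz := hI.self_of_nhds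
    obtain ⟨J, hJ⟩ := exists_frame (Y := Y) hX hz
    have hA := analyticAt_Ph_comp hc hH (Adm.mem_DM ha)
    have hbase : AnalyticAt ℂ (fun w : ℂ => ((τ, (c w, H w)) : ℂ × PS N Y.M)) z :=
      analyticAt_const.prod (hc.prod hH)
    have hD : ∀ k, AnalyticAt ℂ (fun w => DY Y.X τ (c w, H w) (fr Y J (H w) k)) z := by
      intro k
      exact AnalyticAt.comp (g := fun x : ℂ × PS N Y.M => DY Y.X x.1 x.2 (Y.at (J k) x.2.2))
        (f := fun w : ℂ => ((τ, (c w, H w)) : ℂ × PS N Y.M))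
        (analyticAt_DY_at (Adm.mem_DM ha) (J k)) hbase
    have hB : ∀ k, AnalyticAt ℂ (fun w => fr Y J (H w) k) z := fun k =>
      AnalyticAt.comp (g := fun p : EE N => Y.at (J k) p) (f := H) (analyticAt_at (J k) (H z)) hH
    have hne1 : WS (MM fun k => DY Y.X τ (c z, H z) (fr Y J (H z) k)) ≠ 0 := WS_DY_ne ha hJ
    have hne2 : WS (MM fun k => fr Y J (H z) k) ≠ 0 := (WS_pos_of_linearIndependent hJ).ne'
    have hcone1 : ∀ᶠ w in 𝓝 z, Ph Y.X τ (c w, H w) ∈ Cone I ∧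
        ∀ k, DY Y.X τ (c w, H w) (fr Y J (H w) k) ∈ Tan I (Ph Y.X τ (c w, H w)) := by
      filter_upwards [eventually_mem_Cone hc.continuousAt hH.continuousAt hI ha, hI] with w hw hwI
      exact ⟨hw.1, fun k => hw.2 _ (fr_mem J hwI k)⟩
    have hcone2 : ∀ᶠ w in 𝓝 z, H w ∈ Cone I ∧ ∀ k, fr Y J (H w) k ∈ Tan I (H w) := by
      filter_upwards [hI] with w hwI
      exact ⟨hwI, fun k => fr_mem J hwI k⟩
    have h1 := alpha_frame hX hA hD hcone1 hne1 (1 : ℂ)
    have h2 := alpha_frame hX hH hB hcone2 hne2 (1 : ℂ)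
    have hWe1 : ∀ᶠ w in 𝓝 z, WS (MM fun k => DY Y.X τ (c w, H w) (fr Y J (H w) k)) ≠ 0 :=
      (continuousAt_WS (fun i j => (analyticAt_entry hD i j).continuousAt)).eventually_ne hne1
    have hWe2 : ∀ᶠ w in 𝓝 z, WS (MM fun k => fr Y J (H w) k) ≠ 0 :=
      (continuousAt_WS (fun i j => (analyticAt_entry hB i j).continuousAt)).eventually_ne hne2
    have hev : (fun w => kap Y n τ (c w, H w)) =ᶠ[𝓝 z] fun w =>
        (Real.log (WS (MM fun k => DY Y.X τ (c w, H w) (fr Y J (H w) k))) -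
          (n + 1) * Real.log (nsq (Ph Y.X τ (c w, H w)))) -
        (Real.log (WS (MM fun k => fr Y J (H w) k)) - (n + 1) * Real.log (nsq (H w))) := by
      filter_upwards [hWe1, hWe2, hI] with w hw1 hw2 hwI
      exact kap_eq hX hwI (fr_mem J hwI) (linearIndependent_of_WS hw2) hw1
    have cW1 : ContDiffAt ℝ 2 (fun w => Real.log (WS (MM fun k =>
        DY Y.X τ (c w, H w) (fr Y J (H w) k))) -
          (n + 1) * Real.log (nsq (Ph Y.X τ (c w, H w)))) z := by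
      refine ((contDiffAt_WS (fun i j =>
        (analyticAt_entry hD i j).contDiffAt.restrict_scalars ℝ)).log hne1).sub
        (contDiffAt_const.mul ?_)
      exact (ContDiffAt.comp z (contDiffAt_nsq _)
        (hA.contDiffAt.restrict_scalars ℝ)).log (nsq_pos (Adm.mem_Cone ha hz).2).ne'
    have cW2 : ContDiffAt ℝ 2 (fun w => Real.log (WS (MM fun k => fr Y J (H w) k)) -
          (n + 1) * Real.log (nsq (H w))) z := by
      refine ((contDiffAt_WS (fun i j =>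
        (analyticAt_entry hB i j).contDiffAt.restrict_scalars ℝ)).log hne2).sub
        (contDiffAt_const.mul ?_)
      exact (ContDiffAt.comp z (contDiffAt_nsq _)
        (hH.contDiffAt.restrict_scalars ℝ)).log (nsq_pos hz.2).ne'
    simp only [L]
    rw [LevC_653.lev_congr hev, Lev_901.lev_sub cW1 cW2, h1, h2,
      ← fderiv_apply_one_eq_deriv, ← fderiv_apply_one_eq_deriv]

end Crest.Agent.R269.VarPot_60
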